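import Crest.Agent.R35.Game

/-! Generated strategy certificate for Snaky (part 0). -/

set_option autoImplicit false
set_option maxRecDepth 100000

namespace Crest.Agent.R35

local notation "l" => T.leaf
local notation "n" => T.node
local notation "b" => T.both
local notation "r" => T.ref

theorem p82 : Fam (nat_lit 9) (nat_lit 29202947756731192532744437389036845316833850891594862089119709481944410313407195019845184782336) (nat_lit 630432117930660728630042958831892715946334961782838832883166628903098017754591055195340470994646554717939036212690944) (nat_lit 630432117930660728630042958831892715946334961782838832883166628903098017754591055195340470994646554717939036212690944) :=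
  chk_sound Env.nil
    (n (nat_lit 314) (b (b (n (nat_lit 315) (b (n (nat_lit 290) (b (l (nat_lit 1) (nat_lit 286) (nat_lit 289)) (l (nat_lit 1) (nat_lit 287) (nat_lit 291)))) (n (nat_lit 286) (b (l (nat_lit 3) (nat_lit 286) (nat_lit 287)) (l (nat_lit 3) (nat_lit 285) (nat_lit 285)))))) (n (nat_lit 315) (b (n (nat_lit 290) (b (l (nat_lit 1) (nat_lit 286) (nat_lit 289)) (l (nat_lit 1) (nat_lit 287) (nat_lit 291)))) (n (nat_lit 340) (b (l (nat_lit 0) (nat_lit 312) (nat_lit 341)) (l (nat_lit 0) (nat_lit 311) (nat_lit 339))))))) (b (n (nat_lit 315) (b (n (nat_lit 286) (b (l (nat_lit 3) (nat_lit 286) (nat_lit 287)) (l (nat_lit 3) (nat_lit 285) (nat_lit 285)))) (n (nat_lit 340) (b (l (nat_lit 0) (nat_lit 312) (nat_lit 341)) (l (nat_lit 0) (nat_lit 311) (nat_lit 339)))))) (n (nat_lit 289) (b (n (nat_lit 286) (b (n (nat_lit 264) (b (b (n (nat_lit 339) (b (n (nat_lit 265) (b (n (nat_lit 263) (b (n (nat_lit 287) (b (l (nat_lit 1) (nat_lit 261) (nat_lit 288)) (l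 (nat_lit 2) (nat_lit 261) (nat_lit 262)))) (l (nat_lit 7) (nat_lit 238) (nat_lit 238)))) (l (nat_lit 5) (nat_lit 239) (nat_lit 240)))) (l (nat_lit 0) (nat_lit 311) (nat_lit 340)))) (n (nat_lit 339) (b (n (nat_lit 338) (b (l (nat_lit 6) (nat_lit 263) (nat_lit 363)) (l (nat_lit 6) (nat_lit 238) (nat_lit 239)))) (l (nat_lit 0) (nat_lit 311) (nat_lit 340))))) (n (nat_lit 338) (b (n (nat_lit 363) (b (l (nat_lit 5) (nat_lit 288) (nat_lit 388)) (l (nat_lit 5) (nat_lit 263) (nat_lit 288)))) (l (nat_lit 6) (nat_lit 238) (nat_lit 239)))))) (l (nat_lit 3) (nat_lit 285) (nat_lit 285)))) (l (nat_lit 1) (nat_lit 286) (nat_lit 290)))))))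
    envOK_nil (by decide +kernel)

theorem p99 : Fam (nat_lit 10) (nat_lit 12515549038599082514033330309587219421500221810683512323908446920833318705745940722790793478144) (nat_lit 945648176895987383367773671472941346808861785847613820867993306177058556762487370460246034140408528075242190263025664) (nat_lit 945648176895987383367773671472941346808861785847613820867993306177058556762487370460246034140408528075242190263025664) :=
  chk_sound (Env.cons (nat_lit 9) (nat_lit 29202947756731192532744437389036845316833850891594862089119709481944410313407195019845184782336) (nat_lit 630432117930660728630042958831892715946334961782838832883166628903098017754591055195340470994646554717939036212690944) Env.nil)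
    (n (nat_lit 313) (b (b (b (r (nat_lit 0)) (n (nat_lit 314) (b (b (n (nat_lit 315) (b (n (nat_lit 336) (b (l (nat_lit 2) (nat_lit 310) (nat_lit 335)) (l (nat_lit 2) (nat_lit 311) (nat_lit 337)))) (n (nat_lit 340) (b (l (nat_lit 0) (nat_lit 312) (nat_lit 341)) (l (nat_lit 0) (nat_lit 311) (nat_lit 339)))))) (n (nat_lit 310) (b (n (nat_lit 285) (b (l (nat_lit 3) (nat_lit 284) (nat_lit 284)) (l (nat_lit 3) (nat_lit 285) (nat_lit 286)))) (n (nat_lit 339) (b (l (nat_lit 0) (nat_lit 311) (nat_lit 340)) (l (nat_lit 0) (nat_lit 310) (nat_lit 338))))))) (n (nat_lit 315) (b (n (nat_lit 286) (b (l (nat_lit 3) (nat_lit 286) (nat_lit 287)) (l (nat_lit 3) (nat_lit 285) (nat_lit 285)))) (n (nat_lit 336) (b (l (nat_lit 2) (nat_lit 310) (nat_lit 335)) (l (nat_lit 2) (nat_lit 311) (nat_lit 337))))))))) (b (n (nat_lit 314) (b (b (n (nat_lit 310) (b (n (nat_lit 339) (b (l (nat_lit 0) (nat_lit 311) (nat_lit 340)) (l (nat_lit 0) (nat_lit 310) (nat_lit 338)))) (n (nat_lit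 289) (b (l (nat_lit 1) (nat_lit 286) (nat_lit 290)) (l (nat_lit 1) (nat_lit 285) (nat_lit 288)))))) (n (nat_lit 315) (b (n (nat_lit 336) (b (l (nat_lit 2) (nat_lit 310) (nat_lit 335)) (l (nat_lit 2) (nat_lit 311) (nat_lit 337)))) (n (nat_lit 340) (b (l (nat_lit 0) (nat_lit 312) (nat_lit 341)) (l (nat_lit 0) (nat_lit 311) (nat_lit 339))))))) (n (nat_lit 315) (b (n (nat_lit 290) (b (l (nat_lit 1) (nat_lit 286) (nat_lit 289)) (l (nat_lit 1) (nat_lit 287) (nat_lit 291)))) (n (nat_lit 336) (b (l (nat_lit 2) (nat_lit 310) (nat_lit 335)) (l (nat_lit 2) (nat_lit 311) (nat_lit 337)))))))) (n (nat_lit 310) (b (b (n (nat_lit 288) (b (n (nat_lit 338) (b (n (nat_lit 263) (b (b (n (nat_lit 238) (b (n (nat_lit 239) (b (l (nat_lit 5) (nat_lit 238) (nat_lit 264)) (l (nat_lit 5) (nat_lit 213) (nat_lit 214)))) (n (nat_lit 237) (b (l (nat_lit 7) (nat_lit 212) (nat_lit 212)) (l (nat_lit 7) (nat_lit 237) (nat_lit 262)))))) (n (nat_lit 337) (b (l (nat_lit 6) (nat_lit 237) (nat_lit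 238)) (l (nat_lit 6) (nat_lit 262) (nat_lit 362))))) (n (nat_lit 363) (b (n (nat_lit 287) (b (l (nat_lit 7) (nat_lit 262) (nat_lit 262)) (l (nat_lit 7) (nat_lit 287) (nat_lit 388)))) (n (nat_lit 362) (b (l (nat_lit 6) (nat_lit 262) (nat_lit 337)) (l (nat_lit 6) (nat_lit 287) (nat_lit 387)))))))) (l (nat_lit 0) (nat_lit 310) (nat_lit 339)))) (l (nat_lit 1) (nat_lit 285) (nat_lit 289)))) (n (nat_lit 309) (b (n (nat_lit 288) (b (l (nat_lit 1) (nat_lit 284) (nat_lit 287)) (l (nat_lit 1) (nat_lit 285) (nat_lit 289)))) (n (nat_lit 284) (b (l (nat_lit 3) (nat_lit 283) (nat_lit 283)) (l (nat_lit 3) (nat_lit 284) (nat_lit 285))))))) (n (nat_lit 309) (b (n (nat_lit 338) (b (l (nat_lit 0) (nat_lit 309) (nat_lit 337)) (l (nat_lit 0) (nat_lit 310) (nat_lit 339)))) (n (nat_lit 284) (b (l (nat_lit 3) (nat_lit 283) (nat_lit 283)) (l (nat_lit 3) (nat_lit 284) (nat_lit 285)))))))))) (n (nat_lit 314) (b (b (n (nat_lit 315) (b (n (nat_lit 290) (b (l (nat_lit 1) (nat_lit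 286) (nat_lit 289)) (l (nat_lit 1) (nat_lit 287) (nat_lit 291)))) (n (nat_lit 336) (b (l (nat_lit 2) (nat_lit 310) (nat_lit 335)) (l (nat_lit 2) (nat_lit 311) (nat_lit 337)))))) (n (nat_lit 315) (b (n (nat_lit 286) (b (l (nat_lit 3) (nat_lit 286) (nat_lit 287)) (l (nat_lit 3) (nat_lit 285) (nat_lit 285)))) (n (nat_lit 336) (b (l (nat_lit 2) (nat_lit 310) (nat_lit 335)) (l (nat_lit 2) (nat_lit 311) (nat_lit 337))))))) (n (nat_lit 310) (b (n (nat_lit 289) (b (l (nat_lit 1) (nat_lit 286) (nat_lit 290)) (l (nat_lit 1) (nat_lit 285) (nat_lit 288)))) (n (nat_lit 285) (b (l (nat_lit 3) (nat_lit 284) (nat_lit 284)) (l (nat_lit 3) (nat_lit 285) (nat_lit 286))))))))))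
    (envOK_cons p82 envOK_nil) (by decide +kernel)

theorem p108 : Fam (nat_lit 10) (nat_lit 12515549038599082514033330309587219421500221810683512323908446920833318705745940722790793478144) (nat_lit 945648176895987435861791066265180907695501819172824522258295883160397613216844672950607971427596951736713513812361216) (nat_lit 945648176895987435861791066265180907695501819172824522258295883160397613216844672950607971427596951736713513812361216) :=
  chk_sound (Env.cons (nat_lit 9) (nat_lit 29202947756731192532744437389036845316833850891594862089119709481944410313407195019845184782336) (nat_lit 630432117930660728630042958831892715946334961782838832883166628903098017754591055195340470994646554717939036212690944) Env.nil)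
    (n (nat_lit 313) (b (b (b (n (nat_lit 314) (b (b (n (nat_lit 310) (b (n (nat_lit 289) (b (l (nat_lit 1) (nat_lit 286) (nat_lit 290)) (l (nat_lit 1) (nat_lit 285) (nat_lit 288)))) (n (nat_lit 335) (b (l (nat_lit 2) (nat_lit 309) (nat_lit 334)) (l (nat_lit 2) (nat_lit 310) (nat_lit 336)))))) (n (nat_lit 315) (b (n (nat_lit 290) (b (l (nat_lit 1) (nat_lit 286) (nat_lit 289)) (l (nat_lit 1) (nat_lit 287) (nat_lit 291)))) (n (nat_lit 286) (b (l (nat_lit 3) (nat_lit 286) (nat_lit 287)) (l (nat_lit 3) (nat_lit 285) (nat_lit 285))))))) (n (nat_lit 315) (b (n (nat_lit 286) (b (l (nat_lit 3) (nat_lit 286) (nat_lit 287)) (l (nat_lit 3) (nat_lit 285) (nat_lit 285)))) (n (nat_lit 336) (b (l (nat_lit 2) (nat_lit 310) (nat_lit 335)) (l (nat_lit 2) (nat_lit 311) (nat_lit 337)))))))) (r (nat_lit 0))) (b (n (nat_lit 314) (b (b (n (nat_lit 310) (b (n (nat_lit 339) (b (l (nat_lit 0) (nat_lit 311) (nat_lit 340)) (l (nat_lit 0) (nat_lit 310) (nat_lit 338)))) (n (nat_lit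 335) (b (l (nat_lit 2) (nat_lit 309) (nat_lit 334)) (l (nat_lit 2) (nat_lit 310) (nat_lit 336)))))) (n (nat_lit 315) (b (n (nat_lit 286) (b (l (nat_lit 3) (nat_lit 286) (nat_lit 287)) (l (nat_lit 3) (nat_lit 285) (nat_lit 285)))) (n (nat_lit 340) (b (l (nat_lit 0) (nat_lit 312) (nat_lit 341)) (l (nat_lit 0) (nat_lit 311) (nat_lit 339))))))) (n (nat_lit 315) (b (n (nat_lit 286) (b (l (nat_lit 3) (nat_lit 286) (nat_lit 287)) (l (nat_lit 3) (nat_lit 285) (nat_lit 285)))) (n (nat_lit 336) (b (l (nat_lit 2) (nat_lit 310) (nat_lit 335)) (l (nat_lit 2) (nat_lit 311) (nat_lit 337)))))))) (n (nat_lit 314) (b (b (n (nat_lit 310) (b (n (nat_lit 339) (b (l (nat_lit 0) (nat_lit 311) (nat_lit 340)) (l (nat_lit 0) (nat_lit 310) (nat_lit 338)))) (n (nat_lit 289) (b (l (nat_lit 1) (nat_lit 286) (nat_lit 290)) (l (nat_lit 1) (nat_lit 285) (nat_lit 288)))))) (n (nat_lit 315) (b (n (nat_lit 336) (b (l (nat_lit 2) (nat_lit 310) (nat_lit 335)) (l (nat_lit 2) (nat_lit 311)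 (nat_lit 337)))) (n (nat_lit 340) (b (l (nat_lit 0) (nat_lit 312) (nat_lit 341)) (l (nat_lit 0) (nat_lit 311) (nat_lit 339))))))) (n (nat_lit 315) (b (n (nat_lit 290) (b (l (nat_lit 1) (nat_lit 286) (nat_lit 289)) (l (nat_lit 1) (nat_lit 287) (nat_lit 291)))) (n (nat_lit 336) (b (l (nat_lit 2) (nat_lit 310) (nat_lit 335)) (l (nat_lit 2) (nat_lit 311) (nat_lit 337)))))))))) (n (nat_lit 310) (b (b (n (nat_lit 288) (b (n (nat_lit 338) (b (n (nat_lit 263) (b (b (n (nat_lit 238) (b (n (nat_lit 239) (b (l (nat_lit 5) (nat_lit 238) (nat_lit 264)) (l (nat_lit 5) (nat_lit 213) (nat_lit 214)))) (n (nat_lit 237) (b (l (nat_lit 7) (nat_lit 212) (nat_lit 212)) (l (nat_lit 7) (nat_lit 237) (nat_lit 262)))))) (n (nat_lit 337) (b (l (nat_lit 6) (nat_lit 237) (nat_lit 238)) (l (nat_lit 6) (nat_lit 262) (nat_lit 362))))) (n (nat_lit 363) (b (n (nat_lit 287) (b (l (nat_lit 7) (nat_lit 262) (nat_lit 262)) (l (nat_lit 7) (nat_lit 287) (nat_lit 388)))) (n (nat_lit 362) (b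 (l (nat_lit 6) (nat_lit 262) (nat_lit 337)) (l (nat_lit 6) (nat_lit 287) (nat_lit 387)))))))) (l (nat_lit 0) (nat_lit 310) (nat_lit 339)))) (l (nat_lit 1) (nat_lit 285) (nat_lit 289)))) (n (nat_lit 309) (b (n (nat_lit 334) (b (l (nat_lit 2) (nat_lit 309) (nat_lit 335)) (l (nat_lit 2) (nat_lit 308) (nat_lit 333)))) (n (nat_lit 288) (b (l (nat_lit 1) (nat_lit 284) (nat_lit 287)) (l (nat_lit 1) (nat_lit 285) (nat_lit 289))))))) (n (nat_lit 309) (b (n (nat_lit 334) (b (l (nat_lit 2) (nat_lit 309) (nat_lit 335)) (l (nat_lit 2) (nat_lit 308) (nat_lit 333)))) (n (nat_lit 338) (b (l (nat_lit 0) (nat_lit 309) (nat_lit 337)) (l (nat_lit 0) (nat_lit 310) (nat_lit 339))))))))))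
    (envOK_cons p82 envOK_nil) (by decide +kernel)

theorem p132 : Fam (nat_lit 7) (nat_lit 29202947756731192532744437389036845316833850891594862089119709481944410313407195019845184782336) (nat_lit 6610559963716537584179809744816594510892489491368450970611074838643208697438048674189364177367829234995414564417779204620288) (nat_lit 6610559963716537584179809744816594510892489491368450970611074838643208697438048674189364177367829234995414564417779204620288) :=
  chk_sound Env.nil
    (n (nat_lit 310) (b (b (n (nat_lit 335) (b (n (nat_lit 285) (b (n (nat_lit 360) (b (b (n (nat_lit 385) (b (n (nat_lit 384) (b (l (nat_lit 6) (nat_lit 284) (nat_lit 359)) (l (nat_lit 6) (nat_lit 309) (nat_lit 409)))) (n (nat_lit 386) (b (l (nat_lit 4) (nat_lit 310) (nat_lit 411)) (l (nat_lit 4) (nat_lit 285) (nat_lit 361)))))) (n (nat_lit 260) (b (n (nat_lit 261) (b (l (nat_lit 5) (nat_lit 235) (nat_lit 236)) (l (nat_lit 5) (nat_lit 260) (nat_lit 286)))) (n (nat_lit 336) (b (l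 (nat_lit 4) (nat_lit 260) (nat_lit 361)) (l (nat_lit 4) (nat_lit 235) (nat_lit 235))))))) (n (nat_lit 286) (b (l (nat_lit 5) (nat_lit 285) (nat_lit 385)) (l (nat_lit 5) (nat_lit 260) (nat_lit 261)))))) (l (nat_lit 3) (nat_lit 284) (nat_lit 284)))) (l (nat_lit 2) (nat_lit 309) (nat_lit 334)))) (n (nat_lit 309) (b (n (nat_lit 334) (b (l (nat_lit 2) (nat_lit 309) (nat_lit 335)) (l (nat_lit 2) (nat_lit 308) (nat_lit 333)))) (n (nat_lit 288) (b (l (nat_lit 1) (nat_lit 284) (nat_lit 287)) (l (nat_lit 1) (nat_lit 285) (nat_lit 289))))))) (n (nat_lit 309) (b (n (nat_lit 288) (b (l (nat_lit 1) (nat_lit 284) (nat_lit 287)) (l (nat_lit 1) (nat_lit 285) (nat_lit 289)))) (n (nat_lit 284) (b (l (nat_lit 3) (nat_lit 283) (nat_lit 283)) (l (nat_lit 3) (nat_lit 284) (nat_lit 285))))))))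
    envOK_nil (by decide +kernel)

theorem p154 : Fam (nat_lit 7) (nat_lit 29202947756731192532744437389036845316833850891594862089119709481944410313407195019845184782336) (nat_lit 315216063662419659392120989194903708672350244082982394739805517475890445645417555668327625188674297477993895192166400) (nat_lit 315216063662419659392120989194903708672350244082982394739805517475890445645417555668327625188674297477993895192166400) :=
  chk_sound Env.nil
    (n (nat_lit 314) (b (n (nat_lit 315) (b (n (nat_lit 290) (b (l (nat_lit 1) (nat_lit 286) (nat_lit 289)) (l (nat_lit 1) (nat_lit 287) (nat_lit 291)))) (n (nat_lit 340) (b (l (nat_lit 0) (nat_lit 312) (nat_lit 341)) (l (nat_lit 0) (nat_lit 311) (nat_lit 339)))))) (n (nat_lit 336) (b (n (nat_lit 286) (b (n (nat_lit 261) (b (b (n (nat_lit 236) (b (n (nat_lit 235) (b (l (nat_lit 7) (nat_lit 235) (nat_lit 260)) (l (nat_lit 7) (nat_lit 210) (nat_lit 210)))) (n (nat_lit 237) (b (l (nat_lit 5) (nat_lit 211) (nat_lit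 212)) (l (nat_lit 5) (nat_lit 236) (nat_lit 262)))))) (n (nat_lit 337) (b (l (nat_lit 4) (nat_lit 236) (nat_lit 236)) (l (nat_lit 4) (nat_lit 261) (nat_lit 362))))) (n (nat_lit 361) (b (n (nat_lit 262) (b (l (nat_lit 5) (nat_lit 236) (nat_lit 237)) (l (nat_lit 5) (nat_lit 261) (nat_lit 287)))) (n (nat_lit 362) (b (l (nat_lit 4) (nat_lit 286) (nat_lit 387)) (l (nat_lit 4) (nat_lit 261) (nat_lit 337)))))))) (l (nat_lit 3) (nat_lit 285) (nat_lit 285)))) (l (nat_lit 2) (nat_lit 310) (nat_lit 335))))))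
    envOK_nil (by decide +kernel)

theorem p161 : Fam (nat_lit 7) (nat_lit 14601473878365596266372218694518422658416925445797431044559854740972205156703597509922592391168) (nat_lit 945648176895982938874233119831206903969754336886382808873263875403900089647336188223231352230741228426902080260669440) (nat_lit 945648176895982938874233119831206903969754336886382808873263875403900089647336188223231352230741228426902080260669440) :=
  chk_sound Env.nil
    (n (nat_lit 313) (b (b (n (nat_lit 314) (b (n (nat_lit 289) (b (l (nat_lit 1) (nat_lit 286) (nat_lit 290)) (l (nat_lit 1) (nat_lit 285) (nat_lit 288)))) (n (nat_lit 335) (b (l (nat_lit 2) (nat_lit 309) (nat_lit 334)) (l (nat_lit 2) (nat_lit 310) (nat_lit 336)))))) (n (nat_lit 314) (b (n (nat_lit 335) (b (l (nat_lit 2) (nat_lit 309) (nat_lit 334)) (l (nat_lit 2) (nat_lit 310) (nat_lit 336)))) (n (nat_lit 339) (b (l (nat_lit 0) (nat_lit 311) (nat_lit 340)) (l (nat_lit 0) (nat_lit 310) (nat_lit 338))))))) (n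 (nat_lit 288) (b (n (nat_lit 338) (b (n (nat_lit 263) (b (b (n (nat_lit 238) (b (n (nat_lit 239) (b (l (nat_lit 5) (nat_lit 238) (nat_lit 264)) (l (nat_lit 5) (nat_lit 213) (nat_lit 214)))) (n (nat_lit 237) (b (l (nat_lit 7) (nat_lit 212) (nat_lit 212)) (l (nat_lit 7) (nat_lit 237) (nat_lit 262)))))) (n (nat_lit 337) (b (l (nat_lit 6) (nat_lit 237) (nat_lit 238)) (l (nat_lit 6) (nat_lit 262) (nat_lit 362))))) (n (nat_lit 363) (b (n (nat_lit 287) (b (l (nat_lit 7) (nat_lit 262) (nat_lit 262)) (l (nat_lit 7) (nat_lit 287) (nat_lit 388)))) (n (nat_lit 362) (b (l (nat_lit 6) (nat_lit 262) (nat_lit 337)) (l (nat_lit 6) (nat_lit 287) (nat_lit 387)))))))) (l (nat_lit 0) (nat_lit 310) (nat_lit 339)))) (l (nat_lit 1) (nat_lit 285) (nat_lit 289))))))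
    envOK_nil (by decide +kernel)

theorem p198 : Fam (nat_lit 7) (nat_lit 14601473878365596266372218694518422658416925445797431044559854740972205156703597509922592391168) (nat_lit 78804015915603943708692277722190454643652744080616005031751379464753678598685586034387568734776638667144558140194816) (nat_lit 78804015915603943708692277722190454643652744080616005031751379464753678598685586034387568734776638667144558140194816) :=
  chk_sound Env.nil
    (n (nat_lit 309) (b (b (n (nat_lit 308) (b (n (nat_lit 337) (b (l (nat_lit 0) (nat_lit 309) (nat_lit 338)) (l (nat_lit 0) (nat_lit 308) (nat_lit 336)))) (n (nat_lit 333) (b (l (nat_lit 2) (nat_lit 307) (nat_lit 332)) (l (nat_lit 2) (nat_lit 308) (nat_lit 334)))))) (n (nat_lit 308) (b (n (nat_lit 337) (b (l (nat_lit 0) (nat_lit 309) (nat_lit 338)) (l (nat_lit 0) (nat_lit 308) (nat_lit 336)))) (n (nat_lit 283) (b (l (nat_lit 3) (nat_lit 283) (nat_lit 284)) (l (nat_lit 3) (nat_lit 282) (nat_lit 282))))))) (n (nat_lit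 334) (b (n (nat_lit 284) (b (n (nat_lit 259) (b (b (n (nat_lit 234) (b (n (nat_lit 233) (b (l (nat_lit 7) (nat_lit 233) (nat_lit 258)) (l (nat_lit 7) (nat_lit 208) (nat_lit 208)))) (n (nat_lit 235) (b (l (nat_lit 5) (nat_lit 209) (nat_lit 210)) (l (nat_lit 5) (nat_lit 234) (nat_lit 260)))))) (n (nat_lit 335) (b (l (nat_lit 4) (nat_lit 234) (nat_lit 234)) (l (nat_lit 4) (nat_lit 259) (nat_lit 360))))) (n (nat_lit 359) (b (n (nat_lit 260) (b (l (nat_lit 5) (nat_lit 234) (nat_lit 235)) (l (nat_lit 5) (nat_lit 259) (nat_lit 285)))) (n (nat_lit 360) (b (l (nat_lit 4) (nat_lit 284) (nat_lit 385)) (l (nat_lit 4) (nat_lit 259) (nat_lit 335)))))))) (l (nat_lit 3) (nat_lit 283) (nat_lit 283)))) (l (nat_lit 2) (nat_lit 308) (nat_lit 333))))))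
    envOK_nil (by decide +kernel)

theorem p210 : Fam (nat_lit 7) (nat_lit 14601473878365596266372218694518422658416925445797431044559854740972205156703597509922592391168) (nat_lit 6610559963716537584179792246843128083538565450808334214583067836719255247181280281272909613827597799826019461775131049721856) (nat_lit 6610559963716537584179792246843128083538565450808334214583067836719255247181280281272909613827597799826019461775131049721856) :=
  chk_sound Env.nil
    (n (nat_lit 313) (b (b (n (nat_lit 335) (b (n (nat_lit 285) (b (n (nat_lit 360) (b (b (n (nat_lit 385) (b (n (nat_lit 384) (b (l (nat_lit 6) (nat_lit 284) (nat_lit 359)) (l (nat_lit 6) (nat_lit 309) (nat_lit 409)))) (n (nat_lit 386) (b (l (nat_lit 4) (nat_lit 310) (nat_lit 411)) (l (nat_lit 4) (nat_lit 285) (nat_lit 361)))))) (n (nat_lit 260) (b (n (nat_lit 261) (b (l (nat_lit 5) (nat_lit 235) (nat_lit 236)) (l (nat_lit 5) (nat_lit 260) (nat_lit 286)))) (n (nat_lit 336) (b (l (nat_lit 4) (nat_lit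 260) (nat_lit 361)) (l (nat_lit 4) (nat_lit 235) (nat_lit 235))))))) (n (nat_lit 286) (b (l (nat_lit 5) (nat_lit 285) (nat_lit 385)) (l (nat_lit 5) (nat_lit 260) (nat_lit 261)))))) (l (nat_lit 3) (nat_lit 284) (nat_lit 284)))) (l (nat_lit 2) (nat_lit 309) (nat_lit 334)))) (n (nat_lit 314) (b (n (nat_lit 285) (b (l (nat_lit 3) (nat_lit 284) (nat_lit 284)) (l (nat_lit 3) (nat_lit 285) (nat_lit 286)))) (n (nat_lit 289) (b (l (nat_lit 1) (nat_lit 286) (nat_lit 290)) (l (nat_lit 1) (nat_lit 285) (nat_lit 288))))))) (n (nat_lit 314) (b (n (nat_lit 289) (b (l (nat_lit 1) (nat_lit 286) (nat_lit 290)) (l (nat_lit 1) (nat_lit 285) (nat_lit 288)))) (n (nat_lit 335) (b (l (nat_lit 2) (nat_lit 309) (nat_lit 334)) (l (nat_lit 2) (nat_lit 310) (nat_lit 336))))))))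
    envOK_nil (by decide +kernel)

theorem p212 : Fam (nat_lit 7) (nat_lit 14601473878365596266372218694518422658416925445797431044559854740972205156703597509922592391168) (nat_lit 6610559963716537584183711800141939237425778319930822496982104979311670003164162206618162227518915243228319518300622733443072) (nat_lit 6610559963716537584183711800141939237425778319930822496982104979311670003164162206618162227518915243228319518300622733443072) :=
  chk_sound Env.nil
    (n (nat_lit 313) (b (b (n (nat_lit 335) (b (n (nat_lit 285) (b (n (nat_lit 360) (b (b (n (nat_lit 385) (b (n (nat_lit 384) (b (l (nat_lit 6) (nat_lit 284) (nat_lit 359)) (l (nat_lit 6) (nat_lit 309) (nat_lit 409)))) (n (nat_lit 386) (b (l (nat_lit 4) (nat_lit 310) (nat_lit 411)) (l (nat_lit 4) (nat_lit 285) (nat_lit 361)))))) (n (nat_lit 260) (b (n (nat_lit 261) (b (l (nat_lit 5) (nat_lit 235) (nat_lit 236)) (l (nat_lit 5) (nat_lit 260) (nat_lit 286)))) (n (nat_lit 336) (b (l (nat_lit 4) (nat_lit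 260) (nat_lit 361)) (l (nat_lit 4) (nat_lit 235) (nat_lit 235))))))) (n (nat_lit 286) (b (l (nat_lit 5) (nat_lit 285) (nat_lit 385)) (l (nat_lit 5) (nat_lit 260) (nat_lit 261)))))) (l (nat_lit 3) (nat_lit 284) (nat_lit 284)))) (l (nat_lit 2) (nat_lit 309) (nat_lit 334)))) (n (nat_lit 314) (b (n (nat_lit 285) (b (l (nat_lit 3) (nat_lit 284) (nat_lit 284)) (l (nat_lit 3) (nat_lit 285) (nat_lit 286)))) (n (nat_lit 339) (b (l (nat_lit 0) (nat_lit 311) (nat_lit 340)) (l (nat_lit 0) (nat_lit 310) (nat_lit 338))))))) (n (nat_lit 314) (b (n (nat_lit 335) (b (l (nat_lit 2) (nat_lit 309) (nat_lit 334)) (l (nat_lit 2) (nat_lit 310) (nat_lit 336)))) (n (nat_lit 339) (b (l (nat_lit 0) (nat_lit 311) (nat_lit 340)) (l (nat_lit 0) (nat_lit 310) (nat_lit 338))))))))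
    envOK_nil (by decide +kernel)

theorem p238 : Fam (nat_lit 9) (nat_lit 12515549038599082514033330309587219421500221810683512323908446920833318705745940722790793478144) (nat_lit 945648181593068060676886644393800325930039440711997429558943074346661311134729703619189082123529245788384960714899456) (nat_lit 945648181593068060676886644393800325930039440711997429558943074346661311134729703619189082123529245788384960714899456) :=
  chk_sound Env.nil
    (n (nat_lit 310) (b (b (b (n (nat_lit 313) (b (b (n (nat_lit 288) (b (n (nat_lit 338) (b (n (nat_lit 263) (b (b (n (nat_lit 238) (b (n (nat_lit 239) (b (l (nat_lit 5) (nat_lit 238) (nat_lit 264)) (l (nat_lit 5) (nat_lit 213) (nat_lit 214)))) (n (nat_lit 237) (b (l (nat_lit 7) (nat_lit 212) (nat_lit 212)) (l (nat_lit 7) (nat_lit 237) (nat_lit 262)))))) (n (nat_lit 337) (b (l (nat_lit 6) (nat_lit 237) (nat_lit 238)) (l (nat_lit 6) (nat_lit 262) (nat_lit 362))))) (n (nat_lit 363) (b (n (nat_lit 287) (b (l (nat_lit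 7) (nat_lit 262) (nat_lit 262)) (l (nat_lit 7) (nat_lit 287) (nat_lit 388)))) (n (nat_lit 362) (b (l (nat_lit 6) (nat_lit 262) (nat_lit 337)) (l (nat_lit 6) (nat_lit 287) (nat_lit 387)))))))) (l (nat_lit 0) (nat_lit 310) (nat_lit 339)))) (l (nat_lit 1) (nat_lit 285) (nat_lit 289)))) (n (nat_lit 314) (b (n (nat_lit 285) (b (l (nat_lit 3) (nat_lit 284) (nat_lit 284)) (l (nat_lit 3) (nat_lit 285) (nat_lit 286)))) (n (nat_lit 339) (b (l (nat_lit 0) (nat_lit 311) (nat_lit 340)) (l (nat_lit 0) (nat_lit 310) (nat_lit 338))))))) (n (nat_lit 314) (b (n (nat_lit 285) (b (l (nat_lit 3) (nat_lit 284) (nat_lit 284)) (l (nat_lit 3) (nat_lit 285) (nat_lit 286)))) (n (nat_lit 289) (b (l (nat_lit 1) (nat_lit 286) (nat_lit 290)) (l (nat_lit 1) (nat_lit 285) (nat_lit 288)))))))) (n (nat_lit 309) (b (b (n (nat_lit 313) (b (n (nat_lit 284) (b (l (nat_lit 3) (nat_lit 283) (nat_lit 283)) (l (nat_lit 3) (nat_lit 284) (nat_lit 285)))) (n (nat_lit 288) (b (l (nat_lit 1) (nat_lit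 284) (nat_lit 287)) (l (nat_lit 1) (nat_lit 285) (nat_lit 289)))))) (n (nat_lit 308) (b (n (nat_lit 333) (b (l (nat_lit 2) (nat_lit 307) (nat_lit 332)) (l (nat_lit 2) (nat_lit 308) (nat_lit 334)))) (n (nat_lit 287) (b (l (nat_lit 1) (nat_lit 283) (nat_lit 286)) (l (nat_lit 1) (nat_lit 284) (nat_lit 288))))))) (n (nat_lit 308) (b (n (nat_lit 283) (b (l (nat_lit 3) (nat_lit 283) (nat_lit 284)) (l (nat_lit 3) (nat_lit 282) (nat_lit 282)))) (n (nat_lit 333) (b (l (nat_lit 2) (nat_lit 307) (nat_lit 332)) (l (nat_lit 2) (nat_lit 308) (nat_lit 334))))))))) (b (n (nat_lit 309) (b (b (n (nat_lit 308) (b (n (nat_lit 333) (b (l (nat_lit 2) (nat_lit 307) (nat_lit 332)) (l (nat_lit 2) (nat_lit 308) (nat_lit 334)))) (n (nat_lit 287) (b (l (nat_lit 1) (nat_lit 283) (nat_lit 286)) (l (nat_lit 1) (nat_lit 284) (nat_lit 288)))))) (n (nat_lit 313) (b (n (nat_lit 338) (b (l (nat_lit 0) (nat_lit 309) (nat_lit 337)) (l (nat_lit 0) (nat_lit 310) (nat_lit 339)))) (n (nat_lit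 288) (b (l (nat_lit 1) (nat_lit 284) (nat_lit 287)) (l (nat_lit 1) (nat_lit 285) (nat_lit 289))))))) (n (nat_lit 308) (b (n (nat_lit 337) (b (l (nat_lit 0) (nat_lit 309) (nat_lit 338)) (l (nat_lit 0) (nat_lit 308) (nat_lit 336)))) (n (nat_lit 333) (b (l (nat_lit 2) (nat_lit 307) (nat_lit 332)) (l (nat_lit 2) (nat_lit 308) (nat_lit 334)))))))) (n (nat_lit 309) (b (b (n (nat_lit 313) (b (n (nat_lit 284) (b (l (nat_lit 3) (nat_lit 283) (nat_lit 283)) (l (nat_lit 3) (nat_lit 284) (nat_lit 285)))) (n (nat_lit 338) (b (l (nat_lit 0) (nat_lit 309) (nat_lit 337)) (l (nat_lit 0) (nat_lit 310) (nat_lit 339)))))) (n (nat_lit 308) (b (n (nat_lit 337) (b (l (nat_lit 0) (nat_lit 309) (nat_lit 338)) (l (nat_lit 0) (nat_lit 308) (nat_lit 336)))) (n (nat_lit 333) (b (l (nat_lit 2) (nat_lit 307) (nat_lit 332)) (l (nat_lit 2) (nat_lit 308) (nat_lit 334))))))) (n (nat_lit 308) (b (n (nat_lit 283) (b (l (nat_lit 3) (nat_lit 283) (nat_lit 284)) (l (nat_lit 3) (nat_lit 282)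 (nat_lit 282)))) (n (nat_lit 333) (b (l (nat_lit 2) (nat_lit 307) (nat_lit 332)) (l (nat_lit 2) (nat_lit 308) (nat_lit 334)))))))))) (n (nat_lit 309) (b (b (n (nat_lit 308) (b (n (nat_lit 337) (b (l (nat_lit 0) (nat_lit 309) (nat_lit 338)) (l (nat_lit 0) (nat_lit 308) (nat_lit 336)))) (n (nat_lit 333) (b (l (nat_lit 2) (nat_lit 307) (nat_lit 332)) (l (nat_lit 2) (nat_lit 308) (nat_lit 334)))))) (n (nat_lit 308) (b (n (nat_lit 283) (b (l (nat_lit 3) (nat_lit 283) (nat_lit 284)) (l (nat_lit 3) (nat_lit 282) (nat_lit 282)))) (n (nat_lit 333) (b (l (nat_lit 2) (nat_lit 307) (nat_lit 332)) (l (nat_lit 2) (nat_lit 308) (nat_lit 334))))))) (n (nat_lit 287) (b (n (nat_lit 284) (b (n (nat_lit 337) (b (n (nat_lit 262) (b (n (nat_lit 286) (b (n (nat_lit 362) (b (l (nat_lit 7) (nat_lit 286) (nat_lit 387)) (l (nat_lit 7) (nat_lit 261) (nat_lit 261)))) (n (nat_lit 263) (b (l (nat_lit 1) (nat_lit 259) (nat_lit 285)) (l (nat_lit 5) (nat_lit 237) (nat_lit 238)))))) (n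 (nat_lit 336) (b (l (nat_lit 6) (nat_lit 261) (nat_lit 361)) (l (nat_lit 6) (nat_lit 236) (nat_lit 237)))))) (l (nat_lit 0) (nat_lit 309) (nat_lit 338)))) (l (nat_lit 3) (nat_lit 283) (nat_lit 283)))) (l (nat_lit 1) (nat_lit 284) (nat_lit 288))))))))
    envOK_nil (by decide +kernel)

theorem p243 : Fam (nat_lit 8) (nat_lit 12515549038599082514033330309587219421500221810683512323908446920833318705745940722790793478144) (nat_lit 6610560278932596549514653549357890259059045446222290996872595508727224887604356660451482971617334669661789432758768412655616) (nat_lit 6610560278932596549514653549357890259059045446222290996872595508727224887604356660451482971617334669661789432758768412655616) :=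
  chk_sound (Env.cons (nat_lit 7) (nat_lit 29202947756731192532744437389036845316833850891594862089119709481944410313407195019845184782336) (nat_lit 315216063662419659392120989194903708672350244082982394739805517475890445645417555668327625188674297477993895192166400) Env.nil)
    (n (nat_lit 313) (b (b (b (r (nat_lit 0)) (n (nat_lit 314) (b (b (n (nat_lit 315) (b (n (nat_lit 290) (b (l (nat_lit 1) (nat_lit 286) (nat_lit 289)) (l (nat_lit 1) (nat_lit 287) (nat_lit 291)))) (n (nat_lit 336) (b (l (nat_lit 2) (nat_lit 310) (nat_lit 335)) (l (nat_lit 2) (nat_lit 311) (nat_lit 337)))))) (n (nat_lit 310) (b (n (nat_lit 285) (b (l (nat_lit 3) (nat_lit 284) (nat_lit 284)) (l (nat_lit 3) (nat_lit 285) (nat_lit 286)))) (n (nat_lit 335) (b (l (nat_lit 2) (nat_lit 309) (nat_lit 334)) (l (nat_lit 2) (nat_lit 310) (nat_lit 336))))))) (n (nat_lit 315) (b (n (nat_lit 290) (b (l (nat_lit 1) (nat_lit 286) (nat_lit 289)) (l (nat_lit 1) (nat_lit 287) (nat_lit 291)))) (n (nat_lit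 286) (b (l (nat_lit 3) (nat_lit 286) (nat_lit 287)) (l (nat_lit 3) (nat_lit 285) (nat_lit 285))))))))) (b (n (nat_lit 314) (b (b (n (nat_lit 315) (b (n (nat_lit 290) (b (l (nat_lit 1) (nat_lit 286) (nat_lit 289)) (l (nat_lit 1) (nat_lit 287) (nat_lit 291)))) (n (nat_lit 340) (b (l (nat_lit 0) (nat_lit 312) (nat_lit 341)) (l (nat_lit 0) (nat_lit 311) (nat_lit 339)))))) (n (nat_lit 310) (b (n (nat_lit 285) (b (l (nat_lit 3) (nat_lit 284) (nat_lit 284)) (l (nat_lit 3) (nat_lit 285) (nat_lit 286)))) (n (nat_lit 339) (b (l (nat_lit 0) (nat_lit 311) (nat_lit 340)) (l (nat_lit 0) (nat_lit 310) (nat_lit 338))))))) (n (nat_lit 315) (b (n (nat_lit 290) (b (l (nat_lit 1) (nat_lit 286) (nat_lit 289)) (l (nat_lit 1) (nat_lit 287) (nat_lit 291)))) (n (nat_lit 286) (b (l (nat_lit 3) (nat_lit 286) (nat_lit 287)) (l (nat_lit 3) (nat_lit 285) (nat_lit 285)))))))) (n (nat_lit 314) (b (b (n (nat_lit 310) (b (n (nat_lit 339) (b (l (nat_lit 0) (nat_lit 311) (nat_lit 340))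 (l (nat_lit 0) (nat_lit 310) (nat_lit 338)))) (n (nat_lit 335) (b (l (nat_lit 2) (nat_lit 309) (nat_lit 334)) (l (nat_lit 2) (nat_lit 310) (nat_lit 336)))))) (n (nat_lit 315) (b (n (nat_lit 290) (b (l (nat_lit 1) (nat_lit 286) (nat_lit 289)) (l (nat_lit 1) (nat_lit 287) (nat_lit 291)))) (n (nat_lit 336) (b (l (nat_lit 2) (nat_lit 310) (nat_lit 335)) (l (nat_lit 2) (nat_lit 311) (nat_lit 337))))))) (n (nat_lit 315) (b (n (nat_lit 290) (b (l (nat_lit 1) (nat_lit 286) (nat_lit 289)) (l (nat_lit 1) (nat_lit 287) (nat_lit 291)))) (n (nat_lit 340) (b (l (nat_lit 0) (nat_lit 312) (nat_lit 341)) (l (nat_lit 0) (nat_lit 311) (nat_lit 339)))))))))) (n (nat_lit 310) (b (b (n (nat_lit 335) (b (n (nat_lit 285) (b (n (nat_lit 360) (b (b (n (nat_lit 385) (b (n (nat_lit 384) (b (l (nat_lit 6) (nat_lit 284) (nat_lit 359)) (l (nat_lit 6) (nat_lit 309) (nat_lit 409)))) (n (nat_lit 386) (b (l (nat_lit 4) (nat_lit 310) (nat_lit 411)) (l (nat_lit 4) (nat_lit 285) (nat_lit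 361)))))) (n (nat_lit 260) (b (n (nat_lit 261) (b (l (nat_lit 5) (nat_lit 235) (nat_lit 236)) (l (nat_lit 5) (nat_lit 260) (nat_lit 286)))) (n (nat_lit 336) (b (l (nat_lit 4) (nat_lit 260) (nat_lit 361)) (l (nat_lit 4) (nat_lit 235) (nat_lit 235))))))) (n (nat_lit 286) (b (l (nat_lit 5) (nat_lit 285) (nat_lit 385)) (l (nat_lit 5) (nat_lit 260) (nat_lit 261)))))) (l (nat_lit 3) (nat_lit 284) (nat_lit 284)))) (l (nat_lit 2) (nat_lit 309) (nat_lit 334)))) (n (nat_lit 309) (b (n (nat_lit 334) (b (l (nat_lit 2) (nat_lit 309) (nat_lit 335)) (l (nat_lit 2) (nat_lit 308) (nat_lit 333)))) (n (nat_lit 338) (b (l (nat_lit 0) (nat_lit 309) (nat_lit 337)) (l (nat_lit 0) (nat_lit 310) (nat_lit 339))))))) (n (nat_lit 309) (b (n (nat_lit 338) (b (l (nat_lit 0) (nat_lit 309) (nat_lit 337)) (l (nat_lit 0) (nat_lit 310) (nat_lit 339)))) (n (nat_lit 284) (b (l (nat_lit 3) (nat_lit 283) (nat_lit 283)) (l (nat_lit 3) (nat_lit 284) (nat_lit 285))))))))))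
    (envOK_cons p154 envOK_nil) (by decide +kernel)

theorem p282 : Fam (nat_lit 6) (nat_lit 12515549411591509821373311926123905531615851886025625421919235001181301375615563482190825127936) (nat_lit 236412044223994833571256018989351774191649105374859421676518808213759708492092618153713929297977829116040637732356096) (nat_lit 236412044223994833571256018989351774191649105374859421676518808213759708492092618153713929297977829116040637732356096) :=
  chk_sound Env.nil
    (n (nat_lit 336) (b (b (n (nat_lit 261) (b (n (nat_lit 236) (b (n (nat_lit 235) (b (l (nat_lit 7) (nat_lit 235) (nat_lit 260)) (l (nat_lit 7) (nat_lit 210) (nat_lit 210)))) (l (nat_lit 4) (nat_lit 211) (nat_lit 211)))) (n (nat_lit 361) (b (n (nat_lit 360) (b (l (nat_lit 6) (nat_lit 285) (nat_lit 385)) (l (nat_lit 6) (nat_lit 260) (nat_lit 335)))) (l (nat_lit 5) (nat_lit 286) (nat_lit 386)))))) (n (nat_lit 262) (b (l (nat_lit 5) (nat_lit 261) (nat_lit 361)) (l (nat_lit 6) (nat_lit 236) (nat_lit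 237))))) (n (nat_lit 261) (b (b (n (nat_lit 236) (b (n (nat_lit 235) (b (l (nat_lit 7) (nat_lit 235) (nat_lit 260)) (l (nat_lit 7) (nat_lit 210) (nat_lit 210)))) (l (nat_lit 4) (nat_lit 211) (nat_lit 211)))) (n (nat_lit 237) (b (n (nat_lit 236) (b (l (nat_lit 4) (nat_lit 211) (nat_lit 211)) (l (nat_lit 5) (nat_lit 211) (nat_lit 212)))) (l (nat_lit 6) (nat_lit 236) (nat_lit 262))))) (n (nat_lit 262) (b (n (nat_lit 260) (b (n (nat_lit 288) (b (l (nat_lit 3) (nat_lit 260) (nat_lit 289)) (l (nat_lit 0) (nat_lit 259) (nat_lit 259)))) (l (nat_lit 7) (nat_lit 235) (nat_lit 235)))) (l (nat_lit 6) (nat_lit 236) (nat_lit 237))))))))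
    envOK_nil (by decide +kernel)

theorem p299 : Fam (nat_lit 7) (nat_lit 12515549411591509821373311926123905531615851886025625421919235001181301375615563482190825127936) (nat_lit 157608029482663222380891580037973585966157301696431717926819587562039472008751915122197576236776741298106601817767936) (nat_lit 157608029482663222380891580037973585966157301696431717926819587562039472008751915122197576236776741298106601817767936) :=
  chk_sound Env.nil
    (n (nat_lit 336) (b (b (n (nat_lit 285) (b (n (nat_lit 313) (b (l (nat_lit 3) (nat_lit 285) (nat_lit 314)) (l (nat_lit 0) (nat_lit 284) (nat_lit 284)))) (n (nat_lit 361) (b (l (nat_lit 5) (nat_lit 286) (nat_lit 386)) (l (nat_lit 7) (nat_lit 260) (nat_lit 260)))))) (n (nat_lit 262) (b (l (nat_lit 5) (nat_lit 261) (nat_lit 361)) (l (nat_lit 6) (nat_lit 236) (nat_lit 237))))) (n (nat_lit 261) (b (b (n (nat_lit 236) (b (n (nat_lit 235) (b (l (nat_lit 7) (nat_lit 235) (nat_lit 260)) (l (nat_lit 7) (nat_lit 210)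 (nat_lit 210)))) (l (nat_lit 4) (nat_lit 211) (nat_lit 211)))) (n (nat_lit 237) (b (n (nat_lit 236) (b (l (nat_lit 4) (nat_lit 211) (nat_lit 211)) (l (nat_lit 5) (nat_lit 211) (nat_lit 212)))) (l (nat_lit 6) (nat_lit 236) (nat_lit 262))))) (n (nat_lit 262) (b (n (nat_lit 284) (b (n (nat_lit 260) (b (n (nat_lit 259) (b (l (nat_lit 2) (nat_lit 258) (nat_lit 283)) (l (nat_lit 0) (nat_lit 258) (nat_lit 258)))) (l (nat_lit 7) (nat_lit 235) (nat_lit 235)))) (n (nat_lit 285) (b (l (nat_lit 1) (nat_lit 259) (nat_lit 263)) (l (nat_lit 0) (nat_lit 284) (nat_lit 313)))))) (l (nat_lit 6) (nat_lit 236) (nat_lit 237))))))))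
    envOK_nil (by decide +kernel)

theorem p323 : Fam (nat_lit 7) (nat_lit 12515549411591509821373311926123905531615851886025625421919235001181301375615563482190825127936) (nat_lit 4697085865468027713686805561283332637105134664366043398494038632400722672724906401602586945302532140432359424) (nat_lit 4697085865468027713686805561283332637105134664366043398494038632400722672724906401602586945302532140432359424) :=
  chk_sound Env.nil
    (n (nat_lit 285) (b (b (n (nat_lit 313) (b (l (nat_lit 3) (nat_lit 285) (nat_lit 314)) (l (nat_lit 0) (nat_lit 284) (nat_lit 284)))) (n (nat_lit 262) (b (n (nat_lit 336) (b (l (nat_lit 5) (nat_lit 261) (nat_lit 361)) (l (nat_lit 6) (nat_lit 236) (nat_lit 237)))) (n (nat_lit 284) (b (l (nat_lit 1) (nat_lit 259) (nat_lit 263)) (l (nat_lit 0) (nat_lit 283) (nat_lit 283))))))) (n (nat_lit 288) (b (b (n (nat_lit 289) (b (n (nat_lit 264) (b (l (nat_lit 1) (nat_lit 261) (nat_lit 265)) (l (nat_lit 1) (nat_lit 260) (nat_lit 263))))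 (l (nat_lit 2) (nat_lit 286) (nat_lit 290)))) (n (nat_lit 314) (b (n (nat_lit 289) (b (l (nat_lit 0) (nat_lit 286) (nat_lit 315)) (l (nat_lit 2) (nat_lit 286) (nat_lit 290)))) (l (nat_lit 3) (nat_lit 285) (nat_lit 313))))) (n (nat_lit 313) (b (n (nat_lit 237) (b (n (nat_lit 263) (b (n (nat_lit 238) (b (l (nat_lit 6) (nat_lit 212) (nat_lit 213)) (l (nat_lit 7) (nat_lit 212) (nat_lit 212)))) (l (nat_lit 1) (nat_lit 260) (nat_lit 264)))) (n (nat_lit 262) (b (l (nat_lit 6) (nat_lit 236) (nat_lit 336)) (l (nat_lit 4) (nat_lit 237) (nat_lit 338)))))) (l (nat_lit 3) (nat_lit 285) (nat_lit 314))))))))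
    envOK_nil (by decide +kernel)

theorem p338 : Fam (nat_lit 6) (nat_lit 12515549411591509821373311926123905531615851886025625421919235001181301375615563482190825127936) (nat_lit 4697085305531842169235752921818549614073126861455335459496310810750465197631308954565750235652356377325600768) (nat_lit 4697085305531842169235752921818549614073126861455335459496310810750465197631308954565750235652356377325600768) :=
  chk_sound Env.nil
    (n (nat_lit 285) (b (b (n (nat_lit 284) (b (l (nat_lit 0) (nat_lit 283) (nat_lit 283)) (l (nat_lit 0) (nat_lit 284) (nat_lit 313)))) (n (nat_lit 260) (b (n (nat_lit 336) (b (n (nat_lit 235) (b (l (nat_lit 7) (nat_lit 235) (nat_lit 261)) (l (nat_lit 4) (nat_lit 210) (nat_lit 210)))) (l (nat_lit 7) (nat_lit 260) (nat_lit 361)))) (n (nat_lit 259) (b (n (nat_lit 284) (b (l (nat_lit 3) (nat_lit 258) (nat_lit 258)) (l (nat_lit 0) (nat_lit 283) (nat_lit 283)))) (l (nat_lit 3) (nat_lit 259) (nat_lit 288))))))) (n (nat_lit 288) (b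 (n (nat_lit 314) (b (n (nat_lit 289) (b (l (nat_lit 0) (nat_lit 286) (nat_lit 315)) (l (nat_lit 2) (nat_lit 286) (nat_lit 290)))) (l (nat_lit 3) (nat_lit 285) (nat_lit 313)))) (n (nat_lit 260) (b (n (nat_lit 336) (b (n (nat_lit 235) (b (l (nat_lit 7) (nat_lit 235) (nat_lit 261)) (l (nat_lit 4) (nat_lit 210) (nat_lit 210)))) (l (nat_lit 7) (nat_lit 260) (nat_lit 361)))) (l (nat_lit 3) (nat_lit 259) (nat_lit 259))))))))
    envOK_nil (by decide +kernel)

theorem p488 : Fam (nat_lit 7) (nat_lit 12515549287260708129620362575514850603453682416937690331861324242061405677611065735497778200576) (nat_lit 1103256210488595558623294346748104822169902592426310540070339987527325857830375842818849003062063595760495403101847552) (nat_lit 1103256210488595558623294346748104822169902592426310540070339987527325857830375842818849003062063595760495403101847552) :=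
  chk_sound Env.nil
    (n (nat_lit 337) (b (b (n (nat_lit 336) (b (n (nat_lit 338) (b (n (nat_lit 335) (b (n (nat_lit 334) (b (n (nat_lit 359) (b (l (nat_lit 2) (nat_lit 333) (nat_lit 358)) (l (nat_lit 2) (nat_lit 334) (nat_lit 360)))) (l (nat_lit 1) (nat_lit 308) (nat_lit 333)))) (n (nat_lit 314) (b (n (nat_lit 339) (b (l (nat_lit 1) (nat_lit 311) (nat_lit 315)) (l (nat_lit 3) (nat_lit 311) (nat_lit 340)))) (l (nat_lit 2) (nat_lit 310) (nat_lit 313)))))) (l (nat_lit 4) (nat_lit 262) (nat_lit 363)))) (l (nat_lit 6) (nat_lit 261) (nat_lit 361)))) (n (nat_lit 362) (b (n (nat_lit 286) (b (l (nat_lit 7) (nat_lit 286) (nat_lit 387)) (l (nat_lit 7) (nat_lit 261) (nat_lit 261)))) (n (nat_lit 361) (b (l (nat_lit 6) (nat_lit 286) (nat_lit 386)) (l (nat_lit 6) (nat_lit 261) (nat_lit 336))))))) (n (nat_lit 362) (b (n (nat_lit 261) (b (l (nat_lit 7) (nat_lit 261) (nat_lit 286)) (l (nat_lit 7) (nat_lit 236) (nat_lit 236)))) (n (nat_lit 363) (b (l (nat_lit 4) (nat_lit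 262) (nat_lit 338)) (l (nat_lit 4) (nat_lit 287) (nat_lit 388))))))))
    envOK_nil (by decide +kernel)

theorem p490 : Fam (nat_lit 7) (nat_lit 12515549287260708129620362575514850603453682416937690331861324242061405677611065735497778200576) (nat_lit 788040160917439724925062025947328904167688059142269682819473632281137746314707308961169945817620622969362602398842880) (nat_lit 788040160917439724925062025947328904167688059142269682819473632281137746314707308961169945817620622969362602398842880) :=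
  chk_sound Env.nil
    (n (nat_lit 337) (b (b (n (nat_lit 362) (b (n (nat_lit 263) (b (l (nat_lit 5) (nat_lit 237) (nat_lit 238)) (l (nat_lit 5) (nat_lit 262) (nat_lit 288)))) (n (nat_lit 361) (b (l (nat_lit 6) (nat_lit 286) (nat_lit 386)) (l (nat_lit 6) (nat_lit 261) (nat_lit 336)))))) (n (nat_lit 362) (b (n (nat_lit 363) (b (l (nat_lit 4) (nat_lit 262) (nat_lit 338)) (l (nat_lit 4) (nat_lit 287) (nat_lit 388)))) (n (nat_lit 263) (b (l (nat_lit 5) (nat_lit 237) (nat_lit 238)) (l (nat_lit 5) (nat_lit 262) (nat_lit 288))))))) (n (nat_lit 336) (b (n (nat_lit 338) (b (n (nat_lit 335) (b (n (nat_lit 334) (b (n (nat_lit 359) (b (l (nat_lit 2) (nat_lit 333) (nat_lit 358)) (l (nat_lit 2) (nat_lit 334) (nat_lit 360)))) (l (nat_lit 1) (nat_lit 308) (nat_lit 333)))) (n (nat_lit 314) (b (n (nat_lit 339) (b (l (nat_lit 1) (nat_lit 311) (nat_lit 315)) (l (nat_lit 3) (nat_lit 311) (nat_lit 340)))) (l (nat_lit 2) (nat_lit 310) (nat_lit 313)))))) (l (nat_lit 4) (nat_lit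 262) (nat_lit 363)))) (l (nat_lit 6) (nat_lit 261) (nat_lit 361))))))
    envOK_nil (by decide +kernel)

theorem p506 : Fam (nat_lit 6) (nat_lit 12515549411591509821373311926123905531615851886025625421919235001181301375615563482190825127936) (nat_lit 279968222099569554888180062460337068146026308099639619774692888927628913101049195384294659644719104000) (nat_lit 279968222099569554888180062460337068146026308099639619774692888927628913101049195384294659644719104000) :=
  chk_sound Env.nil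
    (n (nat_lit 285) (b (b (n (nat_lit 288) (b (n (nat_lit 289) (b (n (nat_lit 264) (b (l (nat_lit 1) (nat_lit 261) (nat_lit 265)) (l (nat_lit 1) (nat_lit 260) (nat_lit 263)))) (l (nat_lit 2) (nat_lit 286) (nat_lit 290)))) (n (nat_lit 284) (b (n (nat_lit 259) (b (l (nat_lit 3) (nat_lit 258) (nat_lit 258)) (l (nat_lit 3) (nat_lit 259) (nat_lit 260)))) (l (nat_lit 0) (nat_lit 283) (nat_lit 283)))))) (n (nat_lit 313) (b (l (nat_lit 3) (nat_lit 285) (nat_lit 314)) (l (nat_lit 0) (nat_lit 284) (nat_lit 284))))) (n (nat_lit 288) (b (b (n (nat_lit 289) (b (n (nat_lit 264) (b (l (nat_lit 1) (nat_lit 261) (nat_lit 265)) (l (nat_lit 1) (nat_lit 260) (nat_lit 263)))) (l (nat_lit 2) (nat_lit 286) (nat_lit 290)))) (n (nat_lit 314) (b (n (nat_lit 289) (b (l (nat_lit 0) (nat_lit 286) (nat_lit 315)) (l (nat_lit 2) (nat_lit 286) (nat_lit 290)))) (l (nat_lit 3) (nat_lit 285) (nat_lit 313))))) (n (nat_lit 313) (b (n (nat_lit 263) (b (n (nat_lit 238) (b (l (nat_lit 6) (nat_lit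 237) (nat_lit 337)) (l (nat_lit 6) (nat_lit 212) (nat_lit 213)))) (l (nat_lit 1) (nat_lit 260) (nat_lit 264)))) (l (nat_lit 3) (nat_lit 285) (nat_lit 314))))))))
    envOK_nil (by decide +kernel)

theorem p520 : Fam (nat_lit 6) (nat_lit 12515549411591509821373311926123905531615851886025625421919235001181301375615563482190825127936) (nat_lit 551628103189321313328975682296802608042445576727619347893214843863059694122600333568292031594892818891229554259525632) (nat_lit 551628103189321313328975682296802608042445576727619347893214843863059694122600333568292031594892818891229554259525632) :=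
  chk_sound Env.nil
    (n (nat_lit 261) (b (b (n (nat_lit 337) (b (l (nat_lit 4) (nat_lit 236) (nat_lit 236)) (l (nat_lit 7) (nat_lit 261) (nat_lit 362)))) (n (nat_lit 336) (b (n (nat_lit 361) (b (n (nat_lit 360) (b (l (nat_lit 6) (nat_lit 285) (nat_lit 385)) (l (nat_lit 6) (nat_lit 260) (nat_lit 335)))) (l (nat_lit 5) (nat_lit 286) (nat_lit 386)))) (n (nat_lit 236) (b (n (nat_lit 235) (b (l (nat_lit 7) (nat_lit 235) (nat_lit 260)) (l (nat_lit 7) (nat_lit 210) (nat_lit 210)))) (l (nat_lit 4) (nat_lit 211) (nat_lit 211))))))) (n (nat_lit 336) (b (b (n (nat_lit 361) (b (n (nat_lit 360) (b (l (nat_lit 6) (nat_lit 285) (nat_lit 385)) (l (nat_lit 6) (nat_lit 260) (nat_lit 335)))) (l (nat_lit 5) (nat_lit 286) (nat_lit 386)))) (n (nat_lit 362) (b (n (nat_lit 361) (b (l (nat_lit 4) (nat_lit 286) (nat_lit 387)) (l (nat_lit 5) (nat_lit 286) (nat_lit 386)))) (l (nat_lit 7) (nat_lit 261) (nat_lit 337))))) (n (nat_lit 337) (b (n (nat_lit 335) (b (n (nat_lit 313)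 (b (l (nat_lit 2) (nat_lit 310) (nat_lit 314)) (l (nat_lit 1) (nat_lit 309) (nat_lit 334)))) (l (nat_lit 6) (nat_lit 260) (nat_lit 360)))) (l (nat_lit 7) (nat_lit 261) (nat_lit 362))))))))
    envOK_nil (by decide +kernel)

theorem p526 : Fam (nat_lit 6) (nat_lit 12515549411591509821373311926123905531615851886025625421919235001181301375615563482190825127936) (nat_lit 551628103189321278332914023574011556867523897852022517235359615629836157626455948654349847826319677988386683070971904) (nat_lit 551628103189321278332914023574011556867523897852022517235359615629836157626455948654349847826319677988386683070971904) :=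
  chk_sound Env.nil
    (n (nat_lit 261) (b (b (n (nat_lit 336) (b (n (nat_lit 361) (b (n (nat_lit 360) (b (l (nat_lit 6) (nat_lit 285) (nat_lit 385)) (l (nat_lit 6) (nat_lit 260) (nat_lit 335)))) (l (nat_lit 5) (nat_lit 286) (nat_lit 386)))) (n (nat_lit 236) (b (n (nat_lit 235) (b (l (nat_lit 7) (nat_lit 235) (nat_lit 260)) (l (nat_lit 7) (nat_lit 210) (nat_lit 210)))) (l (nat_lit 4) (nat_lit 211) (nat_lit 211)))))) (n (nat_lit 337) (b (l (nat_lit 4) (nat_lit 236) (nat_lit 236)) (l (nat_lit 7) (nat_lit 261) (nat_lit 362))))) (n (nat_lit 336) (b (n (nat_lit 362) (b (n (nat_lit 361) (b (l (nat_lit 4) (nat_lit 286) (nat_lit 387)) (l (nat_lit 5) (nat_lit 286) (nat_lit 386)))) (l (nat_lit 7) (nat_lit 261) (nat_lit 337)))) (n (nat_lit 260) (b (n (nat_lit 288) (b (n (nat_lit 259) (b (l (nat_lit 3) (nat_lit 259) (nat_lit 285)) (l (nat_lit 0) (nat_lit 258) (nat_lit 258)))) (l (nat_lit 3) (nat_lit 260) (nat_lit 289)))) (l (nat_lit 7) (nat_lit 235) (nat_lit 235))))))))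
    envOK_nil (by decide +kernel)

theorem p587 : Fam (nat_lit 11) (nat_lit 12515549038599082514033330309587219421500221810683512323908446920833318705745940722790793478144) (nat_lit 26442239933670166839461129369163268549096875328307756962574993335828727936955081993312587155130738849913640149769788680306688) (nat_lit 26442239933670166839461129369163268549096875328307756962574993335828727936955081993312587155130738849913640149769788680306688) :=
  chk_sound (Env.cons (nat_lit 6) (nat_lit 12515549411591509821373311926123905531615851886025625421919235001181301375615563482190825127936) (nat_lit 236412044223994833571256018989351774191649105374859421676518808213759708492092618153713929297977829116040637732356096) (Env.cons (nat_lit 7) (nat_lit 12515549411591509821373311926123905531615851886025625421919235001181301375615563482190825127936) (nat_lit 157608029482663222380891580037973585966157301696431717926819587562039472008751915122197576236776741298106601817767936)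 (Env.cons (nat_lit 7) (nat_lit 12515549411591509821373311926123905531615851886025625421919235001181301375615563482190825127936) (nat_lit 4697085865468027713686805561283332637105134664366043398494038632400722672724906401602586945302532140432359424) (Env.cons (nat_lit 6) (nat_lit 12515549411591509821373311926123905531615851886025625421919235001181301375615563482190825127936) (nat_lit 4697085305531842169235752921818549614073126861455335459496310810750465197631308954565750235652356377325600768) (Env.cons (nat_lit 7) (nat_lit 12515549287260708129620362575514850603453682416937690331861324242061405677611065735497778200576) (nat_lit 1103256210488595558623294346748104822169902592426310540070339987527325857830375842818849003062063595760495403101847552) (Env.cons (nat_lit 7) (nat_lit 12515549287260708129620362575514850603453682416937690331861324242061405677611065735497778200576) (nat_lit 788040160917439724925062025947328904167688059142269682819473632281137746314707308961169945817620622969362602398842880)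 (Env.cons (nat_lit 6) (nat_lit 12515549411591509821373311926123905531615851886025625421919235001181301375615563482190825127936) (nat_lit 279968222099569554888180062460337068146026308099639619774692888927628913101049195384294659644719104000) (Env.cons (nat_lit 6) (nat_lit 12515549411591509821373311926123905531615851886025625421919235001181301375615563482190825127936) (nat_lit 551628103189321313328975682296802608042445576727619347893214843863059694122600333568292031594892818891229554259525632) (Env.cons (nat_lit 6) (nat_lit 12515549411591509821373311926123905531615851886025625421919235001181301375615563482190825127936) (nat_lit 551628103189321278332914023574011556867523897852022517235359615629836157626455948654349847826319677988386683070971904) Env.nil)))))))))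
    (n (nat_lit 287) (b (b (b (b (n (nat_lit 286) (b (b (b (r (nat_lit 0)) (r (nat_lit 1))) (b (r (nat_lit 2)) (r (nat_lit 3)))) (n (nat_lit 285) (b (b (n (nat_lit 288) (b (n (nat_lit 289) (b (n (nat_lit 264) (b (l (nat_lit 1) (nat_lit 261) (nat_lit 265)) (l (nat_lit 1) (nat_lit 260) (nat_lit 263)))) (l (nat_lit 2) (nat_lit 286) (nat_lit 290)))) (n (nat_lit 284) (b (n (nat_lit 259) (b (l (nat_lit 3) (nat_lit 258) (nat_lit 258)) (l (nat_lit 3) (nat_lit 259) (nat_lit 260)))) (l (nat_lit 0) (nat_lit 283) (nat_lit 283)))))) (n (nat_lit 313) (b (l (nat_lit 3) (nat_lit 285) (nat_lit 314)) (l (nat_lit 0) (nat_lit 284) (nat_lit 284))))) (n (nat_lit 288) (b (b (n (nat_lit 289) (b (n (nat_lit 264) (b (l (nat_lit 1) (nat_lit 261) (nat_lit 265)) (l (nat_lit 1) (nat_lit 260) (nat_lit 263)))) (l (nat_lit 2) (nat_lit 286) (nat_lit 290)))) (n (nat_lit 314) (b (n (nat_lit 289) (b (l (nat_lit 0) (nat_lit 286) (nat_lit 315)) (l (nat_lit 2) (nat_lit 286) (nat_lit 290))))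 (l (nat_lit 3) (nat_lit 285) (nat_lit 313))))) (n (nat_lit 313) (b (n (nat_lit 263) (b (n (nat_lit 238) (b (n (nat_lit 262) (b (n (nat_lit 260) (b (n (nat_lit 239) (b (l (nat_lit 1) (nat_lit 235) (nat_lit 261)) (l (nat_lit 5) (nat_lit 213) (nat_lit 214)))) (l (nat_lit 3) (nat_lit 259) (nat_lit 259)))) (n (nat_lit 338) (b (l (nat_lit 7) (nat_lit 262) (nat_lit 363)) (l (nat_lit 4) (nat_lit 237) (nat_lit 237)))))) (l (nat_lit 6) (nat_lit 212) (nat_lit 213)))) (l (nat_lit 1) (nat_lit 260) (nat_lit 264)))) (l (nat_lit 3) (nat_lit 285) (nat_lit 314)))))))))) (n (nat_lit 337) (b (b (b (n (nat_lit 362) (b (b (n (nat_lit 387) (b (n (nat_lit 288) (b (l (nat_lit 5) (nat_lit 262) (nat_lit 263)) (l (nat_lit 5) (nat_lit 287) (nat_lit 313)))) (n (nat_lit 388) (b (l (nat_lit 4) (nat_lit 312) (nat_lit 413)) (l (nat_lit 4) (nat_lit 287) (nat_lit 363)))))) (n (nat_lit 286) (b (l (nat_lit 7) (nat_lit 286) (nat_lit 387)) (l (nat_lit 7) (nat_lit 261) (nat_lit 261))))) (n (nat_lit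 286) (b (n (nat_lit 288) (b (n (nat_lit 285) (b (n (nat_lit 284) (b (n (nat_lit 259) (b (l (nat_lit 3) (nat_lit 258) (nat_lit 258)) (l (nat_lit 3) (nat_lit 259) (nat_lit 260)))) (l (nat_lit 0) (nat_lit 283) (nat_lit 283)))) (n (nat_lit 314) (b (n (nat_lit 289) (b (l (nat_lit 0) (nat_lit 286) (nat_lit 315)) (l (nat_lit 2) (nat_lit 286) (nat_lit 290)))) (l (nat_lit 3) (nat_lit 285) (nat_lit 313)))))) (l (nat_lit 5) (nat_lit 262) (nat_lit 263)))) (l (nat_lit 7) (nat_lit 261) (nat_lit 261)))))) (n (nat_lit 362) (b (b (n (nat_lit 387) (b (n (nat_lit 288) (b (l (nat_lit 5) (nat_lit 262) (nat_lit 263)) (l (nat_lit 5) (nat_lit 287) (nat_lit 313)))) (n (nat_lit 386) (b (l (nat_lit 6) (nat_lit 311) (nat_lit 411)) (l (nat_lit 6) (nat_lit 286) (nat_lit 361)))))) (n (nat_lit 262) (b (n (nat_lit 261) (b (l (nat_lit 7) (nat_lit 261) (nat_lit 286)) (l (nat_lit 7) (nat_lit 236) (nat_lit 236)))) (n (nat_lit 263) (b (l (nat_lit 5) (nat_lit 237) (nat_lit 238)) (l (nat_lit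 5) (nat_lit 262) (nat_lit 288))))))) (n (nat_lit 286) (b (l (nat_lit 7) (nat_lit 286) (nat_lit 387)) (l (nat_lit 7) (nat_lit 261) (nat_lit 261))))))) (b (n (nat_lit 362) (b (b (n (nat_lit 387) (b (n (nat_lit 388) (b (l (nat_lit 4) (nat_lit 312) (nat_lit 413)) (l (nat_lit 4) (nat_lit 287) (nat_lit 363)))) (n (nat_lit 386) (b (l (nat_lit 6) (nat_lit 311) (nat_lit 411)) (l (nat_lit 6) (nat_lit 286) (nat_lit 361)))))) (n (nat_lit 262) (b (n (nat_lit 261) (b (l (nat_lit 7) (nat_lit 261) (nat_lit 286)) (l (nat_lit 7) (nat_lit 236) (nat_lit 236)))) (n (nat_lit 363) (b (l (nat_lit 4) (nat_lit 262) (nat_lit 338)) (l (nat_lit 4) (nat_lit 287) (nat_lit 388))))))) (n (nat_lit 286) (b (l (nat_lit 7) (nat_lit 286) (nat_lit 387)) (l (nat_lit 7) (nat_lit 261) (nat_lit 261)))))) (n (nat_lit 262) (b (b (n (nat_lit 362) (b (n (nat_lit 363) (b (l (nat_lit 4) (nat_lit 262) (nat_lit 338)) (l (nat_lit 4) (nat_lit 287) (nat_lit 388)))) (n (nat_lit 263) (b (l (nat_lit 5) (nat_lit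 237) (nat_lit 238)) (l (nat_lit 5) (nat_lit 262) (nat_lit 288)))))) (n (nat_lit 237) (b (n (nat_lit 238) (b (l (nat_lit 5) (nat_lit 237) (nat_lit 263)) (l (nat_lit 5) (nat_lit 212) (nat_lit 213)))) (n (nat_lit 236) (b (l (nat_lit 7) (nat_lit 211) (nat_lit 211)) (l (nat_lit 7) (nat_lit 236) (nat_lit 261))))))) (n (nat_lit 237) (b (n (nat_lit 338) (b (l (nat_lit 4) (nat_lit 237) (nat_lit 313)) (l (nat_lit 4) (nat_lit 262) (nat_lit 363)))) (n (nat_lit 236) (b (l (nat_lit 7) (nat_lit 211) (nat_lit 211)) (l (nat_lit 7) (nat_lit 236) (nat_lit 261)))))))))) (b (n (nat_lit 362) (b (n (nat_lit 387) (b (n (nat_lit 386) (b (l (nat_lit 6) (nat_lit 311) (nat_lit 411)) (l (nat_lit 6) (nat_lit 286) (nat_lit 361)))) (l (nat_lit 7) (nat_lit 286) (nat_lit 286)))) (n (nat_lit 262) (b (n (nat_lit 263) (b (l (nat_lit 5) (nat_lit 237) (nat_lit 238)) (l (nat_lit 5) (nat_lit 262) (nat_lit 288)))) (n (nat_lit 363) (b (l (nat_lit 4) (nat_lit 262) (nat_lit 338)) (l (nat_lit 4)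 (nat_lit 287) (nat_lit 388)))))))) (n (nat_lit 262) (b (b (n (nat_lit 261) (b (n (nat_lit 263) (b (n (nat_lit 264) (b (b (n (nat_lit 265) (b (n (nat_lit 240) (b (l (nat_lit 1) (nat_lit 236) (nat_lit 239)) (l (nat_lit 1) (nat_lit 237) (nat_lit 241)))) (n (nat_lit 290) (b (l (nat_lit 0) (nat_lit 262) (nat_lit 291)) (l (nat_lit 0) (nat_lit 261) (nat_lit 289)))))) (n (nat_lit 286) (b (l (nat_lit 2) (nat_lit 260) (nat_lit 285)) (l (nat_lit 2) (nat_lit 261) (nat_lit 265))))) (n (nat_lit 260) (b (n (nat_lit 285) (b (l (nat_lit 2) (nat_lit 259) (nat_lit 284)) (l (nat_lit 2) (nat_lit 260) (nat_lit 286)))) (n (nat_lit 288) (b (l (nat_lit 0) (nat_lit 260) (nat_lit 289)) (l (nat_lit 0) (nat_lit 259) (nat_lit 259)))))))) (l (nat_lit 5) (nat_lit 237) (nat_lit 238)))) (l (nat_lit 7) (nat_lit 236) (nat_lit 236)))) (n (nat_lit 237) (b (n (nat_lit 338) (b (l (nat_lit 4) (nat_lit 237) (nat_lit 313)) (l (nat_lit 4) (nat_lit 262) (nat_lit 363)))) (n (nat_lit 236) (b (l (nat_lit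 7) (nat_lit 211) (nat_lit 211)) (l (nat_lit 7) (nat_lit 236) (nat_lit 261))))))) (n (nat_lit 237) (b (n (nat_lit 338) (b (l (nat_lit 4) (nat_lit 237) (nat_lit 313)) (l (nat_lit 4) (nat_lit 262) (nat_lit 363)))) (n (nat_lit 238) (b (l (nat_lit 5) (nat_lit 237) (nat_lit 263)) (l (nat_lit 5) (nat_lit 212) (nat_lit 213)))))))))))) (b (n (nat_lit 262) (b (b (n (nat_lit 237) (b (b (n (nat_lit 337) (b (n (nat_lit 236) (b (l (nat_lit 7) (nat_lit 211) (nat_lit 211)) (l (nat_lit 7) (nat_lit 236) (nat_lit 261)))) (n (nat_lit 238) (b (l (nat_lit 5) (nat_lit 237) (nat_lit 263)) (l (nat_lit 5) (nat_lit 212) (nat_lit 213)))))) (n (nat_lit 212) (b (n (nat_lit 211) (b (l (nat_lit 7) (nat_lit 211) (nat_lit 236)) (l (nat_lit 7) (nat_lit 186) (nat_lit 186)))) (l (nat_lit 6) (nat_lit 211) (nat_lit 286))))) (n (nat_lit 212) (b (n (nat_lit 213) (b (l (nat_lit 5) (nat_lit 187) (nat_lit 188)) (l (nat_lit 5) (nat_lit 212) (nat_lit 238)))) (l (nat_lit 6) (nat_lit 211) (nat_lit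 286)))))) (n (nat_lit 237) (b (n (nat_lit 212) (b (n (nat_lit 213) (b (l (nat_lit 5) (nat_lit 187) (nat_lit 188)) (l (nat_lit 5) (nat_lit 212) (nat_lit 238)))) (n (nat_lit 211) (b (l (nat_lit 7) (nat_lit 211) (nat_lit 236)) (l (nat_lit 7) (nat_lit 186) (nat_lit 186)))))) (l (nat_lit 6) (nat_lit 236) (nat_lit 336))))) (b (n (nat_lit 336) (b (n (nat_lit 361) (b (l (nat_lit 5) (nat_lit 286) (nat_lit 386)) (l (nat_lit 5) (nat_lit 261) (nat_lit 286)))) (l (nat_lit 6) (nat_lit 236) (nat_lit 237)))) (n (nat_lit 337) (b (b (n (nat_lit 261) (b (n (nat_lit 286) (b (n (nat_lit 263) (b (n (nat_lit 285) (b (l (nat_lit 2) (nat_lit 260) (nat_lit 264)) (l (nat_lit 1) (nat_lit 259) (nat_lit 284)))) (l (nat_lit 5) (nat_lit 237) (nat_lit 238)))) (n (nat_lit 260) (b (n (nat_lit 259) (b (l (nat_lit 0) (nat_lit 258) (nat_lit 258)) (l (nat_lit 0) (nat_lit 259) (nat_lit 288)))) (n (nat_lit 336) (b (l (nat_lit 7) (nat_lit 235) (nat_lit 235)) (l (nat_lit 6) (nat_lit 261) (nat_lit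 361)))))))) (l (nat_lit 7) (nat_lit 236) (nat_lit 236)))) (n (nat_lit 362) (b (n (nat_lit 263) (b (l (nat_lit 5) (nat_lit 237) (nat_lit 238)) (l (nat_lit 5) (nat_lit 262) (nat_lit 288)))) (n (nat_lit 261) (b (l (nat_lit 7) (nat_lit 261) (nat_lit 286)) (l (nat_lit 7) (nat_lit 236) (nat_lit 236))))))) (b (n (nat_lit 362) (b (n (nat_lit 286) (b (l (nat_lit 7) (nat_lit 286) (nat_lit 387)) (l (nat_lit 7) (nat_lit 261) (nat_lit 261)))) (n (nat_lit 361) (b (l (nat_lit 6) (nat_lit 286) (nat_lit 386)) (l (nat_lit 6) (nat_lit 261) (nat_lit 336)))))) (n (nat_lit 362) (b (n (nat_lit 263) (b (l (nat_lit 5) (nat_lit 237) (nat_lit 238)) (l (nat_lit 5) (nat_lit 262) (nat_lit 288)))) (n (nat_lit 361) (b (l (nat_lit 6) (nat_lit 286) (nat_lit 386)) (l (nat_lit 6) (nat_lit 261) (nat_lit 336)))))))))))) (n (nat_lit 262) (b (b (n (nat_lit 237) (b (b (n (nat_lit 337) (b (n (nat_lit 236) (b (l (nat_lit 7) (nat_lit 211) (nat_lit 211)) (l (nat_lit 7) (nat_lit 236) (nat_lit 261))))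 (n (nat_lit 338) (b (l (nat_lit 4) (nat_lit 237) (nat_lit 313)) (l (nat_lit 4) (nat_lit 262) (nat_lit 363)))))) (n (nat_lit 212) (b (n (nat_lit 211) (b (l (nat_lit 7) (nat_lit 211) (nat_lit 236)) (l (nat_lit 7) (nat_lit 186) (nat_lit 186)))) (l (nat_lit 6) (nat_lit 211) (nat_lit 286))))) (n (nat_lit 212) (b (n (nat_lit 313) (b (l (nat_lit 4) (nat_lit 212) (nat_lit 288)) (l (nat_lit 4) (nat_lit 237) (nat_lit 338)))) (l (nat_lit 6) (nat_lit 211) (nat_lit 286)))))) (n (nat_lit 237) (b (n (nat_lit 212) (b (n (nat_lit 213) (b (l (nat_lit 5) (nat_lit 187) (nat_lit 188)) (l (nat_lit 5) (nat_lit 212) (nat_lit 238)))) (n (nat_lit 211) (b (l (nat_lit 7) (nat_lit 211) (nat_lit 236)) (l (nat_lit 7) (nat_lit 186) (nat_lit 186)))))) (l (nat_lit 6) (nat_lit 236) (nat_lit 336))))) (b (n (nat_lit 337) (b (b (n (nat_lit 237) (b (n (nat_lit 338) (b (l (nat_lit 4) (nat_lit 237) (nat_lit 313)) (l (nat_lit 4) (nat_lit 262) (nat_lit 363)))) (n (nat_lit 238) (b (l (nat_lit 5)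 (nat_lit 237) (nat_lit 263)) (l (nat_lit 5) (nat_lit 212) (nat_lit 213)))))) (n (nat_lit 362) (b (n (nat_lit 286) (b (l (nat_lit 7) (nat_lit 286) (nat_lit 387)) (l (nat_lit 7) (nat_lit 261) (nat_lit 261)))) (n (nat_lit 263) (b (l (nat_lit 5) (nat_lit 237) (nat_lit 238)) (l (nat_lit 5) (nat_lit 262) (nat_lit 288))))))) (n (nat_lit 362) (b (n (nat_lit 286) (b (l (nat_lit 7) (nat_lit 286) (nat_lit 387)) (l (nat_lit 7) (nat_lit 261) (nat_lit 261)))) (n (nat_lit 363) (b (l (nat_lit 4) (nat_lit 262) (nat_lit 338)) (l (nat_lit 4) (nat_lit 287) (nat_lit 388)))))))) (n (nat_lit 337) (b (b (n (nat_lit 362) (b (n (nat_lit 363) (b (l (nat_lit 4) (nat_lit 262) (nat_lit 338)) (l (nat_lit 4) (nat_lit 287) (nat_lit 388)))) (n (nat_lit 263) (b (l (nat_lit 5) (nat_lit 237) (nat_lit 238)) (l (nat_lit 5) (nat_lit 262) (nat_lit 288)))))) (n (nat_lit 362) (b (n (nat_lit 261) (b (l (nat_lit 7) (nat_lit 261) (nat_lit 286)) (l (nat_lit 7) (nat_lit 236) (nat_lit 236)))) (n (nat_lit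 363) (b (l (nat_lit 4) (nat_lit 262) (nat_lit 338)) (l (nat_lit 4) (nat_lit 287) (nat_lit 388))))))) (n (nat_lit 261) (b (n (nat_lit 263) (b (n (nat_lit 260) (b (n (nat_lit 286) (b (n (nat_lit 264) (b (l (nat_lit 2) (nat_lit 260) (nat_lit 285)) (l (nat_lit 2) (nat_lit 261) (nat_lit 265)))) (n (nat_lit 235) (b (l (nat_lit 7) (nat_lit 235) (nat_lit 336)) (l (nat_lit 3) (nat_lit 234) (nat_lit 234)))))) (n (nat_lit 288) (b (l (nat_lit 0) (nat_lit 260) (nat_lit 289)) (l (nat_lit 0) (nat_lit 259) (nat_lit 259)))))) (l (nat_lit 5) (nat_lit 237) (nat_lit 238)))) (l (nat_lit 7) (nat_lit 236) (nat_lit 236))))))))))) (b (b (n (nat_lit 262) (b (b (r (nat_lit 4)) (n (nat_lit 237) (b (b (n (nat_lit 337) (b (n (nat_lit 236) (b (l (nat_lit 7) (nat_lit 211) (nat_lit 211)) (l (nat_lit 7) (nat_lit 236) (nat_lit 261)))) (n (nat_lit 238) (b (l (nat_lit 5) (nat_lit 237) (nat_lit 263)) (l (nat_lit 5) (nat_lit 212) (nat_lit 213)))))) (n (nat_lit 212) (b (n (nat_lit 211) (b (l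 (nat_lit 7) (nat_lit 211) (nat_lit 236)) (l (nat_lit 7) (nat_lit 186) (nat_lit 186)))) (l (nat_lit 6) (nat_lit 211) (nat_lit 286))))) (n (nat_lit 212) (b (n (nat_lit 213) (b (l (nat_lit 5) (nat_lit 187) (nat_lit 188)) (l (nat_lit 5) (nat_lit 212) (nat_lit 238)))) (l (nat_lit 6) (nat_lit 211) (nat_lit 286))))))) (b (n (nat_lit 237) (b (n (nat_lit 212) (b (n (nat_lit 213) (b (l (nat_lit 5) (nat_lit 187) (nat_lit 188)) (l (nat_lit 5) (nat_lit 212) (nat_lit 238)))) (n (nat_lit 211) (b (l (nat_lit 7) (nat_lit 211) (nat_lit 236)) (l (nat_lit 7) (nat_lit 186) (nat_lit 186)))))) (l (nat_lit 6) (nat_lit 236) (nat_lit 336)))) (n (nat_lit 336) (b (n (nat_lit 361) (b (l (nat_lit 5) (nat_lit 286) (nat_lit 386)) (l (nat_lit 5) (nat_lit 261) (nat_lit 286)))) (l (nat_lit 6) (nat_lit 236) (nat_lit 237))))))) (n (nat_lit 262) (b (b (r (nat_lit 5)) (n (nat_lit 237) (b (n (nat_lit 212) (b (n (nat_lit 213) (b (l (nat_lit 5) (nat_lit 187) (nat_lit 188)) (l (nat_lit 5) (nat_lit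 212) (nat_lit 238)))) (n (nat_lit 211) (b (l (nat_lit 7) (nat_lit 211) (nat_lit 236)) (l (nat_lit 7) (nat_lit 186) (nat_lit 186)))))) (l (nat_lit 6) (nat_lit 236) (nat_lit 336))))) (b (n (nat_lit 337) (b (b (n (nat_lit 362) (b (n (nat_lit 363) (b (l (nat_lit 4) (nat_lit 262) (nat_lit 338)) (l (nat_lit 4) (nat_lit 287) (nat_lit 388)))) (n (nat_lit 263) (b (l (nat_lit 5) (nat_lit 237) (nat_lit 238)) (l (nat_lit 5) (nat_lit 262) (nat_lit 288)))))) (n (nat_lit 237) (b (n (nat_lit 338) (b (l (nat_lit 4) (nat_lit 237) (nat_lit 313)) (l (nat_lit 4) (nat_lit 262) (nat_lit 363)))) (n (nat_lit 236) (b (l (nat_lit 7) (nat_lit 211) (nat_lit 211)) (l (nat_lit 7) (nat_lit 236) (nat_lit 261))))))) (n (nat_lit 237) (b (n (nat_lit 238) (b (l (nat_lit 5) (nat_lit 237) (nat_lit 263)) (l (nat_lit 5) (nat_lit 212) (nat_lit 213)))) (n (nat_lit 236) (b (l (nat_lit 7) (nat_lit 211) (nat_lit 211)) (l (nat_lit 7) (nat_lit 236) (nat_lit 261)))))))) (n (nat_lit 336) (b (n (nat_lit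 361) (b (l (nat_lit 5) (nat_lit 286) (nat_lit 386)) (l (nat_lit 6) (nat_lit 261) (nat_lit 337)))) (l (nat_lit 6) (nat_lit 236) (nat_lit 237)))))))) (b (n (nat_lit 262) (b (b (n (nat_lit 237) (b (b (n (nat_lit 337) (b (n (nat_lit 236) (b (l (nat_lit 7) (nat_lit 211) (nat_lit 211)) (l (nat_lit 7) (nat_lit 236) (nat_lit 261)))) (n (nat_lit 338) (b (l (nat_lit 4) (nat_lit 237) (nat_lit 313)) (l (nat_lit 4) (nat_lit 262) (nat_lit 363)))))) (n (nat_lit 212) (b (n (nat_lit 211) (b (l (nat_lit 7) (nat_lit 211) (nat_lit 236)) (l (nat_lit 7) (nat_lit 186) (nat_lit 186)))) (l (nat_lit 6) (nat_lit 211) (nat_lit 286))))) (n (nat_lit 212) (b (n (nat_lit 313) (b (l (nat_lit 4) (nat_lit 212) (nat_lit 288)) (l (nat_lit 4) (nat_lit 237) (nat_lit 338)))) (l (nat_lit 6) (nat_lit 211) (nat_lit 286)))))) (n (nat_lit 336) (b (n (nat_lit 361) (b (l (nat_lit 5) (nat_lit 286) (nat_lit 386)) (l (nat_lit 5) (nat_lit 261) (nat_lit 286)))) (l (nat_lit 6) (nat_lit 236) (nat_lit 237)))))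 (b (n (nat_lit 336) (b (n (nat_lit 361) (b (l (nat_lit 5) (nat_lit 286) (nat_lit 386)) (l (nat_lit 6) (nat_lit 261) (nat_lit 337)))) (l (nat_lit 6) (nat_lit 236) (nat_lit 237)))) (r (nat_lit 4))))) (n (nat_lit 262) (b (b (r (nat_lit 5)) (n (nat_lit 337) (b (b (n (nat_lit 237) (b (n (nat_lit 338) (b (l (nat_lit 4) (nat_lit 237) (nat_lit 313)) (l (nat_lit 4) (nat_lit 262) (nat_lit 363)))) (n (nat_lit 238) (b (l (nat_lit 5) (nat_lit 237) (nat_lit 263)) (l (nat_lit 5) (nat_lit 212) (nat_lit 213)))))) (n (nat_lit 362) (b (n (nat_lit 286) (b (l (nat_lit 7) (nat_lit 286) (nat_lit 387)) (l (nat_lit 7) (nat_lit 261) (nat_lit 261)))) (n (nat_lit 263) (b (l (nat_lit 5) (nat_lit 237) (nat_lit 238)) (l (nat_lit 5) (nat_lit 262) (nat_lit 288))))))) (n (nat_lit 362) (b (n (nat_lit 286) (b (l (nat_lit 7) (nat_lit 286) (nat_lit 387)) (l (nat_lit 7) (nat_lit 261) (nat_lit 261)))) (n (nat_lit 363) (b (l (nat_lit 4) (nat_lit 262) (nat_lit 338)) (l (nat_lit 4) (nat_lit 287)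 (nat_lit 388))))))))) (n (nat_lit 336) (b (n (nat_lit 361) (b (l (nat_lit 5) (nat_lit 286) (nat_lit 386)) (l (nat_lit 5) (nat_lit 261) (nat_lit 286)))) (l (nat_lit 6) (nat_lit 236) (nat_lit 237))))))))) (b (n (nat_lit 262) (b (b (n (nat_lit 336) (b (n (nat_lit 361) (b (l (nat_lit 5) (nat_lit 286) (nat_lit 386)) (l (nat_lit 5) (nat_lit 261) (nat_lit 286)))) (l (nat_lit 6) (nat_lit 236) (nat_lit 237)))) (n (nat_lit 237) (b (n (nat_lit 212) (b (n (nat_lit 211) (b (l (nat_lit 7) (nat_lit 211) (nat_lit 236)) (l (nat_lit 7) (nat_lit 186) (nat_lit 186)))) (l (nat_lit 6) (nat_lit 211) (nat_lit 286)))) (n (nat_lit 337) (b (n (nat_lit 238) (b (l (nat_lit 5) (nat_lit 237) (nat_lit 263)) (l (nat_lit 5) (nat_lit 212) (nat_lit 213)))) (n (nat_lit 338) (b (l (nat_lit 4) (nat_lit 237) (nat_lit 313)) (l (nat_lit 4) (nat_lit 262) (nat_lit 363))))))))) (r (nat_lit 5)))) (n (nat_lit 286) (b (b (b (r (nat_lit 6)) (r (nat_lit 7))) (b (r (nat_lit 8)) (r (nat_lit 3)))) (n (nat_lit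 288) (b (b (b (n (nat_lit 289) (b (n (nat_lit 314) (b (n (nat_lit 313) (b (n (nat_lit 264) (b (n (nat_lit 239) (b (l (nat_lit 6) (nat_lit 238) (nat_lit 338)) (l (nat_lit 6) (nat_lit 213) (nat_lit 214)))) (l (nat_lit 1) (nat_lit 261) (nat_lit 265)))) (l (nat_lit 3) (nat_lit 285) (nat_lit 285)))) (l (nat_lit 0) (nat_lit 286) (nat_lit 315)))) (l (nat_lit 2) (nat_lit 286) (nat_lit 290)))) (n (nat_lit 313) (b (b (n (nat_lit 314) (b (l (nat_lit 3) (nat_lit 286) (nat_lit 315)) (l (nat_lit 3) (nat_lit 285) (nat_lit 285)))) (n (nat_lit 362) (b (n (nat_lit 336) (b (n (nat_lit 361) (b (l (nat_lit 4) (nat_lit 286) (nat_lit 387)) (l (nat_lit 5) (nat_lit 286) (nat_lit 386)))) (n (nat_lit 314) (b (l (nat_lit 2) (nat_lit 310) (nat_lit 335)) (l (nat_lit 3) (nat_lit 286) (nat_lit 315)))))) (n (nat_lit 337) (b (l (nat_lit 5) (nat_lit 262) (nat_lit 263)) (l (nat_lit 7) (nat_lit 261) (nat_lit 261))))))) (n (nat_lit 263) (b (n (nat_lit 337) (b (l (nat_lit 5) (nat_lit 262)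 (nat_lit 362)) (l (nat_lit 6) (nat_lit 237) (nat_lit 238)))) (n (nat_lit 285) (b (l (nat_lit 1) (nat_lit 260) (nat_lit 264)) (l (nat_lit 0) (nat_lit 284) (nat_lit 284))))))))) (b (n (nat_lit 289) (b (n (nat_lit 264) (b (n (nat_lit 263) (b (n (nat_lit 314) (b (n (nat_lit 238) (b (l (nat_lit 7) (nat_lit 238) (nat_lit 339)) (l (nat_lit 6) (nat_lit 212) (nat_lit 213)))) (l (nat_lit 0) (nat_lit 286) (nat_lit 315)))) (l (nat_lit 1) (nat_lit 260) (nat_lit 285)))) (l (nat_lit 1) (nat_lit 261) (nat_lit 265)))) (l (nat_lit 2) (nat_lit 286) (nat_lit 290)))) (n (nat_lit 263) (b (n (nat_lit 238) (b (n (nat_lit 337) (b (l (nat_lit 6) (nat_lit 237) (nat_lit 313)) (l (nat_lit 5) (nat_lit 262) (nat_lit 362)))) (l (nat_lit 6) (nat_lit 212) (nat_lit 213)))) (n (nat_lit 264) (b (n (nat_lit 265) (b (l (nat_lit 1) (nat_lit 261) (nat_lit 289)) (l (nat_lit 2) (nat_lit 262) (nat_lit 266)))) (l (nat_lit 1) (nat_lit 260) (nat_lit 285)))))))) (b (n (nat_lit 336) (b (n (nat_lit 362)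 (b (n (nat_lit 361) (b (l (nat_lit 4) (nat_lit 286) (nat_lit 387)) (l (nat_lit 5) (nat_lit 286) (nat_lit 386)))) (n (nat_lit 337) (b (l (nat_lit 5) (nat_lit 262) (nat_lit 263)) (l (nat_lit 4) (nat_lit 261) (nat_lit 261)))))) (n (nat_lit 314) (b (n (nat_lit 289) (b (l (nat_lit 0) (nat_lit 286) (nat_lit 315)) (l (nat_lit 2) (nat_lit 286) (nat_lit 290)))) (n (nat_lit 313) (b (l (nat_lit 2) (nat_lit 310) (nat_lit 335)) (l (nat_lit 0) (nat_lit 285) (nat_lit 285)))))))) (n (nat_lit 289) (b (n (nat_lit 314) (b (n (nat_lit 264) (b (n (nat_lit 239) (b (b (n (nat_lit 214) (b (n (nat_lit 215) (b (l (nat_lit 5) (nat_lit 214) (nat_lit 240)) (l (nat_lit 5) (nat_lit 189) (nat_lit 190)))) (n (nat_lit 213) (b (l (nat_lit 7) (nat_lit 188) (nat_lit 188)) (l (nat_lit 7) (nat_lit 213) (nat_lit 238)))))) (n (nat_lit 313) (b (l (nat_lit 6) (nat_lit 213) (nat_lit 214)) (l (nat_lit 6) (nat_lit 238) (nat_lit 338))))) (n (nat_lit 339) (b (n (nat_lit 338) (b (l (nat_lit 6) (nat_lit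 238) (nat_lit 313)) (l (nat_lit 6) (nat_lit 263) (nat_lit 363)))) (n (nat_lit 238) (b (l (nat_lit 7) (nat_lit 238) (nat_lit 263)) (l (nat_lit 7) (nat_lit 213) (nat_lit 213)))))))) (l (nat_lit 1) (nat_lit 261) (nat_lit 265)))) (l (nat_lit 0) (nat_lit 286) (nat_lit 315)))) (l (nat_lit 2) (nat_lit 286) (nat_lit 290))))))))))))
    (envOK_cons p282 (envOK_cons p299 (envOK_cons p323 (envOK_cons p338 (envOK_cons p488 (envOK_cons p490 (envOK_cons p506 (envOK_cons p520 (envOK_cons p526 envOK_nil))))))))) (by decide +kernel)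

theorem p700 : Fam (nat_lit 6) (nat_lit 12515549411591509821373311926123905531615851886025625421919235001181301375615563482190825127936) (nat_lit 9394170611063441849704919941970514700357459206919233406756891495413847408661067400619447397977317429422850048) (nat_lit 9394170611063441849704919941970514700357459206919233406756891495413847408661067400619447397977317429422850048) :=
  chk_sound Env.nil
    (n (nat_lit 288) (b (b (n (nat_lit 310) (b (l (nat_lit 1) (nat_lit 284) (nat_lit 309)) (l (nat_lit 2) (nat_lit 285) (nat_lit 289)))) (n (nat_lit 263) (b (n (nat_lit 337) (b (n (nat_lit 238) (b (l (nat_lit 6) (nat_lit 212) (nat_lit 213)) (l (nat_lit 5) (nat_lit 237) (nat_lit 262)))) (l (nat_lit 5) (nat_lit 262) (nat_lit 362)))) (n (nat_lit 264) (b (n (nat_lit 289) (b (l (nat_lit 1) (nat_lit 261) (nat_lit 265)) (l (nat_lit 2) (nat_lit 286) (nat_lit 290)))) (l (nat_lit 1) (nat_lit 260) (nat_lit 285))))))) (n (nat_lit 285) (b (n (nat_lit 309) (b (n (nat_lit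 284) (b (l (nat_lit 2) (nat_lit 283) (nat_lit 308)) (l (nat_lit 0) (nat_lit 283) (nat_lit 283)))) (l (nat_lit 2) (nat_lit 284) (nat_lit 310)))) (n (nat_lit 263) (b (n (nat_lit 337) (b (n (nat_lit 238) (b (l (nat_lit 6) (nat_lit 212) (nat_lit 213)) (l (nat_lit 5) (nat_lit 237) (nat_lit 262)))) (l (nat_lit 5) (nat_lit 262) (nat_lit 362)))) (l (nat_lit 1) (nat_lit 260) (nat_lit 264))))))))
    envOK_nil (by decide +kernel)

theorem p720 : Fam (nat_lit 6) (nat_lit 12515549411591509821373311926123905531615851886025625421919235001181301375615563482190825127936) (nat_lit 139984062552034234394968855539727920438709058317957030289980677075278962980378479138584954015179603968) (nat_lit 139984062552034234394968855539727920438709058317957030289980677075278962980378479138584954015179603968) :=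
  chk_sound Env.nil
    (n (nat_lit 288) (b (b (n (nat_lit 285) (b (b (n (nat_lit 284) (b (n (nat_lit 259) (b (l (nat_lit 3) (nat_lit 258) (nat_lit 258)) (l (nat_lit 3) (nat_lit 259) (nat_lit 260)))) (l (nat_lit 0) (nat_lit 283) (nat_lit 283)))) (n (nat_lit 309) (b (n (nat_lit 284) (b (l (nat_lit 2) (nat_lit 283) (nat_lit 308)) (l (nat_lit 0) (nat_lit 283) (nat_lit 283)))) (l (nat_lit 2) (nat_lit 284) (nat_lit 310))))) (n (nat_lit 260) (b (n (nat_lit 235) (b (n (nat_lit 310) (b (l (nat_lit 4) (nat_lit 235) (nat_lit 336)) (l (nat_lit 2) (nat_lit 284) (nat_lit 309)))) (l (nat_lit 4) (nat_lit 210) (nat_lit 210)))) (l (nat_lit 3) (nat_lit 259) (nat_lit 259)))))) (n (nat_lit 289) (b (l (nat_lit 2) (nat_lit 286) (nat_lit 290)) (l (nat_lit 2) (nat_lit 285) (nat_lit 310))))) (n (nat_lit 285) (b (n (nat_lit 284) (b (n (nat_lit 259) (b (l (nat_lit 3) (nat_lit 258) (nat_lit 258)) (l (nat_lit 3) (nat_lit 259) (nat_lit 260)))) (l (nat_lit 0) (nat_lit 283) (nat_lit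 283)))) (n (nat_lit 289) (b (n (nat_lit 264) (b (l (nat_lit 1) (nat_lit 261) (nat_lit 265)) (l (nat_lit 1) (nat_lit 260) (nat_lit 263)))) (l (nat_lit 2) (nat_lit 286) (nat_lit 290))))))))
    envOK_nil (by decide +kernel)

theorem p789 : Fam (nat_lit 12) (nat_lit 12515549162929891616479990848432781458205431835797550023245376280949312929035814975924137361408) (nat_lit 1103256206378643799024230858718335939191337533061642776044974236221834244931347218273863902325380048629746227868598272) (nat_lit 1103256206378643799024230858718335939191337533061642776044974236221834244931347218273863902325380048629746227868598272) :=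
  chk_sound (Env.cons (nat_lit 6) (nat_lit 12515549411591509821373311926123905531615851886025625421919235001181301375615563482190825127936) (nat_lit 139984062552034234394968855539727920438709058317957030289980677075278962980378479138584954015179603968) (Env.cons (nat_lit 6) (nat_lit 12515549411591509821373311926123905531615851886025625421919235001181301375615563482190825127936) (nat_lit 9394170611063441849704919941970514700357459206919233406756891495413847408661067400619447397977317429422850048) Env.nil))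
    (n (nat_lit 287) (b (b (b (r (nat_lit 0)) (n (nat_lit 262) (b (b (n (nat_lit 337) (b (n (nat_lit 362) (b (n (nat_lit 363) (b (l (nat_lit 4) (nat_lit 262) (nat_lit 338)) (l (nat_lit 4) (nat_lit 287) (nat_lit 388)))) (l (nat_lit 7) (nat_lit 286) (nat_lit 387)))) (n (nat_lit 237) (b (n (nat_lit 238) (b (l (nat_lit 5) (nat_lit 237) (nat_lit 263)) (l (nat_lit 5) (nat_lit 212) (nat_lit 213)))) (l (nat_lit 6) (nat_lit 211) (nat_lit 212)))))) (n (nat_lit 336) (b (l (nat_lit 5) (nat_lit 261) (nat_lit 361)) (l (nat_lit 6) (nat_lit 236) (nat_lit 237))))) (n (nat_lit 337) (b (b (n (nat_lit 362) (b (n (nat_lit 363) (b (l (nat_lit 4) (nat_lit 262) (nat_lit 338)) (l (nat_lit 4) (nat_lit 287) (nat_lit 388)))) (l (nat_lit 7) (nat_lit 286) (nat_lit 387)))) (n (nat_lit 361) (b (n (nat_lit 362) (b (l (nat_lit 6) (nat_lit 286) (nat_lit 386)) (l (nat_lit 7) (nat_lit 286) (nat_lit 387)))) (l (nat_lit 6) (nat_lit 261) (nat_lit 336))))) (n (nat_lit 338) (b (n (nat_lit 336)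 (b (n (nat_lit 310) (b (l (nat_lit 0) (nat_lit 309) (nat_lit 309)) (l (nat_lit 3) (nat_lit 310) (nat_lit 339)))) (l (nat_lit 6) (nat_lit 261) (nat_lit 361)))) (l (nat_lit 4) (nat_lit 262) (nat_lit 363))))))))) (b (r (nat_lit 1)) (n (nat_lit 262) (b (b (n (nat_lit 337) (b (n (nat_lit 362) (b (n (nat_lit 363) (b (l (nat_lit 4) (nat_lit 262) (nat_lit 338)) (l (nat_lit 4) (nat_lit 287) (nat_lit 388)))) (l (nat_lit 7) (nat_lit 286) (nat_lit 387)))) (n (nat_lit 237) (b (n (nat_lit 238) (b (l (nat_lit 5) (nat_lit 237) (nat_lit 263)) (l (nat_lit 5) (nat_lit 212) (nat_lit 213)))) (l (nat_lit 6) (nat_lit 211) (nat_lit 212)))))) (n (nat_lit 336) (b (l (nat_lit 5) (nat_lit 261) (nat_lit 361)) (l (nat_lit 6) (nat_lit 236) (nat_lit 237))))) (n (nat_lit 337) (b (n (nat_lit 361) (b (n (nat_lit 362) (b (l (nat_lit 6) (nat_lit 286) (nat_lit 386)) (l (nat_lit 7) (nat_lit 286) (nat_lit 387)))) (l (nat_lit 6) (nat_lit 261) (nat_lit 336)))) (n (nat_lit 263) (b (n (nat_lit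 285) (b (n (nat_lit 264) (b (l (nat_lit 1) (nat_lit 260) (nat_lit 288)) (l (nat_lit 2) (nat_lit 261) (nat_lit 265)))) (l (nat_lit 1) (nat_lit 259) (nat_lit 284)))) (l (nat_lit 5) (nat_lit 237) (nat_lit 238)))))))))) (n (nat_lit 262) (b (b (n (nat_lit 337) (b (b (n (nat_lit 362) (b (n (nat_lit 363) (b (l (nat_lit 4) (nat_lit 262) (nat_lit 338)) (l (nat_lit 4) (nat_lit 287) (nat_lit 388)))) (l (nat_lit 7) (nat_lit 286) (nat_lit 387)))) (n (nat_lit 361) (b (n (nat_lit 362) (b (l (nat_lit 6) (nat_lit 286) (nat_lit 386)) (l (nat_lit 7) (nat_lit 286) (nat_lit 387)))) (l (nat_lit 6) (nat_lit 261) (nat_lit 336))))) (n (nat_lit 338) (b (n (nat_lit 336) (b (n (nat_lit 310) (b (l (nat_lit 0) (nat_lit 309) (nat_lit 309)) (l (nat_lit 3) (nat_lit 310) (nat_lit 339)))) (l (nat_lit 6) (nat_lit 261) (nat_lit 361)))) (l (nat_lit 4) (nat_lit 262) (nat_lit 363)))))) (n (nat_lit 237) (b (l (nat_lit 6) (nat_lit 236) (nat_lit 336)) (l (nat_lit 6) (nat_lit 211) (nat_lit 212)))))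 (n (nat_lit 237) (b (n (nat_lit 236) (b (n (nat_lit 238) (b (n (nat_lit 259) (b (b (n (nat_lit 235) (b (n (nat_lit 234) (b (n (nat_lit 209) (b (l (nat_lit 3) (nat_lit 209) (nat_lit 210)) (l (nat_lit 3) (nat_lit 208) (nat_lit 208)))) (l (nat_lit 2) (nat_lit 233) (nat_lit 258)))) (l (nat_lit 2) (nat_lit 234) (nat_lit 260)))) (n (nat_lit 285) (b (n (nat_lit 284) (b (l (nat_lit 3) (nat_lit 258) (nat_lit 258)) (l (nat_lit 0) (nat_lit 283) (nat_lit 283)))) (n (nat_lit 288) (b (n (nat_lit 289) (b (l (nat_lit 2) (nat_lit 286) (nat_lit 290)) (l (nat_lit 2) (nat_lit 285) (nat_lit 310)))) (l (nat_lit 3) (nat_lit 259) (nat_lit 260))))))) (b (n (nat_lit 288) (b (n (nat_lit 289) (b (l (nat_lit 2) (nat_lit 286) (nat_lit 290)) (l (nat_lit 2) (nat_lit 285) (nat_lit 310)))) (n (nat_lit 260) (b (l (nat_lit 3) (nat_lit 259) (nat_lit 285)) (l (nat_lit 2) (nat_lit 234) (nat_lit 235)))))) (n (nat_lit 284) (b (b (n (nat_lit 285) (b (l (nat_lit 0) (nat_lit 283) (nat_lit 283))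 (l (nat_lit 3) (nat_lit 258) (nat_lit 258)))) (n (nat_lit 234) (b (b (n (nat_lit 309) (b (n (nat_lit 310) (b (l (nat_lit 1) (nat_lit 284) (nat_lit 288)) (l (nat_lit 4) (nat_lit 234) (nat_lit 335)))) (n (nat_lit 235) (b (l (nat_lit 5) (nat_lit 209) (nat_lit 210)) (l (nat_lit 2) (nat_lit 233) (nat_lit 258)))))) (n (nat_lit 309) (b (n (nat_lit 209) (b (n (nat_lit 308) (b (l (nat_lit 6) (nat_lit 233) (nat_lit 333)) (l (nat_lit 6) (nat_lit 208) (nat_lit 283)))) (n (nat_lit 208) (b (l (nat_lit 7) (nat_lit 183) (nat_lit 183)) (l (nat_lit 7) (nat_lit 208) (nat_lit 233)))))) (n (nat_lit 310) (b (l (nat_lit 1) (nat_lit 284) (nat_lit 288)) (l (nat_lit 4) (nat_lit 234) (nat_lit 335))))))) (n (nat_lit 235) (b (n (nat_lit 209) (b (l (nat_lit 3) (nat_lit 209) (nat_lit 210)) (l (nat_lit 3) (nat_lit 208) (nat_lit 208)))) (l (nat_lit 2) (nat_lit 233) (nat_lit 258))))))) (b (n (nat_lit 309) (b (b (n (nat_lit 308) (b (l (nat_lit 1) (nat_lit 283) (nat_lit 310)) (l (nat_lit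 2) (nat_lit 283) (nat_lit 285)))) (n (nat_lit 310) (b (l (nat_lit 1) (nat_lit 283) (nat_lit 308)) (l (nat_lit 3) (nat_lit 283) (nat_lit 283))))) (b (n (nat_lit 285) (b (l (nat_lit 2) (nat_lit 283) (nat_lit 308)) (l (nat_lit 0) (nat_lit 283) (nat_lit 283)))) (n (nat_lit 283) (b (l (nat_lit 3) (nat_lit 283) (nat_lit 310)) (l (nat_lit 0) (nat_lit 283) (nat_lit 285))))))) (n (nat_lit 309) (b (b (n (nat_lit 285) (b (l (nat_lit 2) (nat_lit 283) (nat_lit 308)) (l (nat_lit 3) (nat_lit 258) (nat_lit 258)))) (n (nat_lit 310) (b (l (nat_lit 1) (nat_lit 283) (nat_lit 308)) (l (nat_lit 1) (nat_lit 284) (nat_lit 288))))) (n (nat_lit 334) (b (n (nat_lit 258) (b (l (nat_lit 3) (nat_lit 258) (nat_lit 285)) (l (nat_lit 7) (nat_lit 233) (nat_lit 233)))) (n (nat_lit 310) (b (l (nat_lit 1) (nat_lit 284) (nat_lit 288)) (l (nat_lit 2) (nat_lit 308) (nat_lit 333)))))))))))))) (l (nat_lit 5) (nat_lit 212) (nat_lit 213)))) (l (nat_lit 7) (nat_lit 211) (nat_lit 211)))) (l (nat_lit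 6) (nat_lit 211) (nat_lit 212))))))))
    (envOK_cons p720 (envOK_cons p700 envOK_nil)) (by decide +kernel)

theorem p828 : Fam (nat_lit 8) (nat_lit 12515549162929895321826846442551035012476952113810601327884885581447362191678503229144285839360) (nat_lit 394020080165152030866749941121510670702776338361801820061091570199993747594655217100856120449428562690374796344033280) (nat_lit 394020080165152030866749941121510670702776338361801820061091570199993747594655217100856120449428562690374796344033280) :=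
  chk_sound Env.nil
    (n (nat_lit 336) (b (b (n (nat_lit 361) (b (n (nat_lit 260) (b (l (nat_lit 7) (nat_lit 235) (nat_lit 235)) (l (nat_lit 7) (nat_lit 260) (nat_lit 285)))) (n (nat_lit 360) (b (l (nat_lit 6) (nat_lit 285) (nat_lit 385)) (l (nat_lit 6) (nat_lit 260) (nat_lit 335)))))) (n (nat_lit 361) (b (n (nat_lit 260) (b (l (nat_lit 7) (nat_lit 235) (nat_lit 235)) (l (nat_lit 7) (nat_lit 260) (nat_lit 285)))) (n (nat_lit 362) (b (l (nat_lit 4) (nat_lit 286) (nat_lit 387)) (l (nat_lit 4) (nat_lit 261) (nat_lit 337))))))) (b (n (nat_lit 361) (b (n (nat_lit 360) (b (l (nat_lit 6) (nat_lit 285) (nat_lit 385)) (l (nat_lit 6) (nat_lit 260) (nat_lit 335)))) (n (nat_lit 362) (b (l (nat_lit 4) (nat_lit 286) (nat_lit 387)) (l (nat_lit 4) (nat_lit 261) (nat_lit 337)))))) (n (nat_lit 337) (b (n (nat_lit 335) (b (n (nat_lit 334) (b (n (nat_lit 310) (b (n (nat_lit 260) (b (n (nat_lit 359) (b (l (nat_lit 6) (nat_lit 259) (nat_lit 285)) (l (nat_lit 2) (nat_lit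 333) (nat_lit 358)))) (l (nat_lit 7) (nat_lit 235) (nat_lit 235)))) (n (nat_lit 338) (b (l (nat_lit 3) (nat_lit 310) (nat_lit 339)) (l (nat_lit 0) (nat_lit 309) (nat_lit 309)))))) (l (nat_lit 1) (nat_lit 308) (nat_lit 333)))) (l (nat_lit 6) (nat_lit 260) (nat_lit 360)))) (l (nat_lit 4) (nat_lit 261) (nat_lit 362)))))))
    envOK_nil (by decide +kernel)

theorem p907 : Fam (nat_lit 10) (nat_lit 12515549162929891616479990848432781458205431835797550023245376280949312929035814975924137361408) (nat_lit 13221120557865194860422823208394164844767379307142953418233517387734356222833736146014949074139390746106976342006932770390016) (nat_lit 13221120557865194860422823208394164844767379307142953418233517387734356222833736146014949074139390746106976342006932770390016) :=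
  chk_sound Env.nil
    (n (nat_lit 336) (b (b (b (n (nat_lit 337) (b (b (n (nat_lit 287) (b (b (n (nat_lit 263) (b (n (nat_lit 362) (b (l (nat_lit 7) (nat_lit 286) (nat_lit 387)) (l (nat_lit 5) (nat_lit 262) (nat_lit 288)))) (n (nat_lit 262) (b (l (nat_lit 5) (nat_lit 237) (nat_lit 238)) (l (nat_lit 6) (nat_lit 236) (nat_lit 237)))))) (n (nat_lit 288) (b (n (nat_lit 310) (b (l (nat_lit 1) (nat_lit 284) (nat_lit 309)) (l (nat_lit 2) (nat_lit 285) (nat_lit 289)))) (n (nat_lit 362) (b (l (nat_lit 5) (nat_lit 262) (nat_lit 263)) (l (nat_lit 7) (nat_lit 286) (nat_lit 387))))))) (n (nat_lit 338) (b (n (nat_lit 310) (b (l (nat_lit 0) (nat_lit 309) (nat_lit 309)) (l (nat_lit 3) (nat_lit 310) (nat_lit 339)))) (n (nat_lit 262) (b (l (nat_lit 4) (nat_lit 262) (nat_lit 363)) (l (nat_lit 6) (nat_lit 236) (nat_lit 237)))))))) (n (nat_lit 362) (b (l (nat_lit 4) (nat_lit 261) (nat_lit 261)) (l (nat_lit 7) (nat_lit 286) (nat_lit 387))))) (n (nat_lit 262) (b (b (n (nat_lit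 261) (b (n (nat_lit 335) (b (n (nat_lit 334) (b (n (nat_lit 260) (b (n (nat_lit 285) (b (n (nat_lit 263) (b (l (nat_lit 2) (nat_lit 259) (nat_lit 284)) (l (nat_lit 2) (nat_lit 260) (nat_lit 264)))) (n (nat_lit 359) (b (l (nat_lit 6) (nat_lit 259) (nat_lit 310)) (l (nat_lit 2) (nat_lit 333) (nat_lit 358)))))) (l (nat_lit 7) (nat_lit 235) (nat_lit 235)))) (l (nat_lit 1) (nat_lit 308) (nat_lit 333)))) (l (nat_lit 6) (nat_lit 260) (nat_lit 360)))) (l (nat_lit 5) (nat_lit 236) (nat_lit 237)))) (n (nat_lit 338) (b (n (nat_lit 310) (b (l (nat_lit 0) (nat_lit 309) (nat_lit 309)) (l (nat_lit 3) (nat_lit 310) (nat_lit 339)))) (n (nat_lit 287) (b (l (nat_lit 4) (nat_lit 262) (nat_lit 363)) (l (nat_lit 6) (nat_lit 236) (nat_lit 237))))))) (b (n (nat_lit 237) (b (l (nat_lit 5) (nat_lit 236) (nat_lit 261)) (l (nat_lit 6) (nat_lit 236) (nat_lit 287)))) (n (nat_lit 338) (b (n (nat_lit 339) (b (l (nat_lit 3) (nat_lit 311) (nat_lit 340)) (l (nat_lit 3) (nat_lit 310) (nat_lit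 310)))) (n (nat_lit 287) (b (n (nat_lit 263) (b (n (nat_lit 264) (b (n (nat_lit 285) (b (l (nat_lit 2) (nat_lit 260) (nat_lit 261)) (l (nat_lit 1) (nat_lit 259) (nat_lit 284)))) (l (nat_lit 2) (nat_lit 261) (nat_lit 265)))) (l (nat_lit 5) (nat_lit 237) (nat_lit 238)))) (l (nat_lit 4) (nat_lit 262) (nat_lit 363))))))))))) (n (nat_lit 361) (b (b (n (nat_lit 386) (b (n (nat_lit 385) (b (l (nat_lit 6) (nat_lit 285) (nat_lit 360)) (l (nat_lit 6) (nat_lit 310) (nat_lit 410)))) (n (nat_lit 387) (b (l (nat_lit 4) (nat_lit 311) (nat_lit 412)) (l (nat_lit 4) (nat_lit 286) (nat_lit 362)))))) (n (nat_lit 261) (b (n (nat_lit 260) (b (l (nat_lit 7) (nat_lit 235) (nat_lit 235)) (l (nat_lit 7) (nat_lit 260) (nat_lit 285)))) (n (nat_lit 360) (b (l (nat_lit 6) (nat_lit 285) (nat_lit 385)) (l (nat_lit 6) (nat_lit 260) (nat_lit 335))))))) (n (nat_lit 386) (b (n (nat_lit 387) (b (l (nat_lit 4) (nat_lit 311) (nat_lit 412)) (l (nat_lit 4) (nat_lit 286) (nat_lit 362)))) (n (nat_lit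 285) (b (l (nat_lit 7) (nat_lit 285) (nat_lit 310)) (l (nat_lit 7) (nat_lit 260) (nat_lit 260))))))))) (b (n (nat_lit 361) (b (b (n (nat_lit 386) (b (n (nat_lit 385) (b (l (nat_lit 6) (nat_lit 285) (nat_lit 360)) (l (nat_lit 6) (nat_lit 310) (nat_lit 410)))) (n (nat_lit 387) (b (l (nat_lit 4) (nat_lit 311) (nat_lit 412)) (l (nat_lit 4) (nat_lit 286) (nat_lit 362)))))) (n (nat_lit 261) (b (n (nat_lit 262) (b (l (nat_lit 5) (nat_lit 236) (nat_lit 237)) (l (nat_lit 5) (nat_lit 261) (nat_lit 287)))) (n (nat_lit 360) (b (l (nat_lit 6) (nat_lit 285) (nat_lit 385)) (l (nat_lit 6) (nat_lit 260) (nat_lit 335))))))) (n (nat_lit 287) (b (l (nat_lit 5) (nat_lit 261) (nat_lit 262)) (l (nat_lit 5) (nat_lit 286) (nat_lit 386)))))) (n (nat_lit 361) (b (b (n (nat_lit 261) (b (n (nat_lit 260) (b (l (nat_lit 7) (nat_lit 235) (nat_lit 235)) (l (nat_lit 7) (nat_lit 260) (nat_lit 285)))) (n (nat_lit 360) (b (l (nat_lit 6) (nat_lit 285) (nat_lit 385)) (l (nat_lit 6) (nat_lit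 260) (nat_lit 335)))))) (n (nat_lit 386) (b (n (nat_lit 385) (b (l (nat_lit 6) (nat_lit 285) (nat_lit 360)) (l (nat_lit 6) (nat_lit 310) (nat_lit 410)))) (l (nat_lit 5) (nat_lit 286) (nat_lit 287))))) (n (nat_lit 386) (b (n (nat_lit 285) (b (l (nat_lit 7) (nat_lit 285) (nat_lit 310)) (l (nat_lit 7) (nat_lit 260) (nat_lit 260)))) (l (nat_lit 5) (nat_lit 286) (nat_lit 287)))))))) (n (nat_lit 287) (b (b (n (nat_lit 361) (b (l (nat_lit 5) (nat_lit 261) (nat_lit 262)) (l (nat_lit 5) (nat_lit 286) (nat_lit 386)))) (n (nat_lit 337) (b (b (n (nat_lit 363) (b (n (nat_lit 262) (b (l (nat_lit 6) (nat_lit 236) (nat_lit 237)) (l (nat_lit 4) (nat_lit 262) (nat_lit 338)))) (n (nat_lit 362) (b (l (nat_lit 4) (nat_lit 287) (nat_lit 388)) (l (nat_lit 7) (nat_lit 286) (nat_lit 387)))))) (n (nat_lit 338) (b (n (nat_lit 310) (b (l (nat_lit 0) (nat_lit 309) (nat_lit 309)) (l (nat_lit 3) (nat_lit 310) (nat_lit 339)))) (n (nat_lit 262) (b (l (nat_lit 4) (nat_lit 262) (nat_lit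 363)) (l (nat_lit 6) (nat_lit 236) (nat_lit 237))))))) (n (nat_lit 288) (b (n (nat_lit 310) (b (l (nat_lit 1) (nat_lit 284) (nat_lit 309)) (l (nat_lit 2) (nat_lit 285) (nat_lit 289)))) (n (nat_lit 362) (b (l (nat_lit 5) (nat_lit 262) (nat_lit 263)) (l (nat_lit 7) (nat_lit 286) (nat_lit 387))))))))) (n (nat_lit 361) (b (n (nat_lit 288) (b (n (nat_lit 289) (b (l (nat_lit 2) (nat_lit 286) (nat_lit 290)) (l (nat_lit 2) (nat_lit 285) (nat_lit 310)))) (n (nat_lit 263) (b (n (nat_lit 362) (b (l (nat_lit 4) (nat_lit 286) (nat_lit 387)) (l (nat_lit 5) (nat_lit 262) (nat_lit 337)))) (n (nat_lit 285) (b (l (nat_lit 1) (nat_lit 260) (nat_lit 264)) (l (nat_lit 7) (nat_lit 260) (nat_lit 260)))))))) (l (nat_lit 5) (nat_lit 286) (nat_lit 386))))))))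
    envOK_nil (by decide +kernel)

theorem p908 : Fam (nat_lit 13) (nat_lit 12515549038599082514033330309587219421500221810683512323908446920833318705745940722790793478144) (nat_lit 14543232534847698254721133036739268505793285459116653554888713529116980462871837211866441983875160715034739273755012676714496) (nat_lit 14543232534847698254721133036739268505793285459116653554888713529116980462871837211866441983875160715034739273755012676714496) :=
  chk_sound (Env.cons (nat_lit 6) (nat_lit 12515549411591509821373311926123905531615851886025625421919235001181301375615563482190825127936) (nat_lit 9394170611063441849704919941970514700357459206919233406756891495413847408661067400619447397977317429422850048) (Env.cons (nat_lit 12) (nat_lit 12515549162929891616479990848432781458205431835797550023245376280949312929035814975924137361408) (nat_lit 1103256206378643799024230858718335939191337533061642776044974236221834244931347218273863902325380048629746227868598272)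 (Env.cons (nat_lit 8) (nat_lit 12515549162929895321826846442551035012476952113810601327884885581447362191678503229144285839360) (nat_lit 394020080165152030866749941121510670702776338361801820061091570199993747594655217100856120449428562690374796344033280) (Env.cons (nat_lit 10) (nat_lit 12515549162929891616479990848432781458205431835797550023245376280949312929035814975924137361408) (nat_lit 13221120557865194860422823208394164844767379307142953418233517387734356222833736146014949074139390746106976342006932770390016) Env.nil))))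
    (n (nat_lit 286) (b (b (b (b (n (nat_lit 261) (b (b (b (n (nat_lit 336) (b (b (n (nat_lit 361) (b (n (nat_lit 287) (b (l (nat_lit 5) (nat_lit 261) (nat_lit 262)) (l (nat_lit 5) (nat_lit 286) (nat_lit 386)))) (n (nat_lit 360) (b (l (nat_lit 6) (nat_lit 285) (nat_lit 385)) (l (nat_lit 6) (nat_lit 260) (nat_lit 335)))))) (n (nat_lit 361) (b (n (nat_lit 260) (b (l (nat_lit 7) (nat_lit 235) (nat_lit 235)) (l (nat_lit 7) (nat_lit 260) (nat_lit 285)))) (n (nat_lit 360) (b (l (nat_lit 6) (nat_lit 285) (nat_lit 385)) (l (nat_lit 6) (nat_lit 260) (nat_lit 335))))))) (n (nat_lit 262) (b (n (nat_lit 260) (b (n (nat_lit 263) (b (b (n (nat_lit 264) (b (n (nat_lit 239) (b (l (nat_lit 1) (nat_lit 235) (nat_lit 238)) (l (nat_lit 1) (nat_lit 236) (nat_lit 240)))) (n (nat_lit 289) (b (l (nat_lit 0) (nat_lit 261) (nat_lit 290)) (l (nat_lit 0) (nat_lit 260) (nat_lit 288)))))) (n (nat_lit 285) (b (l (nat_lit 2) (nat_lit 259) (nat_lit 284)) (l (nat_lit 2) (nat_lit 260)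 (nat_lit 264))))) (n (nat_lit 259) (b (n (nat_lit 284) (b (l (nat_lit 2) (nat_lit 258) (nat_lit 283)) (l (nat_lit 2) (nat_lit 259) (nat_lit 285)))) (n (nat_lit 287) (b (l (nat_lit 0) (nat_lit 259) (nat_lit 288)) (l (nat_lit 0) (nat_lit 258) (nat_lit 258)))))))) (l (nat_lit 7) (nat_lit 235) (nat_lit 235)))) (l (nat_lit 5) (nat_lit 236) (nat_lit 237)))))) (n (nat_lit 336) (b (b (n (nat_lit 236) (b (n (nat_lit 335) (b (l (nat_lit 6) (nat_lit 260) (nat_lit 360)) (l (nat_lit 6) (nat_lit 235) (nat_lit 310)))) (n (nat_lit 235) (b (l (nat_lit 7) (nat_lit 235) (nat_lit 260)) (l (nat_lit 7) (nat_lit 210) (nat_lit 210)))))) (n (nat_lit 361) (b (n (nat_lit 287) (b (l (nat_lit 5) (nat_lit 261) (nat_lit 262)) (l (nat_lit 5) (nat_lit 286) (nat_lit 386)))) (n (nat_lit 360) (b (l (nat_lit 6) (nat_lit 285) (nat_lit 385)) (l (nat_lit 6) (nat_lit 260) (nat_lit 335))))))) (n (nat_lit 361) (b (n (nat_lit 287) (b (l (nat_lit 5) (nat_lit 261) (nat_lit 262)) (l (nat_lit 5) (nat_lit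 286) (nat_lit 386)))) (n (nat_lit 260) (b (l (nat_lit 7) (nat_lit 235) (nat_lit 235)) (l (nat_lit 7) (nat_lit 260) (nat_lit 285))))))))) (b (n (nat_lit 236) (b (b (n (nat_lit 336) (b (n (nat_lit 237) (b (l (nat_lit 5) (nat_lit 211) (nat_lit 212)) (l (nat_lit 5) (nat_lit 236) (nat_lit 262)))) (n (nat_lit 335) (b (l (nat_lit 6) (nat_lit 260) (nat_lit 360)) (l (nat_lit 6) (nat_lit 235) (nat_lit 310)))))) (n (nat_lit 211) (b (n (nat_lit 310) (b (l (nat_lit 6) (nat_lit 235) (nat_lit 335)) (l (nat_lit 6) (nat_lit 210) (nat_lit 285)))) (l (nat_lit 4) (nat_lit 211) (nat_lit 287))))) (n (nat_lit 211) (b (n (nat_lit 212) (b (l (nat_lit 5) (nat_lit 211) (nat_lit 237)) (l (nat_lit 5) (nat_lit 186) (nat_lit 187)))) (l (nat_lit 4) (nat_lit 211) (nat_lit 287)))))) (n (nat_lit 236) (b (n (nat_lit 211) (b (n (nat_lit 212) (b (l (nat_lit 5) (nat_lit 211) (nat_lit 237)) (l (nat_lit 5) (nat_lit 186) (nat_lit 187)))) (l (nat_lit 4) (nat_lit 211) (nat_lit 287)))) (n (nat_lit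 336) (b (n (nat_lit 335) (b (l (nat_lit 6) (nat_lit 260) (nat_lit 360)) (l (nat_lit 6) (nat_lit 235) (nat_lit 310)))) (n (nat_lit 235) (b (l (nat_lit 7) (nat_lit 235) (nat_lit 260)) (l (nat_lit 7) (nat_lit 210) (nat_lit 210)))))))))) (b (n (nat_lit 336) (b (b (n (nat_lit 361) (b (n (nat_lit 260) (b (l (nat_lit 7) (nat_lit 235) (nat_lit 235)) (l (nat_lit 7) (nat_lit 260) (nat_lit 285)))) (n (nat_lit 360) (b (l (nat_lit 6) (nat_lit 285) (nat_lit 385)) (l (nat_lit 6) (nat_lit 260) (nat_lit 335)))))) (n (nat_lit 236) (b (n (nat_lit 335) (b (l (nat_lit 6) (nat_lit 260) (nat_lit 360)) (l (nat_lit 6) (nat_lit 235) (nat_lit 310)))) (n (nat_lit 237) (b (l (nat_lit 5) (nat_lit 211) (nat_lit 212)) (l (nat_lit 5) (nat_lit 236) (nat_lit 262))))))) (n (nat_lit 236) (b (n (nat_lit 235) (b (l (nat_lit 7) (nat_lit 235) (nat_lit 260)) (l (nat_lit 7) (nat_lit 210) (nat_lit 210)))) (n (nat_lit 237) (b (l (nat_lit 5) (nat_lit 211) (nat_lit 212)) (l (nat_lit 5) (nat_lit 236)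 (nat_lit 262)))))))) (n (nat_lit 236) (b (b (n (nat_lit 211) (b (n (nat_lit 210) (b (l (nat_lit 7) (nat_lit 185) (nat_lit 185)) (l (nat_lit 7) (nat_lit 210) (nat_lit 235)))) (l (nat_lit 4) (nat_lit 211) (nat_lit 287)))) (n (nat_lit 211) (b (n (nat_lit 212) (b (l (nat_lit 5) (nat_lit 211) (nat_lit 237)) (l (nat_lit 5) (nat_lit 186) (nat_lit 187)))) (n (nat_lit 210) (b (l (nat_lit 7) (nat_lit 185) (nat_lit 185)) (l (nat_lit 7) (nat_lit 210) (nat_lit 235))))))) (b (n (nat_lit 211) (b (n (nat_lit 212) (b (l (nat_lit 5) (nat_lit 211) (nat_lit 237)) (l (nat_lit 5) (nat_lit 186) (nat_lit 187)))) (l (nat_lit 4) (nat_lit 211) (nat_lit 287)))) (n (nat_lit 235) (b (n (nat_lit 237) (b (n (nat_lit 238) (b (n (nat_lit 262) (b (n (nat_lit 234) (b (l (nat_lit 0) (nat_lit 233) (nat_lit 233)) (l (nat_lit 0) (nat_lit 234) (nat_lit 263)))) (n (nat_lit 213) (b (l (nat_lit 5) (nat_lit 212) (nat_lit 287)) (l (nat_lit 1) (nat_lit 210) (nat_lit 214)))))) (n (nat_lit 260) (b (l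 (nat_lit 2) (nat_lit 235) (nat_lit 239)) (l (nat_lit 2) (nat_lit 234) (nat_lit 259)))))) (l (nat_lit 5) (nat_lit 211) (nat_lit 212)))) (l (nat_lit 7) (nat_lit 210) (nat_lit 210)))))))))) (n (nat_lit 287) (b (b (b (n (nat_lit 337) (b (b (n (nat_lit 262) (b (n (nat_lit 362) (b (n (nat_lit 363) (b (l (nat_lit 4) (nat_lit 262) (nat_lit 338)) (l (nat_lit 4) (nat_lit 287) (nat_lit 388)))) (l (nat_lit 7) (nat_lit 286) (nat_lit 387)))) (n (nat_lit 237) (b (n (nat_lit 238) (b (l (nat_lit 5) (nat_lit 237) (nat_lit 263)) (l (nat_lit 5) (nat_lit 212) (nat_lit 213)))) (l (nat_lit 6) (nat_lit 211) (nat_lit 212)))))) (n (nat_lit 261) (b (l (nat_lit 4) (nat_lit 236) (nat_lit 236)) (l (nat_lit 7) (nat_lit 261) (nat_lit 362))))) (n (nat_lit 262) (b (b (n (nat_lit 237) (b (n (nat_lit 238) (b (l (nat_lit 5) (nat_lit 237) (nat_lit 263)) (l (nat_lit 5) (nat_lit 212) (nat_lit 213)))) (l (nat_lit 6) (nat_lit 211) (nat_lit 212)))) (n (nat_lit 236) (b (n (nat_lit 237) (b (l (nat_lit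 7) (nat_lit 211) (nat_lit 211)) (l (nat_lit 6) (nat_lit 211) (nat_lit 212)))) (l (nat_lit 7) (nat_lit 236) (nat_lit 261))))) (n (nat_lit 263) (b (n (nat_lit 261) (b (n (nat_lit 285) (b (l (nat_lit 2) (nat_lit 260) (nat_lit 264)) (l (nat_lit 1) (nat_lit 259) (nat_lit 284)))) (l (nat_lit 7) (nat_lit 236) (nat_lit 236)))) (l (nat_lit 5) (nat_lit 237) (nat_lit 238)))))))) (n (nat_lit 288) (b (b (n (nat_lit 261) (b (n (nat_lit 236) (b (l (nat_lit 4) (nat_lit 236) (nat_lit 337)) (l (nat_lit 4) (nat_lit 211) (nat_lit 211)))) (n (nat_lit 289) (b (l (nat_lit 3) (nat_lit 260) (nat_lit 260)) (l (nat_lit 2) (nat_lit 286) (nat_lit 290)))))) (n (nat_lit 310) (b (l (nat_lit 1) (nat_lit 284) (nat_lit 309)) (l (nat_lit 2) (nat_lit 285) (nat_lit 289))))) (n (nat_lit 285) (b (b (n (nat_lit 284) (b (n (nat_lit 259) (b (l (nat_lit 3) (nat_lit 258) (nat_lit 258)) (l (nat_lit 3) (nat_lit 259) (nat_lit 260)))) (l (nat_lit 0) (nat_lit 283) (nat_lit 283)))) (n (nat_lit 309) (b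 (n (nat_lit 284) (b (l (nat_lit 2) (nat_lit 283) (nat_lit 308)) (l (nat_lit 0) (nat_lit 283) (nat_lit 283)))) (l (nat_lit 2) (nat_lit 284) (nat_lit 310))))) (n (nat_lit 310) (b (n (nat_lit 236) (b (n (nat_lit 260) (b (n (nat_lit 235) (b (l (nat_lit 4) (nat_lit 210) (nat_lit 210)) (l (nat_lit 5) (nat_lit 210) (nat_lit 211)))) (l (nat_lit 3) (nat_lit 259) (nat_lit 259)))) (n (nat_lit 261) (b (l (nat_lit 6) (nat_lit 235) (nat_lit 335)) (l (nat_lit 4) (nat_lit 236) (nat_lit 337)))))) (l (nat_lit 2) (nat_lit 284) (nat_lit 309))))))))) (b (n (nat_lit 337) (b (b (n (nat_lit 261) (b (l (nat_lit 4) (nat_lit 236) (nat_lit 236)) (l (nat_lit 7) (nat_lit 261) (nat_lit 362)))) (n (nat_lit 288) (b (n (nat_lit 310) (b (l (nat_lit 1) (nat_lit 284) (nat_lit 309)) (l (nat_lit 2) (nat_lit 285) (nat_lit 289)))) (n (nat_lit 362) (b (l (nat_lit 5) (nat_lit 262) (nat_lit 263)) (l (nat_lit 7) (nat_lit 286) (nat_lit 387))))))) (n (nat_lit 262) (b (b (n (nat_lit 237) (b (n (nat_lit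 238) (b (l (nat_lit 5) (nat_lit 237) (nat_lit 263)) (l (nat_lit 5) (nat_lit 212) (nat_lit 213)))) (l (nat_lit 6) (nat_lit 211) (nat_lit 212)))) (n (nat_lit 236) (b (n (nat_lit 237) (b (l (nat_lit 7) (nat_lit 211) (nat_lit 211)) (l (nat_lit 6) (nat_lit 211) (nat_lit 212)))) (l (nat_lit 7) (nat_lit 236) (nat_lit 261))))) (n (nat_lit 261) (b (n (nat_lit 289) (b (n (nat_lit 263) (b (n (nat_lit 264) (b (l (nat_lit 2) (nat_lit 261) (nat_lit 265)) (l (nat_lit 0) (nat_lit 261) (nat_lit 290)))) (l (nat_lit 5) (nat_lit 237) (nat_lit 238)))) (n (nat_lit 288) (b (l (nat_lit 3) (nat_lit 260) (nat_lit 260)) (l (nat_lit 2) (nat_lit 285) (nat_lit 310)))))) (l (nat_lit 7) (nat_lit 236) (nat_lit 236)))))))) (r (nat_lit 0)))) (n (nat_lit 288) (b (b (n (nat_lit 285) (b (n (nat_lit 284) (b (n (nat_lit 259) (b (l (nat_lit 3) (nat_lit 258) (nat_lit 258)) (l (nat_lit 3) (nat_lit 259) (nat_lit 260)))) (l (nat_lit 0) (nat_lit 283) (nat_lit 283)))) (n (nat_lit 289) (b (n (nat_lit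 264) (b (l (nat_lit 1) (nat_lit 261) (nat_lit 265)) (l (nat_lit 1) (nat_lit 260) (nat_lit 263)))) (l (nat_lit 2) (nat_lit 286) (nat_lit 290)))))) (n (nat_lit 310) (b (l (nat_lit 1) (nat_lit 284) (nat_lit 309)) (l (nat_lit 2) (nat_lit 285) (nat_lit 289))))) (n (nat_lit 285) (b (b (n (nat_lit 284) (b (n (nat_lit 259) (b (l (nat_lit 3) (nat_lit 258) (nat_lit 258)) (l (nat_lit 3) (nat_lit 259) (nat_lit 260)))) (l (nat_lit 0) (nat_lit 283) (nat_lit 283)))) (n (nat_lit 309) (b (n (nat_lit 284) (b (l (nat_lit 2) (nat_lit 283) (nat_lit 308)) (l (nat_lit 0) (nat_lit 283) (nat_lit 283)))) (l (nat_lit 2) (nat_lit 284) (nat_lit 310))))) (n (nat_lit 310) (b (n (nat_lit 260) (b (n (nat_lit 335) (b (n (nat_lit 360) (b (n (nat_lit 359) (b (l (nat_lit 6) (nat_lit 259) (nat_lit 334)) (l (nat_lit 6) (nat_lit 284) (nat_lit 384)))) (l (nat_lit 5) (nat_lit 285) (nat_lit 385)))) (n (nat_lit 236) (b (n (nat_lit 235) (b (l (nat_lit 4) (nat_lit 210) (nat_lit 210)) (l (nat_lit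 5) (nat_lit 210) (nat_lit 211)))) (l (nat_lit 6) (nat_lit 235) (nat_lit 261)))))) (l (nat_lit 3) (nat_lit 259) (nat_lit 259)))) (l (nat_lit 2) (nat_lit 284) (nat_lit 309))))))))))) (b (r (nat_lit 1)) (n (nat_lit 261) (b (b (n (nat_lit 236) (b (b (n (nat_lit 336) (b (n (nat_lit 235) (b (l (nat_lit 7) (nat_lit 235) (nat_lit 260)) (l (nat_lit 7) (nat_lit 210) (nat_lit 210)))) (n (nat_lit 237) (b (l (nat_lit 5) (nat_lit 211) (nat_lit 212)) (l (nat_lit 5) (nat_lit 236) (nat_lit 262)))))) (n (nat_lit 211) (b (n (nat_lit 212) (b (l (nat_lit 5) (nat_lit 211) (nat_lit 237)) (l (nat_lit 5) (nat_lit 186) (nat_lit 187)))) (l (nat_lit 4) (nat_lit 211) (nat_lit 287))))) (n (nat_lit 211) (b (n (nat_lit 210) (b (l (nat_lit 7) (nat_lit 185) (nat_lit 185)) (l (nat_lit 7) (nat_lit 210) (nat_lit 235)))) (l (nat_lit 4) (nat_lit 211) (nat_lit 287)))))) (n (nat_lit 236) (b (n (nat_lit 211) (b (n (nat_lit 212) (b (l (nat_lit 5) (nat_lit 211) (nat_lit 237)) (l (nat_lit 5) (nat_lit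 186) (nat_lit 187)))) (n (nat_lit 210) (b (l (nat_lit 7) (nat_lit 185) (nat_lit 185)) (l (nat_lit 7) (nat_lit 210) (nat_lit 235)))))) (l (nat_lit 4) (nat_lit 236) (nat_lit 337))))) (b (n (nat_lit 337) (b (n (nat_lit 362) (b (l (nat_lit 7) (nat_lit 261) (nat_lit 287)) (l (nat_lit 7) (nat_lit 286) (nat_lit 387)))) (l (nat_lit 4) (nat_lit 236) (nat_lit 236)))) (n (nat_lit 336) (b (b (n (nat_lit 361) (b (n (nat_lit 287) (b (l (nat_lit 5) (nat_lit 261) (nat_lit 262)) (l (nat_lit 5) (nat_lit 286) (nat_lit 386)))) (n (nat_lit 360) (b (l (nat_lit 6) (nat_lit 285) (nat_lit 385)) (l (nat_lit 6) (nat_lit 260) (nat_lit 335)))))) (n (nat_lit 361) (b (n (nat_lit 360) (b (l (nat_lit 6) (nat_lit 285) (nat_lit 385)) (l (nat_lit 6) (nat_lit 260) (nat_lit 335)))) (n (nat_lit 362) (b (l (nat_lit 4) (nat_lit 286) (nat_lit 387)) (l (nat_lit 4) (nat_lit 261) (nat_lit 337))))))) (n (nat_lit 337) (b (n (nat_lit 262) (b (n (nat_lit 287) (b (n (nat_lit 260) (b (n (nat_lit 288)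 (b (l (nat_lit 3) (nat_lit 260) (nat_lit 289)) (l (nat_lit 0) (nat_lit 259) (nat_lit 259)))) (l (nat_lit 7) (nat_lit 235) (nat_lit 235)))) (n (nat_lit 338) (b (n (nat_lit 310) (b (l (nat_lit 0) (nat_lit 309) (nat_lit 309)) (l (nat_lit 3) (nat_lit 310) (nat_lit 339)))) (l (nat_lit 4) (nat_lit 262) (nat_lit 363)))))) (l (nat_lit 5) (nat_lit 236) (nat_lit 237)))) (l (nat_lit 4) (nat_lit 261) (nat_lit 362))))))))))) (b (b (n (nat_lit 261) (b (b (n (nat_lit 336) (b (b (n (nat_lit 361) (b (n (nat_lit 262) (b (l (nat_lit 5) (nat_lit 236) (nat_lit 237)) (l (nat_lit 5) (nat_lit 261) (nat_lit 287)))) (n (nat_lit 362) (b (l (nat_lit 4) (nat_lit 286) (nat_lit 387)) (l (nat_lit 4) (nat_lit 261) (nat_lit 337)))))) (n (nat_lit 361) (b (n (nat_lit 287) (b (l (nat_lit 5) (nat_lit 261) (nat_lit 262)) (l (nat_lit 5) (nat_lit 286) (nat_lit 386)))) (n (nat_lit 360) (b (l (nat_lit 6) (nat_lit 285) (nat_lit 385)) (l (nat_lit 6) (nat_lit 260) (nat_lit 335))))))) (n (nat_lit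 337) (b (n (nat_lit 335) (b (n (nat_lit 334) (b (n (nat_lit 309) (b (n (nat_lit 359) (b (n (nat_lit 310) (b (n (nat_lit 384) (b (l (nat_lit 5) (nat_lit 309) (nat_lit 409)) (l (nat_lit 5) (nat_lit 284) (nat_lit 285)))) (l (nat_lit 3) (nat_lit 309) (nat_lit 338)))) (l (nat_lit 2) (nat_lit 333) (nat_lit 358)))) (l (nat_lit 3) (nat_lit 308) (nat_lit 308)))) (l (nat_lit 1) (nat_lit 308) (nat_lit 333)))) (l (nat_lit 6) (nat_lit 260) (nat_lit 360)))) (l (nat_lit 4) (nat_lit 261) (nat_lit 362)))))) (n (nat_lit 236) (b (b (n (nat_lit 336) (b (n (nat_lit 237) (b (l (nat_lit 5) (nat_lit 211) (nat_lit 212)) (l (nat_lit 5) (nat_lit 236) (nat_lit 262)))) (n (nat_lit 335) (b (l (nat_lit 6) (nat_lit 260) (nat_lit 360)) (l (nat_lit 6) (nat_lit 235) (nat_lit 310)))))) (n (nat_lit 211) (b (n (nat_lit 310) (b (l (nat_lit 6) (nat_lit 235) (nat_lit 335)) (l (nat_lit 6) (nat_lit 210) (nat_lit 285)))) (l (nat_lit 4) (nat_lit 211) (nat_lit 287))))) (n (nat_lit 211) (b (n (nat_lit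 212) (b (l (nat_lit 5) (nat_lit 211) (nat_lit 237)) (l (nat_lit 5) (nat_lit 186) (nat_lit 187)))) (l (nat_lit 4) (nat_lit 211) (nat_lit 287))))))) (b (n (nat_lit 337) (b (n (nat_lit 362) (b (l (nat_lit 7) (nat_lit 261) (nat_lit 287)) (l (nat_lit 7) (nat_lit 286) (nat_lit 387)))) (l (nat_lit 4) (nat_lit 236) (nat_lit 236)))) (n (nat_lit 337) (b (n (nat_lit 362) (b (l (nat_lit 4) (nat_lit 261) (nat_lit 336)) (l (nat_lit 7) (nat_lit 286) (nat_lit 387)))) (l (nat_lit 4) (nat_lit 236) (nat_lit 236))))))) (n (nat_lit 261) (b (b (r (nat_lit 2)) (n (nat_lit 236) (b (n (nat_lit 211) (b (n (nat_lit 212) (b (l (nat_lit 5) (nat_lit 211) (nat_lit 237)) (l (nat_lit 5) (nat_lit 186) (nat_lit 187)))) (n (nat_lit 210) (b (l (nat_lit 7) (nat_lit 185) (nat_lit 185)) (l (nat_lit 7) (nat_lit 210) (nat_lit 235)))))) (l (nat_lit 4) (nat_lit 236) (nat_lit 337))))) (b (n (nat_lit 336) (b (b (n (nat_lit 361) (b (n (nat_lit 260) (b (l (nat_lit 7) (nat_lit 235) (nat_lit 235)) (l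 (nat_lit 7) (nat_lit 260) (nat_lit 285)))) (n (nat_lit 360) (b (l (nat_lit 6) (nat_lit 285) (nat_lit 385)) (l (nat_lit 6) (nat_lit 260) (nat_lit 335)))))) (n (nat_lit 236) (b (n (nat_lit 335) (b (l (nat_lit 6) (nat_lit 260) (nat_lit 360)) (l (nat_lit 6) (nat_lit 235) (nat_lit 310)))) (n (nat_lit 237) (b (l (nat_lit 5) (nat_lit 211) (nat_lit 212)) (l (nat_lit 5) (nat_lit 236) (nat_lit 262))))))) (n (nat_lit 236) (b (n (nat_lit 235) (b (l (nat_lit 7) (nat_lit 235) (nat_lit 260)) (l (nat_lit 7) (nat_lit 210) (nat_lit 210)))) (n (nat_lit 237) (b (l (nat_lit 5) (nat_lit 211) (nat_lit 212)) (l (nat_lit 5) (nat_lit 236) (nat_lit 262)))))))) (n (nat_lit 337) (b (n (nat_lit 362) (b (l (nat_lit 4) (nat_lit 261) (nat_lit 336)) (l (nat_lit 7) (nat_lit 286) (nat_lit 387)))) (l (nat_lit 4) (nat_lit 236) (nat_lit 236)))))))) (b (n (nat_lit 261) (b (b (n (nat_lit 236) (b (b (n (nat_lit 336) (b (n (nat_lit 235) (b (l (nat_lit 7) (nat_lit 235) (nat_lit 260)) (l (nat_lit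 7) (nat_lit 210) (nat_lit 210)))) (n (nat_lit 237) (b (l (nat_lit 5) (nat_lit 211) (nat_lit 212)) (l (nat_lit 5) (nat_lit 236) (nat_lit 262)))))) (n (nat_lit 211) (b (n (nat_lit 212) (b (l (nat_lit 5) (nat_lit 211) (nat_lit 237)) (l (nat_lit 5) (nat_lit 186) (nat_lit 187)))) (l (nat_lit 4) (nat_lit 211) (nat_lit 287))))) (n (nat_lit 211) (b (n (nat_lit 210) (b (l (nat_lit 7) (nat_lit 185) (nat_lit 185)) (l (nat_lit 7) (nat_lit 210) (nat_lit 235)))) (l (nat_lit 4) (nat_lit 211) (nat_lit 287)))))) (n (nat_lit 236) (b (n (nat_lit 211) (b (n (nat_lit 212) (b (l (nat_lit 5) (nat_lit 211) (nat_lit 237)) (l (nat_lit 5) (nat_lit 186) (nat_lit 187)))) (n (nat_lit 210) (b (l (nat_lit 7) (nat_lit 185) (nat_lit 185)) (l (nat_lit 7) (nat_lit 210) (nat_lit 235)))))) (l (nat_lit 4) (nat_lit 236) (nat_lit 337))))) (b (n (nat_lit 337) (b (n (nat_lit 362) (b (l (nat_lit 7) (nat_lit 261) (nat_lit 287)) (l (nat_lit 7) (nat_lit 286) (nat_lit 387)))) (l (nat_lit 4) (nat_lit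 236) (nat_lit 236)))) (n (nat_lit 336) (b (b (n (nat_lit 262) (b (n (nat_lit 263) (b (b (n (nat_lit 238) (b (n (nat_lit 260) (b (l (nat_lit 7) (nat_lit 235) (nat_lit 235)) (l (nat_lit 1) (nat_lit 235) (nat_lit 239)))) (n (nat_lit 337) (b (l (nat_lit 5) (nat_lit 237) (nat_lit 287)) (l (nat_lit 4) (nat_lit 261) (nat_lit 362)))))) (n (nat_lit 285) (b (n (nat_lit 260) (b (l (nat_lit 7) (nat_lit 235) (nat_lit 235)) (l (nat_lit 2) (nat_lit 259) (nat_lit 284)))) (l (nat_lit 2) (nat_lit 260) (nat_lit 264))))) (n (nat_lit 285) (b (n (nat_lit 284) (b (l (nat_lit 1) (nat_lit 259) (nat_lit 287)) (l (nat_lit 1) (nat_lit 258) (nat_lit 283)))) (l (nat_lit 2) (nat_lit 260) (nat_lit 264)))))) (l (nat_lit 5) (nat_lit 236) (nat_lit 237)))) (n (nat_lit 361) (b (n (nat_lit 287) (b (l (nat_lit 5) (nat_lit 261) (nat_lit 262)) (l (nat_lit 5) (nat_lit 286) (nat_lit 386)))) (n (nat_lit 260) (b (l (nat_lit 7) (nat_lit 235) (nat_lit 235)) (l (nat_lit 7) (nat_lit 260) (nat_lit 285)))))))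 (b (n (nat_lit 361) (b (n (nat_lit 262) (b (l (nat_lit 5) (nat_lit 236) (nat_lit 237)) (l (nat_lit 5) (nat_lit 261) (nat_lit 287)))) (n (nat_lit 362) (b (l (nat_lit 4) (nat_lit 286) (nat_lit 387)) (l (nat_lit 4) (nat_lit 261) (nat_lit 337)))))) (n (nat_lit 361) (b (n (nat_lit 260) (b (l (nat_lit 7) (nat_lit 235) (nat_lit 235)) (l (nat_lit 7) (nat_lit 260) (nat_lit 285)))) (n (nat_lit 362) (b (l (nat_lit 4) (nat_lit 286) (nat_lit 387)) (l (nat_lit 4) (nat_lit 261) (nat_lit 337)))))))))))) (n (nat_lit 261) (b (b (r (nat_lit 2)) (n (nat_lit 336) (b (b (n (nat_lit 236) (b (n (nat_lit 335) (b (l (nat_lit 6) (nat_lit 260) (nat_lit 360)) (l (nat_lit 6) (nat_lit 235) (nat_lit 310)))) (n (nat_lit 235) (b (l (nat_lit 7) (nat_lit 235) (nat_lit 260)) (l (nat_lit 7) (nat_lit 210) (nat_lit 210)))))) (n (nat_lit 361) (b (n (nat_lit 287) (b (l (nat_lit 5) (nat_lit 261) (nat_lit 262)) (l (nat_lit 5) (nat_lit 286) (nat_lit 386)))) (n (nat_lit 360) (b (l (nat_lit 6) (nat_lit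 285) (nat_lit 385)) (l (nat_lit 6) (nat_lit 260) (nat_lit 335))))))) (n (nat_lit 361) (b (n (nat_lit 287) (b (l (nat_lit 5) (nat_lit 261) (nat_lit 262)) (l (nat_lit 5) (nat_lit 286) (nat_lit 386)))) (n (nat_lit 260) (b (l (nat_lit 7) (nat_lit 235) (nat_lit 235)) (l (nat_lit 7) (nat_lit 260) (nat_lit 285))))))))) (n (nat_lit 337) (b (n (nat_lit 362) (b (l (nat_lit 7) (nat_lit 261) (nat_lit 287)) (l (nat_lit 7) (nat_lit 286) (nat_lit 387)))) (l (nat_lit 4) (nat_lit 236) (nat_lit 236))))))))) (b (n (nat_lit 261) (b (b (n (nat_lit 236) (b (n (nat_lit 211) (b (n (nat_lit 212) (b (l (nat_lit 5) (nat_lit 211) (nat_lit 237)) (l (nat_lit 5) (nat_lit 186) (nat_lit 187)))) (l (nat_lit 4) (nat_lit 211) (nat_lit 287)))) (n (nat_lit 336) (b (n (nat_lit 335) (b (l (nat_lit 6) (nat_lit 260) (nat_lit 360)) (l (nat_lit 6) (nat_lit 235) (nat_lit 310)))) (n (nat_lit 235) (b (l (nat_lit 7) (nat_lit 235) (nat_lit 260)) (l (nat_lit 7) (nat_lit 210) (nat_lit 210)))))))) (n (nat_lit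 337) (b (n (nat_lit 362) (b (l (nat_lit 7) (nat_lit 261) (nat_lit 287)) (l (nat_lit 7) (nat_lit 286) (nat_lit 387)))) (l (nat_lit 4) (nat_lit 236) (nat_lit 236))))) (r (nat_lit 2)))) (r (nat_lit 3)))))
    (envOK_cons p700 (envOK_cons p789 (envOK_cons p828 (envOK_cons p907 envOK_nil)))) (by decide +kernel)

theorem p909 : Fam (nat_lit 14) (nat_lit 8343699359066055009355553539724812947666814540455674882605631280555545803830627148527195652096) (nat_lit 40985471286457642212802233596654176634411566607807224401105219584487842952332126849474804166759006725103668904366956146065408) (nat_lit 40985471286457642212802233596654176634411566607807224401105219584487842952332126849474804166759006725103668904366956146065408) :=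
  chk_sound (Env.cons (nat_lit 9) (nat_lit 29202947756731192532744437389036845316833850891594862089119709481944410313407195019845184782336) (nat_lit 630432117930660728630042958831892715946334961782838832883166628903098017754591055195340470994646554717939036212690944) (Env.cons (nat_lit 10) (nat_lit 12515549038599082514033330309587219421500221810683512323908446920833318705745940722790793478144) (nat_lit 945648176895987383367773671472941346808861785847613820867993306177058556762487370460246034140408528075242190263025664) (Env.cons (nat_lit 10) (nat_lit 12515549038599082514033330309587219421500221810683512323908446920833318705745940722790793478144) (nat_lit 945648176895987435861791066265180907695501819172824522258295883160397613216844672950607971427596951736713513812361216) (Env.cons (nat_lit 7) (nat_lit 29202947756731192532744437389036845316833850891594862089119709481944410313407195019845184782336) (nat_lit 6610559963716537584179809744816594510892489491368450970611074838643208697438048674189364177367829234995414564417779204620288)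 (Env.cons (nat_lit 7) (nat_lit 29202947756731192532744437389036845316833850891594862089119709481944410313407195019845184782336) (nat_lit 315216063662419659392120989194903708672350244082982394739805517475890445645417555668327625188674297477993895192166400) (Env.cons (nat_lit 7) (nat_lit 14601473878365596266372218694518422658416925445797431044559854740972205156703597509922592391168) (nat_lit 945648176895982938874233119831206903969754336886382808873263875403900089647336188223231352230741228426902080260669440) (Env.cons (nat_lit 7) (nat_lit 14601473878365596266372218694518422658416925445797431044559854740972205156703597509922592391168) (nat_lit 78804015915603943708692277722190454643652744080616005031751379464753678598685586034387568734776638667144558140194816) (Env.cons (nat_lit 7) (nat_lit 14601473878365596266372218694518422658416925445797431044559854740972205156703597509922592391168) (nat_lit 6610559963716537584179792246843128083538565450808334214583067836719255247181280281272909613827597799826019461775131049721856)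 (Env.cons (nat_lit 7) (nat_lit 14601473878365596266372218694518422658416925445797431044559854740972205156703597509922592391168) (nat_lit 6610559963716537584183711800141939237425778319930822496982104979311670003164162206618162227518915243228319518300622733443072) (Env.cons (nat_lit 9) (nat_lit 12515549038599082514033330309587219421500221810683512323908446920833318705745940722790793478144) (nat_lit 945648181593068060676886644393800325930039440711997429558943074346661311134729703619189082123529245788384960714899456) (Env.cons (nat_lit 8) (nat_lit 12515549038599082514033330309587219421500221810683512323908446920833318705745940722790793478144) (nat_lit 6610560278932596549514653549357890259059045446222290996872595508727224887604356660451482971617334669661789432758768412655616) (Env.cons (nat_lit 11) (nat_lit 12515549038599082514033330309587219421500221810683512323908446920833318705745940722790793478144) (nat_lit 26442239933670166839461129369163268549096875328307756962574993335828727936955081993312587155130738849913640149769788680306688)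 (Env.cons (nat_lit 13) (nat_lit 12515549038599082514033330309587219421500221810683512323908446920833318705745940722790793478144) (nat_lit 14543232534847698254721133036739268505793285459116653554888713529116980462871837211866441983875160715034739273755012676714496) Env.nil)))))))))))))
    (n (nat_lit 311) (b (b (b (b (n (nat_lit 313) (b (b (b (n (nat_lit 310) (b (n (nat_lit 288) (b (n (nat_lit 338) (b (n (nat_lit 263) (b (b (n (nat_lit 238) (b (n (nat_lit 239) (b (l (nat_lit 5) (nat_lit 238) (nat_lit 264)) (l (nat_lit 5) (nat_lit 213) (nat_lit 214)))) (n (nat_lit 237) (b (l (nat_lit 7) (nat_lit 212) (nat_lit 212)) (l (nat_lit 7) (nat_lit 237) (nat_lit 262)))))) (n (nat_lit 337) (b (l (nat_lit 6) (nat_lit 237) (nat_lit 238)) (l (nat_lit 6) (nat_lit 262) (nat_lit 362))))) (n (nat_lit 363) (b (n (nat_lit 287) (b (l (nat_lit 7) (nat_lit 262) (nat_lit 262)) (l (nat_lit 7) (nat_lit 287) (nat_lit 388)))) (n (nat_lit 362) (b (l (nat_lit 6) (nat_lit 262) (nat_lit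 337)) (l (nat_lit 6) (nat_lit 287) (nat_lit 387)))))))) (l (nat_lit 0) (nat_lit 310) (nat_lit 339)))) (l (nat_lit 1) (nat_lit 285) (nat_lit 289)))) (n (nat_lit 309) (b (n (nat_lit 334) (b (l (nat_lit 2) (nat_lit 309) (nat_lit 335)) (l (nat_lit 2) (nat_lit 308) (nat_lit 333)))) (n (nat_lit 284) (b (l (nat_lit 3) (nat_lit 283) (nat_lit 283)) (l (nat_lit 3) (nat_lit 284) (nat_lit 285)))))))) (n (nat_lit 310) (b (b (n (nat_lit 314) (b (n (nat_lit 285) (b (l (nat_lit 3) (nat_lit 284) (nat_lit 284)) (l (nat_lit 3) (nat_lit 285) (nat_lit 286)))) (n (nat_lit 289) (b (l (nat_lit 1) (nat_lit 286) (nat_lit 290)) (l (nat_lit 1) (nat_lit 285) (nat_lit 288)))))) (n (nat_lit 309) (b (n (nat_lit 334) (b (l (nat_lit 2) (nat_lit 309) (nat_lit 335)) (l (nat_lit 2) (nat_lit 308) (nat_lit 333)))) (n (nat_lit 288) (b (l (nat_lit 1) (nat_lit 284) (nat_lit 287)) (l (nat_lit 1) (nat_lit 285) (nat_lit 289))))))) (n (nat_lit 309) (b (n (nat_lit 334) (b (l (nat_lit 2) (nat_lit 309)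 (nat_lit 335)) (l (nat_lit 2) (nat_lit 308) (nat_lit 333)))) (n (nat_lit 284) (b (l (nat_lit 3) (nat_lit 283) (nat_lit 283)) (l (nat_lit 3) (nat_lit 284) (nat_lit 285))))))))) (b (n (nat_lit 310) (b (b (n (nat_lit 314) (b (n (nat_lit 285) (b (l (nat_lit 3) (nat_lit 284) (nat_lit 284)) (l (nat_lit 3) (nat_lit 285) (nat_lit 286)))) (n (nat_lit 339) (b (l (nat_lit 0) (nat_lit 311) (nat_lit 340)) (l (nat_lit 0) (nat_lit 310) (nat_lit 338)))))) (n (nat_lit 309) (b (n (nat_lit 334) (b (l (nat_lit 2) (nat_lit 309) (nat_lit 335)) (l (nat_lit 2) (nat_lit 308) (nat_lit 333)))) (n (nat_lit 338) (b (l (nat_lit 0) (nat_lit 309) (nat_lit 337)) (l (nat_lit 0) (nat_lit 310) (nat_lit 339))))))) (n (nat_lit 309) (b (n (nat_lit 334) (b (l (nat_lit 2) (nat_lit 309) (nat_lit 335)) (l (nat_lit 2) (nat_lit 308) (nat_lit 333)))) (n (nat_lit 284) (b (l (nat_lit 3) (nat_lit 283) (nat_lit 283)) (l (nat_lit 3) (nat_lit 284) (nat_lit 285)))))))) (n (nat_lit 310) (b (b (n (nat_lit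 309) (b (n (nat_lit 334) (b (l (nat_lit 2) (nat_lit 309) (nat_lit 335)) (l (nat_lit 2) (nat_lit 308) (nat_lit 333)))) (n (nat_lit 288) (b (l (nat_lit 1) (nat_lit 284) (nat_lit 287)) (l (nat_lit 1) (nat_lit 285) (nat_lit 289)))))) (n (nat_lit 314) (b (n (nat_lit 339) (b (l (nat_lit 0) (nat_lit 311) (nat_lit 340)) (l (nat_lit 0) (nat_lit 310) (nat_lit 338)))) (n (nat_lit 289) (b (l (nat_lit 1) (nat_lit 286) (nat_lit 290)) (l (nat_lit 1) (nat_lit 285) (nat_lit 288))))))) (n (nat_lit 309) (b (n (nat_lit 334) (b (l (nat_lit 2) (nat_lit 309) (nat_lit 335)) (l (nat_lit 2) (nat_lit 308) (nat_lit 333)))) (n (nat_lit 338) (b (l (nat_lit 0) (nat_lit 309) (nat_lit 337)) (l (nat_lit 0) (nat_lit 310) (nat_lit 339)))))))))) (r (nat_lit 0)))) (r (nat_lit 1))) (b (r (nat_lit 2)) (n (nat_lit 313) (b (b (r (nat_lit 0)) (n (nat_lit 310) (b (b (n (nat_lit 314) (b (n (nat_lit 335) (b (l (nat_lit 2) (nat_lit 309) (nat_lit 334)) (l (nat_lit 2) (nat_lit 310) (nat_lit 336))))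 (n (nat_lit 339) (b (l (nat_lit 0) (nat_lit 311) (nat_lit 340)) (l (nat_lit 0) (nat_lit 310) (nat_lit 338)))))) (n (nat_lit 309) (b (n (nat_lit 334) (b (l (nat_lit 2) (nat_lit 309) (nat_lit 335)) (l (nat_lit 2) (nat_lit 308) (nat_lit 333)))) (n (nat_lit 284) (b (l (nat_lit 3) (nat_lit 283) (nat_lit 283)) (l (nat_lit 3) (nat_lit 284) (nat_lit 285))))))) (n (nat_lit 314) (b (n (nat_lit 285) (b (l (nat_lit 3) (nat_lit 284) (nat_lit 284)) (l (nat_lit 3) (nat_lit 285) (nat_lit 286)))) (n (nat_lit 339) (b (l (nat_lit 0) (nat_lit 311) (nat_lit 340)) (l (nat_lit 0) (nat_lit 310) (nat_lit 338))))))))) (b (n (nat_lit 314) (b (b (n (nat_lit 310) (b (n (nat_lit 339) (b (l (nat_lit 0) (nat_lit 311) (nat_lit 340)) (l (nat_lit 0) (nat_lit 310) (nat_lit 338)))) (n (nat_lit 335) (b (l (nat_lit 2) (nat_lit 309) (nat_lit 334)) (l (nat_lit 2) (nat_lit 310) (nat_lit 336)))))) (n (nat_lit 315) (b (n (nat_lit 290) (b (l (nat_lit 1) (nat_lit 286) (nat_lit 289)) (l (nat_lit 1)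 (nat_lit 287) (nat_lit 291)))) (n (nat_lit 340) (b (l (nat_lit 0) (nat_lit 312) (nat_lit 341)) (l (nat_lit 0) (nat_lit 311) (nat_lit 339))))))) (n (nat_lit 310) (b (n (nat_lit 289) (b (l (nat_lit 1) (nat_lit 286) (nat_lit 290)) (l (nat_lit 1) (nat_lit 285) (nat_lit 288)))) (n (nat_lit 335) (b (l (nat_lit 2) (nat_lit 309) (nat_lit 334)) (l (nat_lit 2) (nat_lit 310) (nat_lit 336)))))))) (r (nat_lit 3))))))) (b (b (n (nat_lit 313) (b (b (b (r (nat_lit 3)) (r (nat_lit 4))) (b (n (nat_lit 314) (b (b (n (nat_lit 315) (b (n (nat_lit 290) (b (l (nat_lit 1) (nat_lit 286) (nat_lit 289)) (l (nat_lit 1) (nat_lit 287) (nat_lit 291)))) (n (nat_lit 340) (b (l (nat_lit 0) (nat_lit 312) (nat_lit 341)) (l (nat_lit 0) (nat_lit 311) (nat_lit 339)))))) (n (nat_lit 315) (b (n (nat_lit 286) (b (l (nat_lit 3) (nat_lit 286) (nat_lit 287)) (l (nat_lit 3) (nat_lit 285) (nat_lit 285)))) (n (nat_lit 340) (b (l (nat_lit 0) (nat_lit 312) (nat_lit 341)) (l (nat_lit 0) (nat_lit 311)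 (nat_lit 339))))))) (n (nat_lit 310) (b (n (nat_lit 289) (b (l (nat_lit 1) (nat_lit 286) (nat_lit 290)) (l (nat_lit 1) (nat_lit 285) (nat_lit 288)))) (n (nat_lit 285) (b (l (nat_lit 3) (nat_lit 284) (nat_lit 284)) (l (nat_lit 3) (nat_lit 285) (nat_lit 286)))))))) (n (nat_lit 314) (b (b (n (nat_lit 315) (b (n (nat_lit 336) (b (l (nat_lit 2) (nat_lit 310) (nat_lit 335)) (l (nat_lit 2) (nat_lit 311) (nat_lit 337)))) (n (nat_lit 340) (b (l (nat_lit 0) (nat_lit 312) (nat_lit 341)) (l (nat_lit 0) (nat_lit 311) (nat_lit 339)))))) (n (nat_lit 310) (b (n (nat_lit 285) (b (l (nat_lit 3) (nat_lit 284) (nat_lit 284)) (l (nat_lit 3) (nat_lit 285) (nat_lit 286)))) (n (nat_lit 335) (b (l (nat_lit 2) (nat_lit 309) (nat_lit 334)) (l (nat_lit 2) (nat_lit 310) (nat_lit 336))))))) (n (nat_lit 315) (b (n (nat_lit 286) (b (l (nat_lit 3) (nat_lit 286) (nat_lit 287)) (l (nat_lit 3) (nat_lit 285) (nat_lit 285)))) (n (nat_lit 340) (b (l (nat_lit 0) (nat_lit 312) (nat_lit 341))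 (l (nat_lit 0) (nat_lit 311) (nat_lit 339)))))))))) (n (nat_lit 314) (b (b (n (nat_lit 310) (b (n (nat_lit 289) (b (l (nat_lit 1) (nat_lit 286) (nat_lit 290)) (l (nat_lit 1) (nat_lit 285) (nat_lit 288)))) (n (nat_lit 335) (b (l (nat_lit 2) (nat_lit 309) (nat_lit 334)) (l (nat_lit 2) (nat_lit 310) (nat_lit 336)))))) (n (nat_lit 315) (b (n (nat_lit 336) (b (l (nat_lit 2) (nat_lit 310) (nat_lit 335)) (l (nat_lit 2) (nat_lit 311) (nat_lit 337)))) (n (nat_lit 340) (b (l (nat_lit 0) (nat_lit 312) (nat_lit 341)) (l (nat_lit 0) (nat_lit 311) (nat_lit 339))))))) (n (nat_lit 315) (b (n (nat_lit 290) (b (l (nat_lit 1) (nat_lit 286) (nat_lit 289)) (l (nat_lit 1) (nat_lit 287) (nat_lit 291)))) (n (nat_lit 340) (b (l (nat_lit 0) (nat_lit 312) (nat_lit 341)) (l (nat_lit 0) (nat_lit 311) (nat_lit 339)))))))))) (n (nat_lit 310) (b (b (r (nat_lit 5)) (n (nat_lit 309) (b (b (n (nat_lit 313) (b (n (nat_lit 334) (b (l (nat_lit 2) (nat_lit 309) (nat_lit 335)) (l (nat_lit 2)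 (nat_lit 308) (nat_lit 333)))) (n (nat_lit 288) (b (l (nat_lit 1) (nat_lit 284) (nat_lit 287)) (l (nat_lit 1) (nat_lit 285) (nat_lit 289)))))) (n (nat_lit 308) (b (n (nat_lit 283) (b (l (nat_lit 3) (nat_lit 283) (nat_lit 284)) (l (nat_lit 3) (nat_lit 282) (nat_lit 282)))) (n (nat_lit 333) (b (l (nat_lit 2) (nat_lit 307) (nat_lit 332)) (l (nat_lit 2) (nat_lit 308) (nat_lit 334))))))) (n (nat_lit 313) (b (n (nat_lit 284) (b (l (nat_lit 3) (nat_lit 283) (nat_lit 283)) (l (nat_lit 3) (nat_lit 284) (nat_lit 285)))) (n (nat_lit 288) (b (l (nat_lit 1) (nat_lit 284) (nat_lit 287)) (l (nat_lit 1) (nat_lit 285) (nat_lit 289))))))))) (b (n (nat_lit 313) (b (b (n (nat_lit 314) (b (n (nat_lit 339) (b (l (nat_lit 0) (nat_lit 311) (nat_lit 340)) (l (nat_lit 0) (nat_lit 310) (nat_lit 338)))) (n (nat_lit 289) (b (l (nat_lit 1) (nat_lit 286) (nat_lit 290)) (l (nat_lit 1) (nat_lit 285) (nat_lit 288)))))) (n (nat_lit 309) (b (n (nat_lit 338) (b (l (nat_lit 0) (nat_lit 309)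 (nat_lit 337)) (l (nat_lit 0) (nat_lit 310) (nat_lit 339)))) (n (nat_lit 284) (b (l (nat_lit 3) (nat_lit 283) (nat_lit 283)) (l (nat_lit 3) (nat_lit 284) (nat_lit 285))))))) (n (nat_lit 309) (b (n (nat_lit 288) (b (l (nat_lit 1) (nat_lit 284) (nat_lit 287)) (l (nat_lit 1) (nat_lit 285) (nat_lit 289)))) (n (nat_lit 284) (b (l (nat_lit 3) (nat_lit 283) (nat_lit 283)) (l (nat_lit 3) (nat_lit 284) (nat_lit 285)))))))) (r (nat_lit 6)))))) (b (n (nat_lit 310) (b (b (b (r (nat_lit 6)) (n (nat_lit 309) (b (b (n (nat_lit 313) (b (n (nat_lit 284) (b (l (nat_lit 3) (nat_lit 283) (nat_lit 283)) (l (nat_lit 3) (nat_lit 284) (nat_lit 285)))) (n (nat_lit 334) (b (l (nat_lit 2) (nat_lit 309) (nat_lit 335)) (l (nat_lit 2) (nat_lit 308) (nat_lit 333)))))) (n (nat_lit 308) (b (n (nat_lit 333) (b (l (nat_lit 2) (nat_lit 307) (nat_lit 332)) (l (nat_lit 2) (nat_lit 308) (nat_lit 334)))) (n (nat_lit 287) (b (l (nat_lit 1) (nat_lit 283) (nat_lit 286)) (l (nat_lit 1) (nat_lit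 284) (nat_lit 288))))))) (n (nat_lit 308) (b (n (nat_lit 287) (b (l (nat_lit 1) (nat_lit 283) (nat_lit 286)) (l (nat_lit 1) (nat_lit 284) (nat_lit 288)))) (n (nat_lit 283) (b (l (nat_lit 3) (nat_lit 283) (nat_lit 284)) (l (nat_lit 3) (nat_lit 282) (nat_lit 282))))))))) (b (n (nat_lit 309) (b (b (n (nat_lit 308) (b (n (nat_lit 337) (b (l (nat_lit 0) (nat_lit 309) (nat_lit 338)) (l (nat_lit 0) (nat_lit 308) (nat_lit 336)))) (n (nat_lit 333) (b (l (nat_lit 2) (nat_lit 307) (nat_lit 332)) (l (nat_lit 2) (nat_lit 308) (nat_lit 334)))))) (n (nat_lit 313) (b (n (nat_lit 334) (b (l (nat_lit 2) (nat_lit 309) (nat_lit 335)) (l (nat_lit 2) (nat_lit 308) (nat_lit 333)))) (n (nat_lit 288) (b (l (nat_lit 1) (nat_lit 284) (nat_lit 287)) (l (nat_lit 1) (nat_lit 285) (nat_lit 289))))))) (n (nat_lit 308) (b (n (nat_lit 287) (b (l (nat_lit 1) (nat_lit 283) (nat_lit 286)) (l (nat_lit 1) (nat_lit 284) (nat_lit 288)))) (n (nat_lit 337) (b (l (nat_lit 0) (nat_lit 309) (nat_lit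 338)) (l (nat_lit 0) (nat_lit 308) (nat_lit 336)))))))) (n (nat_lit 309) (b (b (n (nat_lit 313) (b (n (nat_lit 284) (b (l (nat_lit 3) (nat_lit 283) (nat_lit 283)) (l (nat_lit 3) (nat_lit 284) (nat_lit 285)))) (n (nat_lit 288) (b (l (nat_lit 1) (nat_lit 284) (nat_lit 287)) (l (nat_lit 1) (nat_lit 285) (nat_lit 289)))))) (n (nat_lit 308) (b (n (nat_lit 287) (b (l (nat_lit 1) (nat_lit 283) (nat_lit 286)) (l (nat_lit 1) (nat_lit 284) (nat_lit 288)))) (n (nat_lit 337) (b (l (nat_lit 0) (nat_lit 309) (nat_lit 338)) (l (nat_lit 0) (nat_lit 308) (nat_lit 336))))))) (n (nat_lit 308) (b (n (nat_lit 337) (b (l (nat_lit 0) (nat_lit 309) (nat_lit 338)) (l (nat_lit 0) (nat_lit 308) (nat_lit 336)))) (n (nat_lit 283) (b (l (nat_lit 3) (nat_lit 283) (nat_lit 284)) (l (nat_lit 3) (nat_lit 282) (nat_lit 282)))))))))) (r (nat_lit 7)))) (n (nat_lit 310) (b (b (b (r (nat_lit 6)) (r (nat_lit 8))) (b (n (nat_lit 309) (b (b (n (nat_lit 313) (b (n (nat_lit 284) (b (l (nat_lit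 3) (nat_lit 283) (nat_lit 283)) (l (nat_lit 3) (nat_lit 284) (nat_lit 285)))) (n (nat_lit 334) (b (l (nat_lit 2) (nat_lit 309) (nat_lit 335)) (l (nat_lit 2) (nat_lit 308) (nat_lit 333)))))) (n (nat_lit 308) (b (n (nat_lit 333) (b (l (nat_lit 2) (nat_lit 307) (nat_lit 332)) (l (nat_lit 2) (nat_lit 308) (nat_lit 334)))) (n (nat_lit 287) (b (l (nat_lit 1) (nat_lit 283) (nat_lit 286)) (l (nat_lit 1) (nat_lit 284) (nat_lit 288))))))) (n (nat_lit 308) (b (n (nat_lit 287) (b (l (nat_lit 1) (nat_lit 283) (nat_lit 286)) (l (nat_lit 1) (nat_lit 284) (nat_lit 288)))) (n (nat_lit 283) (b (l (nat_lit 3) (nat_lit 283) (nat_lit 284)) (l (nat_lit 3) (nat_lit 282) (nat_lit 282)))))))) (n (nat_lit 309) (b (b (n (nat_lit 308) (b (n (nat_lit 333) (b (l (nat_lit 2) (nat_lit 307) (nat_lit 332)) (l (nat_lit 2) (nat_lit 308) (nat_lit 334)))) (n (nat_lit 287) (b (l (nat_lit 1) (nat_lit 283) (nat_lit 286)) (l (nat_lit 1) (nat_lit 284) (nat_lit 288)))))) (n (nat_lit 313) (b (n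 (nat_lit 338) (b (l (nat_lit 0) (nat_lit 309) (nat_lit 337)) (l (nat_lit 0) (nat_lit 310) (nat_lit 339)))) (n (nat_lit 334) (b (l (nat_lit 2) (nat_lit 309) (nat_lit 335)) (l (nat_lit 2) (nat_lit 308) (nat_lit 333))))))) (n (nat_lit 308) (b (n (nat_lit 287) (b (l (nat_lit 1) (nat_lit 283) (nat_lit 286)) (l (nat_lit 1) (nat_lit 284) (nat_lit 288)))) (n (nat_lit 337) (b (l (nat_lit 0) (nat_lit 309) (nat_lit 338)) (l (nat_lit 0) (nat_lit 308) (nat_lit 336)))))))))) (n (nat_lit 309) (b (b (n (nat_lit 313) (b (n (nat_lit 284) (b (l (nat_lit 3) (nat_lit 283) (nat_lit 283)) (l (nat_lit 3) (nat_lit 284) (nat_lit 285)))) (n (nat_lit 338) (b (l (nat_lit 0) (nat_lit 309) (nat_lit 337)) (l (nat_lit 0) (nat_lit 310) (nat_lit 339)))))) (n (nat_lit 308) (b (n (nat_lit 287) (b (l (nat_lit 1) (nat_lit 283) (nat_lit 286)) (l (nat_lit 1) (nat_lit 284) (nat_lit 288)))) (n (nat_lit 337) (b (l (nat_lit 0) (nat_lit 309) (nat_lit 338)) (l (nat_lit 0) (nat_lit 308) (nat_lit 336)))))))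 (n (nat_lit 308) (b (n (nat_lit 287) (b (l (nat_lit 1) (nat_lit 283) (nat_lit 286)) (l (nat_lit 1) (nat_lit 284) (nat_lit 288)))) (n (nat_lit 283) (b (l (nat_lit 3) (nat_lit 283) (nat_lit 284)) (l (nat_lit 3) (nat_lit 282) (nat_lit 282))))))))))))) (b (b (b (r (nat_lit 9)) (r (nat_lit 10))) (b (n (nat_lit 310) (b (b (b (r (nat_lit 5)) (n (nat_lit 309) (b (b (n (nat_lit 313) (b (n (nat_lit 338) (b (l (nat_lit 0) (nat_lit 309) (nat_lit 337)) (l (nat_lit 0) (nat_lit 310) (nat_lit 339)))) (n (nat_lit 288) (b (l (nat_lit 1) (nat_lit 284) (nat_lit 287)) (l (nat_lit 1) (nat_lit 285) (nat_lit 289)))))) (n (nat_lit 308) (b (n (nat_lit 287) (b (l (nat_lit 1) (nat_lit 283) (nat_lit 286)) (l (nat_lit 1) (nat_lit 284) (nat_lit 288)))) (n (nat_lit 283) (b (l (nat_lit 3) (nat_lit 283) (nat_lit 284)) (l (nat_lit 3) (nat_lit 282) (nat_lit 282))))))) (n (nat_lit 308) (b (n (nat_lit 337) (b (l (nat_lit 0) (nat_lit 309) (nat_lit 338)) (l (nat_lit 0) (nat_lit 308) (nat_lit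 336)))) (n (nat_lit 283) (b (l (nat_lit 3) (nat_lit 283) (nat_lit 284)) (l (nat_lit 3) (nat_lit 282) (nat_lit 282))))))))) (b (n (nat_lit 309) (b (b (n (nat_lit 313) (b (n (nat_lit 338) (b (l (nat_lit 0) (nat_lit 309) (nat_lit 337)) (l (nat_lit 0) (nat_lit 310) (nat_lit 339)))) (n (nat_lit 334) (b (l (nat_lit 2) (nat_lit 309) (nat_lit 335)) (l (nat_lit 2) (nat_lit 308) (nat_lit 333)))))) (n (nat_lit 308) (b (n (nat_lit 283) (b (l (nat_lit 3) (nat_lit 283) (nat_lit 284)) (l (nat_lit 3) (nat_lit 282) (nat_lit 282)))) (n (nat_lit 333) (b (l (nat_lit 2) (nat_lit 307) (nat_lit 332)) (l (nat_lit 2) (nat_lit 308) (nat_lit 334))))))) (n (nat_lit 308) (b (n (nat_lit 337) (b (l (nat_lit 0) (nat_lit 309) (nat_lit 338)) (l (nat_lit 0) (nat_lit 308) (nat_lit 336)))) (n (nat_lit 283) (b (l (nat_lit 3) (nat_lit 283) (nat_lit 284)) (l (nat_lit 3) (nat_lit 282) (nat_lit 282)))))))) (n (nat_lit 309) (b (b (n (nat_lit 313) (b (n (nat_lit 334) (b (l (nat_lit 2) (nat_lit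 309) (nat_lit 335)) (l (nat_lit 2) (nat_lit 308) (nat_lit 333)))) (n (nat_lit 288) (b (l (nat_lit 1) (nat_lit 284) (nat_lit 287)) (l (nat_lit 1) (nat_lit 285) (nat_lit 289)))))) (n (nat_lit 308) (b (n (nat_lit 283) (b (l (nat_lit 3) (nat_lit 283) (nat_lit 284)) (l (nat_lit 3) (nat_lit 282) (nat_lit 282)))) (n (nat_lit 333) (b (l (nat_lit 2) (nat_lit 307) (nat_lit 332)) (l (nat_lit 2) (nat_lit 308) (nat_lit 334))))))) (n (nat_lit 308) (b (n (nat_lit 287) (b (l (nat_lit 1) (nat_lit 283) (nat_lit 286)) (l (nat_lit 1) (nat_lit 284) (nat_lit 288)))) (n (nat_lit 283) (b (l (nat_lit 3) (nat_lit 283) (nat_lit 284)) (l (nat_lit 3) (nat_lit 282) (nat_lit 282)))))))))) (n (nat_lit 309) (b (b (n (nat_lit 308) (b (n (nat_lit 337) (b (l (nat_lit 0) (nat_lit 309) (nat_lit 338)) (l (nat_lit 0) (nat_lit 308) (nat_lit 336)))) (n (nat_lit 283) (b (l (nat_lit 3) (nat_lit 283) (nat_lit 284)) (l (nat_lit 3) (nat_lit 282) (nat_lit 282)))))) (n (nat_lit 308) (b (n (nat_lit 283)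 (b (l (nat_lit 3) (nat_lit 283) (nat_lit 284)) (l (nat_lit 3) (nat_lit 282) (nat_lit 282)))) (n (nat_lit 333) (b (l (nat_lit 2) (nat_lit 307) (nat_lit 332)) (l (nat_lit 2) (nat_lit 308) (nat_lit 334))))))) (n (nat_lit 337) (b (n (nat_lit 334) (b (n (nat_lit 287) (b (n (nat_lit 362) (b (n (nat_lit 336) (b (n (nat_lit 262) (b (l (nat_lit 6) (nat_lit 261) (nat_lit 361)) (l (nat_lit 6) (nat_lit 236) (nat_lit 237)))) (n (nat_lit 363) (b (l (nat_lit 0) (nat_lit 334) (nat_lit 335)) (l (nat_lit 4) (nat_lit 287) (nat_lit 388)))))) (n (nat_lit 286) (b (l (nat_lit 7) (nat_lit 286) (nat_lit 387)) (l (nat_lit 7) (nat_lit 261) (nat_lit 261)))))) (l (nat_lit 1) (nat_lit 284) (nat_lit 288)))) (l (nat_lit 2) (nat_lit 308) (nat_lit 333)))) (l (nat_lit 0) (nat_lit 309) (nat_lit 338)))))))) (n (nat_lit 310) (b (b (r (nat_lit 6)) (r (nat_lit 7))) (b (n (nat_lit 313) (b (b (n (nat_lit 314) (b (n (nat_lit 339) (b (l (nat_lit 0) (nat_lit 311) (nat_lit 340)) (l (nat_lit 0) (nat_lit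 310) (nat_lit 338)))) (n (nat_lit 289) (b (l (nat_lit 1) (nat_lit 286) (nat_lit 290)) (l (nat_lit 1) (nat_lit 285) (nat_lit 288)))))) (n (nat_lit 309) (b (n (nat_lit 338) (b (l (nat_lit 0) (nat_lit 309) (nat_lit 337)) (l (nat_lit 0) (nat_lit 310) (nat_lit 339)))) (n (nat_lit 284) (b (l (nat_lit 3) (nat_lit 283) (nat_lit 283)) (l (nat_lit 3) (nat_lit 284) (nat_lit 285))))))) (n (nat_lit 314) (b (n (nat_lit 285) (b (l (nat_lit 3) (nat_lit 284) (nat_lit 284)) (l (nat_lit 3) (nat_lit 285) (nat_lit 286)))) (n (nat_lit 289) (b (l (nat_lit 1) (nat_lit 286) (nat_lit 290)) (l (nat_lit 1) (nat_lit 285) (nat_lit 288)))))))) (n (nat_lit 313) (b (b (n (nat_lit 309) (b (n (nat_lit 334) (b (l (nat_lit 2) (nat_lit 309) (nat_lit 335)) (l (nat_lit 2) (nat_lit 308) (nat_lit 333)))) (n (nat_lit 338) (b (l (nat_lit 0) (nat_lit 309) (nat_lit 337)) (l (nat_lit 0) (nat_lit 310) (nat_lit 339)))))) (n (nat_lit 314) (b (n (nat_lit 289) (b (l (nat_lit 1) (nat_lit 286) (nat_lit 290))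 (l (nat_lit 1) (nat_lit 285) (nat_lit 288)))) (n (nat_lit 335) (b (l (nat_lit 2) (nat_lit 309) (nat_lit 334)) (l (nat_lit 2) (nat_lit 310) (nat_lit 336))))))) (n (nat_lit 314) (b (n (nat_lit 339) (b (l (nat_lit 0) (nat_lit 311) (nat_lit 340)) (l (nat_lit 0) (nat_lit 310) (nat_lit 338)))) (n (nat_lit 289) (b (l (nat_lit 1) (nat_lit 286) (nat_lit 290)) (l (nat_lit 1) (nat_lit 285) (nat_lit 288))))))))))))) (b (r (nat_lit 11)) (r (nat_lit 12))))))
    (envOK_cons p82 (envOK_cons p99 (envOK_cons p108 (envOK_cons p132 (envOK_cons p154 (envOK_cons p161 (envOK_cons p198 (envOK_cons p210 (envOK_cons p212 (envOK_cons p238 (envOK_cons p243 (envOK_cons p587 (envOK_cons p908 envOK_nil))))))))))))) (by decide +kernel)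

theorem p931 : Fam (nat_lit 8) (nat_lit 279968101115925134047353499319930152181142708231565782546248918899963984685054368582985341452834308096) (nat_lit 26442239973072210025399030026450860041658373135931183219671607283321482191035387867503208458521706723423350019238397749493760) (nat_lit 26442239973072210025399030026450860041658373135931183219671607283321482191035387867503208458521706723423350019238397749493760) :=
  chk_sound Env.nil
    (n (nat_lit 362) (b (b (n (nat_lit 387) (b (n (nat_lit 286) (b (l (nat_lit 7) (nat_lit 261) (nat_lit 261)) (l (nat_lit 7) (nat_lit 286) (nat_lit 311)))) (n (nat_lit 386) (b (l (nat_lit 6) (nat_lit 311) (nat_lit 411)) (l (nat_lit 6) (nat_lit 286) (nat_lit 361)))))) (n (nat_lit 387) (b (n (nat_lit 388) (b (l (nat_lit 4) (nat_lit 312) (nat_lit 413)) (l (nat_lit 4) (nat_lit 287) (nat_lit 363)))) (n (nat_lit 386) (b (l (nat_lit 6) (nat_lit 311) (nat_lit 411)) (l (nat_lit 6) (nat_lit 286) (nat_lit 361))))))) (b (n (nat_lit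 387) (b (n (nat_lit 286) (b (l (nat_lit 7) (nat_lit 261) (nat_lit 261)) (l (nat_lit 7) (nat_lit 286) (nat_lit 311)))) (n (nat_lit 388) (b (l (nat_lit 4) (nat_lit 312) (nat_lit 413)) (l (nat_lit 4) (nat_lit 287) (nat_lit 363)))))) (n (nat_lit 361) (b (n (nat_lit 286) (b (n (nat_lit 363) (b (n (nat_lit 360) (b (n (nat_lit 336) (b (n (nat_lit 385) (b (l (nat_lit 6) (nat_lit 285) (nat_lit 311)) (l (nat_lit 2) (nat_lit 359) (nat_lit 384)))) (n (nat_lit 335) (b (l (nat_lit 3) (nat_lit 335) (nat_lit 364)) (l (nat_lit 0) (nat_lit 334) (nat_lit 334)))))) (n (nat_lit 338) (b (l (nat_lit 1) (nat_lit 334) (nat_lit 359)) (l (nat_lit 1) (nat_lit 335) (nat_lit 339)))))) (l (nat_lit 4) (nat_lit 287) (nat_lit 388)))) (l (nat_lit 7) (nat_lit 261) (nat_lit 261)))) (l (nat_lit 6) (nat_lit 286) (nat_lit 386)))))))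
    envOK_nil (by decide +kernel)

theorem p944 : Fam (nat_lit 7) (nat_lit 279968101115925134047353499319930152181142708231565782546248918899963984685054368582985341452834308096) (nat_lit 4697085585499818129670252316780115395814879953778648338575949296031009858864294888438862350992873713643290624) (nat_lit 4697085585499818129670252316780115395814879953778648338575949296031009858864294888438862350992873713643290624) :=
  chk_sound Env.nil
    (n (nat_lit 262) (b (b (n (nat_lit 263) (b (n (nat_lit 261) (b (n (nat_lit 260) (b (b (n (nat_lit 259) (b (n (nat_lit 234) (b (l (nat_lit 3) (nat_lit 234) (nat_lit 235)) (l (nat_lit 3) (nat_lit 233) (nat_lit 233)))) (n (nat_lit 284) (b (l (nat_lit 2) (nat_lit 258) (nat_lit 283)) (l (nat_lit 2) (nat_lit 259) (nat_lit 285)))))) (n (nat_lit 288) (b (l (nat_lit 0) (nat_lit 260) (nat_lit 289)) (l (nat_lit 0) (nat_lit 259) (nat_lit 259))))) (n (nat_lit 264) (b (n (nat_lit 285) (b (l (nat_lit 2) (nat_lit 259) (nat_lit 284))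 (l (nat_lit 2) (nat_lit 260) (nat_lit 286)))) (n (nat_lit 289) (b (l (nat_lit 0) (nat_lit 261) (nat_lit 290)) (l (nat_lit 0) (nat_lit 260) (nat_lit 288)))))))) (l (nat_lit 7) (nat_lit 236) (nat_lit 236)))) (l (nat_lit 5) (nat_lit 237) (nat_lit 238)))) (n (nat_lit 237) (b (n (nat_lit 336) (b (l (nat_lit 6) (nat_lit 261) (nat_lit 361)) (l (nat_lit 6) (nat_lit 236) (nat_lit 311)))) (n (nat_lit 236) (b (l (nat_lit 7) (nat_lit 211) (nat_lit 211)) (l (nat_lit 7) (nat_lit 236) (nat_lit 261))))))) (n (nat_lit 237) (b (n (nat_lit 238) (b (l (nat_lit 5) (nat_lit 237) (nat_lit 263)) (l (nat_lit 5) (nat_lit 212) (nat_lit 213)))) (n (nat_lit 336) (b (l (nat_lit 6) (nat_lit 261) (nat_lit 361)) (l (nat_lit 6) (nat_lit 236) (nat_lit 311))))))))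
    envOK_nil (by decide +kernel)

theorem p958 : Fam (nat_lit 7) (nat_lit 279968101115925134047353499319930152181142708231565782546248918899963984685054368582985341452834308096) (nat_lit 26442239854866150336718469067014904785905374108651454474150534983756683297865512473114278618786279502268828353189190177914880) (nat_lit 26442239854866150336718469067014904785905374108651454474150534983756683297865512473114278618786279502268828353189190177914880) :=
  chk_sound Env.nil
    (n (nat_lit 362) (b (b (n (nat_lit 387) (b (n (nat_lit 286) (b (l (nat_lit 7) (nat_lit 261) (nat_lit 261)) (l (nat_lit 7) (nat_lit 286) (nat_lit 311)))) (n (nat_lit 386) (b (l (nat_lit 6) (nat_lit 311) (nat_lit 411)) (l (nat_lit 6) (nat_lit 286) (nat_lit 361)))))) (n (nat_lit 387) (b (n (nat_lit 288) (b (l (nat_lit 5) (nat_lit 262) (nat_lit 263)) (l (nat_lit 5) (nat_lit 287) (nat_lit 313)))) (n (nat_lit 388) (b (l (nat_lit 4) (nat_lit 312) (nat_lit 413)) (l (nat_lit 4) (nat_lit 287)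 (nat_lit 363))))))) (n (nat_lit 288) (b (n (nat_lit 286) (b (n (nat_lit 285) (b (b (n (nat_lit 284) (b (n (nat_lit 259) (b (l (nat_lit 3) (nat_lit 258) (nat_lit 258)) (l (nat_lit 3) (nat_lit 259) (nat_lit 260)))) (n (nat_lit 309) (b (l (nat_lit 2) (nat_lit 283) (nat_lit 308)) (l (nat_lit 2) (nat_lit 284) (nat_lit 310)))))) (n (nat_lit 313) (b (l (nat_lit 0) (nat_lit 284) (nat_lit 284)) (l (nat_lit 0) (nat_lit 285) (nat_lit 314))))) (n (nat_lit 289) (b (n (nat_lit 310) (b (l (nat_lit 2) (nat_lit 284) (nat_lit 309)) (l (nat_lit 2) (nat_lit 285) (nat_lit 311)))) (n (nat_lit 314) (b (l (nat_lit 0) (nat_lit 286) (nat_lit 315)) (l (nat_lit 0) (nat_lit 285) (nat_lit 313)))))))) (l (nat_lit 7) (nat_lit 261) (nat_lit 261)))) (l (nat_lit 5) (nat_lit 262) (nat_lit 263))))))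
    envOK_nil (by decide +kernel)

theorem p984 : Fam (nat_lit 9) (nat_lit 8343699607727673214248874617415937021077234590683750281279490000787534250410375654793883418624) (nat_lit 26442239973072210612534675720029629174022361761104878974825941203762015903834859714533855144384531184010205836380178600689664) (nat_lit 26442239973072210612534675720029629174022361761104878974825941203762015903834859714533855144384531184010205836380178600689664) :=
  chk_sound (Env.cons (nat_lit 8) (nat_lit 279968101115925134047353499319930152181142708231565782546248918899963984685054368582985341452834308096) (nat_lit 26442239973072210025399030026450860041658373135931183219671607283321482191035387867503208458521706723423350019238397749493760) Env.nil)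
    (n (nat_lit 337) (b (b (b (r (nat_lit 0)) (n (nat_lit 262) (b (b (n (nat_lit 336) (b (n (nat_lit 338) (b (n (nat_lit 335) (b (b (n (nat_lit 334) (b (n (nat_lit 359) (b (l (nat_lit 2) (nat_lit 333) (nat_lit 358)) (l (nat_lit 2) (nat_lit 334) (nat_lit 360)))) (n (nat_lit 309) (b (l (nat_lit 3) (nat_lit 308) (nat_lit 308)) (l (nat_lit 3) (nat_lit 309) (nat_lit 310)))))) (n (nat_lit 313) (b (l (nat_lit 1) (nat_lit 309) (nat_lit 334)) (l (nat_lit 1) (nat_lit 310) (nat_lit 314))))) (n (nat_lit 339) (b (n (nat_lit 310) (b (l (nat_lit 3) (nat_lit 309) (nat_lit 309)) (l (nat_lit 3) (nat_lit 310) (nat_lit 311)))) (n (nat_lit 314) (b (l (nat_lit 1) (nat_lit 311) (nat_lit 315)) (l (nat_lit 1) (nat_lit 310) (nat_lit 313)))))))) (l (nat_lit 4) (nat_lit 262) (nat_lit 363)))) (l (nat_lit 6) (nat_lit 261) (nat_lit 361)))) (n (nat_lit 237) (b (n (nat_lit 336) (b (l (nat_lit 6) (nat_lit 261) (nat_lit 361)) (l (nat_lit 6) (nat_lit 236) (nat_lit 311)))) (n (nat_lit 236)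 (b (l (nat_lit 7) (nat_lit 211) (nat_lit 211)) (l (nat_lit 7) (nat_lit 236) (nat_lit 261))))))) (n (nat_lit 237) (b (n (nat_lit 338) (b (l (nat_lit 4) (nat_lit 237) (nat_lit 313)) (l (nat_lit 4) (nat_lit 262) (nat_lit 363)))) (n (nat_lit 236) (b (l (nat_lit 7) (nat_lit 211) (nat_lit 211)) (l (nat_lit 7) (nat_lit 236) (nat_lit 261))))))))) (b (n (nat_lit 362) (b (b (n (nat_lit 387) (b (n (nat_lit 288) (b (l (nat_lit 5) (nat_lit 262) (nat_lit 263)) (l (nat_lit 5) (nat_lit 287) (nat_lit 313)))) (n (nat_lit 388) (b (l (nat_lit 4) (nat_lit 312) (nat_lit 413)) (l (nat_lit 4) (nat_lit 287) (nat_lit 363)))))) (n (nat_lit 262) (b (n (nat_lit 261) (b (l (nat_lit 7) (nat_lit 261) (nat_lit 286)) (l (nat_lit 7) (nat_lit 236) (nat_lit 236)))) (n (nat_lit 363) (b (l (nat_lit 4) (nat_lit 262) (nat_lit 338)) (l (nat_lit 4) (nat_lit 287) (nat_lit 388))))))) (n (nat_lit 387) (b (n (nat_lit 286) (b (l (nat_lit 7) (nat_lit 261) (nat_lit 261)) (l (nat_lit 7) (nat_lit 286)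 (nat_lit 311)))) (n (nat_lit 288) (b (l (nat_lit 5) (nat_lit 262) (nat_lit 263)) (l (nat_lit 5) (nat_lit 287) (nat_lit 313)))))))) (n (nat_lit 362) (b (b (n (nat_lit 262) (b (n (nat_lit 361) (b (l (nat_lit 6) (nat_lit 286) (nat_lit 386)) (l (nat_lit 6) (nat_lit 261) (nat_lit 336)))) (n (nat_lit 363) (b (l (nat_lit 4) (nat_lit 262) (nat_lit 338)) (l (nat_lit 4) (nat_lit 287) (nat_lit 388)))))) (n (nat_lit 387) (b (n (nat_lit 288) (b (l (nat_lit 5) (nat_lit 262) (nat_lit 263)) (l (nat_lit 5) (nat_lit 287) (nat_lit 313)))) (n (nat_lit 388) (b (l (nat_lit 4) (nat_lit 312) (nat_lit 413)) (l (nat_lit 4) (nat_lit 287) (nat_lit 363))))))) (n (nat_lit 387) (b (n (nat_lit 288) (b (l (nat_lit 5) (nat_lit 262) (nat_lit 263)) (l (nat_lit 5) (nat_lit 287) (nat_lit 313)))) (n (nat_lit 386) (b (l (nat_lit 6) (nat_lit 311) (nat_lit 411)) (l (nat_lit 6) (nat_lit 286) (nat_lit 361)))))))))) (n (nat_lit 362) (b (b (n (nat_lit 387) (b (n (nat_lit 288) (b (l (nat_lit 5) (nat_lit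 262) (nat_lit 263)) (l (nat_lit 5) (nat_lit 287) (nat_lit 313)))) (n (nat_lit 386) (b (l (nat_lit 6) (nat_lit 311) (nat_lit 411)) (l (nat_lit 6) (nat_lit 286) (nat_lit 361)))))) (n (nat_lit 262) (b (n (nat_lit 261) (b (l (nat_lit 7) (nat_lit 261) (nat_lit 286)) (l (nat_lit 7) (nat_lit 236) (nat_lit 236)))) (n (nat_lit 361) (b (l (nat_lit 6) (nat_lit 286) (nat_lit 386)) (l (nat_lit 6) (nat_lit 261) (nat_lit 336))))))) (n (nat_lit 387) (b (n (nat_lit 286) (b (l (nat_lit 7) (nat_lit 261) (nat_lit 261)) (l (nat_lit 7) (nat_lit 286) (nat_lit 311)))) (n (nat_lit 288) (b (l (nat_lit 5) (nat_lit 262) (nat_lit 263)) (l (nat_lit 5) (nat_lit 287) (nat_lit 313))))))))))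
    (envOK_cons p931 envOK_nil) (by decide +kernel)

theorem p986 : Fam (nat_lit 7) (nat_lit 279968101115925134047353499319930152181142708231565782546248918899963984685054368582985341452834308096) (nat_lit 27595377552341403986686200556649103585478355652975227882730646551400243248386439979154908861184761171896434688) (nat_lit 27595377552341403986686200556649103585478355652975227882730646551400243248386439979154908861184761171896434688) :=
  chk_sound Env.nil
    (n (nat_lit 262) (b (b (n (nat_lit 336) (b (n (nat_lit 338) (b (n (nat_lit 335) (b (b (n (nat_lit 334) (b (n (nat_lit 359) (b (l (nat_lit 2) (nat_lit 333) (nat_lit 358)) (l (nat_lit 2) (nat_lit 334) (nat_lit 360)))) (n (nat_lit 309) (b (l (nat_lit 3) (nat_lit 308) (nat_lit 308)) (l (nat_lit 3) (nat_lit 309) (nat_lit 310)))))) (n (nat_lit 313) (b (l (nat_lit 1) (nat_lit 309) (nat_lit 334)) (l (nat_lit 1) (nat_lit 310) (nat_lit 314))))) (n (nat_lit 339) (b (n (nat_lit 310) (b (l (nat_lit 3) (nat_lit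 309) (nat_lit 309)) (l (nat_lit 3) (nat_lit 310) (nat_lit 311)))) (n (nat_lit 314) (b (l (nat_lit 1) (nat_lit 311) (nat_lit 315)) (l (nat_lit 1) (nat_lit 310) (nat_lit 313)))))))) (l (nat_lit 4) (nat_lit 262) (nat_lit 363)))) (l (nat_lit 6) (nat_lit 261) (nat_lit 361)))) (n (nat_lit 237) (b (n (nat_lit 238) (b (l (nat_lit 5) (nat_lit 237) (nat_lit 263)) (l (nat_lit 5) (nat_lit 212) (nat_lit 213)))) (n (nat_lit 336) (b (l (nat_lit 6) (nat_lit 261) (nat_lit 361)) (l (nat_lit 6) (nat_lit 236) (nat_lit 311))))))) (n (nat_lit 237) (b (n (nat_lit 338) (b (l (nat_lit 4) (nat_lit 237) (nat_lit 313)) (l (nat_lit 4) (nat_lit 262) (nat_lit 363)))) (n (nat_lit 238) (b (l (nat_lit 5) (nat_lit 237) (nat_lit 263)) (l (nat_lit 5) (nat_lit 212) (nat_lit 213))))))))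
    envOK_nil (by decide +kernel)

theorem p989 : Fam (nat_lit 7) (nat_lit 8343699607727680624942585805652444129620275146709852890558508601783632775695752161234180374528) (nat_lit 788040160917437467682317700247492543144456266811694267954285554717264804277202633853360015112957032203141395255394304) (nat_lit 788040160917437467682317700247492543144456266811694267954285554717264804277202633853360015112957032203141395255394304) :=
  chk_sound Env.nil
    (n (nat_lit 337) (b (b (n (nat_lit 362) (b (n (nat_lit 263) (b (l (nat_lit 5) (nat_lit 237) (nat_lit 238)) (l (nat_lit 5) (nat_lit 262) (nat_lit 288)))) (n (nat_lit 361) (b (l (nat_lit 6) (nat_lit 286) (nat_lit 386)) (l (nat_lit 6) (nat_lit 261) (nat_lit 336)))))) (n (nat_lit 362) (b (n (nat_lit 363) (b (l (nat_lit 4) (nat_lit 262) (nat_lit 338)) (l (nat_lit 4) (nat_lit 287) (nat_lit 388)))) (n (nat_lit 263) (b (l (nat_lit 5) (nat_lit 237) (nat_lit 238)) (l (nat_lit 5) (nat_lit 262) (nat_lit 288))))))) (n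 (nat_lit 336) (b (n (nat_lit 338) (b (n (nat_lit 335) (b (b (n (nat_lit 334) (b (n (nat_lit 359) (b (l (nat_lit 2) (nat_lit 333) (nat_lit 358)) (l (nat_lit 2) (nat_lit 334) (nat_lit 360)))) (n (nat_lit 309) (b (l (nat_lit 3) (nat_lit 308) (nat_lit 308)) (l (nat_lit 3) (nat_lit 309) (nat_lit 310)))))) (n (nat_lit 313) (b (l (nat_lit 1) (nat_lit 309) (nat_lit 334)) (l (nat_lit 1) (nat_lit 310) (nat_lit 314))))) (n (nat_lit 339) (b (n (nat_lit 310) (b (l (nat_lit 3) (nat_lit 309) (nat_lit 309)) (l (nat_lit 3) (nat_lit 310) (nat_lit 311)))) (n (nat_lit 314) (b (l (nat_lit 1) (nat_lit 311) (nat_lit 315)) (l (nat_lit 1) (nat_lit 310) (nat_lit 313)))))))) (l (nat_lit 4) (nat_lit 262) (nat_lit 363)))) (l (nat_lit 6) (nat_lit 261) (nat_lit 361))))))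
    envOK_nil (by decide +kernel)

theorem p1011 : Fam (nat_lit 7) (nat_lit 8343699607727680624942585805652444129620275146709852890558508601783632775695752161234180374528) (nat_lit 559936210575549875822498320821496224402862399287716144160577464177743922135527200365660767142675480576) (nat_lit 559936210575549875822498320821496224402862399287716144160577464177743922135527200365660767142675480576) :=
  chk_sound Env.nil
    (n (nat_lit 237) (b (b (n (nat_lit 212) (b (n (nat_lit 313) (b (l (nat_lit 4) (nat_lit 212) (nat_lit 288)) (l (nat_lit 4) (nat_lit 237) (nat_lit 338)))) (n (nat_lit 213) (b (l (nat_lit 5) (nat_lit 187) (nat_lit 188)) (l (nat_lit 5) (nat_lit 212) (nat_lit 238)))))) (n (nat_lit 212) (b (n (nat_lit 211) (b (l (nat_lit 7) (nat_lit 211) (nat_lit 236)) (l (nat_lit 7) (nat_lit 186) (nat_lit 186)))) (n (nat_lit 313) (b (l (nat_lit 4) (nat_lit 212) (nat_lit 288)) (l (nat_lit 4) (nat_lit 237) (nat_lit 338))))))) (n (nat_lit 238) (b (n (nat_lit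 236) (b (n (nat_lit 235) (b (b (n (nat_lit 234) (b (n (nat_lit 209) (b (l (nat_lit 3) (nat_lit 209) (nat_lit 210)) (l (nat_lit 3) (nat_lit 208) (nat_lit 208)))) (n (nat_lit 259) (b (l (nat_lit 2) (nat_lit 233) (nat_lit 258)) (l (nat_lit 2) (nat_lit 234) (nat_lit 260)))))) (n (nat_lit 263) (b (l (nat_lit 0) (nat_lit 234) (nat_lit 234)) (l (nat_lit 0) (nat_lit 235) (nat_lit 264))))) (n (nat_lit 239) (b (n (nat_lit 260) (b (l (nat_lit 2) (nat_lit 234) (nat_lit 259)) (l (nat_lit 2) (nat_lit 235) (nat_lit 261)))) (n (nat_lit 264) (b (l (nat_lit 0) (nat_lit 236) (nat_lit 265)) (l (nat_lit 0) (nat_lit 235) (nat_lit 263)))))))) (l (nat_lit 7) (nat_lit 211) (nat_lit 211)))) (l (nat_lit 5) (nat_lit 212) (nat_lit 213))))))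
    envOK_nil (by decide +kernel)

theorem p1021 : Fam (nat_lit 8) (nat_lit 8343699607727673214248874617415937021077234590683750281279490000787534250410375654793883418624) (nat_lit 27595377552341403986689914939666915030440927409497361114519951751004234347432014150825063318109067468951519232) (nat_lit 27595377552341403986689914939666915030440927409497361114519951751004234347432014150825063318109067468951519232) :=
  chk_sound (Env.cons (nat_lit 7) (nat_lit 8343699607727680624942585805652444129620275146709852890558508601783632775695752161234180374528) (nat_lit 559936210575549875822498320821496224402862399287716144160577464177743922135527200365660767142675480576) Env.nil)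
    (n (nat_lit 262) (b (b (b (r (nat_lit 0)) (n (nat_lit 237) (b (b (n (nat_lit 337) (b (n (nat_lit 236) (b (l (nat_lit 7) (nat_lit 211) (nat_lit 211)) (l (nat_lit 7) (nat_lit 236) (nat_lit 261)))) (n (nat_lit 238) (b (l (nat_lit 5) (nat_lit 237) (nat_lit 263)) (l (nat_lit 5) (nat_lit 212) (nat_lit 213)))))) (n (nat_lit 212) (b (n (nat_lit 311) (b (l (nat_lit 6) (nat_lit 236) (nat_lit 336)) (l (nat_lit 6) (nat_lit 211) (nat_lit 286)))) (n (nat_lit 213) (b (l (nat_lit 5) (nat_lit 187) (nat_lit 188)) (l (nat_lit 5) (nat_lit 212) (nat_lit 238))))))) (n (nat_lit 212) (b (n (nat_lit 311) (b (l (nat_lit 6) (nat_lit 236) (nat_lit 336)) (l (nat_lit 6) (nat_lit 211) (nat_lit 286)))) (n (nat_lit 211) (b (l (nat_lit 7) (nat_lit 211) (nat_lit 236)) (l (nat_lit 7) (nat_lit 186) (nat_lit 186))))))))) (b (n (nat_lit 237) (b (b (n (nat_lit 337) (b (n (nat_lit 236) (b (l (nat_lit 7) (nat_lit 211) (nat_lit 211)) (l (nat_lit 7) (nat_lit 236) (nat_lit 261)))) (n (nat_lit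 338) (b (l (nat_lit 4) (nat_lit 237) (nat_lit 313)) (l (nat_lit 4) (nat_lit 262) (nat_lit 363)))))) (n (nat_lit 212) (b (n (nat_lit 311) (b (l (nat_lit 6) (nat_lit 236) (nat_lit 336)) (l (nat_lit 6) (nat_lit 211) (nat_lit 286)))) (n (nat_lit 313) (b (l (nat_lit 4) (nat_lit 212) (nat_lit 288)) (l (nat_lit 4) (nat_lit 237) (nat_lit 338))))))) (n (nat_lit 212) (b (n (nat_lit 311) (b (l (nat_lit 6) (nat_lit 236) (nat_lit 336)) (l (nat_lit 6) (nat_lit 211) (nat_lit 286)))) (n (nat_lit 211) (b (l (nat_lit 7) (nat_lit 211) (nat_lit 236)) (l (nat_lit 7) (nat_lit 186) (nat_lit 186)))))))) (n (nat_lit 237) (b (b (n (nat_lit 212) (b (n (nat_lit 311) (b (l (nat_lit 6) (nat_lit 236) (nat_lit 336)) (l (nat_lit 6) (nat_lit 211) (nat_lit 286)))) (n (nat_lit 213) (b (l (nat_lit 5) (nat_lit 187) (nat_lit 188)) (l (nat_lit 5) (nat_lit 212) (nat_lit 238)))))) (n (nat_lit 337) (b (n (nat_lit 238) (b (l (nat_lit 5) (nat_lit 237) (nat_lit 263)) (l (nat_lit 5) (nat_lit 212)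 (nat_lit 213)))) (n (nat_lit 338) (b (l (nat_lit 4) (nat_lit 237) (nat_lit 313)) (l (nat_lit 4) (nat_lit 262) (nat_lit 363))))))) (n (nat_lit 212) (b (n (nat_lit 311) (b (l (nat_lit 6) (nat_lit 236) (nat_lit 336)) (l (nat_lit 6) (nat_lit 211) (nat_lit 286)))) (n (nat_lit 313) (b (l (nat_lit 4) (nat_lit 212) (nat_lit 288)) (l (nat_lit 4) (nat_lit 237) (nat_lit 338)))))))))) (n (nat_lit 337) (b (n (nat_lit 263) (b (n (nat_lit 261) (b (n (nat_lit 260) (b (b (n (nat_lit 259) (b (n (nat_lit 234) (b (l (nat_lit 3) (nat_lit 234) (nat_lit 235)) (l (nat_lit 3) (nat_lit 233) (nat_lit 233)))) (n (nat_lit 284) (b (l (nat_lit 2) (nat_lit 258) (nat_lit 283)) (l (nat_lit 2) (nat_lit 259) (nat_lit 285)))))) (n (nat_lit 288) (b (l (nat_lit 0) (nat_lit 260) (nat_lit 289)) (l (nat_lit 0) (nat_lit 259) (nat_lit 259))))) (n (nat_lit 264) (b (n (nat_lit 285) (b (l (nat_lit 2) (nat_lit 259) (nat_lit 284)) (l (nat_lit 2) (nat_lit 260) (nat_lit 286)))) (n (nat_lit 289) (b (l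 (nat_lit 0) (nat_lit 261) (nat_lit 290)) (l (nat_lit 0) (nat_lit 260) (nat_lit 288)))))))) (l (nat_lit 7) (nat_lit 236) (nat_lit 236)))) (l (nat_lit 5) (nat_lit 237) (nat_lit 238)))) (n (nat_lit 336) (b (n (nat_lit 338) (b (n (nat_lit 335) (b (b (n (nat_lit 334) (b (n (nat_lit 359) (b (l (nat_lit 2) (nat_lit 333) (nat_lit 358)) (l (nat_lit 2) (nat_lit 334) (nat_lit 360)))) (n (nat_lit 309) (b (l (nat_lit 3) (nat_lit 308) (nat_lit 308)) (l (nat_lit 3) (nat_lit 309) (nat_lit 310)))))) (n (nat_lit 313) (b (l (nat_lit 1) (nat_lit 309) (nat_lit 334)) (l (nat_lit 1) (nat_lit 310) (nat_lit 314))))) (n (nat_lit 339) (b (n (nat_lit 310) (b (l (nat_lit 3) (nat_lit 309) (nat_lit 309)) (l (nat_lit 3) (nat_lit 310) (nat_lit 311)))) (n (nat_lit 314) (b (l (nat_lit 1) (nat_lit 311) (nat_lit 315)) (l (nat_lit 1) (nat_lit 310) (nat_lit 313)))))))) (l (nat_lit 4) (nat_lit 262) (nat_lit 363)))) (l (nat_lit 6) (nat_lit 261) (nat_lit 361))))))))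
    (envOK_cons p1011 envOK_nil) (by decide +kernel)

theorem p1025 : Fam (nat_lit 7) (nat_lit 8343699607727680624942585805652444129620275146709852890558508601783632775695752161234180374528) (nat_lit 157608038876833833444263029779069626130277784401846174124903547204853232265836858900804912603485065680601365486764032) (nat_lit 157608038876833833444263029779069626130277784401846174124903547204853232265836858900804912603485065680601365486764032) :=
  chk_sound Env.nil
    (n (nat_lit 337) (b (b (n (nat_lit 362) (b (n (nat_lit 261) (b (l (nat_lit 7) (nat_lit 261) (nat_lit 286)) (l (nat_lit 7) (nat_lit 236) (nat_lit 236)))) (n (nat_lit 361) (b (l (nat_lit 6) (nat_lit 286) (nat_lit 386)) (l (nat_lit 6) (nat_lit 261) (nat_lit 336)))))) (n (nat_lit 362) (b (n (nat_lit 263) (b (l (nat_lit 5) (nat_lit 237) (nat_lit 238)) (l (nat_lit 5) (nat_lit 262) (nat_lit 288)))) (n (nat_lit 361) (b (l (nat_lit 6) (nat_lit 286) (nat_lit 386)) (l (nat_lit 6) (nat_lit 261) (nat_lit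 336))))))) (n (nat_lit 263) (b (n (nat_lit 261) (b (n (nat_lit 260) (b (b (n (nat_lit 259) (b (n (nat_lit 234) (b (l (nat_lit 3) (nat_lit 234) (nat_lit 235)) (l (nat_lit 3) (nat_lit 233) (nat_lit 233)))) (n (nat_lit 284) (b (l (nat_lit 2) (nat_lit 258) (nat_lit 283)) (l (nat_lit 2) (nat_lit 259) (nat_lit 285)))))) (n (nat_lit 288) (b (l (nat_lit 0) (nat_lit 260) (nat_lit 289)) (l (nat_lit 0) (nat_lit 259) (nat_lit 259))))) (n (nat_lit 264) (b (n (nat_lit 285) (b (l (nat_lit 2) (nat_lit 259) (nat_lit 284)) (l (nat_lit 2) (nat_lit 260) (nat_lit 286)))) (n (nat_lit 289) (b (l (nat_lit 0) (nat_lit 261) (nat_lit 290)) (l (nat_lit 0) (nat_lit 260) (nat_lit 288)))))))) (l (nat_lit 7) (nat_lit 236) (nat_lit 236)))) (l (nat_lit 5) (nat_lit 237) (nat_lit 238))))))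
    envOK_nil (by decide +kernel)

theorem p1034 : Fam (nat_lit 7) (nat_lit 8343699607727680624942585805652444129620275146709852890558508601783632775695752161234180374528) (nat_lit 822406338225048899253791587252998618258368304850710639044412754254279096730043269119392914176665976832) (nat_lit 822406338225048899253791587252998618258368304850710639044412754254279096730043269119392914176665976832) :=
  chk_sound Env.nil
    (n (nat_lit 237) (b (b (n (nat_lit 212) (b (n (nat_lit 211) (b (l (nat_lit 7) (nat_lit 211) (nat_lit 236)) (l (nat_lit 7) (nat_lit 186) (nat_lit 186)))) (n (nat_lit 313) (b (l (nat_lit 4) (nat_lit 212) (nat_lit 288)) (l (nat_lit 4) (nat_lit 237) (nat_lit 338)))))) (n (nat_lit 212) (b (n (nat_lit 311) (b (l (nat_lit 6) (nat_lit 236) (nat_lit 336)) (l (nat_lit 6) (nat_lit 211) (nat_lit 286)))) (n (nat_lit 213) (b (l (nat_lit 5) (nat_lit 187) (nat_lit 188)) (l (nat_lit 5) (nat_lit 212) (nat_lit 238))))))) (n (nat_lit 313) (b (n (nat_lit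 311) (b (n (nat_lit 310) (b (b (n (nat_lit 309) (b (n (nat_lit 334) (b (l (nat_lit 2) (nat_lit 309) (nat_lit 335)) (l (nat_lit 2) (nat_lit 308) (nat_lit 333)))) (n (nat_lit 284) (b (l (nat_lit 3) (nat_lit 283) (nat_lit 283)) (l (nat_lit 3) (nat_lit 284) (nat_lit 285)))))) (n (nat_lit 314) (b (n (nat_lit 285) (b (l (nat_lit 3) (nat_lit 284) (nat_lit 284)) (l (nat_lit 3) (nat_lit 285) (nat_lit 286)))) (n (nat_lit 289) (b (l (nat_lit 1) (nat_lit 286) (nat_lit 290)) (l (nat_lit 1) (nat_lit 285) (nat_lit 288))))))) (n (nat_lit 288) (b (l (nat_lit 1) (nat_lit 285) (nat_lit 289)) (l (nat_lit 1) (nat_lit 284) (nat_lit 309)))))) (l (nat_lit 6) (nat_lit 236) (nat_lit 336)))) (l (nat_lit 4) (nat_lit 237) (nat_lit 338))))))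
    envOK_nil (by decide +kernel)

theorem p1040 : Fam (nat_lit 8) (nat_lit 8343699607727673214248874617415937021077234590683750281279490000787534250410375654793883418624) (nat_lit 26442239854866150336719029003200449238962847803052018411970188769172189103523992037934755228035705762809511963703170419392512) (nat_lit 26442239854866150336719029003200449238962847803052018411970188769172189103523992037934755228035705762809511963703170419392512) :=
  chk_sound (Env.cons (nat_lit 7) (nat_lit 279968101115925134047353499319930152181142708231565782546248918899963984685054368582985341452834308096) (nat_lit 26442239854866150336718469067014904785905374108651454474150534983756683297865512473114278618786279502268828353189190177914880) Env.nil)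
    (n (nat_lit 337) (b (b (b (r (nat_lit 0)) (n (nat_lit 362) (b (b (n (nat_lit 387) (b (n (nat_lit 288) (b (l (nat_lit 5) (nat_lit 262) (nat_lit 263)) (l (nat_lit 5) (nat_lit 287) (nat_lit 313)))) (n (nat_lit 386) (b (l (nat_lit 6) (nat_lit 311) (nat_lit 411)) (l (nat_lit 6) (nat_lit 286) (nat_lit 361)))))) (n (nat_lit 387) (b (n (nat_lit 286) (b (l (nat_lit 7) (nat_lit 261) (nat_lit 261)) (l (nat_lit 7) (nat_lit 286) (nat_lit 311)))) (n (nat_lit 386) (b (l (nat_lit 6) (nat_lit 311) (nat_lit 411)) (l (nat_lit 6) (nat_lit 286) (nat_lit 361))))))) (n (nat_lit 262) (b (n (nat_lit 261) (b (l (nat_lit 7) (nat_lit 261) (nat_lit 286)) (l (nat_lit 7) (nat_lit 236) (nat_lit 236)))) (n (nat_lit 263) (b (l (nat_lit 5) (nat_lit 237) (nat_lit 238)) (l (nat_lit 5) (nat_lit 262) (nat_lit 288))))))))) (b (n (nat_lit 362) (b (b (n (nat_lit 387) (b (n (nat_lit 388) (b (l (nat_lit 4) (nat_lit 312) (nat_lit 413)) (l (nat_lit 4) (nat_lit 287) (nat_lit 363)))) (n (nat_lit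 386) (b (l (nat_lit 6) (nat_lit 311) (nat_lit 411)) (l (nat_lit 6) (nat_lit 286) (nat_lit 361)))))) (n (nat_lit 262) (b (n (nat_lit 261) (b (l (nat_lit 7) (nat_lit 261) (nat_lit 286)) (l (nat_lit 7) (nat_lit 236) (nat_lit 236)))) (n (nat_lit 363) (b (l (nat_lit 4) (nat_lit 262) (nat_lit 338)) (l (nat_lit 4) (nat_lit 287) (nat_lit 388))))))) (n (nat_lit 387) (b (n (nat_lit 286) (b (l (nat_lit 7) (nat_lit 261) (nat_lit 261)) (l (nat_lit 7) (nat_lit 286) (nat_lit 311)))) (n (nat_lit 386) (b (l (nat_lit 6) (nat_lit 311) (nat_lit 411)) (l (nat_lit 6) (nat_lit 286) (nat_lit 361)))))))) (n (nat_lit 362) (b (b (n (nat_lit 262) (b (n (nat_lit 263) (b (l (nat_lit 5) (nat_lit 237) (nat_lit 238)) (l (nat_lit 5) (nat_lit 262) (nat_lit 288)))) (n (nat_lit 363) (b (l (nat_lit 4) (nat_lit 262) (nat_lit 338)) (l (nat_lit 4) (nat_lit 287) (nat_lit 388)))))) (n (nat_lit 387) (b (n (nat_lit 388) (b (l (nat_lit 4) (nat_lit 312) (nat_lit 413)) (l (nat_lit 4) (nat_lit 287)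 (nat_lit 363)))) (n (nat_lit 386) (b (l (nat_lit 6) (nat_lit 311) (nat_lit 411)) (l (nat_lit 6) (nat_lit 286) (nat_lit 361))))))) (n (nat_lit 387) (b (n (nat_lit 288) (b (l (nat_lit 5) (nat_lit 262) (nat_lit 263)) (l (nat_lit 5) (nat_lit 287) (nat_lit 313)))) (n (nat_lit 386) (b (l (nat_lit 6) (nat_lit 311) (nat_lit 411)) (l (nat_lit 6) (nat_lit 286) (nat_lit 361)))))))))) (n (nat_lit 262) (b (b (n (nat_lit 237) (b (n (nat_lit 338) (b (l (nat_lit 4) (nat_lit 237) (nat_lit 313)) (l (nat_lit 4) (nat_lit 262) (nat_lit 363)))) (n (nat_lit 238) (b (l (nat_lit 5) (nat_lit 237) (nat_lit 263)) (l (nat_lit 5) (nat_lit 212) (nat_lit 213)))))) (n (nat_lit 263) (b (n (nat_lit 261) (b (n (nat_lit 260) (b (b (n (nat_lit 259) (b (n (nat_lit 234) (b (l (nat_lit 3) (nat_lit 234) (nat_lit 235)) (l (nat_lit 3) (nat_lit 233) (nat_lit 233)))) (n (nat_lit 284) (b (l (nat_lit 2) (nat_lit 258) (nat_lit 283)) (l (nat_lit 2) (nat_lit 259) (nat_lit 285)))))) (n (nat_lit 288) (b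 (l (nat_lit 0) (nat_lit 260) (nat_lit 289)) (l (nat_lit 0) (nat_lit 259) (nat_lit 259))))) (n (nat_lit 264) (b (n (nat_lit 285) (b (l (nat_lit 2) (nat_lit 259) (nat_lit 284)) (l (nat_lit 2) (nat_lit 260) (nat_lit 286)))) (n (nat_lit 289) (b (l (nat_lit 0) (nat_lit 261) (nat_lit 290)) (l (nat_lit 0) (nat_lit 260) (nat_lit 288)))))))) (l (nat_lit 7) (nat_lit 236) (nat_lit 236)))) (l (nat_lit 5) (nat_lit 237) (nat_lit 238))))) (n (nat_lit 237) (b (n (nat_lit 338) (b (l (nat_lit 4) (nat_lit 237) (nat_lit 313)) (l (nat_lit 4) (nat_lit 262) (nat_lit 363)))) (n (nat_lit 236) (b (l (nat_lit 7) (nat_lit 211) (nat_lit 211)) (l (nat_lit 7) (nat_lit 236) (nat_lit 261))))))))))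
    (envOK_cons p958 envOK_nil) (by decide +kernel)

theorem p1042 : Fam (nat_lit 8) (nat_lit 8343699607727673214248874617415937021077234590683750281279490000787534250410375654793883418624) (nat_lit 630432127324823640570817282017126877085099070047180268275695870459894726343349976380563060517694569365626752648347648) (nat_lit 630432127324823640570817282017126877085099070047180268275695870459894726343349976380563060517694569365626752648347648) :=
  chk_sound (Env.cons (nat_lit 7) (nat_lit 8343699607727680624942585805652444129620275146709852890558508601783632775695752161234180374528) (nat_lit 559936210575549875822498320821496224402862399287716144160577464177743922135527200365660767142675480576) Env.nil)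
    (n (nat_lit 262) (b (b (b (r (nat_lit 0)) (n (nat_lit 237) (b (b (n (nat_lit 337) (b (n (nat_lit 236) (b (l (nat_lit 7) (nat_lit 211) (nat_lit 211)) (l (nat_lit 7) (nat_lit 236) (nat_lit 261)))) (n (nat_lit 238) (b (l (nat_lit 5) (nat_lit 237) (nat_lit 263)) (l (nat_lit 5) (nat_lit 212) (nat_lit 213)))))) (n (nat_lit 212) (b (n (nat_lit 311) (b (l (nat_lit 6) (nat_lit 236) (nat_lit 336)) (l (nat_lit 6) (nat_lit 211) (nat_lit 286)))) (n (nat_lit 213) (b (l (nat_lit 5) (nat_lit 187) (nat_lit 188)) (l (nat_lit 5) (nat_lit 212) (nat_lit 238))))))) (n (nat_lit 212) (b (n (nat_lit 311) (b (l (nat_lit 6) (nat_lit 236) (nat_lit 336)) (l (nat_lit 6) (nat_lit 211) (nat_lit 286)))) (n (nat_lit 211) (b (l (nat_lit 7) (nat_lit 211) (nat_lit 236)) (l (nat_lit 7) (nat_lit 186) (nat_lit 186))))))))) (b (n (nat_lit 237) (b (b (n (nat_lit 337) (b (n (nat_lit 236) (b (l (nat_lit 7) (nat_lit 211) (nat_lit 211)) (l (nat_lit 7) (nat_lit 236) (nat_lit 261)))) (n (nat_lit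 338) (b (l (nat_lit 4) (nat_lit 237) (nat_lit 313)) (l (nat_lit 4) (nat_lit 262) (nat_lit 363)))))) (n (nat_lit 212) (b (n (nat_lit 311) (b (l (nat_lit 6) (nat_lit 236) (nat_lit 336)) (l (nat_lit 6) (nat_lit 211) (nat_lit 286)))) (n (nat_lit 313) (b (l (nat_lit 4) (nat_lit 212) (nat_lit 288)) (l (nat_lit 4) (nat_lit 237) (nat_lit 338))))))) (n (nat_lit 212) (b (n (nat_lit 311) (b (l (nat_lit 6) (nat_lit 236) (nat_lit 336)) (l (nat_lit 6) (nat_lit 211) (nat_lit 286)))) (n (nat_lit 211) (b (l (nat_lit 7) (nat_lit 211) (nat_lit 236)) (l (nat_lit 7) (nat_lit 186) (nat_lit 186)))))))) (n (nat_lit 237) (b (b (n (nat_lit 212) (b (n (nat_lit 311) (b (l (nat_lit 6) (nat_lit 236) (nat_lit 336)) (l (nat_lit 6) (nat_lit 211) (nat_lit 286)))) (n (nat_lit 213) (b (l (nat_lit 5) (nat_lit 187) (nat_lit 188)) (l (nat_lit 5) (nat_lit 212) (nat_lit 238)))))) (n (nat_lit 337) (b (n (nat_lit 238) (b (l (nat_lit 5) (nat_lit 237) (nat_lit 263)) (l (nat_lit 5) (nat_lit 212)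 (nat_lit 213)))) (n (nat_lit 338) (b (l (nat_lit 4) (nat_lit 237) (nat_lit 313)) (l (nat_lit 4) (nat_lit 262) (nat_lit 363))))))) (n (nat_lit 212) (b (n (nat_lit 311) (b (l (nat_lit 6) (nat_lit 236) (nat_lit 336)) (l (nat_lit 6) (nat_lit 211) (nat_lit 286)))) (n (nat_lit 313) (b (l (nat_lit 4) (nat_lit 212) (nat_lit 288)) (l (nat_lit 4) (nat_lit 237) (nat_lit 338)))))))))) (n (nat_lit 337) (b (b (n (nat_lit 263) (b (n (nat_lit 261) (b (n (nat_lit 260) (b (b (n (nat_lit 259) (b (n (nat_lit 234) (b (l (nat_lit 3) (nat_lit 234) (nat_lit 235)) (l (nat_lit 3) (nat_lit 233) (nat_lit 233)))) (n (nat_lit 284) (b (l (nat_lit 2) (nat_lit 258) (nat_lit 283)) (l (nat_lit 2) (nat_lit 259) (nat_lit 285)))))) (n (nat_lit 288) (b (l (nat_lit 0) (nat_lit 260) (nat_lit 289)) (l (nat_lit 0) (nat_lit 259) (nat_lit 259))))) (n (nat_lit 264) (b (n (nat_lit 285) (b (l (nat_lit 2) (nat_lit 259) (nat_lit 284)) (l (nat_lit 2) (nat_lit 260) (nat_lit 286)))) (n (nat_lit 289) (b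 (l (nat_lit 0) (nat_lit 261) (nat_lit 290)) (l (nat_lit 0) (nat_lit 260) (nat_lit 288)))))))) (l (nat_lit 7) (nat_lit 236) (nat_lit 236)))) (l (nat_lit 5) (nat_lit 237) (nat_lit 238)))) (n (nat_lit 362) (b (n (nat_lit 261) (b (l (nat_lit 7) (nat_lit 261) (nat_lit 286)) (l (nat_lit 7) (nat_lit 236) (nat_lit 236)))) (n (nat_lit 363) (b (l (nat_lit 4) (nat_lit 262) (nat_lit 338)) (l (nat_lit 4) (nat_lit 287) (nat_lit 388))))))) (n (nat_lit 362) (b (n (nat_lit 363) (b (l (nat_lit 4) (nat_lit 262) (nat_lit 338)) (l (nat_lit 4) (nat_lit 287) (nat_lit 388)))) (n (nat_lit 263) (b (l (nat_lit 5) (nat_lit 237) (nat_lit 238)) (l (nat_lit 5) (nat_lit 262) (nat_lit 288))))))))))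
    (envOK_cons p1011 envOK_nil) (by decide +kernel)

theorem p1069 : Fam (nat_lit 6) (nat_lit 12515549411591509821373311926123905531615851886025625421919235001181301375615563482190825127936) (nat_lit 472824088447989667142499522427862152547956124171525383689721369531255776926593097198416897472821305169583059320700928) (nat_lit 472824088447989667142499522427862152547956124171525383689721369531255776926593097198416897472821305169583059320700928) :=
  chk_sound Env.nil
    (n (nat_lit 261) (b (b (n (nat_lit 260) (b (n (nat_lit 288) (b (n (nat_lit 259) (b (l (nat_lit 3) (nat_lit 259) (nat_lit 285)) (l (nat_lit 0) (nat_lit 258) (nat_lit 258)))) (l (nat_lit 3) (nat_lit 260) (nat_lit 289)))) (n (nat_lit 235) (b (n (nat_lit 236) (b (l (nat_lit 7) (nat_lit 210) (nat_lit 210)) (l (nat_lit 4) (nat_lit 211) (nat_lit 211)))) (l (nat_lit 7) (nat_lit 235) (nat_lit 336)))))) (n (nat_lit 337) (b (l (nat_lit 4) (nat_lit 236) (nat_lit 236)) (l (nat_lit 7) (nat_lit 261)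 (nat_lit 362))))) (n (nat_lit 336) (b (n (nat_lit 362) (b (n (nat_lit 361) (b (l (nat_lit 4) (nat_lit 286) (nat_lit 387)) (l (nat_lit 5) (nat_lit 286) (nat_lit 386)))) (l (nat_lit 7) (nat_lit 261) (nat_lit 337)))) (n (nat_lit 260) (b (n (nat_lit 288) (b (n (nat_lit 259) (b (l (nat_lit 3) (nat_lit 259) (nat_lit 285)) (l (nat_lit 0) (nat_lit 258) (nat_lit 258)))) (l (nat_lit 3) (nat_lit 260) (nat_lit 289)))) (l (nat_lit 7) (nat_lit 235) (nat_lit 235))))))))
    envOK_nil (by decide +kernel)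

theorem p1073 : Fam (nat_lit 10) (nat_lit 12515549287260700718926651387278343494910641860911587722582305641065307152325689229057481244672) (nat_lit 551628104950729947715866623007071615983159414617538325410324040697861092647550682615452634165874662660762115915120640) (nat_lit 551628104950729947715866623007071615983159414617538325410324040697861092647550682615452634165874662660762115915120640) :=
  chk_sound (Env.cons (nat_lit 6) (nat_lit 12515549411591509821373311926123905531615851886025625421919235001181301375615563482190825127936) (nat_lit 139984062552034234394968855539727920438709058317957030289980677075278962980378479138584954015179603968) (Env.cons (nat_lit 6) (nat_lit 12515549411591509821373311926123905531615851886025625421919235001181301375615563482190825127936) (nat_lit 472824088447989667142499522427862152547956124171525383689721369531255776926593097198416897472821305169583059320700928) Env.nil))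
    (n (nat_lit 286) (b (b (b (r (nat_lit 0)) (n (nat_lit 288) (b (b (n (nat_lit 285) (b (n (nat_lit 284) (b (n (nat_lit 259) (b (l (nat_lit 3) (nat_lit 258) (nat_lit 258)) (l (nat_lit 3) (nat_lit 259) (nat_lit 260)))) (l (nat_lit 0) (nat_lit 283) (nat_lit 283)))) (n (nat_lit 289) (b (n (nat_lit 264) (b (l (nat_lit 1) (nat_lit 261) (nat_lit 265)) (l (nat_lit 1) (nat_lit 260) (nat_lit 263)))) (l (nat_lit 2) (nat_lit 286) (nat_lit 290)))))) (n (nat_lit 310) (b (l (nat_lit 1) (nat_lit 284) (nat_lit 309)) (l (nat_lit 2) (nat_lit 285) (nat_lit 289))))) (n (nat_lit 285) (b (b (n (nat_lit 284) (b (n (nat_lit 259) (b (l (nat_lit 3) (nat_lit 258) (nat_lit 258)) (l (nat_lit 3) (nat_lit 259) (nat_lit 260)))) (l (nat_lit 0) (nat_lit 283) (nat_lit 283)))) (n (nat_lit 309) (b (n (nat_lit 284) (b (l (nat_lit 2) (nat_lit 283) (nat_lit 308)) (l (nat_lit 0) (nat_lit 283) (nat_lit 283)))) (l (nat_lit 2) (nat_lit 284) (nat_lit 310))))) (n (nat_lit 310) (b (n (nat_lit 236)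 (b (n (nat_lit 260) (b (n (nat_lit 235) (b (l (nat_lit 4) (nat_lit 210) (nat_lit 210)) (l (nat_lit 5) (nat_lit 210) (nat_lit 211)))) (l (nat_lit 3) (nat_lit 259) (nat_lit 259)))) (n (nat_lit 261) (b (l (nat_lit 6) (nat_lit 235) (nat_lit 335)) (l (nat_lit 4) (nat_lit 236) (nat_lit 337)))))) (l (nat_lit 2) (nat_lit 284) (nat_lit 309))))))))) (b (n (nat_lit 261) (b (b (n (nat_lit 310) (b (n (nat_lit 288) (b (l (nat_lit 2) (nat_lit 285) (nat_lit 289)) (l (nat_lit 1) (nat_lit 284) (nat_lit 309)))) (n (nat_lit 236) (b (l (nat_lit 4) (nat_lit 211) (nat_lit 211)) (l (nat_lit 6) (nat_lit 235) (nat_lit 335)))))) (n (nat_lit 337) (b (l (nat_lit 4) (nat_lit 236) (nat_lit 236)) (l (nat_lit 7) (nat_lit 261) (nat_lit 362))))) (n (nat_lit 336) (b (b (n (nat_lit 361) (b (n (nat_lit 360) (b (l (nat_lit 6) (nat_lit 285) (nat_lit 385)) (l (nat_lit 6) (nat_lit 260) (nat_lit 335)))) (l (nat_lit 5) (nat_lit 286) (nat_lit 386)))) (n (nat_lit 362) (b (n (nat_lit 361) (b (l (nat_lit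 4) (nat_lit 286) (nat_lit 387)) (l (nat_lit 5) (nat_lit 286) (nat_lit 386)))) (l (nat_lit 7) (nat_lit 261) (nat_lit 337))))) (n (nat_lit 337) (b (n (nat_lit 309) (b (n (nat_lit 335) (b (n (nat_lit 334) (b (l (nat_lit 3) (nat_lit 308) (nat_lit 308)) (l (nat_lit 1) (nat_lit 308) (nat_lit 333)))) (l (nat_lit 6) (nat_lit 260) (nat_lit 360)))) (n (nat_lit 310) (b (l (nat_lit 1) (nat_lit 284) (nat_lit 288)) (l (nat_lit 0) (nat_lit 309) (nat_lit 338)))))) (l (nat_lit 7) (nat_lit 261) (nat_lit 362)))))))) (r (nat_lit 1)))) (n (nat_lit 261) (b (b (n (nat_lit 336) (b (n (nat_lit 361) (b (n (nat_lit 360) (b (l (nat_lit 6) (nat_lit 285) (nat_lit 385)) (l (nat_lit 6) (nat_lit 260) (nat_lit 335)))) (l (nat_lit 5) (nat_lit 286) (nat_lit 386)))) (n (nat_lit 236) (b (n (nat_lit 235) (b (l (nat_lit 7) (nat_lit 235) (nat_lit 260)) (l (nat_lit 7) (nat_lit 210) (nat_lit 210)))) (l (nat_lit 4) (nat_lit 211) (nat_lit 211)))))) (n (nat_lit 337) (b (l (nat_lit 4) (nat_lit 236)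 (nat_lit 236)) (l (nat_lit 7) (nat_lit 261) (nat_lit 362))))) (n (nat_lit 336) (b (b (n (nat_lit 361) (b (n (nat_lit 360) (b (l (nat_lit 6) (nat_lit 285) (nat_lit 385)) (l (nat_lit 6) (nat_lit 260) (nat_lit 335)))) (l (nat_lit 5) (nat_lit 286) (nat_lit 386)))) (n (nat_lit 362) (b (n (nat_lit 361) (b (l (nat_lit 4) (nat_lit 286) (nat_lit 387)) (l (nat_lit 5) (nat_lit 286) (nat_lit 386)))) (l (nat_lit 7) (nat_lit 261) (nat_lit 337))))) (n (nat_lit 337) (b (n (nat_lit 335) (b (n (nat_lit 334) (b (n (nat_lit 310) (b (n (nat_lit 260) (b (n (nat_lit 359) (b (l (nat_lit 6) (nat_lit 259) (nat_lit 285)) (l (nat_lit 2) (nat_lit 333) (nat_lit 358)))) (l (nat_lit 7) (nat_lit 235) (nat_lit 235)))) (n (nat_lit 338) (b (l (nat_lit 3) (nat_lit 310) (nat_lit 339)) (l (nat_lit 0) (nat_lit 309) (nat_lit 309)))))) (l (nat_lit 1) (nat_lit 308) (nat_lit 333)))) (l (nat_lit 6) (nat_lit 260) (nat_lit 360)))) (l (nat_lit 7) (nat_lit 261) (nat_lit 362))))))))))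
    (envOK_cons p720 (envOK_cons p1069 envOK_nil)) (by decide +kernel)

theorem p1107 : Fam (nat_lit 6) (nat_lit 14601473878365596266372218694518422658416925445797431044559854740972205156703597509922592391168) (nat_lit 39402012067751207365984314752456669067245940291953753997440667031175130971956716798853657923315483041101995686494208) (nat_lit 39402012067751207365984314752456669067245940291953753997440667031175130971956716798853657923315483041101995686494208) :=
  chk_sound Env.nil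
    (n (nat_lit 334) (b (b (n (nat_lit 309) (b (n (nat_lit 284) (b (n (nat_lit 285) (b (n (nat_lit 260) (b (l (nat_lit 5) (nat_lit 259) (nat_lit 359)) (l (nat_lit 6) (nat_lit 234) (nat_lit 235)))) (l (nat_lit 3) (nat_lit 284) (nat_lit 313)))) (l (nat_lit 3) (nat_lit 283) (nat_lit 283)))) (l (nat_lit 2) (nat_lit 308) (nat_lit 333)))) (n (nat_lit 285) (b (b (n (nat_lit 313) (b (l (nat_lit 2) (nat_lit 309) (nat_lit 335)) (l (nat_lit 3) (nat_lit 284) (nat_lit 284)))) (n (nat_lit 260) (b (b (n (nat_lit 235) (b (l (nat_lit 4) (nat_lit 235) (nat_lit 336)) (l (nat_lit 6) (nat_lit 234) (nat_lit 309)))) (n (nat_lit 335) (b (n (nat_lit 336) (b (l (nat_lit 4) (nat_lit 260) (nat_lit 361)) (l (nat_lit 4) (nat_lit 235) (nat_lit 235)))) (l (nat_lit 6) (nat_lit 259) (nat_lit 359))))) (n (nat_lit 359) (b (n (nat_lit 309) (b (l (nat_lit 5) (nat_lit 284) (nat_lit 384)) (l (nat_lit 5) (nat_lit 259) (nat_lit 284)))) (l (nat_lit 6) (nat_lit 259) (nat_lit 335))))))) (b (n (nat_lit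 284) (b (n (nat_lit 283) (b (l (nat_lit 0) (nat_lit 282) (nat_lit 282)) (l (nat_lit 3) (nat_lit 283) (nat_lit 309)))) (l (nat_lit 3) (nat_lit 284) (nat_lit 313)))) (n (nat_lit 260) (b (n (nat_lit 235) (b (l (nat_lit 4) (nat_lit 235) (nat_lit 336)) (l (nat_lit 6) (nat_lit 234) (nat_lit 309)))) (n (nat_lit 335) (b (l (nat_lit 6) (nat_lit 259) (nat_lit 359)) (l (nat_lit 2) (nat_lit 309) (nat_lit 313)))))))))) (b (n (nat_lit 335) (b (n (nat_lit 333) (b (l (nat_lit 1) (nat_lit 308) (nat_lit 336)) (l (nat_lit 1) (nat_lit 307) (nat_lit 332)))) (l (nat_lit 2) (nat_lit 309) (nat_lit 313)))) (n (nat_lit 333) (b (n (nat_lit 335) (b (l (nat_lit 1) (nat_lit 308) (nat_lit 336)) (l (nat_lit 1) (nat_lit 307) (nat_lit 332)))) (l (nat_lit 2) (nat_lit 308) (nat_lit 309)))))))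
    envOK_nil (by decide +kernel)

theorem p1166 : Fam (nat_lit 6) (nat_lit 12515549411591509821373311926123905531615851886025625421919235001181301375615563482190825127936) (nat_lit 4697085305531842169235752921922299326029762172554855062064095176186995103891722899945104230923446541482983424) (nat_lit 4697085305531842169235752921922299326029762172554855062064095176186995103891722899945104230923446541482983424) :=
  chk_sound Env.nil
    (n (nat_lit 285) (b (b (n (nat_lit 284) (b (l (nat_lit 0) (nat_lit 283) (nat_lit 283)) (l (nat_lit 0) (nat_lit 284) (nat_lit 313)))) (n (nat_lit 288) (b (n (nat_lit 289) (b (n (nat_lit 264) (b (l (nat_lit 1) (nat_lit 261) (nat_lit 265)) (l (nat_lit 1) (nat_lit 260) (nat_lit 263)))) (l (nat_lit 2) (nat_lit 286) (nat_lit 290)))) (n (nat_lit 284) (b (n (nat_lit 259) (b (l (nat_lit 3) (nat_lit 258) (nat_lit 258)) (l (nat_lit 3) (nat_lit 259) (nat_lit 260)))) (l (nat_lit 0) (nat_lit 283) (nat_lit 283))))))) (n (nat_lit 288)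 (b (n (nat_lit 314) (b (n (nat_lit 289) (b (l (nat_lit 0) (nat_lit 286) (nat_lit 315)) (l (nat_lit 2) (nat_lit 286) (nat_lit 290)))) (l (nat_lit 3) (nat_lit 285) (nat_lit 313)))) (n (nat_lit 260) (b (n (nat_lit 336) (b (n (nat_lit 235) (b (l (nat_lit 7) (nat_lit 235) (nat_lit 261)) (l (nat_lit 4) (nat_lit 210) (nat_lit 210)))) (l (nat_lit 7) (nat_lit 260) (nat_lit 361)))) (l (nat_lit 3) (nat_lit 259) (nat_lit 259))))))))
    envOK_nil (by decide +kernel)

theorem p1216 : Fam (nat_lit 8) (nat_lit 12515549287260700718926651387278343494910641860911587722582305641065307152325689229057481244672) (nat_lit 197010039201871706989034348923863296343538099435545869408562878989483159490578506165152239775705811554540388674961408) (nat_lit 197010039201871706989034348923863296343538099435545869408562878989483159490578506165152239775705811554540388674961408) :=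
  chk_sound (Env.cons (nat_lit 6) (nat_lit 14601473878365596266372218694518422658416925445797431044559854740972205156703597509922592391168) (nat_lit 39402012067751207365984314752456669067245940291953753997440667031175130971956716798853657923315483041101995686494208) Env.nil)
    (n (nat_lit 310) (b (b (r (nat_lit 0)) (n (nat_lit 309) (b (n (nat_lit 308) (b (n (nat_lit 333) (b (l (nat_lit 2) (nat_lit 307) (nat_lit 332)) (l (nat_lit 2) (nat_lit 308) (nat_lit 334)))) (l (nat_lit 1) (nat_lit 283) (nat_lit 286)))) (l (nat_lit 1) (nat_lit 284) (nat_lit 288))))) (b (n (nat_lit 309) (b (n (nat_lit 308) (b (n (nat_lit 283) (b (l (nat_lit 3) (nat_lit 283) (nat_lit 284)) (l (nat_lit 3) (nat_lit 282) (nat_lit 282)))) (l (nat_lit 1) (nat_lit 283) (nat_lit 286)))) (l (nat_lit 1) (nat_lit 284) (nat_lit 288)))) (n (nat_lit 313) (b (b (n (nat_lit 285) (b (n (nat_lit 335) (b (n (nat_lit 260) (b (b (n (nat_lit 235) (b (n (nat_lit 234) (b (l (nat_lit 7) (nat_lit 234) (nat_lit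 259)) (l (nat_lit 7) (nat_lit 209) (nat_lit 209)))) (n (nat_lit 236) (b (l (nat_lit 5) (nat_lit 210) (nat_lit 211)) (l (nat_lit 5) (nat_lit 235) (nat_lit 261)))))) (n (nat_lit 336) (b (l (nat_lit 4) (nat_lit 260) (nat_lit 361)) (l (nat_lit 4) (nat_lit 235) (nat_lit 235))))) (n (nat_lit 360) (b (n (nat_lit 261) (b (l (nat_lit 5) (nat_lit 235) (nat_lit 236)) (l (nat_lit 5) (nat_lit 260) (nat_lit 286)))) (n (nat_lit 361) (b (l (nat_lit 4) (nat_lit 285) (nat_lit 386)) (l (nat_lit 4) (nat_lit 260) (nat_lit 336)))))))) (l (nat_lit 2) (nat_lit 309) (nat_lit 334)))) (l (nat_lit 3) (nat_lit 284) (nat_lit 284)))) (n (nat_lit 314) (b (n (nat_lit 315) (b (n (nat_lit 290) (b (l (nat_lit 1) (nat_lit 286) (nat_lit 289)) (l (nat_lit 1) (nat_lit 287) (nat_lit 291)))) (l (nat_lit 3) (nat_lit 286) (nat_lit 286)))) (n (nat_lit 335) (b (l (nat_lit 2) (nat_lit 309) (nat_lit 334)) (l (nat_lit 2) (nat_lit 310) (nat_lit 336))))))) (b (n (nat_lit 335) (b (n (nat_lit 336) (b (n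 (nat_lit 361) (b (n (nat_lit 285) (b (l (nat_lit 4) (nat_lit 260) (nat_lit 260)) (l (nat_lit 3) (nat_lit 284) (nat_lit 284)))) (l (nat_lit 5) (nat_lit 286) (nat_lit 386)))) (l (nat_lit 2) (nat_lit 310) (nat_lit 314)))) (l (nat_lit 2) (nat_lit 309) (nat_lit 334)))) (n (nat_lit 314) (b (n (nat_lit 286) (b (l (nat_lit 3) (nat_lit 285) (nat_lit 285)) (l (nat_lit 3) (nat_lit 286) (nat_lit 315)))) (n (nat_lit 289) (b (l (nat_lit 1) (nat_lit 286) (nat_lit 290)) (l (nat_lit 1) (nat_lit 285) (nat_lit 288))))))))))))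
    (envOK_cons p1107 envOK_nil) (by decide +kernel)

theorem p1254 : Fam (nat_lit 7) (nat_lit 14601474127027214471265539772209546731827345496025506443233713461204193603283346016189280157696) (nat_lit 39402009719208484608088534833077714384882596042181443998802954580426180603127032735813006136365064031919000877268992) (nat_lit 39402009719208484608088534833077714384882596042181443998802954580426180603127032735813006136365064031919000877268992) :=
  chk_sound Env.nil
    (n (nat_lit 309) (b (b (n (nat_lit 308) (b (n (nat_lit 283) (b (l (nat_lit 3) (nat_lit 283) (nat_lit 284)) (l (nat_lit 3) (nat_lit 282) (nat_lit 282)))) (l (nat_lit 1) (nat_lit 283) (nat_lit 286)))) (n (nat_lit 308) (b (n (nat_lit 283) (b (l (nat_lit 3) (nat_lit 283) (nat_lit 284)) (l (nat_lit 3) (nat_lit 282) (nat_lit 282)))) (n (nat_lit 333) (b (l (nat_lit 2) (nat_lit 307) (nat_lit 332)) (l (nat_lit 2) (nat_lit 308) (nat_lit 334))))))) (b (n (nat_lit 308) (b (n (nat_lit 333) (b (l (nat_lit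 2) (nat_lit 307) (nat_lit 332)) (l (nat_lit 2) (nat_lit 308) (nat_lit 334)))) (l (nat_lit 1) (nat_lit 283) (nat_lit 286)))) (n (nat_lit 284) (b (n (nat_lit 334) (b (n (nat_lit 259) (b (n (nat_lit 285) (b (n (nat_lit 359) (b (l (nat_lit 5) (nat_lit 284) (nat_lit 384)) (l (nat_lit 5) (nat_lit 259) (nat_lit 260)))) (n (nat_lit 258) (b (l (nat_lit 3) (nat_lit 258) (nat_lit 286)) (l (nat_lit 7) (nat_lit 233) (nat_lit 233)))))) (n (nat_lit 335) (b (l (nat_lit 4) (nat_lit 234) (nat_lit 234)) (l (nat_lit 4) (nat_lit 259) (nat_lit 360)))))) (l (nat_lit 2) (nat_lit 308) (nat_lit 333)))) (l (nat_lit 3) (nat_lit 283) (nat_lit 283)))))))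
    envOK_nil (by decide +kernel)

theorem p1256 : Fam (nat_lit 8) (nat_lit 12515549287260700718926651387278343494910641860911587722582305641065307152325689229057481244672) (nat_lit 275814051594662625190375333892082495359896145950453091418560805823768738527327743932481259882769585087680860032860160) (nat_lit 275814051594662625190375333892082495359896145950453091418560805823768738527327743932481259882769585087680860032860160) :=
  chk_sound (Env.cons (nat_lit 7) (nat_lit 14601474127027214471265539772209546731827345496025506443233713461204193603283346016189280157696) (nat_lit 39402009719208484608088534833077714384882596042181443998802954580426180603127032735813006136365064031919000877268992) (Env.cons (nat_lit 6) (nat_lit 14601473878365596266372218694518422658416925445797431044559854740972205156703597509922592391168) (nat_lit 39402012067751207365984314752456669067245940291953753997440667031175130971956716798853657923315483041101995686494208) Env.nil))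
    (n (nat_lit 310) (b (b (b (r (nat_lit 0)) (n (nat_lit 313) (b (b (b (n (nat_lit 285) (b (n (nat_lit 335) (b (n (nat_lit 286) (b (n (nat_lit 360) (b (l (nat_lit 5) (nat_lit 285) (nat_lit 385)) (l (nat_lit 5) (nat_lit 260) (nat_lit 261)))) (l (nat_lit 3) (nat_lit 285) (nat_lit 314)))) (l (nat_lit 2) (nat_lit 309) (nat_lit 334)))) (l (nat_lit 3) (nat_lit 284) (nat_lit 284)))) (n (nat_lit 285) (b (n (nat_lit 314) (b (n (nat_lit 338) (b (n (nat_lit 315) (b (n (nat_lit 337) (b (l (nat_lit 2) (nat_lit 311) (nat_lit 336)) (l (nat_lit 2) (nat_lit 312) (nat_lit 316)))) (n (nat_lit 290) (b (l (nat_lit 1) (nat_lit 286) (nat_lit 289)) (l (nat_lit 1) (nat_lit 287) (nat_lit 291)))))) (l (nat_lit 0) (nat_lit 310) (nat_lit 339)))) (l (nat_lit 3) (nat_lit 285) (nat_lit 286)))) (l (nat_lit 3) (nat_lit 284) (nat_lit 284))))) (b (n (nat_lit 314) (b (n (nat_lit 315) (b (n (nat_lit 290) (b (l (nat_lit 1) (nat_lit 286) (nat_lit 289)) (l (nat_lit 1) (nat_lit 287) (nat_lit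 291)))) (l (nat_lit 3) (nat_lit 286) (nat_lit 286)))) (n (nat_lit 335) (b (l (nat_lit 2) (nat_lit 309) (nat_lit 334)) (l (nat_lit 2) (nat_lit 310) (nat_lit 336)))))) (n (nat_lit 335) (b (n (nat_lit 336) (b (n (nat_lit 361) (b (n (nat_lit 285) (b (l (nat_lit 4) (nat_lit 260) (nat_lit 260)) (l (nat_lit 3) (nat_lit 284) (nat_lit 284)))) (l (nat_lit 5) (nat_lit 286) (nat_lit 386)))) (l (nat_lit 2) (nat_lit 310) (nat_lit 314)))) (l (nat_lit 2) (nat_lit 309) (nat_lit 334)))))) (n (nat_lit 285) (b (n (nat_lit 335) (b (n (nat_lit 260) (b (b (n (nat_lit 235) (b (n (nat_lit 234) (b (l (nat_lit 7) (nat_lit 234) (nat_lit 259)) (l (nat_lit 7) (nat_lit 209) (nat_lit 209)))) (n (nat_lit 236) (b (l (nat_lit 5) (nat_lit 210) (nat_lit 211)) (l (nat_lit 5) (nat_lit 235) (nat_lit 261)))))) (n (nat_lit 336) (b (l (nat_lit 4) (nat_lit 260) (nat_lit 361)) (l (nat_lit 4) (nat_lit 235) (nat_lit 235))))) (n (nat_lit 360) (b (n (nat_lit 261) (b (l (nat_lit 5) (nat_lit 235) (nat_lit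 236)) (l (nat_lit 5) (nat_lit 260) (nat_lit 286)))) (n (nat_lit 361) (b (l (nat_lit 4) (nat_lit 285) (nat_lit 386)) (l (nat_lit 4) (nat_lit 260) (nat_lit 336)))))))) (l (nat_lit 2) (nat_lit 309) (nat_lit 334)))) (l (nat_lit 3) (nat_lit 284) (nat_lit 284))))))) (b (r (nat_lit 1)) (n (nat_lit 309) (b (b (n (nat_lit 313) (b (n (nat_lit 284) (b (l (nat_lit 3) (nat_lit 283) (nat_lit 283)) (l (nat_lit 3) (nat_lit 284) (nat_lit 285)))) (n (nat_lit 338) (b (l (nat_lit 0) (nat_lit 309) (nat_lit 337)) (l (nat_lit 0) (nat_lit 310) (nat_lit 339)))))) (n (nat_lit 308) (b (n (nat_lit 283) (b (l (nat_lit 3) (nat_lit 283) (nat_lit 284)) (l (nat_lit 3) (nat_lit 282) (nat_lit 282)))) (l (nat_lit 1) (nat_lit 283) (nat_lit 286))))) (n (nat_lit 308) (b (n (nat_lit 337) (b (l (nat_lit 0) (nat_lit 309) (nat_lit 338)) (l (nat_lit 0) (nat_lit 308) (nat_lit 336)))) (l (nat_lit 1) (nat_lit 283) (nat_lit 286)))))))) (n (nat_lit 309) (b (b (n (nat_lit 313) (b (n (nat_lit 338) (b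 (l (nat_lit 0) (nat_lit 309) (nat_lit 337)) (l (nat_lit 0) (nat_lit 310) (nat_lit 339)))) (n (nat_lit 334) (b (l (nat_lit 2) (nat_lit 309) (nat_lit 335)) (l (nat_lit 2) (nat_lit 308) (nat_lit 333)))))) (n (nat_lit 308) (b (n (nat_lit 333) (b (l (nat_lit 2) (nat_lit 307) (nat_lit 332)) (l (nat_lit 2) (nat_lit 308) (nat_lit 334)))) (l (nat_lit 1) (nat_lit 283) (nat_lit 286))))) (n (nat_lit 308) (b (n (nat_lit 337) (b (l (nat_lit 0) (nat_lit 309) (nat_lit 338)) (l (nat_lit 0) (nat_lit 308) (nat_lit 336)))) (l (nat_lit 1) (nat_lit 283) (nat_lit 286))))))))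
    (envOK_cons p1254 (envOK_cons p1107 envOK_nil)) (by decide +kernel)

theorem p1257 : Fam (nat_lit 11) (nat_lit 8343699607727673214248874617415937021077234590683750281279490000787534250410375654793883418624) (nat_lit 2644226357487459334889085670921351537762669815149193260614739733867810732953349918122959283357515726569944389471913793028096) (nat_lit 2644226357487459334889085670921351537762669815149193260614739733867810732953349918122959283357515726569944389471913793028096) :=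
  chk_sound (Env.cons (nat_lit 10) (nat_lit 12515549287260700718926651387278343494910641860911587722582305641065307152325689229057481244672) (nat_lit 551628104950729947715866623007071615983159414617538325410324040697861092647550682615452634165874662660762115915120640) (Env.cons (nat_lit 6) (nat_lit 14601473878365596266372218694518422658416925445797431044559854740972205156703597509922592391168) (nat_lit 39402012067751207365984314752456669067245940291953753997440667031175130971956716798853657923315483041101995686494208) (Env.cons (nat_lit 6) (nat_lit 12515549411591509821373311926123905531615851886025625421919235001181301375615563482190825127936) (nat_lit 279968222099569554888180062460337068146026308099639619774692888927628913101049195384294659644719104000) (Env.cons (nat_lit 6) (nat_lit 12515549411591509821373311926123905531615851886025625421919235001181301375615563482190825127936) (nat_lit 551628103189321313328975682296802608042445576727619347893214843863059694122600333568292031594892818891229554259525632)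 (Env.cons (nat_lit 6) (nat_lit 12515549411591509821373311926123905531615851886025625421919235001181301375615563482190825127936) (nat_lit 472824088447989667142499522427862152547956124171525383689721369531255776926593097198416897472821305169583059320700928) (Env.cons (nat_lit 6) (nat_lit 12515549411591509821373311926123905531615851886025625421919235001181301375615563482190825127936) (nat_lit 4697085305531842169235752921922299326029762172554855062064095176186995103891722899945104230923446541482983424) (Env.cons (nat_lit 8) (nat_lit 12515549287260700718926651387278343494910641860911587722582305641065307152325689229057481244672) (nat_lit 197010039201871706989034348923863296343538099435545869408562878989483159490578506165152239775705811554540388674961408) (Env.cons (nat_lit 8) (nat_lit 12515549287260700718926651387278343494910641860911587722582305641065307152325689229057481244672) (nat_lit 275814051594662625190375333892082495359896145950453091418560805823768738527327743932481259882769585087680860032860160)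 Env.nil))))))))
    (n (nat_lit 311) (b (b (b (b (r (nat_lit 0)) (n (nat_lit 310) (b (b (r (nat_lit 1)) (n (nat_lit 309) (b (n (nat_lit 308) (b (n (nat_lit 333) (b (l (nat_lit 2) (nat_lit 307) (nat_lit 332)) (l (nat_lit 2) (nat_lit 308) (nat_lit 334)))) (l (nat_lit 1) (nat_lit 283) (nat_lit 286)))) (l (nat_lit 1) (nat_lit 284) (nat_lit 288))))) (b (n (nat_lit 309) (b (n (nat_lit 308) (b (n (nat_lit 283) (b (l (nat_lit 3) (nat_lit 283) (nat_lit 284)) (l (nat_lit 3) (nat_lit 282) (nat_lit 282)))) (l (nat_lit 1) (nat_lit 283) (nat_lit 286)))) (l (nat_lit 1) (nat_lit 284) (nat_lit 288)))) (n (nat_lit 313) (b (b (b (n (nat_lit 335) (b (n (nat_lit 336) (b (n (nat_lit 338) (b (n (nat_lit 286) (b (b (n (nat_lit 337) (b (n (nat_lit 360) (b (l (nat_lit 5) (nat_lit 285) (nat_lit 385)) (l (nat_lit 2) (nat_lit 334) (nat_lit 359)))) (n (nat_lit 363) (b (l (nat_lit 0) (nat_lit 335) (nat_lit 364)) (l (nat_lit 7) (nat_lit 287) (nat_lit 388)))))) (n (nat_lit 261) (b (l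 (nat_lit 6) (nat_lit 260) (nat_lit 360)) (l (nat_lit 6) (nat_lit 235) (nat_lit 236))))) (n (nat_lit 337) (b (n (nat_lit 363) (b (l (nat_lit 0) (nat_lit 335) (nat_lit 364)) (l (nat_lit 7) (nat_lit 287) (nat_lit 388)))) (n (nat_lit 261) (b (l (nat_lit 4) (nat_lit 261) (nat_lit 362)) (l (nat_lit 4) (nat_lit 236) (nat_lit 236)))))))) (l (nat_lit 0) (nat_lit 310) (nat_lit 339)))) (l (nat_lit 2) (nat_lit 310) (nat_lit 314)))) (l (nat_lit 2) (nat_lit 309) (nat_lit 334)))) (n (nat_lit 285) (b (n (nat_lit 335) (b (n (nat_lit 260) (b (b (n (nat_lit 235) (b (n (nat_lit 234) (b (l (nat_lit 7) (nat_lit 234) (nat_lit 259)) (l (nat_lit 7) (nat_lit 209) (nat_lit 209)))) (n (nat_lit 236) (b (l (nat_lit 5) (nat_lit 210) (nat_lit 211)) (l (nat_lit 5) (nat_lit 235) (nat_lit 261)))))) (n (nat_lit 336) (b (l (nat_lit 4) (nat_lit 260) (nat_lit 361)) (l (nat_lit 4) (nat_lit 235) (nat_lit 235))))) (n (nat_lit 360) (b (n (nat_lit 261) (b (l (nat_lit 5) (nat_lit 235) (nat_lit 236))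 (l (nat_lit 5) (nat_lit 260) (nat_lit 286)))) (n (nat_lit 361) (b (l (nat_lit 4) (nat_lit 285) (nat_lit 386)) (l (nat_lit 4) (nat_lit 260) (nat_lit 336)))))))) (l (nat_lit 2) (nat_lit 309) (nat_lit 334)))) (l (nat_lit 3) (nat_lit 284) (nat_lit 284))))) (b (n (nat_lit 285) (b (n (nat_lit 335) (b (n (nat_lit 286) (b (n (nat_lit 360) (b (l (nat_lit 5) (nat_lit 285) (nat_lit 385)) (l (nat_lit 5) (nat_lit 260) (nat_lit 261)))) (l (nat_lit 3) (nat_lit 285) (nat_lit 314)))) (l (nat_lit 2) (nat_lit 309) (nat_lit 334)))) (l (nat_lit 3) (nat_lit 284) (nat_lit 284)))) (n (nat_lit 285) (b (n (nat_lit 286) (b (n (nat_lit 260) (b (n (nat_lit 336) (b (l (nat_lit 4) (nat_lit 235) (nat_lit 235)) (l (nat_lit 7) (nat_lit 260) (nat_lit 361)))) (n (nat_lit 261) (b (n (nat_lit 259) (b (l (nat_lit 0) (nat_lit 258) (nat_lit 258)) (l (nat_lit 3) (nat_lit 259) (nat_lit 288)))) (n (nat_lit 236) (b (l (nat_lit 4) (nat_lit 236) (nat_lit 337)) (l (nat_lit 4) (nat_lit 211) (nat_lit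 211)))))))) (l (nat_lit 3) (nat_lit 285) (nat_lit 314)))) (l (nat_lit 3) (nat_lit 284) (nat_lit 284)))))) (n (nat_lit 335) (b (n (nat_lit 336) (b (n (nat_lit 361) (b (n (nat_lit 285) (b (l (nat_lit 4) (nat_lit 260) (nat_lit 260)) (l (nat_lit 3) (nat_lit 284) (nat_lit 284)))) (l (nat_lit 5) (nat_lit 286) (nat_lit 386)))) (l (nat_lit 2) (nat_lit 310) (nat_lit 314)))) (l (nat_lit 2) (nat_lit 309) (nat_lit 334)))))))))) (b (n (nat_lit 310) (b (b (n (nat_lit 309) (b (b (n (nat_lit 313) (b (n (nat_lit 338) (b (l (nat_lit 0) (nat_lit 309) (nat_lit 337)) (l (nat_lit 0) (nat_lit 310) (nat_lit 339)))) (n (nat_lit 334) (b (l (nat_lit 2) (nat_lit 309) (nat_lit 335)) (l (nat_lit 2) (nat_lit 308) (nat_lit 333)))))) (n (nat_lit 308) (b (n (nat_lit 283) (b (l (nat_lit 3) (nat_lit 283) (nat_lit 284)) (l (nat_lit 3) (nat_lit 282) (nat_lit 282)))) (n (nat_lit 333) (b (l (nat_lit 2) (nat_lit 307) (nat_lit 332)) (l (nat_lit 2) (nat_lit 308) (nat_lit 334))))))) (n (nat_lit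 308) (b (n (nat_lit 337) (b (l (nat_lit 0) (nat_lit 309) (nat_lit 338)) (l (nat_lit 0) (nat_lit 308) (nat_lit 336)))) (n (nat_lit 283) (b (l (nat_lit 3) (nat_lit 283) (nat_lit 284)) (l (nat_lit 3) (nat_lit 282) (nat_lit 282)))))))) (n (nat_lit 288) (b (n (nat_lit 289) (b (l (nat_lit 2) (nat_lit 285) (nat_lit 286)) (l (nat_lit 2) (nat_lit 286) (nat_lit 290)))) (l (nat_lit 1) (nat_lit 284) (nat_lit 309))))) (n (nat_lit 313) (b (b (n (nat_lit 288) (b (n (nat_lit 338) (b (n (nat_lit 263) (b (n (nat_lit 238) (b (n (nat_lit 239) (b (l (nat_lit 5) (nat_lit 238) (nat_lit 264)) (l (nat_lit 5) (nat_lit 213) (nat_lit 214)))) (l (nat_lit 6) (nat_lit 212) (nat_lit 213)))) (n (nat_lit 362) (b (n (nat_lit 363) (b (l (nat_lit 6) (nat_lit 287) (nat_lit 387)) (l (nat_lit 7) (nat_lit 287) (nat_lit 388)))) (l (nat_lit 6) (nat_lit 262) (nat_lit 337)))))) (l (nat_lit 0) (nat_lit 310) (nat_lit 339)))) (l (nat_lit 1) (nat_lit 285) (nat_lit 289)))) (n (nat_lit 314) (b (n (nat_lit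 289) (b (l (nat_lit 1) (nat_lit 286) (nat_lit 290)) (l (nat_lit 1) (nat_lit 285) (nat_lit 288)))) (n (nat_lit 335) (b (l (nat_lit 2) (nat_lit 309) (nat_lit 334)) (l (nat_lit 2) (nat_lit 310) (nat_lit 336))))))) (n (nat_lit 335) (b (n (nat_lit 336) (b (n (nat_lit 338) (b (n (nat_lit 286) (b (b (n (nat_lit 337) (b (n (nat_lit 360) (b (l (nat_lit 5) (nat_lit 285) (nat_lit 385)) (l (nat_lit 2) (nat_lit 334) (nat_lit 359)))) (n (nat_lit 363) (b (l (nat_lit 0) (nat_lit 335) (nat_lit 364)) (l (nat_lit 7) (nat_lit 287) (nat_lit 388)))))) (n (nat_lit 261) (b (l (nat_lit 6) (nat_lit 260) (nat_lit 360)) (l (nat_lit 6) (nat_lit 235) (nat_lit 236))))) (n (nat_lit 337) (b (n (nat_lit 363) (b (l (nat_lit 0) (nat_lit 335) (nat_lit 364)) (l (nat_lit 7) (nat_lit 287) (nat_lit 388)))) (n (nat_lit 261) (b (l (nat_lit 4) (nat_lit 261) (nat_lit 362)) (l (nat_lit 4) (nat_lit 236) (nat_lit 236)))))))) (l (nat_lit 0) (nat_lit 310) (nat_lit 339)))) (l (nat_lit 2) (nat_lit 310)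 (nat_lit 314)))) (l (nat_lit 2) (nat_lit 309) (nat_lit 334)))))))) (n (nat_lit 286) (b (b (b (r (nat_lit 2)) (r (nat_lit 3))) (b (r (nat_lit 4)) (r (nat_lit 5)))) (n (nat_lit 336) (b (b (b (n (nat_lit 361) (b (n (nat_lit 362) (b (n (nat_lit 337) (b (n (nat_lit 360) (b (n (nat_lit 338) (b (l (nat_lit 2) (nat_lit 335) (nat_lit 339)) (l (nat_lit 1) (nat_lit 334) (nat_lit 359)))) (l (nat_lit 6) (nat_lit 285) (nat_lit 385)))) (l (nat_lit 7) (nat_lit 261) (nat_lit 261)))) (l (nat_lit 4) (nat_lit 286) (nat_lit 387)))) (l (nat_lit 5) (nat_lit 286) (nat_lit 386)))) (n (nat_lit 337) (b (b (n (nat_lit 335) (b (n (nat_lit 313) (b (l (nat_lit 2) (nat_lit 310) (nat_lit 314)) (l (nat_lit 1) (nat_lit 309) (nat_lit 334)))) (n (nat_lit 261) (b (l (nat_lit 4) (nat_lit 236) (nat_lit 236)) (l (nat_lit 6) (nat_lit 260) (nat_lit 360)))))) (n (nat_lit 314) (b (n (nat_lit 288) (b (n (nat_lit 289) (b (l (nat_lit 0) (nat_lit 286) (nat_lit 315)) (l (nat_lit 2) (nat_lit 286) (nat_lit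 290)))) (n (nat_lit 362) (b (l (nat_lit 5) (nat_lit 262) (nat_lit 263)) (l (nat_lit 7) (nat_lit 286) (nat_lit 387)))))) (n (nat_lit 313) (b (l (nat_lit 2) (nat_lit 310) (nat_lit 335)) (l (nat_lit 3) (nat_lit 285) (nat_lit 285))))))) (n (nat_lit 362) (b (l (nat_lit 7) (nat_lit 286) (nat_lit 387)) (l (nat_lit 7) (nat_lit 261) (nat_lit 261))))))) (b (n (nat_lit 361) (b (n (nat_lit 360) (b (n (nat_lit 362) (b (n (nat_lit 335) (b (n (nat_lit 334) (b (l (nat_lit 3) (nat_lit 334) (nat_lit 363)) (l (nat_lit 0) (nat_lit 333) (nat_lit 333)))) (l (nat_lit 6) (nat_lit 260) (nat_lit 261)))) (l (nat_lit 4) (nat_lit 286) (nat_lit 387)))) (l (nat_lit 6) (nat_lit 285) (nat_lit 385)))) (l (nat_lit 5) (nat_lit 286) (nat_lit 386)))) (n (nat_lit 335) (b (n (nat_lit 334) (b (n (nat_lit 313) (b (l (nat_lit 1) (nat_lit 309) (nat_lit 337)) (l (nat_lit 2) (nat_lit 310) (nat_lit 314)))) (l (nat_lit 1) (nat_lit 308) (nat_lit 333)))) (n (nat_lit 360) (b (n (nat_lit 385) (b (l (nat_lit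 5) (nat_lit 310) (nat_lit 410)) (l (nat_lit 6) (nat_lit 285) (nat_lit 361)))) (l (nat_lit 6) (nat_lit 260) (nat_lit 261)))))))) (b (n (nat_lit 288) (b (n (nat_lit 314) (b (n (nat_lit 289) (b (l (nat_lit 0) (nat_lit 286) (nat_lit 315)) (l (nat_lit 2) (nat_lit 286) (nat_lit 290)))) (n (nat_lit 313) (b (l (nat_lit 2) (nat_lit 310) (nat_lit 335)) (l (nat_lit 0) (nat_lit 285) (nat_lit 285)))))) (n (nat_lit 362) (b (n (nat_lit 361) (b (l (nat_lit 4) (nat_lit 286) (nat_lit 387)) (l (nat_lit 5) (nat_lit 286) (nat_lit 386)))) (n (nat_lit 337) (b (l (nat_lit 5) (nat_lit 262) (nat_lit 263)) (l (nat_lit 4) (nat_lit 261) (nat_lit 261)))))))) (n (nat_lit 361) (b (n (nat_lit 362) (b (n (nat_lit 363) (b (b (n (nat_lit 335) (b (n (nat_lit 337) (b (l (nat_lit 0) (nat_lit 334) (nat_lit 334)) (l (nat_lit 4) (nat_lit 287) (nat_lit 388)))) (l (nat_lit 3) (nat_lit 335) (nat_lit 364)))) (n (nat_lit 360) (b (n (nat_lit 388) (b (l (nat_lit 0) (nat_lit 360) (nat_lit 389)) (l (nat_lit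 4) (nat_lit 287) (nat_lit 337)))) (l (nat_lit 6) (nat_lit 285) (nat_lit 385))))) (n (nat_lit 335) (b (n (nat_lit 360) (b (l (nat_lit 6) (nat_lit 285) (nat_lit 385)) (l (nat_lit 3) (nat_lit 334) (nat_lit 334)))) (l (nat_lit 3) (nat_lit 335) (nat_lit 364)))))) (l (nat_lit 4) (nat_lit 286) (nat_lit 387)))) (l (nat_lit 5) (nat_lit 286) (nat_lit 386))))))))))) (b (b (r (nat_lit 6)) (n (nat_lit 310) (b (b (n (nat_lit 313) (b (b (n (nat_lit 288) (b (n (nat_lit 338) (b (n (nat_lit 263) (b (n (nat_lit 238) (b (n (nat_lit 239) (b (l (nat_lit 5) (nat_lit 238) (nat_lit 264)) (l (nat_lit 5) (nat_lit 213) (nat_lit 214)))) (l (nat_lit 6) (nat_lit 212) (nat_lit 213)))) (n (nat_lit 362) (b (n (nat_lit 363) (b (l (nat_lit 6) (nat_lit 287) (nat_lit 387)) (l (nat_lit 7) (nat_lit 287) (nat_lit 388)))) (l (nat_lit 6) (nat_lit 262) (nat_lit 337)))))) (l (nat_lit 0) (nat_lit 310) (nat_lit 339)))) (l (nat_lit 1) (nat_lit 285) (nat_lit 289)))) (n (nat_lit 314) (b (n (nat_lit 286)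 (b (l (nat_lit 3) (nat_lit 285) (nat_lit 285)) (l (nat_lit 3) (nat_lit 286) (nat_lit 315)))) (n (nat_lit 289) (b (l (nat_lit 1) (nat_lit 286) (nat_lit 290)) (l (nat_lit 1) (nat_lit 285) (nat_lit 288))))))) (b (n (nat_lit 285) (b (n (nat_lit 314) (b (n (nat_lit 338) (b (n (nat_lit 315) (b (n (nat_lit 337) (b (l (nat_lit 2) (nat_lit 311) (nat_lit 336)) (l (nat_lit 2) (nat_lit 312) (nat_lit 316)))) (n (nat_lit 290) (b (l (nat_lit 1) (nat_lit 286) (nat_lit 289)) (l (nat_lit 1) (nat_lit 287) (nat_lit 291)))))) (l (nat_lit 0) (nat_lit 310) (nat_lit 339)))) (l (nat_lit 3) (nat_lit 285) (nat_lit 286)))) (l (nat_lit 3) (nat_lit 284) (nat_lit 284)))) (n (nat_lit 285) (b (n (nat_lit 286) (b (n (nat_lit 260) (b (n (nat_lit 336) (b (l (nat_lit 4) (nat_lit 235) (nat_lit 235)) (l (nat_lit 7) (nat_lit 260) (nat_lit 361)))) (n (nat_lit 261) (b (n (nat_lit 259) (b (l (nat_lit 0) (nat_lit 258) (nat_lit 258)) (l (nat_lit 3) (nat_lit 259) (nat_lit 288)))) (n (nat_lit 236)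 (b (l (nat_lit 4) (nat_lit 236) (nat_lit 337)) (l (nat_lit 4) (nat_lit 211) (nat_lit 211)))))))) (l (nat_lit 3) (nat_lit 285) (nat_lit 314)))) (l (nat_lit 3) (nat_lit 284) (nat_lit 284))))))) (n (nat_lit 309) (b (b (n (nat_lit 313) (b (n (nat_lit 284) (b (l (nat_lit 3) (nat_lit 283) (nat_lit 283)) (l (nat_lit 3) (nat_lit 284) (nat_lit 285)))) (n (nat_lit 338) (b (l (nat_lit 0) (nat_lit 309) (nat_lit 337)) (l (nat_lit 0) (nat_lit 310) (nat_lit 339)))))) (n (nat_lit 308) (b (n (nat_lit 283) (b (l (nat_lit 3) (nat_lit 283) (nat_lit 284)) (l (nat_lit 3) (nat_lit 282) (nat_lit 282)))) (l (nat_lit 1) (nat_lit 283) (nat_lit 286))))) (n (nat_lit 308) (b (n (nat_lit 337) (b (l (nat_lit 0) (nat_lit 309) (nat_lit 338)) (l (nat_lit 0) (nat_lit 308) (nat_lit 336)))) (l (nat_lit 1) (nat_lit 283) (nat_lit 286))))))) (b (n (nat_lit 288) (b (n (nat_lit 289) (b (l (nat_lit 2) (nat_lit 285) (nat_lit 286)) (l (nat_lit 2) (nat_lit 286) (nat_lit 290)))) (l (nat_lit 1) (nat_lit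 284) (nat_lit 309)))) (n (nat_lit 288) (b (n (nat_lit 289) (b (l (nat_lit 1) (nat_lit 285) (nat_lit 313)) (l (nat_lit 2) (nat_lit 286) (nat_lit 290)))) (l (nat_lit 1) (nat_lit 284) (nat_lit 309)))))))) (b (n (nat_lit 310) (b (b (n (nat_lit 309) (b (b (n (nat_lit 313) (b (n (nat_lit 338) (b (l (nat_lit 0) (nat_lit 309) (nat_lit 337)) (l (nat_lit 0) (nat_lit 310) (nat_lit 339)))) (n (nat_lit 334) (b (l (nat_lit 2) (nat_lit 309) (nat_lit 335)) (l (nat_lit 2) (nat_lit 308) (nat_lit 333)))))) (n (nat_lit 308) (b (n (nat_lit 333) (b (l (nat_lit 2) (nat_lit 307) (nat_lit 332)) (l (nat_lit 2) (nat_lit 308) (nat_lit 334)))) (l (nat_lit 1) (nat_lit 283) (nat_lit 286))))) (n (nat_lit 308) (b (n (nat_lit 337) (b (l (nat_lit 0) (nat_lit 309) (nat_lit 338)) (l (nat_lit 0) (nat_lit 308) (nat_lit 336)))) (l (nat_lit 1) (nat_lit 283) (nat_lit 286)))))) (n (nat_lit 288) (b (n (nat_lit 289) (b (l (nat_lit 2) (nat_lit 285) (nat_lit 286)) (l (nat_lit 2) (nat_lit 286) (nat_lit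 290)))) (l (nat_lit 1) (nat_lit 284) (nat_lit 309))))) (b (n (nat_lit 288) (b (n (nat_lit 289) (b (l (nat_lit 1) (nat_lit 285) (nat_lit 313)) (l (nat_lit 2) (nat_lit 286) (nat_lit 290)))) (l (nat_lit 1) (nat_lit 284) (nat_lit 309)))) (n (nat_lit 313) (b (n (nat_lit 288) (b (n (nat_lit 338) (b (n (nat_lit 263) (b (n (nat_lit 238) (b (n (nat_lit 239) (b (l (nat_lit 5) (nat_lit 238) (nat_lit 264)) (l (nat_lit 5) (nat_lit 213) (nat_lit 214)))) (l (nat_lit 6) (nat_lit 212) (nat_lit 213)))) (n (nat_lit 362) (b (n (nat_lit 363) (b (l (nat_lit 6) (nat_lit 287) (nat_lit 387)) (l (nat_lit 7) (nat_lit 287) (nat_lit 388)))) (l (nat_lit 6) (nat_lit 262) (nat_lit 337)))))) (l (nat_lit 0) (nat_lit 310) (nat_lit 339)))) (l (nat_lit 1) (nat_lit 285) (nat_lit 289)))) (n (nat_lit 314) (b (n (nat_lit 286) (b (l (nat_lit 3) (nat_lit 285) (nat_lit 285)) (l (nat_lit 3) (nat_lit 286) (nat_lit 315)))) (n (nat_lit 335) (b (l (nat_lit 2) (nat_lit 309) (nat_lit 334)) (l (nat_lit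 2) (nat_lit 310) (nat_lit 336))))))))))) (n (nat_lit 310) (b (b (n (nat_lit 309) (b (b (n (nat_lit 313) (b (n (nat_lit 338) (b (l (nat_lit 0) (nat_lit 309) (nat_lit 337)) (l (nat_lit 0) (nat_lit 310) (nat_lit 339)))) (n (nat_lit 334) (b (l (nat_lit 2) (nat_lit 309) (nat_lit 335)) (l (nat_lit 2) (nat_lit 308) (nat_lit 333)))))) (n (nat_lit 308) (b (n (nat_lit 283) (b (l (nat_lit 3) (nat_lit 283) (nat_lit 284)) (l (nat_lit 3) (nat_lit 282) (nat_lit 282)))) (n (nat_lit 333) (b (l (nat_lit 2) (nat_lit 307) (nat_lit 332)) (l (nat_lit 2) (nat_lit 308) (nat_lit 334))))))) (n (nat_lit 308) (b (n (nat_lit 337) (b (l (nat_lit 0) (nat_lit 309) (nat_lit 338)) (l (nat_lit 0) (nat_lit 308) (nat_lit 336)))) (n (nat_lit 283) (b (l (nat_lit 3) (nat_lit 283) (nat_lit 284)) (l (nat_lit 3) (nat_lit 282) (nat_lit 282)))))))) (n (nat_lit 309) (b (n (nat_lit 308) (b (n (nat_lit 283) (b (l (nat_lit 3) (nat_lit 283) (nat_lit 284)) (l (nat_lit 3) (nat_lit 282) (nat_lit 282))))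 (n (nat_lit 333) (b (l (nat_lit 2) (nat_lit 307) (nat_lit 332)) (l (nat_lit 2) (nat_lit 308) (nat_lit 334)))))) (l (nat_lit 1) (nat_lit 284) (nat_lit 288))))) (b (n (nat_lit 288) (b (n (nat_lit 289) (b (l (nat_lit 1) (nat_lit 285) (nat_lit 313)) (l (nat_lit 2) (nat_lit 286) (nat_lit 290)))) (l (nat_lit 1) (nat_lit 284) (nat_lit 309)))) (n (nat_lit 313) (b (n (nat_lit 288) (b (n (nat_lit 338) (b (n (nat_lit 263) (b (n (nat_lit 238) (b (n (nat_lit 239) (b (l (nat_lit 5) (nat_lit 238) (nat_lit 264)) (l (nat_lit 5) (nat_lit 213) (nat_lit 214)))) (l (nat_lit 6) (nat_lit 212) (nat_lit 213)))) (n (nat_lit 362) (b (n (nat_lit 363) (b (l (nat_lit 6) (nat_lit 287) (nat_lit 387)) (l (nat_lit 7) (nat_lit 287) (nat_lit 388)))) (l (nat_lit 6) (nat_lit 262) (nat_lit 337)))))) (l (nat_lit 0) (nat_lit 310) (nat_lit 339)))) (l (nat_lit 1) (nat_lit 285) (nat_lit 289)))) (n (nat_lit 335) (b (n (nat_lit 336) (b (n (nat_lit 361) (b (n (nat_lit 285) (b (l (nat_lit 4) (nat_lit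 260) (nat_lit 260)) (l (nat_lit 3) (nat_lit 284) (nat_lit 284)))) (l (nat_lit 5) (nat_lit 286) (nat_lit 386)))) (l (nat_lit 2) (nat_lit 310) (nat_lit 314)))) (l (nat_lit 2) (nat_lit 309) (nat_lit 334)))))))))))) (b (n (nat_lit 310) (b (b (n (nat_lit 309) (b (n (nat_lit 308) (b (n (nat_lit 283) (b (l (nat_lit 3) (nat_lit 283) (nat_lit 284)) (l (nat_lit 3) (nat_lit 282) (nat_lit 282)))) (n (nat_lit 333) (b (l (nat_lit 2) (nat_lit 307) (nat_lit 332)) (l (nat_lit 2) (nat_lit 308) (nat_lit 334)))))) (l (nat_lit 1) (nat_lit 284) (nat_lit 288)))) (n (nat_lit 309) (b (b (n (nat_lit 313) (b (n (nat_lit 284) (b (l (nat_lit 3) (nat_lit 283) (nat_lit 283)) (l (nat_lit 3) (nat_lit 284) (nat_lit 285)))) (n (nat_lit 334) (b (l (nat_lit 2) (nat_lit 309) (nat_lit 335)) (l (nat_lit 2) (nat_lit 308) (nat_lit 333)))))) (n (nat_lit 308) (b (n (nat_lit 283) (b (l (nat_lit 3) (nat_lit 283) (nat_lit 284)) (l (nat_lit 3) (nat_lit 282) (nat_lit 282)))) (l (nat_lit 1) (nat_lit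 283) (nat_lit 286))))) (n (nat_lit 308) (b (n (nat_lit 333) (b (l (nat_lit 2) (nat_lit 307) (nat_lit 332)) (l (nat_lit 2) (nat_lit 308) (nat_lit 334)))) (l (nat_lit 1) (nat_lit 283) (nat_lit 286))))))) (b (n (nat_lit 288) (b (n (nat_lit 289) (b (l (nat_lit 2) (nat_lit 285) (nat_lit 286)) (l (nat_lit 2) (nat_lit 286) (nat_lit 290)))) (l (nat_lit 1) (nat_lit 284) (nat_lit 309)))) (n (nat_lit 313) (b (b (n (nat_lit 285) (b (n (nat_lit 286) (b (n (nat_lit 261) (b (n (nat_lit 337) (b (l (nat_lit 4) (nat_lit 236) (nat_lit 236)) (l (nat_lit 7) (nat_lit 261) (nat_lit 362)))) (n (nat_lit 335) (b (l (nat_lit 2) (nat_lit 309) (nat_lit 334)) (l (nat_lit 5) (nat_lit 260) (nat_lit 360)))))) (l (nat_lit 3) (nat_lit 285) (nat_lit 314)))) (l (nat_lit 3) (nat_lit 284) (nat_lit 284)))) (n (nat_lit 314) (b (n (nat_lit 286) (b (l (nat_lit 3) (nat_lit 285) (nat_lit 285)) (l (nat_lit 3) (nat_lit 286) (nat_lit 315)))) (n (nat_lit 289) (b (l (nat_lit 1) (nat_lit 286) (nat_lit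 290)) (l (nat_lit 1) (nat_lit 285) (nat_lit 288))))))) (n (nat_lit 288) (b (n (nat_lit 338) (b (n (nat_lit 263) (b (n (nat_lit 238) (b (n (nat_lit 239) (b (l (nat_lit 5) (nat_lit 238) (nat_lit 264)) (l (nat_lit 5) (nat_lit 213) (nat_lit 214)))) (l (nat_lit 6) (nat_lit 212) (nat_lit 213)))) (n (nat_lit 362) (b (n (nat_lit 363) (b (l (nat_lit 6) (nat_lit 287) (nat_lit 387)) (l (nat_lit 7) (nat_lit 287) (nat_lit 388)))) (l (nat_lit 6) (nat_lit 262) (nat_lit 337)))))) (l (nat_lit 0) (nat_lit 310) (nat_lit 339)))) (l (nat_lit 1) (nat_lit 285) (nat_lit 289))))))))) (r (nat_lit 7)))))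
    (envOK_cons p1073 (envOK_cons p1107 (envOK_cons p506 (envOK_cons p520 (envOK_cons p1069 (envOK_cons p1166 (envOK_cons p1216 (envOK_cons p1256 envOK_nil)))))))) (by decide +kernel)

theorem p1294 : Fam (nat_lit 11) (nat_lit 14601474127027214471265539772209546731827345496025506443233713461204193603283346016189280157696) (nat_lit 197010036853329124215134371432027010564199553595723551541928086783085004706224335670945152240796462667678181490688000) (nat_lit 197010036853329124215134371432027010564199553595723551541928086783085004706224335670945152240796462667678181490688000) :=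
  chk_sound Env.nil
    (n (nat_lit 334) (b (b (b (n (nat_lit 285) (b (b (n (nat_lit 260) (b (n (nat_lit 235) (b (l (nat_lit 4) (nat_lit 235) (nat_lit 336)) (l (nat_lit 6) (nat_lit 234) (nat_lit 309)))) (n (nat_lit 335) (b (l (nat_lit 6) (nat_lit 259) (nat_lit 359)) (l (nat_lit 2) (nat_lit 309) (nat_lit 313)))))) (n (nat_lit 260) (b (b (n (nat_lit 235) (b (l (nat_lit 4) (nat_lit 235) (nat_lit 336)) (l (nat_lit 6) (nat_lit 234) (nat_lit 309)))) (n (nat_lit 335) (b (n (nat_lit 336) (b (l (nat_lit 4) (nat_lit 260) (nat_lit 361)) (l (nat_lit 4) (nat_lit 235) (nat_lit 235)))) (l (nat_lit 6) (nat_lit 259) (nat_lit 359))))) (n (nat_lit 359) (b (n (nat_lit 309) (b (l (nat_lit 5) (nat_lit 284) (nat_lit 384)) (l (nat_lit 5) (nat_lit 259) (nat_lit 284)))) (l (nat_lit 6) (nat_lit 259) (nat_lit 335))))))) (b (n (nat_lit 313) (b (l (nat_lit 2) (nat_lit 309) (nat_lit 335)) (l (nat_lit 3) (nat_lit 284) (nat_lit 284)))) (n (nat_lit 284) (b (n (nat_lit 286) (b (n (nat_lit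 262) (b (n (nat_lit 237) (b (l (nat_lit 6) (nat_lit 236) (nat_lit 336)) (l (nat_lit 6) (nat_lit 211) (nat_lit 212)))) (l (nat_lit 1) (nat_lit 259) (nat_lit 263)))) (n (nat_lit 309) (b (n (nat_lit 359) (b (l (nat_lit 5) (nat_lit 284) (nat_lit 384)) (l (nat_lit 5) (nat_lit 259) (nat_lit 260)))) (l (nat_lit 2) (nat_lit 283) (nat_lit 308)))))) (l (nat_lit 3) (nat_lit 284) (nat_lit 313))))))) (n (nat_lit 333) (b (n (nat_lit 335) (b (l (nat_lit 1) (nat_lit 308) (nat_lit 336)) (l (nat_lit 1) (nat_lit 307) (nat_lit 332)))) (l (nat_lit 2) (nat_lit 308) (nat_lit 309))))) (b (n (nat_lit 335) (b (n (nat_lit 333) (b (l (nat_lit 1) (nat_lit 308) (nat_lit 336)) (l (nat_lit 1) (nat_lit 307) (nat_lit 332)))) (l (nat_lit 2) (nat_lit 309) (nat_lit 313)))) (n (nat_lit 333) (b (n (nat_lit 335) (b (l (nat_lit 1) (nat_lit 307) (nat_lit 332)) (l (nat_lit 2) (nat_lit 309) (nat_lit 313)))) (l (nat_lit 2) (nat_lit 308) (nat_lit 309)))))) (n (nat_lit 309) (b (n (nat_lit 286) (b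 (n (nat_lit 336) (b (b (n (nat_lit 285) (b (n (nat_lit 313) (b (l (nat_lit 3) (nat_lit 285) (nat_lit 314)) (l (nat_lit 0) (nat_lit 284) (nat_lit 284)))) (n (nat_lit 361) (b (l (nat_lit 5) (nat_lit 286) (nat_lit 386)) (l (nat_lit 7) (nat_lit 260) (nat_lit 260)))))) (n (nat_lit 262) (b (l (nat_lit 5) (nat_lit 261) (nat_lit 361)) (l (nat_lit 6) (nat_lit 236) (nat_lit 237))))) (n (nat_lit 235) (b (b (n (nat_lit 260) (b (l (nat_lit 7) (nat_lit 235) (nat_lit 261)) (l (nat_lit 4) (nat_lit 235) (nat_lit 285)))) (n (nat_lit 285) (b (n (nat_lit 313) (b (l (nat_lit 3) (nat_lit 285) (nat_lit 314)) (l (nat_lit 0) (nat_lit 284) (nat_lit 284)))) (l (nat_lit 6) (nat_lit 234) (nat_lit 260))))) (n (nat_lit 237) (b (n (nat_lit 236) (b (b (n (nat_lit 261) (b (l (nat_lit 5) (nat_lit 211) (nat_lit 212)) (l (nat_lit 7) (nat_lit 210) (nat_lit 210)))) (n (nat_lit 234) (b (b (n (nat_lit 210) (b (n (nat_lit 259) (b (l (nat_lit 2) (nat_lit 233) (nat_lit 258)) (l (nat_lit 5) (nat_lit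 209) (nat_lit 284)))) (n (nat_lit 209) (b (l (nat_lit 3) (nat_lit 209) (nat_lit 238)) (l (nat_lit 3) (nat_lit 208) (nat_lit 208)))))) (n (nat_lit 233) (b (n (nat_lit 258) (b (l (nat_lit 2) (nat_lit 233) (nat_lit 259)) (l (nat_lit 2) (nat_lit 232) (nat_lit 257)))) (n (nat_lit 212) (b (l (nat_lit 1) (nat_lit 208) (nat_lit 211)) (l (nat_lit 1) (nat_lit 209) (nat_lit 213))))))) (n (nat_lit 238) (b (n (nat_lit 209) (b (l (nat_lit 3) (nat_lit 209) (nat_lit 210)) (l (nat_lit 3) (nat_lit 208) (nat_lit 208)))) (n (nat_lit 213) (b (l (nat_lit 1) (nat_lit 210) (nat_lit 214)) (l (nat_lit 1) (nat_lit 209) (nat_lit 212))))))))) (b (n (nat_lit 261) (b (l (nat_lit 5) (nat_lit 211) (nat_lit 212)) (l (nat_lit 4) (nat_lit 211) (nat_lit 211)))) (n (nat_lit 261) (b (l (nat_lit 4) (nat_lit 211) (nat_lit 211)) (l (nat_lit 7) (nat_lit 210) (nat_lit 210))))))) (l (nat_lit 6) (nat_lit 236) (nat_lit 262)))))))) (l (nat_lit 1) (nat_lit 283) (nat_lit 308)))) (l (nat_lit 2) (nat_lit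 308) (nat_lit 333))))))
    envOK_nil (by decide +kernel)

theorem p1328 : Fam (nat_lit 10) (nat_lit 14601474127027214471265539772209546731827345496025506443233713461204193603283346016189280157696) (nat_lit 3966336403771620942038988620455201912608754586270078663810916914091671458327460617660468527488520994566298892330250406985728) (nat_lit 3966336403771620942038988620455201912608754586270078663810916914091671458327460617660468527488520994566298892330250406985728) :=
  chk_sound Env.nil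
    (n (nat_lit 309) (b (b (n (nat_lit 308) (b (b (n (nat_lit 307) (b (n (nat_lit 282) (b (l (nat_lit 3) (nat_lit 281) (nat_lit 281)) (l (nat_lit 3) (nat_lit 282) (nat_lit 283)))) (n (nat_lit 335) (b (n (nat_lit 334) (b (l (nat_lit 2) (nat_lit 309) (nat_lit 313)) (l (nat_lit 0) (nat_lit 306) (nat_lit 306)))) (l (nat_lit 0) (nat_lit 307) (nat_lit 336)))))) (n (nat_lit 333) (b (l (nat_lit 2) (nat_lit 307) (nat_lit 332)) (l (nat_lit 2) (nat_lit 308) (nat_lit 334))))) (n (nat_lit 307) (b (n (nat_lit 332) (b (l (nat_lit 2) (nat_lit 307) (nat_lit 333)) (l (nat_lit 2) (nat_lit 306) (nat_lit 331)))) (n (nat_lit 282) (b (l (nat_lit 3) (nat_lit 281) (nat_lit 281)) (l (nat_lit 3) (nat_lit 282) (nat_lit 283)))))))) (n (nat_lit 286) (b (n (nat_lit 336) (b (n (nat_lit 335) (b (n (nat_lit 360) (b (l (nat_lit 6) (nat_lit 260) (nat_lit 261)) (l (nat_lit 5) (nat_lit 285) (nat_lit 385)))) (n (nat_lit 313) (b (l (nat_lit 2) (nat_lit 310) (nat_lit 314)) (l (nat_lit 2) (nat_lit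 309) (nat_lit 334)))))) (n (nat_lit 262) (b (l (nat_lit 5) (nat_lit 261) (nat_lit 361)) (l (nat_lit 6) (nat_lit 236) (nat_lit 237)))))) (l (nat_lit 1) (nat_lit 283) (nat_lit 308))))) (b (n (nat_lit 308) (b (n (nat_lit 307) (b (n (nat_lit 332) (b (l (nat_lit 2) (nat_lit 307) (nat_lit 333)) (l (nat_lit 2) (nat_lit 306) (nat_lit 331)))) (n (nat_lit 282) (b (l (nat_lit 3) (nat_lit 281) (nat_lit 281)) (l (nat_lit 3) (nat_lit 282) (nat_lit 283)))))) (l (nat_lit 1) (nat_lit 283) (nat_lit 286)))) (n (nat_lit 334) (b (n (nat_lit 335) (b (n (nat_lit 285) (b (b (n (nat_lit 359) (b (l (nat_lit 5) (nat_lit 284) (nat_lit 384)) (l (nat_lit 6) (nat_lit 259) (nat_lit 260)))) (n (nat_lit 260) (b (n (nat_lit 360) (b (n (nat_lit 261) (b (l (nat_lit 5) (nat_lit 235) (nat_lit 236)) (l (nat_lit 5) (nat_lit 260) (nat_lit 286)))) (n (nat_lit 361) (b (l (nat_lit 4) (nat_lit 285) (nat_lit 386)) (l (nat_lit 4) (nat_lit 260) (nat_lit 336)))))) (l (nat_lit 6) (nat_lit 234) (nat_lit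 235))))) (n (nat_lit 360) (b (n (nat_lit 384) (b (n (nat_lit 385) (b (l (nat_lit 6) (nat_lit 309) (nat_lit 409)) (l (nat_lit 7) (nat_lit 309) (nat_lit 410)))) (l (nat_lit 6) (nat_lit 284) (nat_lit 359)))) (n (nat_lit 361) (b (n (nat_lit 286) (b (n (nat_lit 336) (b (n (nat_lit 362) (b (l (nat_lit 4) (nat_lit 286) (nat_lit 387)) (l (nat_lit 3) (nat_lit 334) (nat_lit 363)))) (l (nat_lit 5) (nat_lit 261) (nat_lit 262)))) (l (nat_lit 5) (nat_lit 260) (nat_lit 261)))) (l (nat_lit 4) (nat_lit 285) (nat_lit 386)))))))) (l (nat_lit 2) (nat_lit 309) (nat_lit 313)))) (l (nat_lit 2) (nat_lit 308) (nat_lit 333)))))))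
    envOK_nil (by decide +kernel)

theorem p1412 : Fam (nat_lit 12) (nat_lit 12515549287260700718926651387278343494910641860911587722582305641065307152325689229057481244672) (nat_lit 9254784154093610614357779624971580291657352314515659922418120755309111823646807423316579645712499961118623083406690462203904) (nat_lit 9254784154093610614357779624971580291657352314515659922418120755309111823646807423316579645712499961118623083406690462203904) :=
  chk_sound (Env.cons (nat_lit 11) (nat_lit 14601474127027214471265539772209546731827345496025506443233713461204193603283346016189280157696) (nat_lit 197010036853329124215134371432027010564199553595723551541928086783085004706224335670945152240796462667678181490688000) (Env.cons (nat_lit 10) (nat_lit 14601474127027214471265539772209546731827345496025506443233713461204193603283346016189280157696) (nat_lit 3966336403771620942038988620455201912608754586270078663810916914091671458327460617660468527488520994566298892330250406985728)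 (Env.cons (nat_lit 7) (nat_lit 14601474127027214471265539772209546731827345496025506443233713461204193603283346016189280157696) (nat_lit 39402009719208484608088534833077714384882596042181443998802954580426180603127032735813006136365064031919000877268992) (Env.cons (nat_lit 6) (nat_lit 14601473878365596266372218694518422658416925445797431044559854740972205156703597509922592391168) (nat_lit 39402012067751207365984314752456669067245940291953753997440667031175130971956716798853657923315483041101995686494208) Env.nil))))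
    (n (nat_lit 310) (b (b (b (b (r (nat_lit 0)) (r (nat_lit 1))) (b (r (nat_lit 2)) (n (nat_lit 336) (b (b (n (nat_lit 335) (b (b (n (nat_lit 334) (b (l (nat_lit 1) (nat_lit 308) (nat_lit 333)) (l (nat_lit 2) (nat_lit 309) (nat_lit 313)))) (n (nat_lit 285) (b (n (nat_lit 260) (b (l (nat_lit 4) (nat_lit 260) (nat_lit 361)) (l (nat_lit 4) (nat_lit 235) (nat_lit 235)))) (n (nat_lit 313) (b (l (nat_lit 3) (nat_lit 284) (nat_lit 284)) (l (nat_lit 2) (nat_lit 310) (nat_lit 314))))))) (n (nat_lit 360) (b (b (n (nat_lit 285) (b (n (nat_lit 260) (b (n (nat_lit 259) (b (l (nat_lit 7) (nat_lit 259) (nat_lit 284)) (l (nat_lit 7) (nat_lit 234) (nat_lit 234)))) (l (nat_lit 4) (nat_lit 235) (nat_lit 235)))) (n (nat_lit 385) (b (n (nat_lit 384) (b (l (nat_lit 6) (nat_lit 284) (nat_lit 359)) (l (nat_lit 6) (nat_lit 309) (nat_lit 409)))) (l (nat_lit 5) (nat_lit 310) (nat_lit 410)))))) (n (nat_lit 386) (b (n (nat_lit 385) (b (l (nat_lit 5) (nat_lit 310) (nat_lit 410))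 (l (nat_lit 4) (nat_lit 310) (nat_lit 411)))) (l (nat_lit 5) (nat_lit 286) (nat_lit 361))))) (n (nat_lit 361) (b (n (nat_lit 333) (b (n (nat_lit 359) (b (n (nat_lit 358) (b (l (nat_lit 3) (nat_lit 332) (nat_lit 332)) (l (nat_lit 1) (nat_lit 332) (nat_lit 357)))) (n (nat_lit 285) (b (l (nat_lit 4) (nat_lit 260) (nat_lit 260)) (l (nat_lit 6) (nat_lit 284) (nat_lit 384)))))) (l (nat_lit 1) (nat_lit 308) (nat_lit 334)))) (l (nat_lit 5) (nat_lit 286) (nat_lit 386)))))))) (n (nat_lit 361) (b (n (nat_lit 262) (b (l (nat_lit 5) (nat_lit 261) (nat_lit 286)) (l (nat_lit 6) (nat_lit 236) (nat_lit 237)))) (l (nat_lit 5) (nat_lit 286) (nat_lit 386))))) (n (nat_lit 335) (b (b (n (nat_lit 286) (b (n (nat_lit 261) (b (l (nat_lit 6) (nat_lit 260) (nat_lit 360)) (l (nat_lit 6) (nat_lit 235) (nat_lit 236)))) (n (nat_lit 285) (b (n (nat_lit 260) (b (n (nat_lit 334) (b (l (nat_lit 6) (nat_lit 259) (nat_lit 359)) (l (nat_lit 1) (nat_lit 308) (nat_lit 333)))) (l (nat_lit 4)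 (nat_lit 235) (nat_lit 235)))) (n (nat_lit 284) (b (n (nat_lit 262) (b (l (nat_lit 1) (nat_lit 259) (nat_lit 263)) (l (nat_lit 6) (nat_lit 236) (nat_lit 237)))) (l (nat_lit 0) (nat_lit 283) (nat_lit 283)))))))) (n (nat_lit 313) (b (l (nat_lit 2) (nat_lit 310) (nat_lit 314)) (l (nat_lit 2) (nat_lit 309) (nat_lit 334))))) (n (nat_lit 313) (b (n (nat_lit 285) (b (n (nat_lit 360) (b (n (nat_lit 385) (b (n (nat_lit 384) (b (l (nat_lit 6) (nat_lit 284) (nat_lit 359)) (l (nat_lit 6) (nat_lit 309) (nat_lit 409)))) (l (nat_lit 5) (nat_lit 310) (nat_lit 410)))) (n (nat_lit 261) (b (n (nat_lit 260) (b (l (nat_lit 5) (nat_lit 235) (nat_lit 236)) (l (nat_lit 4) (nat_lit 235) (nat_lit 235)))) (l (nat_lit 6) (nat_lit 260) (nat_lit 286)))))) (l (nat_lit 3) (nat_lit 284) (nat_lit 284)))) (l (nat_lit 2) (nat_lit 310) (nat_lit 314)))))))))) (b (b (n (nat_lit 313) (b (b (n (nat_lit 285) (b (n (nat_lit 335) (b (n (nat_lit 260) (b (b (n (nat_lit 235) (b (n (nat_lit 234) (b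 (l (nat_lit 7) (nat_lit 234) (nat_lit 259)) (l (nat_lit 7) (nat_lit 209) (nat_lit 209)))) (n (nat_lit 236) (b (l (nat_lit 5) (nat_lit 210) (nat_lit 211)) (l (nat_lit 5) (nat_lit 235) (nat_lit 261)))))) (n (nat_lit 336) (b (l (nat_lit 4) (nat_lit 260) (nat_lit 361)) (l (nat_lit 4) (nat_lit 235) (nat_lit 235))))) (n (nat_lit 360) (b (n (nat_lit 261) (b (l (nat_lit 5) (nat_lit 235) (nat_lit 236)) (l (nat_lit 5) (nat_lit 260) (nat_lit 286)))) (n (nat_lit 361) (b (l (nat_lit 4) (nat_lit 285) (nat_lit 386)) (l (nat_lit 4) (nat_lit 260) (nat_lit 336)))))))) (l (nat_lit 2) (nat_lit 309) (nat_lit 334)))) (l (nat_lit 3) (nat_lit 284) (nat_lit 284)))) (n (nat_lit 314) (b (n (nat_lit 315) (b (n (nat_lit 290) (b (l (nat_lit 1) (nat_lit 286) (nat_lit 289)) (l (nat_lit 1) (nat_lit 287) (nat_lit 291)))) (l (nat_lit 3) (nat_lit 286) (nat_lit 286)))) (n (nat_lit 335) (b (l (nat_lit 2) (nat_lit 309) (nat_lit 334)) (l (nat_lit 2) (nat_lit 310) (nat_lit 336))))))) (b (n (nat_lit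 335) (b (n (nat_lit 336) (b (n (nat_lit 361) (b (n (nat_lit 285) (b (l (nat_lit 4) (nat_lit 260) (nat_lit 260)) (l (nat_lit 3) (nat_lit 284) (nat_lit 284)))) (l (nat_lit 5) (nat_lit 286) (nat_lit 386)))) (l (nat_lit 2) (nat_lit 310) (nat_lit 314)))) (l (nat_lit 2) (nat_lit 309) (nat_lit 334)))) (n (nat_lit 309) (b (b (n (nat_lit 286) (b (n (nat_lit 314) (b (l (nat_lit 3) (nat_lit 286) (nat_lit 315)) (l (nat_lit 3) (nat_lit 285) (nat_lit 285)))) (l (nat_lit 1) (nat_lit 283) (nat_lit 308)))) (n (nat_lit 284) (b (l (nat_lit 3) (nat_lit 283) (nat_lit 283)) (l (nat_lit 3) (nat_lit 284) (nat_lit 285))))) (n (nat_lit 308) (b (n (nat_lit 283) (b (l (nat_lit 3) (nat_lit 283) (nat_lit 284)) (l (nat_lit 3) (nat_lit 282) (nat_lit 282)))) (l (nat_lit 1) (nat_lit 283) (nat_lit 286))))))))) (r (nat_lit 3))) (b (n (nat_lit 309) (b (b (n (nat_lit 308) (b (n (nat_lit 283) (b (l (nat_lit 3) (nat_lit 283) (nat_lit 284)) (l (nat_lit 3) (nat_lit 282) (nat_lit 282)))) (l (nat_lit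 1) (nat_lit 283) (nat_lit 286)))) (n (nat_lit 308) (b (n (nat_lit 333) (b (l (nat_lit 2) (nat_lit 307) (nat_lit 332)) (l (nat_lit 2) (nat_lit 308) (nat_lit 334)))) (l (nat_lit 1) (nat_lit 283) (nat_lit 286))))) (n (nat_lit 284) (b (n (nat_lit 285) (b (n (nat_lit 334) (b (n (nat_lit 260) (b (l (nat_lit 5) (nat_lit 259) (nat_lit 359)) (l (nat_lit 6) (nat_lit 234) (nat_lit 235)))) (l (nat_lit 2) (nat_lit 308) (nat_lit 333)))) (l (nat_lit 3) (nat_lit 284) (nat_lit 313)))) (l (nat_lit 3) (nat_lit 283) (nat_lit 283)))))) (n (nat_lit 309) (b (b (n (nat_lit 308) (b (n (nat_lit 283) (b (l (nat_lit 3) (nat_lit 283) (nat_lit 284)) (l (nat_lit 3) (nat_lit 282) (nat_lit 282)))) (l (nat_lit 1) (nat_lit 283) (nat_lit 286)))) (n (nat_lit 308) (b (n (nat_lit 333) (b (l (nat_lit 2) (nat_lit 307) (nat_lit 332)) (l (nat_lit 2) (nat_lit 308) (nat_lit 334)))) (l (nat_lit 1) (nat_lit 283) (nat_lit 286))))) (n (nat_lit 334) (b (n (nat_lit 284) (b (n (nat_lit 335) (b (n (nat_lit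 259) (b (l (nat_lit 4) (nat_lit 259) (nat_lit 360)) (l (nat_lit 4) (nat_lit 234) (nat_lit 234)))) (l (nat_lit 2) (nat_lit 309) (nat_lit 313)))) (l (nat_lit 3) (nat_lit 283) (nat_lit 283)))) (l (nat_lit 2) (nat_lit 308) (nat_lit 333))))))))) (n (nat_lit 309) (b (b (n (nat_lit 284) (b (n (nat_lit 285) (b (n (nat_lit 260) (b (b (n (nat_lit 335) (b (n (nat_lit 262) (b (n (nat_lit 336) (b (l (nat_lit 4) (nat_lit 260) (nat_lit 361)) (l (nat_lit 6) (nat_lit 236) (nat_lit 237)))) (n (nat_lit 261) (b (l (nat_lit 2) (nat_lit 259) (nat_lit 263)) (l (nat_lit 5) (nat_lit 235) (nat_lit 236)))))) (n (nat_lit 360) (b (l (nat_lit 7) (nat_lit 259) (nat_lit 259)) (l (nat_lit 7) (nat_lit 284) (nat_lit 385)))))) (n (nat_lit 235) (b (l (nat_lit 4) (nat_lit 235) (nat_lit 336)) (l (nat_lit 6) (nat_lit 209) (nat_lit 210))))) (n (nat_lit 234) (b (b (n (nat_lit 235) (b (l (nat_lit 7) (nat_lit 209) (nat_lit 209)) (l (nat_lit 6) (nat_lit 209) (nat_lit 210)))) (n (nat_lit 259) (b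 (l (nat_lit 4) (nat_lit 234) (nat_lit 335)) (l (nat_lit 4) (nat_lit 209) (nat_lit 209))))) (n (nat_lit 236) (b (n (nat_lit 235) (b (l (nat_lit 5) (nat_lit 210) (nat_lit 211)) (l (nat_lit 6) (nat_lit 209) (nat_lit 210)))) (n (nat_lit 335) (b (l (nat_lit 5) (nat_lit 235) (nat_lit 261)) (l (nat_lit 4) (nat_lit 234) (nat_lit 259)))))))))) (l (nat_lit 3) (nat_lit 284) (nat_lit 313)))) (l (nat_lit 3) (nat_lit 283) (nat_lit 283)))) (n (nat_lit 308) (b (n (nat_lit 307) (b (n (nat_lit 332) (b (l (nat_lit 2) (nat_lit 307) (nat_lit 333)) (l (nat_lit 2) (nat_lit 306) (nat_lit 331)))) (n (nat_lit 282) (b (l (nat_lit 3) (nat_lit 281) (nat_lit 281)) (l (nat_lit 3) (nat_lit 282) (nat_lit 283)))))) (l (nat_lit 1) (nat_lit 283) (nat_lit 286))))) (n (nat_lit 286) (b (n (nat_lit 336) (b (b (n (nat_lit 285) (b (n (nat_lit 313) (b (l (nat_lit 3) (nat_lit 285) (nat_lit 314)) (l (nat_lit 0) (nat_lit 284) (nat_lit 284)))) (n (nat_lit 361) (b (l (nat_lit 5) (nat_lit 286) (nat_lit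 386)) (l (nat_lit 7) (nat_lit 260) (nat_lit 260)))))) (n (nat_lit 262) (b (l (nat_lit 5) (nat_lit 261) (nat_lit 361)) (l (nat_lit 6) (nat_lit 236) (nat_lit 237))))) (n (nat_lit 261) (b (b (n (nat_lit 284) (b (n (nat_lit 259) (b (n (nat_lit 335) (b (l (nat_lit 6) (nat_lit 260) (nat_lit 360)) (l (nat_lit 4) (nat_lit 234) (nat_lit 234)))) (n (nat_lit 260) (b (l (nat_lit 7) (nat_lit 235) (nat_lit 235)) (l (nat_lit 0) (nat_lit 258) (nat_lit 258)))))) (n (nat_lit 285) (b (n (nat_lit 262) (b (l (nat_lit 1) (nat_lit 259) (nat_lit 263)) (l (nat_lit 5) (nat_lit 236) (nat_lit 237)))) (l (nat_lit 3) (nat_lit 284) (nat_lit 313)))))) (n (nat_lit 335) (b (l (nat_lit 6) (nat_lit 260) (nat_lit 360)) (l (nat_lit 6) (nat_lit 235) (nat_lit 236))))) (n (nat_lit 237) (b (n (nat_lit 236) (b (l (nat_lit 4) (nat_lit 211) (nat_lit 211)) (l (nat_lit 5) (nat_lit 211) (nat_lit 212)))) (l (nat_lit 6) (nat_lit 236) (nat_lit 262)))))))) (l (nat_lit 1) (nat_lit 283) (nat_lit 308))))))))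
    (envOK_cons p1294 (envOK_cons p1328 (envOK_cons p1254 (envOK_cons p1107 envOK_nil)))) (by decide +kernel)

theorem p1426 : Fam (nat_lit 8) (nat_lit 12515549411591509821373311926123905531615851886025625421919235001181301375615563482190825127936) (nat_lit 1891296353791958668570010605256741743740445153972785031852336602201603798958554360282814568834791274683351627210948608) (nat_lit 1891296353791958668570010605256741743740445153972785031852336602201603798958554360282814568834791274683351627210948608) :=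
  chk_sound Env.nil
    (n (nat_lit 285) (b (b (n (nat_lit 288) (b (n (nat_lit 289) (b (n (nat_lit 264) (b (l (nat_lit 1) (nat_lit 261) (nat_lit 265)) (l (nat_lit 1) (nat_lit 260) (nat_lit 263)))) (l (nat_lit 2) (nat_lit 286) (nat_lit 290)))) (n (nat_lit 284) (b (n (nat_lit 259) (b (l (nat_lit 3) (nat_lit 258) (nat_lit 258)) (l (nat_lit 3) (nat_lit 259) (nat_lit 260)))) (l (nat_lit 0) (nat_lit 283) (nat_lit 283)))))) (n (nat_lit 313) (b (l (nat_lit 3) (nat_lit 285) (nat_lit 314)) (l (nat_lit 0) (nat_lit 284) (nat_lit 284))))) (n (nat_lit 288) (b (n (nat_lit 289) (b (n (nat_lit 260) (b (l (nat_lit 3) (nat_lit 260) (nat_lit 261)) (l (nat_lit 3) (nat_lit 259) (nat_lit 259)))) (l (nat_lit 2) (nat_lit 286) (nat_lit 290)))) (n (nat_lit 313) (b (n (nat_lit 263) (b (n (nat_lit 338) (b (n (nat_lit 363) (b (n (nat_lit 364) (b (l (nat_lit 4) (nat_lit 288) (nat_lit 389)) (l (nat_lit 4) (nat_lit 263) (nat_lit 339)))) (l (nat_lit 7) (nat_lit 287) (nat_lit 388)))) (n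 (nat_lit 237) (b (n (nat_lit 238) (b (l (nat_lit 6) (nat_lit 212) (nat_lit 213)) (l (nat_lit 7) (nat_lit 212) (nat_lit 212)))) (l (nat_lit 7) (nat_lit 237) (nat_lit 262)))))) (l (nat_lit 1) (nat_lit 260) (nat_lit 264)))) (l (nat_lit 3) (nat_lit 285) (nat_lit 314))))))))
    envOK_nil (by decide +kernel)

theorem p1547 : Fam (nat_lit 11) (nat_lit 12515549287260700718926651387278343494910641860911587722582305641065307152325689229057481244672) (nat_lit 591030129348327492397706672804061085435165226492018258964622888286641162738298470342685823171095244617202353389436928) (nat_lit 591030129348327492397706672804061085435165226492018258964622888286641162738298470342685823171095244617202353389436928) :=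
  chk_sound (Env.cons (nat_lit 7) (nat_lit 14601474127027214471265539772209546731827345496025506443233713461204193603283346016189280157696) (nat_lit 39402009719208484608088534833077714384882596042181443998802954580426180603127032735813006136365064031919000877268992) Env.nil)
    (n (nat_lit 310) (b (b (r (nat_lit 0)) (n (nat_lit 309) (b (n (nat_lit 308) (b (n (nat_lit 283) (b (l (nat_lit 3) (nat_lit 283) (nat_lit 284)) (l (nat_lit 3) (nat_lit 282) (nat_lit 282)))) (n (nat_lit 333) (b (l (nat_lit 2) (nat_lit 307) (nat_lit 332)) (l (nat_lit 2) (nat_lit 308) (nat_lit 334)))))) (l (nat_lit 1) (nat_lit 284) (nat_lit 288))))) (b (n (nat_lit 288) (b (n (nat_lit 289) (b (l (nat_lit 2) (nat_lit 285) (nat_lit 286)) (l (nat_lit 2) (nat_lit 286) (nat_lit 290)))) (l (nat_lit 1) (nat_lit 284) (nat_lit 309)))) (n (nat_lit 286) (b (b (b (n (nat_lit 336) (b (b (n (nat_lit 261) (b (n (nat_lit 236) (b (n (nat_lit 235) (b (l (nat_lit 7) (nat_lit 235) (nat_lit 260)) (l (nat_lit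 7) (nat_lit 210) (nat_lit 210)))) (l (nat_lit 4) (nat_lit 211) (nat_lit 211)))) (n (nat_lit 361) (b (n (nat_lit 360) (b (l (nat_lit 6) (nat_lit 285) (nat_lit 385)) (l (nat_lit 6) (nat_lit 260) (nat_lit 335)))) (l (nat_lit 5) (nat_lit 286) (nat_lit 386)))))) (n (nat_lit 262) (b (l (nat_lit 5) (nat_lit 261) (nat_lit 361)) (l (nat_lit 6) (nat_lit 236) (nat_lit 237))))) (n (nat_lit 261) (b (b (n (nat_lit 237) (b (n (nat_lit 236) (b (l (nat_lit 4) (nat_lit 211) (nat_lit 211)) (l (nat_lit 5) (nat_lit 211) (nat_lit 212)))) (l (nat_lit 6) (nat_lit 236) (nat_lit 262)))) (n (nat_lit 335) (b (l (nat_lit 6) (nat_lit 260) (nat_lit 360)) (l (nat_lit 6) (nat_lit 235) (nat_lit 236))))) (n (nat_lit 262) (b (n (nat_lit 260) (b (n (nat_lit 285) (b (n (nat_lit 335) (b (n (nat_lit 259) (b (l (nat_lit 0) (nat_lit 258) (nat_lit 258)) (l (nat_lit 7) (nat_lit 234) (nat_lit 234)))) (l (nat_lit 6) (nat_lit 260) (nat_lit 360)))) (n (nat_lit 263) (b (l (nat_lit 2) (nat_lit 260) (nat_lit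 264)) (l (nat_lit 1) (nat_lit 259) (nat_lit 284)))))) (l (nat_lit 7) (nat_lit 235) (nat_lit 235)))) (l (nat_lit 6) (nat_lit 236) (nat_lit 237)))))))) (n (nat_lit 336) (b (b (n (nat_lit 361) (b (n (nat_lit 360) (b (n (nat_lit 362) (b (n (nat_lit 335) (b (n (nat_lit 334) (b (l (nat_lit 3) (nat_lit 334) (nat_lit 363)) (l (nat_lit 0) (nat_lit 333) (nat_lit 333)))) (l (nat_lit 6) (nat_lit 260) (nat_lit 261)))) (l (nat_lit 4) (nat_lit 286) (nat_lit 387)))) (l (nat_lit 6) (nat_lit 285) (nat_lit 385)))) (l (nat_lit 5) (nat_lit 286) (nat_lit 386)))) (n (nat_lit 262) (b (l (nat_lit 5) (nat_lit 261) (nat_lit 361)) (l (nat_lit 6) (nat_lit 236) (nat_lit 237))))) (n (nat_lit 261) (b (n (nat_lit 335) (b (l (nat_lit 6) (nat_lit 260) (nat_lit 360)) (l (nat_lit 6) (nat_lit 235) (nat_lit 236)))) (n (nat_lit 262) (b (n (nat_lit 288) (b (n (nat_lit 263) (b (n (nat_lit 260) (b (n (nat_lit 238) (b (l (nat_lit 6) (nat_lit 212) (nat_lit 213)) (l (nat_lit 1) (nat_lit 235) (nat_lit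 239)))) (l (nat_lit 0) (nat_lit 259) (nat_lit 259)))) (n (nat_lit 264) (b (l (nat_lit 2) (nat_lit 261) (nat_lit 265)) (l (nat_lit 1) (nat_lit 260) (nat_lit 285)))))) (l (nat_lit 2) (nat_lit 285) (nat_lit 289)))) (l (nat_lit 6) (nat_lit 236) (nat_lit 237))))))))) (b (n (nat_lit 336) (b (b (n (nat_lit 361) (b (n (nat_lit 360) (b (n (nat_lit 362) (b (n (nat_lit 335) (b (n (nat_lit 334) (b (l (nat_lit 3) (nat_lit 334) (nat_lit 363)) (l (nat_lit 0) (nat_lit 333) (nat_lit 333)))) (l (nat_lit 6) (nat_lit 260) (nat_lit 261)))) (l (nat_lit 4) (nat_lit 286) (nat_lit 387)))) (l (nat_lit 6) (nat_lit 285) (nat_lit 385)))) (l (nat_lit 5) (nat_lit 286) (nat_lit 386)))) (n (nat_lit 262) (b (l (nat_lit 5) (nat_lit 261) (nat_lit 361)) (l (nat_lit 6) (nat_lit 236) (nat_lit 237))))) (n (nat_lit 236) (b (b (n (nat_lit 261) (b (l (nat_lit 4) (nat_lit 211) (nat_lit 211)) (l (nat_lit 6) (nat_lit 235) (nat_lit 335)))) (n (nat_lit 237) (b (n (nat_lit 261) (b (l (nat_lit 6) (nat_lit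 235) (nat_lit 335)) (l (nat_lit 5) (nat_lit 211) (nat_lit 212)))) (l (nat_lit 6) (nat_lit 236) (nat_lit 262))))) (n (nat_lit 237) (b (n (nat_lit 238) (b (b (n (nat_lit 239) (b (b (n (nat_lit 240) (b (n (nat_lit 215) (b (l (nat_lit 1) (nat_lit 211) (nat_lit 214)) (l (nat_lit 1) (nat_lit 212) (nat_lit 216)))) (n (nat_lit 265) (b (l (nat_lit 0) (nat_lit 237) (nat_lit 266)) (l (nat_lit 0) (nat_lit 236) (nat_lit 264)))))) (n (nat_lit 235) (b (n (nat_lit 210) (b (l (nat_lit 3) (nat_lit 210) (nat_lit 211)) (l (nat_lit 3) (nat_lit 209) (nat_lit 209)))) (n (nat_lit 264) (b (l (nat_lit 0) (nat_lit 236) (nat_lit 265)) (l (nat_lit 0) (nat_lit 235) (nat_lit 263))))))) (n (nat_lit 240) (b (n (nat_lit 211) (b (l (nat_lit 3) (nat_lit 211) (nat_lit 212)) (l (nat_lit 3) (nat_lit 210) (nat_lit 210)))) (n (nat_lit 215) (b (l (nat_lit 1) (nat_lit 211) (nat_lit 214)) (l (nat_lit 1) (nat_lit 212) (nat_lit 216)))))))) (n (nat_lit 239) (b (b (n (nat_lit 240) (b (n (nat_lit 215)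 (b (l (nat_lit 1) (nat_lit 211) (nat_lit 214)) (l (nat_lit 1) (nat_lit 212) (nat_lit 216)))) (n (nat_lit 265) (b (l (nat_lit 0) (nat_lit 237) (nat_lit 266)) (l (nat_lit 0) (nat_lit 236) (nat_lit 264)))))) (n (nat_lit 240) (b (n (nat_lit 211) (b (l (nat_lit 3) (nat_lit 211) (nat_lit 212)) (l (nat_lit 3) (nat_lit 210) (nat_lit 210)))) (n (nat_lit 265) (b (l (nat_lit 0) (nat_lit 237) (nat_lit 266)) (l (nat_lit 0) (nat_lit 236) (nat_lit 264))))))) (n (nat_lit 235) (b (n (nat_lit 214) (b (l (nat_lit 1) (nat_lit 211) (nat_lit 215)) (l (nat_lit 1) (nat_lit 210) (nat_lit 213)))) (n (nat_lit 210) (b (l (nat_lit 3) (nat_lit 210) (nat_lit 211)) (l (nat_lit 3) (nat_lit 209) (nat_lit 209))))))))) (b (n (nat_lit 213) (b (n (nat_lit 288) (b (l (nat_lit 6) (nat_lit 212) (nat_lit 263)) (l (nat_lit 2) (nat_lit 285) (nat_lit 289)))) (n (nat_lit 214) (b (n (nat_lit 215) (b (l (nat_lit 2) (nat_lit 211) (nat_lit 212)) (l (nat_lit 2) (nat_lit 212) (nat_lit 216)))) (l (nat_lit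 1) (nat_lit 210) (nat_lit 235)))))) (n (nat_lit 288) (b (n (nat_lit 263) (b (n (nat_lit 264) (b (n (nat_lit 265) (b (l (nat_lit 0) (nat_lit 236) (nat_lit 239)) (l (nat_lit 2) (nat_lit 262) (nat_lit 266)))) (l (nat_lit 1) (nat_lit 260) (nat_lit 285)))) (l (nat_lit 6) (nat_lit 212) (nat_lit 213)))) (l (nat_lit 2) (nat_lit 285) (nat_lit 289))))))) (l (nat_lit 6) (nat_lit 236) (nat_lit 262)))))))) (n (nat_lit 336) (b (b (n (nat_lit 261) (b (n (nat_lit 236) (b (n (nat_lit 235) (b (l (nat_lit 7) (nat_lit 235) (nat_lit 260)) (l (nat_lit 7) (nat_lit 210) (nat_lit 210)))) (l (nat_lit 4) (nat_lit 211) (nat_lit 211)))) (n (nat_lit 361) (b (n (nat_lit 360) (b (l (nat_lit 6) (nat_lit 285) (nat_lit 385)) (l (nat_lit 6) (nat_lit 260) (nat_lit 335)))) (l (nat_lit 5) (nat_lit 286) (nat_lit 386)))))) (n (nat_lit 262) (b (l (nat_lit 5) (nat_lit 261) (nat_lit 361)) (l (nat_lit 6) (nat_lit 236) (nat_lit 237))))) (n (nat_lit 261) (b (n (nat_lit 335) (b (l (nat_lit 6) (nat_lit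 260) (nat_lit 360)) (l (nat_lit 6) (nat_lit 235) (nat_lit 236)))) (n (nat_lit 262) (b (n (nat_lit 288) (b (n (nat_lit 260) (b (l (nat_lit 0) (nat_lit 259) (nat_lit 259)) (l (nat_lit 7) (nat_lit 235) (nat_lit 235)))) (l (nat_lit 2) (nat_lit 285) (nat_lit 289)))) (l (nat_lit 6) (nat_lit 236) (nat_lit 237)))))))))) (b (b (n (nat_lit 261) (b (b (n (nat_lit 236) (b (l (nat_lit 4) (nat_lit 211) (nat_lit 211)) (l (nat_lit 6) (nat_lit 235) (nat_lit 335)))) (n (nat_lit 336) (b (n (nat_lit 361) (b (n (nat_lit 360) (b (l (nat_lit 6) (nat_lit 285) (nat_lit 385)) (l (nat_lit 6) (nat_lit 260) (nat_lit 335)))) (l (nat_lit 5) (nat_lit 286) (nat_lit 386)))) (n (nat_lit 260) (b (n (nat_lit 288) (b (n (nat_lit 259) (b (l (nat_lit 3) (nat_lit 259) (nat_lit 285)) (l (nat_lit 0) (nat_lit 258) (nat_lit 258)))) (l (nat_lit 3) (nat_lit 260) (nat_lit 289)))) (l (nat_lit 7) (nat_lit 235) (nat_lit 235))))))) (n (nat_lit 260) (b (n (nat_lit 288) (b (n (nat_lit 259) (b (l (nat_lit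 3) (nat_lit 259) (nat_lit 285)) (l (nat_lit 0) (nat_lit 258) (nat_lit 258)))) (l (nat_lit 3) (nat_lit 260) (nat_lit 289)))) (n (nat_lit 235) (b (n (nat_lit 236) (b (l (nat_lit 7) (nat_lit 210) (nat_lit 210)) (l (nat_lit 4) (nat_lit 211) (nat_lit 211)))) (l (nat_lit 7) (nat_lit 235) (nat_lit 336)))))))) (n (nat_lit 285) (b (b (n (nat_lit 262) (b (n (nat_lit 336) (b (l (nat_lit 5) (nat_lit 261) (nat_lit 361)) (l (nat_lit 6) (nat_lit 236) (nat_lit 237)))) (n (nat_lit 284) (b (l (nat_lit 1) (nat_lit 259) (nat_lit 263)) (l (nat_lit 0) (nat_lit 283) (nat_lit 283)))))) (n (nat_lit 263) (b (n (nat_lit 284) (b (l (nat_lit 0) (nat_lit 283) (nat_lit 283)) (l (nat_lit 1) (nat_lit 259) (nat_lit 262)))) (n (nat_lit 288) (b (l (nat_lit 2) (nat_lit 285) (nat_lit 289)) (l (nat_lit 1) (nat_lit 260) (nat_lit 264))))))) (n (nat_lit 260) (b (n (nat_lit 336) (b (l (nat_lit 4) (nat_lit 235) (nat_lit 235)) (l (nat_lit 7) (nat_lit 260) (nat_lit 361)))) (n (nat_lit 288) (b (l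 (nat_lit 3) (nat_lit 259) (nat_lit 259)) (l (nat_lit 2) (nat_lit 285) (nat_lit 289))))))))) (n (nat_lit 236) (b (b (n (nat_lit 285) (b (b (n (nat_lit 260) (b (n (nat_lit 235) (b (l (nat_lit 4) (nat_lit 210) (nat_lit 210)) (l (nat_lit 5) (nat_lit 210) (nat_lit 211)))) (n (nat_lit 288) (b (l (nat_lit 3) (nat_lit 259) (nat_lit 259)) (l (nat_lit 2) (nat_lit 285) (nat_lit 289)))))) (n (nat_lit 262) (b (n (nat_lit 237) (b (l (nat_lit 7) (nat_lit 211) (nat_lit 211)) (l (nat_lit 6) (nat_lit 211) (nat_lit 212)))) (n (nat_lit 284) (b (l (nat_lit 1) (nat_lit 259) (nat_lit 263)) (l (nat_lit 0) (nat_lit 283) (nat_lit 283))))))) (n (nat_lit 259) (b (n (nat_lit 288) (b (l (nat_lit 2) (nat_lit 285) (nat_lit 289)) (l (nat_lit 3) (nat_lit 259) (nat_lit 260)))) (n (nat_lit 284) (b (l (nat_lit 3) (nat_lit 258) (nat_lit 258)) (l (nat_lit 0) (nat_lit 283) (nat_lit 283)))))))) (n (nat_lit 261) (b (l (nat_lit 4) (nat_lit 211) (nat_lit 211)) (l (nat_lit 6) (nat_lit 235) (nat_lit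 335))))) (n (nat_lit 261) (b (n (nat_lit 288) (b (n (nat_lit 237) (b (n (nat_lit 238) (b (n (nat_lit 213) (b (l (nat_lit 6) (nat_lit 212) (nat_lit 263)) (l (nat_lit 5) (nat_lit 212) (nat_lit 262)))) (n (nat_lit 235) (b (n (nat_lit 260) (b (l (nat_lit 2) (nat_lit 235) (nat_lit 239)) (l (nat_lit 2) (nat_lit 234) (nat_lit 259)))) (l (nat_lit 7) (nat_lit 210) (nat_lit 210)))))) (l (nat_lit 5) (nat_lit 211) (nat_lit 212)))) (l (nat_lit 2) (nat_lit 285) (nat_lit 289)))) (l (nat_lit 6) (nat_lit 235) (nat_lit 335))))))))))))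
    (envOK_cons p1254 envOK_nil) (by decide +kernel)

theorem p1591 : Fam (nat_lit 13) (nat_lit 8343699607727673214248874617415937021077234590683750281279490000787534250410375654793883418624) (nat_lit 9254786045389945617975786004253784683895605113355222454585694167268173797358272394516208090588176746948023301116901059461120) (nat_lit 9254786045389945617975786004253784683895605113355222454585694167268173797358272394516208090588176746948023301116901059461120) :=
  chk_sound (Env.cons (nat_lit 12) (nat_lit 12515549287260700718926651387278343494910641860911587722582305641065307152325689229057481244672) (nat_lit 9254784154093610614357779624971580291657352314515659922418120755309111823646807423316579645712499961118623083406690462203904) (Env.cons (nat_lit 6) (nat_lit 12515549411591509821373311926123905531615851886025625421919235001181301375615563482190825127936) (nat_lit 236412044223994833571256018989351774191649105374859421676518808213759708492092618153713929297977829116040637732356096)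 (Env.cons (nat_lit 7) (nat_lit 12515549411591509821373311926123905531615851886025625421919235001181301375615563482190825127936) (nat_lit 4697085865468027713686805561283332637105134664366043398494038632400722672724906401602586945302532140432359424) (Env.cons (nat_lit 6) (nat_lit 12515549411591509821373311926123905531615851886025625421919235001181301375615563482190825127936) (nat_lit 4697085305531842169235752921922299326029762172554855062064095176186995103891722899945104230923446541482983424) (Env.cons (nat_lit 8) (nat_lit 12515549411591509821373311926123905531615851886025625421919235001181301375615563482190825127936) (nat_lit 1891296353791958668570010605256741743740445153972785031852336602201603798958554360282814568834791274683351627210948608) (Env.cons (nat_lit 11) (nat_lit 14601474127027214471265539772209546731827345496025506443233713461204193603283346016189280157696) (nat_lit 197010036853329124215134371432027010564199553595723551541928086783085004706224335670945152240796462667678181490688000)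 (Env.cons (nat_lit 10) (nat_lit 14601474127027214471265539772209546731827345496025506443233713461204193603283346016189280157696) (nat_lit 3966336403771620942038988620455201912608754586270078663810916914091671458327460617660468527488520994566298892330250406985728) (Env.cons (nat_lit 8) (nat_lit 12515549287260700718926651387278343494910641860911587722582305641065307152325689229057481244672) (nat_lit 197010039201871706989034348923863296343538099435545869408562878989483159490578506165152239775705811554540388674961408) (Env.cons (nat_lit 6) (nat_lit 14601473878365596266372218694518422658416925445797431044559854740972205156703597509922592391168) (nat_lit 39402012067751207365984314752456669067245940291953753997440667031175130971956716798853657923315483041101995686494208) (Env.cons (nat_lit 11) (nat_lit 12515549287260700718926651387278343494910641860911587722582305641065307152325689229057481244672) (nat_lit 591030129348327492397706672804061085435165226492018258964622888286641162738298470342685823171095244617202353389436928)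 Env.nil))))))))))
    (n (nat_lit 311) (b (b (b (b (r (nat_lit 0)) (n (nat_lit 286) (b (b (b (r (nat_lit 1)) (n (nat_lit 336) (b (b (n (nat_lit 261) (b (n (nat_lit 236) (b (n (nat_lit 235) (b (l (nat_lit 7) (nat_lit 235) (nat_lit 260)) (l (nat_lit 7) (nat_lit 210) (nat_lit 210)))) (l (nat_lit 4) (nat_lit 211) (nat_lit 211)))) (n (nat_lit 361) (b (n (nat_lit 360) (b (l (nat_lit 6) (nat_lit 285) (nat_lit 385)) (l (nat_lit 6) (nat_lit 260) (nat_lit 335)))) (l (nat_lit 5) (nat_lit 286) (nat_lit 386)))))) (n (nat_lit 262) (b (l (nat_lit 5) (nat_lit 261) (nat_lit 361)) (l (nat_lit 6) (nat_lit 236) (nat_lit 237))))) (n (nat_lit 261) (b (b (n (nat_lit 236) (b (n (nat_lit 235) (b (l (nat_lit 7) (nat_lit 235) (nat_lit 260)) (l (nat_lit 7) (nat_lit 210) (nat_lit 210)))) (l (nat_lit 4) (nat_lit 211) (nat_lit 211)))) (n (nat_lit 237) (b (n (nat_lit 236) (b (l (nat_lit 4) (nat_lit 211) (nat_lit 211)) (l (nat_lit 5) (nat_lit 211) (nat_lit 212)))) (l (nat_lit 6) (nat_lit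 236) (nat_lit 262))))) (n (nat_lit 262) (b (n (nat_lit 284) (b (n (nat_lit 260) (b (n (nat_lit 259) (b (l (nat_lit 2) (nat_lit 258) (nat_lit 283)) (l (nat_lit 0) (nat_lit 258) (nat_lit 258)))) (l (nat_lit 7) (nat_lit 235) (nat_lit 235)))) (n (nat_lit 285) (b (l (nat_lit 1) (nat_lit 259) (nat_lit 263)) (l (nat_lit 0) (nat_lit 284) (nat_lit 313)))))) (l (nat_lit 6) (nat_lit 236) (nat_lit 237))))))))) (b (r (nat_lit 2)) (r (nat_lit 3)))) (r (nat_lit 4))))) (b (n (nat_lit 310) (b (b (n (nat_lit 313) (b (b (n (nat_lit 338) (b (n (nat_lit 363) (b (n (nat_lit 262) (b (l (nat_lit 4) (nat_lit 237) (nat_lit 237)) (l (nat_lit 7) (nat_lit 262) (nat_lit 288)))) (l (nat_lit 7) (nat_lit 287) (nat_lit 388)))) (l (nat_lit 0) (nat_lit 310) (nat_lit 339)))) (n (nat_lit 314) (b (n (nat_lit 286) (b (l (nat_lit 3) (nat_lit 285) (nat_lit 285)) (l (nat_lit 3) (nat_lit 286) (nat_lit 315)))) (n (nat_lit 289) (b (l (nat_lit 1) (nat_lit 286) (nat_lit 290)) (l (nat_lit 1) (nat_lit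 285) (nat_lit 288))))))) (n (nat_lit 285) (b (n (nat_lit 336) (b (b (n (nat_lit 314) (b (l (nat_lit 2) (nat_lit 310) (nat_lit 335)) (l (nat_lit 3) (nat_lit 285) (nat_lit 286)))) (n (nat_lit 361) (b (n (nat_lit 260) (b (l (nat_lit 4) (nat_lit 260) (nat_lit 335)) (l (nat_lit 4) (nat_lit 235) (nat_lit 235)))) (l (nat_lit 7) (nat_lit 285) (nat_lit 386))))) (n (nat_lit 361) (b (n (nat_lit 286) (b (l (nat_lit 5) (nat_lit 261) (nat_lit 262)) (l (nat_lit 3) (nat_lit 285) (nat_lit 314)))) (l (nat_lit 7) (nat_lit 285) (nat_lit 386)))))) (l (nat_lit 3) (nat_lit 284) (nat_lit 284)))))) (n (nat_lit 309) (b (n (nat_lit 308) (b (n (nat_lit 333) (b (l (nat_lit 2) (nat_lit 307) (nat_lit 332)) (l (nat_lit 2) (nat_lit 308) (nat_lit 334)))) (l (nat_lit 1) (nat_lit 283) (nat_lit 286)))) (l (nat_lit 1) (nat_lit 284) (nat_lit 288))))) (b (n (nat_lit 313) (b (n (nat_lit 338) (b (n (nat_lit 363) (b (n (nat_lit 262) (b (l (nat_lit 4) (nat_lit 237) (nat_lit 237)) (l (nat_lit 7)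 (nat_lit 262) (nat_lit 288)))) (l (nat_lit 7) (nat_lit 287) (nat_lit 388)))) (l (nat_lit 0) (nat_lit 310) (nat_lit 339)))) (n (nat_lit 335) (b (n (nat_lit 336) (b (n (nat_lit 361) (b (n (nat_lit 285) (b (l (nat_lit 4) (nat_lit 260) (nat_lit 260)) (l (nat_lit 3) (nat_lit 284) (nat_lit 284)))) (l (nat_lit 5) (nat_lit 286) (nat_lit 386)))) (l (nat_lit 2) (nat_lit 310) (nat_lit 314)))) (l (nat_lit 2) (nat_lit 309) (nat_lit 334)))))) (r (nat_lit 5))))) (n (nat_lit 310) (b (b (n (nat_lit 313) (b (n (nat_lit 314) (b (n (nat_lit 286) (b (l (nat_lit 3) (nat_lit 285) (nat_lit 285)) (l (nat_lit 3) (nat_lit 286) (nat_lit 315)))) (n (nat_lit 335) (b (l (nat_lit 2) (nat_lit 309) (nat_lit 334)) (l (nat_lit 2) (nat_lit 310) (nat_lit 336)))))) (n (nat_lit 338) (b (n (nat_lit 363) (b (n (nat_lit 288) (b (l (nat_lit 7) (nat_lit 262) (nat_lit 262)) (l (nat_lit 1) (nat_lit 285) (nat_lit 289)))) (l (nat_lit 7) (nat_lit 287) (nat_lit 388)))) (l (nat_lit 0) (nat_lit 310) (nat_lit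 339)))))) (n (nat_lit 288) (b (n (nat_lit 289) (b (l (nat_lit 2) (nat_lit 285) (nat_lit 286)) (l (nat_lit 2) (nat_lit 286) (nat_lit 290)))) (l (nat_lit 1) (nat_lit 284) (nat_lit 309))))) (b (n (nat_lit 288) (b (n (nat_lit 289) (b (l (nat_lit 1) (nat_lit 285) (nat_lit 313)) (l (nat_lit 2) (nat_lit 286) (nat_lit 290)))) (l (nat_lit 1) (nat_lit 284) (nat_lit 309)))) (r (nat_lit 6))))))) (b (b (r (nat_lit 7)) (n (nat_lit 310) (b (b (n (nat_lit 313) (b (n (nat_lit 338) (b (n (nat_lit 363) (b (n (nat_lit 262) (b (l (nat_lit 4) (nat_lit 237) (nat_lit 237)) (l (nat_lit 7) (nat_lit 262) (nat_lit 288)))) (l (nat_lit 7) (nat_lit 287) (nat_lit 388)))) (l (nat_lit 0) (nat_lit 310) (nat_lit 339)))) (n (nat_lit 335) (b (n (nat_lit 336) (b (n (nat_lit 361) (b (n (nat_lit 285) (b (l (nat_lit 4) (nat_lit 260) (nat_lit 260)) (l (nat_lit 3) (nat_lit 284) (nat_lit 284)))) (l (nat_lit 5) (nat_lit 286) (nat_lit 386)))) (l (nat_lit 2) (nat_lit 310) (nat_lit 314)))) (l (nat_lit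 2) (nat_lit 309) (nat_lit 334)))))) (n (nat_lit 309) (b (n (nat_lit 308) (b (n (nat_lit 283) (b (l (nat_lit 3) (nat_lit 283) (nat_lit 284)) (l (nat_lit 3) (nat_lit 282) (nat_lit 282)))) (n (nat_lit 333) (b (l (nat_lit 2) (nat_lit 307) (nat_lit 332)) (l (nat_lit 2) (nat_lit 308) (nat_lit 334)))))) (l (nat_lit 1) (nat_lit 284) (nat_lit 288))))) (b (n (nat_lit 288) (b (n (nat_lit 289) (b (l (nat_lit 1) (nat_lit 285) (nat_lit 313)) (l (nat_lit 2) (nat_lit 286) (nat_lit 290)))) (l (nat_lit 1) (nat_lit 284) (nat_lit 309)))) (r (nat_lit 8)))))) (b (n (nat_lit 310) (b (b (n (nat_lit 309) (b (n (nat_lit 308) (b (n (nat_lit 283) (b (l (nat_lit 3) (nat_lit 283) (nat_lit 284)) (l (nat_lit 3) (nat_lit 282) (nat_lit 282)))) (l (nat_lit 1) (nat_lit 283) (nat_lit 286)))) (l (nat_lit 1) (nat_lit 284) (nat_lit 288)))) (n (nat_lit 313) (b (b (n (nat_lit 338) (b (n (nat_lit 363) (b (n (nat_lit 262) (b (l (nat_lit 4) (nat_lit 237) (nat_lit 237)) (l (nat_lit 7) (nat_lit 262)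 (nat_lit 288)))) (l (nat_lit 7) (nat_lit 287) (nat_lit 388)))) (l (nat_lit 0) (nat_lit 310) (nat_lit 339)))) (n (nat_lit 314) (b (n (nat_lit 289) (b (l (nat_lit 1) (nat_lit 286) (nat_lit 290)) (l (nat_lit 1) (nat_lit 285) (nat_lit 288)))) (n (nat_lit 335) (b (l (nat_lit 2) (nat_lit 309) (nat_lit 334)) (l (nat_lit 2) (nat_lit 310) (nat_lit 336))))))) (n (nat_lit 336) (b (n (nat_lit 335) (b (l (nat_lit 2) (nat_lit 310) (nat_lit 314)) (l (nat_lit 2) (nat_lit 309) (nat_lit 334)))) (n (nat_lit 361) (b (n (nat_lit 262) (b (l (nat_lit 5) (nat_lit 261) (nat_lit 286)) (l (nat_lit 6) (nat_lit 236) (nat_lit 237)))) (l (nat_lit 5) (nat_lit 286) (nat_lit 386))))))))) (b (n (nat_lit 309) (b (n (nat_lit 308) (b (n (nat_lit 283) (b (l (nat_lit 3) (nat_lit 283) (nat_lit 284)) (l (nat_lit 3) (nat_lit 282) (nat_lit 282)))) (n (nat_lit 333) (b (l (nat_lit 2) (nat_lit 307) (nat_lit 332)) (l (nat_lit 2) (nat_lit 308) (nat_lit 334)))))) (l (nat_lit 1) (nat_lit 284) (nat_lit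 288)))) (n (nat_lit 309) (b (b (n (nat_lit 308) (b (n (nat_lit 283) (b (l (nat_lit 3) (nat_lit 283) (nat_lit 284)) (l (nat_lit 3) (nat_lit 282) (nat_lit 282)))) (l (nat_lit 1) (nat_lit 283) (nat_lit 286)))) (n (nat_lit 308) (b (n (nat_lit 333) (b (l (nat_lit 2) (nat_lit 307) (nat_lit 332)) (l (nat_lit 2) (nat_lit 308) (nat_lit 334)))) (l (nat_lit 1) (nat_lit 283) (nat_lit 286))))) (n (nat_lit 334) (b (n (nat_lit 284) (b (n (nat_lit 335) (b (n (nat_lit 259) (b (l (nat_lit 4) (nat_lit 259) (nat_lit 360)) (l (nat_lit 4) (nat_lit 234) (nat_lit 234)))) (l (nat_lit 2) (nat_lit 309) (nat_lit 313)))) (l (nat_lit 3) (nat_lit 283) (nat_lit 283)))) (l (nat_lit 2) (nat_lit 308) (nat_lit 333))))))))) (n (nat_lit 310) (b (b (n (nat_lit 313) (b (n (nat_lit 338) (b (n (nat_lit 363) (b (n (nat_lit 262) (b (l (nat_lit 4) (nat_lit 237) (nat_lit 237)) (l (nat_lit 7) (nat_lit 262) (nat_lit 288)))) (l (nat_lit 7) (nat_lit 287) (nat_lit 388)))) (l (nat_lit 0) (nat_lit 310)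 (nat_lit 339)))) (n (nat_lit 335) (b (n (nat_lit 336) (b (n (nat_lit 361) (b (n (nat_lit 285) (b (l (nat_lit 4) (nat_lit 260) (nat_lit 260)) (l (nat_lit 3) (nat_lit 284) (nat_lit 284)))) (l (nat_lit 5) (nat_lit 286) (nat_lit 386)))) (l (nat_lit 2) (nat_lit 310) (nat_lit 314)))) (l (nat_lit 2) (nat_lit 309) (nat_lit 334)))))) (n (nat_lit 309) (b (b (n (nat_lit 313) (b (n (nat_lit 284) (b (l (nat_lit 3) (nat_lit 283) (nat_lit 283)) (l (nat_lit 3) (nat_lit 284) (nat_lit 285)))) (n (nat_lit 334) (b (l (nat_lit 2) (nat_lit 309) (nat_lit 335)) (l (nat_lit 2) (nat_lit 308) (nat_lit 333)))))) (n (nat_lit 308) (b (n (nat_lit 283) (b (l (nat_lit 3) (nat_lit 283) (nat_lit 284)) (l (nat_lit 3) (nat_lit 282) (nat_lit 282)))) (l (nat_lit 1) (nat_lit 283) (nat_lit 286))))) (n (nat_lit 308) (b (n (nat_lit 333) (b (l (nat_lit 2) (nat_lit 307) (nat_lit 332)) (l (nat_lit 2) (nat_lit 308) (nat_lit 334)))) (l (nat_lit 1) (nat_lit 283) (nat_lit 286))))))) (b (n (nat_lit 309)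 (b (n (nat_lit 308) (b (n (nat_lit 283) (b (l (nat_lit 3) (nat_lit 283) (nat_lit 284)) (l (nat_lit 3) (nat_lit 282) (nat_lit 282)))) (l (nat_lit 1) (nat_lit 283) (nat_lit 286)))) (l (nat_lit 1) (nat_lit 284) (nat_lit 288)))) (n (nat_lit 309) (b (n (nat_lit 308) (b (n (nat_lit 333) (b (l (nat_lit 2) (nat_lit 307) (nat_lit 332)) (l (nat_lit 2) (nat_lit 308) (nat_lit 334)))) (l (nat_lit 1) (nat_lit 283) (nat_lit 286)))) (l (nat_lit 1) (nat_lit 284) (nat_lit 288)))))))))) (b (b (n (nat_lit 310) (b (b (n (nat_lit 309) (b (n (nat_lit 308) (b (n (nat_lit 283) (b (l (nat_lit 3) (nat_lit 283) (nat_lit 284)) (l (nat_lit 3) (nat_lit 282) (nat_lit 282)))) (n (nat_lit 333) (b (l (nat_lit 2) (nat_lit 307) (nat_lit 332)) (l (nat_lit 2) (nat_lit 308) (nat_lit 334)))))) (l (nat_lit 1) (nat_lit 284) (nat_lit 288)))) (n (nat_lit 309) (b (b (n (nat_lit 313) (b (n (nat_lit 284) (b (l (nat_lit 3) (nat_lit 283) (nat_lit 283)) (l (nat_lit 3) (nat_lit 284) (nat_lit 285)))) (n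 (nat_lit 334) (b (l (nat_lit 2) (nat_lit 309) (nat_lit 335)) (l (nat_lit 2) (nat_lit 308) (nat_lit 333)))))) (n (nat_lit 308) (b (n (nat_lit 283) (b (l (nat_lit 3) (nat_lit 283) (nat_lit 284)) (l (nat_lit 3) (nat_lit 282) (nat_lit 282)))) (l (nat_lit 1) (nat_lit 283) (nat_lit 286))))) (n (nat_lit 308) (b (n (nat_lit 333) (b (l (nat_lit 2) (nat_lit 307) (nat_lit 332)) (l (nat_lit 2) (nat_lit 308) (nat_lit 334)))) (l (nat_lit 1) (nat_lit 283) (nat_lit 286))))))) (b (n (nat_lit 288) (b (n (nat_lit 289) (b (l (nat_lit 2) (nat_lit 285) (nat_lit 286)) (l (nat_lit 2) (nat_lit 286) (nat_lit 290)))) (l (nat_lit 1) (nat_lit 284) (nat_lit 309)))) (n (nat_lit 313) (b (n (nat_lit 338) (b (n (nat_lit 363) (b (n (nat_lit 262) (b (l (nat_lit 4) (nat_lit 237) (nat_lit 237)) (l (nat_lit 7) (nat_lit 262) (nat_lit 288)))) (l (nat_lit 7) (nat_lit 287) (nat_lit 388)))) (l (nat_lit 0) (nat_lit 310) (nat_lit 339)))) (n (nat_lit 285) (b (n (nat_lit 335) (b (n (nat_lit 286) (b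 (n (nat_lit 360) (b (l (nat_lit 5) (nat_lit 285) (nat_lit 385)) (l (nat_lit 5) (nat_lit 260) (nat_lit 261)))) (l (nat_lit 3) (nat_lit 285) (nat_lit 314)))) (l (nat_lit 2) (nat_lit 309) (nat_lit 334)))) (l (nat_lit 3) (nat_lit 284) (nat_lit 284))))))))) (r (nat_lit 9))) (n (nat_lit 288) (b (b (n (nat_lit 310) (b (n (nat_lit 313) (b (b (n (nat_lit 263) (b (b (n (nat_lit 238) (b (n (nat_lit 339) (b (l (nat_lit 4) (nat_lit 238) (nat_lit 314)) (l (nat_lit 0) (nat_lit 310) (nat_lit 338)))) (l (nat_lit 6) (nat_lit 212) (nat_lit 213)))) (n (nat_lit 264) (b (n (nat_lit 285) (b (l (nat_lit 3) (nat_lit 284) (nat_lit 284)) (l (nat_lit 1) (nat_lit 260) (nat_lit 286)))) (n (nat_lit 338) (b (l (nat_lit 5) (nat_lit 238) (nat_lit 239)) (l (nat_lit 0) (nat_lit 310) (nat_lit 339))))))) (n (nat_lit 285) (b (n (nat_lit 286) (b (l (nat_lit 1) (nat_lit 260) (nat_lit 264)) (l (nat_lit 3) (nat_lit 285) (nat_lit 314)))) (l (nat_lit 3) (nat_lit 284) (nat_lit 284)))))) (n (nat_lit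 338) (b (n (nat_lit 363) (b (l (nat_lit 7) (nat_lit 287) (nat_lit 388)) (l (nat_lit 7) (nat_lit 262) (nat_lit 262)))) (l (nat_lit 0) (nat_lit 310) (nat_lit 339))))) (n (nat_lit 285) (b (n (nat_lit 286) (b (n (nat_lit 336) (b (n (nat_lit 260) (b (l (nat_lit 4) (nat_lit 235) (nat_lit 235)) (l (nat_lit 3) (nat_lit 259) (nat_lit 259)))) (n (nat_lit 361) (b (l (nat_lit 5) (nat_lit 261) (nat_lit 262)) (l (nat_lit 5) (nat_lit 286) (nat_lit 386)))))) (l (nat_lit 3) (nat_lit 285) (nat_lit 314)))) (l (nat_lit 3) (nat_lit 284) (nat_lit 284)))))) (l (nat_lit 1) (nat_lit 284) (nat_lit 309)))) (n (nat_lit 289) (b (n (nat_lit 310) (b (l (nat_lit 1) (nat_lit 284) (nat_lit 309)) (l (nat_lit 2) (nat_lit 285) (nat_lit 286)))) (l (nat_lit 2) (nat_lit 286) (nat_lit 290))))) (b (n (nat_lit 310) (b (n (nat_lit 289) (b (l (nat_lit 1) (nat_lit 285) (nat_lit 313)) (l (nat_lit 2) (nat_lit 286) (nat_lit 290)))) (l (nat_lit 1) (nat_lit 284) (nat_lit 309)))) (n (nat_lit 289) (b (n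 (nat_lit 237) (b (b (n (nat_lit 262) (b (n (nat_lit 313) (b (l (nat_lit 4) (nat_lit 237) (nat_lit 338)) (l (nat_lit 4) (nat_lit 212) (nat_lit 212)))) (l (nat_lit 6) (nat_lit 236) (nat_lit 336)))) (n (nat_lit 262) (b (n (nat_lit 212) (b (n (nat_lit 211) (b (l (nat_lit 7) (nat_lit 211) (nat_lit 236)) (l (nat_lit 7) (nat_lit 186) (nat_lit 186)))) (l (nat_lit 6) (nat_lit 211) (nat_lit 286)))) (l (nat_lit 6) (nat_lit 236) (nat_lit 336))))) (b (n (nat_lit 286) (b (n (nat_lit 285) (b (n (nat_lit 284) (b (l (nat_lit 0) (nat_lit 283) (nat_lit 283)) (l (nat_lit 0) (nat_lit 284) (nat_lit 313)))) (n (nat_lit 264) (b (l (nat_lit 1) (nat_lit 261) (nat_lit 265)) (l (nat_lit 1) (nat_lit 260) (nat_lit 263)))))) (n (nat_lit 261) (b (n (nat_lit 236) (b (l (nat_lit 4) (nat_lit 211) (nat_lit 211)) (l (nat_lit 5) (nat_lit 211) (nat_lit 212)))) (l (nat_lit 3) (nat_lit 260) (nat_lit 260)))))) (n (nat_lit 262) (b (n (nat_lit 313) (b (n (nat_lit 239) (b (n (nat_lit 286) (b (n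 (nat_lit 264) (b (l (nat_lit 1) (nat_lit 261) (nat_lit 265)) (l (nat_lit 6) (nat_lit 213) (nat_lit 214)))) (n (nat_lit 314) (b (l (nat_lit 0) (nat_lit 286) (nat_lit 315)) (l (nat_lit 0) (nat_lit 285) (nat_lit 285)))))) (n (nat_lit 261) (b (n (nat_lit 238) (b (l (nat_lit 2) (nat_lit 236) (nat_lit 240)) (l (nat_lit 5) (nat_lit 212) (nat_lit 213)))) (n (nat_lit 260) (b (l (nat_lit 0) (nat_lit 260) (nat_lit 263)) (l (nat_lit 0) (nat_lit 259) (nat_lit 259)))))))) (l (nat_lit 4) (nat_lit 237) (nat_lit 338)))) (l (nat_lit 6) (nat_lit 236) (nat_lit 336))))))) (l (nat_lit 2) (nat_lit 286) (nat_lit 290))))))))))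
    (envOK_cons p1412 (envOK_cons p282 (envOK_cons p323 (envOK_cons p1166 (envOK_cons p1426 (envOK_cons p1294 (envOK_cons p1328 (envOK_cons p1216 (envOK_cons p1107 (envOK_cons p1547 envOK_nil)))))))))) (by decide +kernel)

theorem p1592 : Fam (nat_lit 14) (nat_lit 8343699359066055009355553539724812947666814540455674882605631280555545803830627148527195652096) (nat_lit 30408577046677900784437355829528729373675931528646981383864817828899374799617850425229313135970802594201411127196021608677376) (nat_lit 30408577046677900784437355829528729373675931528646981383864817828899374799617850425229313135970802594201411127196021608677376) :=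
  chk_sound (Env.cons (nat_lit 8) (nat_lit 279968101115925134047353499319930152181142708231565782546248918899963984685054368582985341452834308096) (nat_lit 26442239973072210025399030026450860041658373135931183219671607283321482191035387867503208458521706723423350019238397749493760) (Env.cons (nat_lit 7) (nat_lit 279968101115925134047353499319930152181142708231565782546248918899963984685054368582985341452834308096) (nat_lit 4697085585499818129670252316780115395814879953778648338575949296031009858864294888438862350992873713643290624) (Env.cons (nat_lit 7) (nat_lit 279968101115925134047353499319930152181142708231565782546248918899963984685054368582985341452834308096) (nat_lit 26442239854866150336718469067014904785905374108651454474150534983756683297865512473114278618786279502268828353189190177914880) (Env.cons (nat_lit 9) (nat_lit 8343699607727673214248874617415937021077234590683750281279490000787534250410375654793883418624) (nat_lit 26442239973072210612534675720029629174022361761104878974825941203762015903834859714533855144384531184010205836380178600689664)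 (Env.cons (nat_lit 7) (nat_lit 279968101115925134047353499319930152181142708231565782546248918899963984685054368582985341452834308096) (nat_lit 27595377552341403986686200556649103585478355652975227882730646551400243248386439979154908861184761171896434688) (Env.cons (nat_lit 7) (nat_lit 8343699607727680624942585805652444129620275146709852890558508601783632775695752161234180374528) (nat_lit 788040160917437467682317700247492543144456266811694267954285554717264804277202633853360015112957032203141395255394304) (Env.cons (nat_lit 7) (nat_lit 8343699607727680624942585805652444129620275146709852890558508601783632775695752161234180374528) (nat_lit 559936210575549875822498320821496224402862399287716144160577464177743922135527200365660767142675480576) (Env.cons (nat_lit 8) (nat_lit 8343699607727673214248874617415937021077234590683750281279490000787534250410375654793883418624) (nat_lit 27595377552341403986689914939666915030440927409497361114519951751004234347432014150825063318109067468951519232)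 (Env.cons (nat_lit 7) (nat_lit 8343699607727680624942585805652444129620275146709852890558508601783632775695752161234180374528) (nat_lit 157608038876833833444263029779069626130277784401846174124903547204853232265836858900804912603485065680601365486764032) (Env.cons (nat_lit 7) (nat_lit 8343699607727680624942585805652444129620275146709852890558508601783632775695752161234180374528) (nat_lit 822406338225048899253791587252998618258368304850710639044412754254279096730043269119392914176665976832) (Env.cons (nat_lit 8) (nat_lit 8343699607727673214248874617415937021077234590683750281279490000787534250410375654793883418624) (nat_lit 26442239854866150336719029003200449238962847803052018411970188769172189103523992037934755228035705762809511963703170419392512) (Env.cons (nat_lit 8) (nat_lit 8343699607727673214248874617415937021077234590683750281279490000787534250410375654793883418624) (nat_lit 630432127324823640570817282017126877085099070047180268275695870459894726343349976380563060517694569365626752648347648)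 (Env.cons (nat_lit 11) (nat_lit 8343699607727673214248874617415937021077234590683750281279490000787534250410375654793883418624) (nat_lit 2644226357487459334889085670921351537762669815149193260614739733867810732953349918122959283357515726569944389471913793028096) (Env.cons (nat_lit 13) (nat_lit 8343699607727673214248874617415937021077234590683750281279490000787534250410375654793883418624) (nat_lit 9254786045389945617975786004253784683895605113355222454585694167268173797358272394516208090588176746948023301116901059461120) Env.nil))))))))))))))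
    (n (nat_lit 287) (b (b (b (b (n (nat_lit 337) (b (b (n (nat_lit 362) (b (b (n (nat_lit 387) (b (n (nat_lit 286) (b (l (nat_lit 7) (nat_lit 261) (nat_lit 261)) (l (nat_lit 7) (nat_lit 286) (nat_lit 311)))) (n (nat_lit 388) (b (l (nat_lit 4) (nat_lit 312) (nat_lit 413)) (l (nat_lit 4) (nat_lit 287) (nat_lit 363)))))) (n (nat_lit 262) (b (n (nat_lit 263) (b (l (nat_lit 5) (nat_lit 237) (nat_lit 238)) (l (nat_lit 5) (nat_lit 262) (nat_lit 288)))) (n (nat_lit 363) (b (l (nat_lit 4) (nat_lit 262) (nat_lit 338)) (l (nat_lit 4) (nat_lit 287) (nat_lit 388))))))) (n (nat_lit 262) (b (n (nat_lit 261) (b (l (nat_lit 7) (nat_lit 261) (nat_lit 286)) (l (nat_lit 7) (nat_lit 236) (nat_lit 236)))) (n (nat_lit 263) (b (l (nat_lit 5) (nat_lit 237) (nat_lit 238)) (l (nat_lit 5) (nat_lit 262) (nat_lit 288)))))))) (n (nat_lit 362) (b (b (n (nat_lit 387) (b (n (nat_lit 388) (b (l (nat_lit 4) (nat_lit 312) (nat_lit 413)) (l (nat_lit 4) (nat_lit 287) (nat_lit 363)))) (n (nat_lit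 386) (b (l (nat_lit 6) (nat_lit 311) (nat_lit 411)) (l (nat_lit 6) (nat_lit 286) (nat_lit 361)))))) (n (nat_lit 262) (b (n (nat_lit 263) (b (l (nat_lit 5) (nat_lit 237) (nat_lit 238)) (l (nat_lit 5) (nat_lit 262) (nat_lit 288)))) (n (nat_lit 361) (b (l (nat_lit 6) (nat_lit 286) (nat_lit 386)) (l (nat_lit 6) (nat_lit 261) (nat_lit 336))))))) (n (nat_lit 262) (b (n (nat_lit 263) (b (l (nat_lit 5) (nat_lit 237) (nat_lit 238)) (l (nat_lit 5) (nat_lit 262) (nat_lit 288)))) (n (nat_lit 363) (b (l (nat_lit 4) (nat_lit 262) (nat_lit 338)) (l (nat_lit 4) (nat_lit 287) (nat_lit 388))))))))) (b (r (nat_lit 0)) (r (nat_lit 1))))) (n (nat_lit 337) (b (b (b (r (nat_lit 1)) (r (nat_lit 2))) (b (n (nat_lit 362) (b (b (n (nat_lit 262) (b (n (nat_lit 263) (b (l (nat_lit 5) (nat_lit 237) (nat_lit 238)) (l (nat_lit 5) (nat_lit 262) (nat_lit 288)))) (n (nat_lit 361) (b (l (nat_lit 6) (nat_lit 286) (nat_lit 386)) (l (nat_lit 6) (nat_lit 261) (nat_lit 336)))))) (n (nat_lit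 387) (b (n (nat_lit 388) (b (l (nat_lit 4) (nat_lit 312) (nat_lit 413)) (l (nat_lit 4) (nat_lit 287) (nat_lit 363)))) (n (nat_lit 386) (b (l (nat_lit 6) (nat_lit 311) (nat_lit 411)) (l (nat_lit 6) (nat_lit 286) (nat_lit 361))))))) (n (nat_lit 387) (b (n (nat_lit 288) (b (l (nat_lit 5) (nat_lit 262) (nat_lit 263)) (l (nat_lit 5) (nat_lit 287) (nat_lit 313)))) (n (nat_lit 388) (b (l (nat_lit 4) (nat_lit 312) (nat_lit 413)) (l (nat_lit 4) (nat_lit 287) (nat_lit 363)))))))) (n (nat_lit 362) (b (b (n (nat_lit 387) (b (n (nat_lit 388) (b (l (nat_lit 4) (nat_lit 312) (nat_lit 413)) (l (nat_lit 4) (nat_lit 287) (nat_lit 363)))) (n (nat_lit 386) (b (l (nat_lit 6) (nat_lit 311) (nat_lit 411)) (l (nat_lit 6) (nat_lit 286) (nat_lit 361)))))) (n (nat_lit 262) (b (n (nat_lit 261) (b (l (nat_lit 7) (nat_lit 261) (nat_lit 286)) (l (nat_lit 7) (nat_lit 236) (nat_lit 236)))) (n (nat_lit 361) (b (l (nat_lit 6) (nat_lit 286) (nat_lit 386)) (l (nat_lit 6) (nat_lit 261) (nat_lit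 336))))))) (n (nat_lit 387) (b (n (nat_lit 286) (b (l (nat_lit 7) (nat_lit 261) (nat_lit 261)) (l (nat_lit 7) (nat_lit 286) (nat_lit 311)))) (n (nat_lit 388) (b (l (nat_lit 4) (nat_lit 312) (nat_lit 413)) (l (nat_lit 4) (nat_lit 287) (nat_lit 363)))))))))) (n (nat_lit 362) (b (b (n (nat_lit 387) (b (n (nat_lit 288) (b (l (nat_lit 5) (nat_lit 262) (nat_lit 263)) (l (nat_lit 5) (nat_lit 287) (nat_lit 313)))) (n (nat_lit 388) (b (l (nat_lit 4) (nat_lit 312) (nat_lit 413)) (l (nat_lit 4) (nat_lit 287) (nat_lit 363)))))) (n (nat_lit 387) (b (n (nat_lit 286) (b (l (nat_lit 7) (nat_lit 261) (nat_lit 261)) (l (nat_lit 7) (nat_lit 286) (nat_lit 311)))) (n (nat_lit 388) (b (l (nat_lit 4) (nat_lit 312) (nat_lit 413)) (l (nat_lit 4) (nat_lit 287) (nat_lit 363))))))) (n (nat_lit 262) (b (n (nat_lit 261) (b (l (nat_lit 7) (nat_lit 261) (nat_lit 286)) (l (nat_lit 7) (nat_lit 236) (nat_lit 236)))) (n (nat_lit 263) (b (l (nat_lit 5) (nat_lit 237) (nat_lit 238)) (l (nat_lit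 5) (nat_lit 262) (nat_lit 288))))))))))) (b (r (nat_lit 3)) (n (nat_lit 337) (b (b (b (r (nat_lit 0)) (n (nat_lit 362) (b (b (n (nat_lit 262) (b (n (nat_lit 263) (b (l (nat_lit 5) (nat_lit 237) (nat_lit 238)) (l (nat_lit 5) (nat_lit 262) (nat_lit 288)))) (n (nat_lit 363) (b (l (nat_lit 4) (nat_lit 262) (nat_lit 338)) (l (nat_lit 4) (nat_lit 287) (nat_lit 388)))))) (n (nat_lit 387) (b (n (nat_lit 286) (b (l (nat_lit 7) (nat_lit 261) (nat_lit 261)) (l (nat_lit 7) (nat_lit 286) (nat_lit 311)))) (n (nat_lit 388) (b (l (nat_lit 4) (nat_lit 312) (nat_lit 413)) (l (nat_lit 4) (nat_lit 287) (nat_lit 363))))))) (n (nat_lit 387) (b (n (nat_lit 286) (b (l (nat_lit 7) (nat_lit 261) (nat_lit 261)) (l (nat_lit 7) (nat_lit 286) (nat_lit 311)))) (n (nat_lit 288) (b (l (nat_lit 5) (nat_lit 262) (nat_lit 263)) (l (nat_lit 5) (nat_lit 287) (nat_lit 313))))))))) (b (n (nat_lit 362) (b (b (n (nat_lit 262) (b (n (nat_lit 263) (b (l (nat_lit 5) (nat_lit 237) (nat_lit 238))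 (l (nat_lit 5) (nat_lit 262) (nat_lit 288)))) (n (nat_lit 361) (b (l (nat_lit 6) (nat_lit 286) (nat_lit 386)) (l (nat_lit 6) (nat_lit 261) (nat_lit 336)))))) (n (nat_lit 387) (b (n (nat_lit 388) (b (l (nat_lit 4) (nat_lit 312) (nat_lit 413)) (l (nat_lit 4) (nat_lit 287) (nat_lit 363)))) (n (nat_lit 386) (b (l (nat_lit 6) (nat_lit 311) (nat_lit 411)) (l (nat_lit 6) (nat_lit 286) (nat_lit 361))))))) (n (nat_lit 387) (b (n (nat_lit 288) (b (l (nat_lit 5) (nat_lit 262) (nat_lit 263)) (l (nat_lit 5) (nat_lit 287) (nat_lit 313)))) (n (nat_lit 388) (b (l (nat_lit 4) (nat_lit 312) (nat_lit 413)) (l (nat_lit 4) (nat_lit 287) (nat_lit 363)))))))) (r (nat_lit 4)))) (n (nat_lit 362) (b (b (n (nat_lit 262) (b (n (nat_lit 263) (b (l (nat_lit 5) (nat_lit 237) (nat_lit 238)) (l (nat_lit 5) (nat_lit 262) (nat_lit 288)))) (n (nat_lit 361) (b (l (nat_lit 6) (nat_lit 286) (nat_lit 386)) (l (nat_lit 6) (nat_lit 261) (nat_lit 336)))))) (n (nat_lit 387) (b (n (nat_lit 286)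 (b (l (nat_lit 7) (nat_lit 261) (nat_lit 261)) (l (nat_lit 7) (nat_lit 286) (nat_lit 311)))) (n (nat_lit 288) (b (l (nat_lit 5) (nat_lit 262) (nat_lit 263)) (l (nat_lit 5) (nat_lit 287) (nat_lit 313))))))) (n (nat_lit 387) (b (n (nat_lit 286) (b (l (nat_lit 7) (nat_lit 261) (nat_lit 261)) (l (nat_lit 7) (nat_lit 286) (nat_lit 311)))) (n (nat_lit 386) (b (l (nat_lit 6) (nat_lit 311) (nat_lit 411)) (l (nat_lit 6) (nat_lit 286) (nat_lit 361)))))))))))) (b (b (n (nat_lit 262) (b (b (r (nat_lit 5)) (n (nat_lit 237) (b (b (n (nat_lit 337) (b (n (nat_lit 238) (b (l (nat_lit 5) (nat_lit 237) (nat_lit 263)) (l (nat_lit 5) (nat_lit 212) (nat_lit 213)))) (n (nat_lit 336) (b (l (nat_lit 6) (nat_lit 261) (nat_lit 361)) (l (nat_lit 6) (nat_lit 236) (nat_lit 311)))))) (n (nat_lit 212) (b (n (nat_lit 213) (b (l (nat_lit 5) (nat_lit 187) (nat_lit 188)) (l (nat_lit 5) (nat_lit 212) (nat_lit 238)))) (n (nat_lit 211) (b (l (nat_lit 7) (nat_lit 211) (nat_lit 236)) (l (nat_lit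 7) (nat_lit 186) (nat_lit 186))))))) (n (nat_lit 337) (b (n (nat_lit 336) (b (l (nat_lit 6) (nat_lit 261) (nat_lit 361)) (l (nat_lit 6) (nat_lit 236) (nat_lit 311)))) (n (nat_lit 236) (b (l (nat_lit 7) (nat_lit 211) (nat_lit 211)) (l (nat_lit 7) (nat_lit 236) (nat_lit 261))))))))) (b (n (nat_lit 237) (b (b (n (nat_lit 337) (b (n (nat_lit 336) (b (l (nat_lit 6) (nat_lit 261) (nat_lit 361)) (l (nat_lit 6) (nat_lit 236) (nat_lit 311)))) (n (nat_lit 338) (b (l (nat_lit 4) (nat_lit 237) (nat_lit 313)) (l (nat_lit 4) (nat_lit 262) (nat_lit 363)))))) (n (nat_lit 212) (b (n (nat_lit 211) (b (l (nat_lit 7) (nat_lit 211) (nat_lit 236)) (l (nat_lit 7) (nat_lit 186) (nat_lit 186)))) (n (nat_lit 313) (b (l (nat_lit 4) (nat_lit 212) (nat_lit 288)) (l (nat_lit 4) (nat_lit 237) (nat_lit 338))))))) (n (nat_lit 337) (b (n (nat_lit 336) (b (l (nat_lit 6) (nat_lit 261) (nat_lit 361)) (l (nat_lit 6) (nat_lit 236) (nat_lit 311)))) (n (nat_lit 236) (b (l (nat_lit 7) (nat_lit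 211) (nat_lit 211)) (l (nat_lit 7) (nat_lit 236) (nat_lit 261)))))))) (r (nat_lit 6))))) (r (nat_lit 7))) (b (n (nat_lit 262) (b (b (b (r (nat_lit 6)) (n (nat_lit 237) (b (b (n (nat_lit 337) (b (n (nat_lit 236) (b (l (nat_lit 7) (nat_lit 211) (nat_lit 211)) (l (nat_lit 7) (nat_lit 236) (nat_lit 261)))) (n (nat_lit 238) (b (l (nat_lit 5) (nat_lit 237) (nat_lit 263)) (l (nat_lit 5) (nat_lit 212) (nat_lit 213)))))) (n (nat_lit 212) (b (n (nat_lit 311) (b (l (nat_lit 6) (nat_lit 236) (nat_lit 336)) (l (nat_lit 6) (nat_lit 211) (nat_lit 286)))) (n (nat_lit 213) (b (l (nat_lit 5) (nat_lit 187) (nat_lit 188)) (l (nat_lit 5) (nat_lit 212) (nat_lit 238))))))) (n (nat_lit 212) (b (n (nat_lit 311) (b (l (nat_lit 6) (nat_lit 236) (nat_lit 336)) (l (nat_lit 6) (nat_lit 211) (nat_lit 286)))) (n (nat_lit 211) (b (l (nat_lit 7) (nat_lit 211) (nat_lit 236)) (l (nat_lit 7) (nat_lit 186) (nat_lit 186))))))))) (b (n (nat_lit 237) (b (b (n (nat_lit 337) (b (n (nat_lit 336)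 (b (l (nat_lit 6) (nat_lit 261) (nat_lit 361)) (l (nat_lit 6) (nat_lit 236) (nat_lit 311)))) (n (nat_lit 236) (b (l (nat_lit 7) (nat_lit 211) (nat_lit 211)) (l (nat_lit 7) (nat_lit 236) (nat_lit 261)))))) (n (nat_lit 212) (b (n (nat_lit 311) (b (l (nat_lit 6) (nat_lit 236) (nat_lit 336)) (l (nat_lit 6) (nat_lit 211) (nat_lit 286)))) (n (nat_lit 313) (b (l (nat_lit 4) (nat_lit 212) (nat_lit 288)) (l (nat_lit 4) (nat_lit 237) (nat_lit 338))))))) (n (nat_lit 212) (b (n (nat_lit 211) (b (l (nat_lit 7) (nat_lit 211) (nat_lit 236)) (l (nat_lit 7) (nat_lit 186) (nat_lit 186)))) (n (nat_lit 313) (b (l (nat_lit 4) (nat_lit 212) (nat_lit 288)) (l (nat_lit 4) (nat_lit 237) (nat_lit 338)))))))) (n (nat_lit 237) (b (b (n (nat_lit 212) (b (n (nat_lit 311) (b (l (nat_lit 6) (nat_lit 236) (nat_lit 336)) (l (nat_lit 6) (nat_lit 211) (nat_lit 286)))) (n (nat_lit 313) (b (l (nat_lit 4) (nat_lit 212) (nat_lit 288)) (l (nat_lit 4) (nat_lit 237) (nat_lit 338)))))) (n (nat_lit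 337) (b (n (nat_lit 238) (b (l (nat_lit 5) (nat_lit 237) (nat_lit 263)) (l (nat_lit 5) (nat_lit 212) (nat_lit 213)))) (n (nat_lit 336) (b (l (nat_lit 6) (nat_lit 261) (nat_lit 361)) (l (nat_lit 6) (nat_lit 236) (nat_lit 311))))))) (n (nat_lit 212) (b (n (nat_lit 313) (b (l (nat_lit 4) (nat_lit 212) (nat_lit 288)) (l (nat_lit 4) (nat_lit 237) (nat_lit 338)))) (n (nat_lit 213) (b (l (nat_lit 5) (nat_lit 187) (nat_lit 188)) (l (nat_lit 5) (nat_lit 212) (nat_lit 238)))))))))) (r (nat_lit 8)))) (n (nat_lit 262) (b (b (b (r (nat_lit 5)) (n (nat_lit 237) (b (b (n (nat_lit 337) (b (n (nat_lit 238) (b (l (nat_lit 5) (nat_lit 237) (nat_lit 263)) (l (nat_lit 5) (nat_lit 212) (nat_lit 213)))) (n (nat_lit 336) (b (l (nat_lit 6) (nat_lit 261) (nat_lit 361)) (l (nat_lit 6) (nat_lit 236) (nat_lit 311)))))) (n (nat_lit 212) (b (n (nat_lit 311) (b (l (nat_lit 6) (nat_lit 236) (nat_lit 336)) (l (nat_lit 6) (nat_lit 211) (nat_lit 286)))) (n (nat_lit 211) (b (l (nat_lit 7)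 (nat_lit 211) (nat_lit 236)) (l (nat_lit 7) (nat_lit 186) (nat_lit 186))))))) (n (nat_lit 212) (b (n (nat_lit 213) (b (l (nat_lit 5) (nat_lit 187) (nat_lit 188)) (l (nat_lit 5) (nat_lit 212) (nat_lit 238)))) (n (nat_lit 211) (b (l (nat_lit 7) (nat_lit 211) (nat_lit 236)) (l (nat_lit 7) (nat_lit 186) (nat_lit 186))))))))) (b (n (nat_lit 237) (b (b (n (nat_lit 337) (b (n (nat_lit 238) (b (l (nat_lit 5) (nat_lit 237) (nat_lit 263)) (l (nat_lit 5) (nat_lit 212) (nat_lit 213)))) (n (nat_lit 338) (b (l (nat_lit 4) (nat_lit 237) (nat_lit 313)) (l (nat_lit 4) (nat_lit 262) (nat_lit 363)))))) (n (nat_lit 212) (b (n (nat_lit 213) (b (l (nat_lit 5) (nat_lit 187) (nat_lit 188)) (l (nat_lit 5) (nat_lit 212) (nat_lit 238)))) (n (nat_lit 211) (b (l (nat_lit 7) (nat_lit 211) (nat_lit 236)) (l (nat_lit 7) (nat_lit 186) (nat_lit 186))))))) (n (nat_lit 212) (b (n (nat_lit 211) (b (l (nat_lit 7) (nat_lit 211) (nat_lit 236)) (l (nat_lit 7) (nat_lit 186) (nat_lit 186)))) (n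 (nat_lit 313) (b (l (nat_lit 4) (nat_lit 212) (nat_lit 288)) (l (nat_lit 4) (nat_lit 237) (nat_lit 338)))))))) (n (nat_lit 237) (b (b (n (nat_lit 337) (b (n (nat_lit 336) (b (l (nat_lit 6) (nat_lit 261) (nat_lit 361)) (l (nat_lit 6) (nat_lit 236) (nat_lit 311)))) (n (nat_lit 338) (b (l (nat_lit 4) (nat_lit 237) (nat_lit 313)) (l (nat_lit 4) (nat_lit 262) (nat_lit 363)))))) (n (nat_lit 212) (b (n (nat_lit 311) (b (l (nat_lit 6) (nat_lit 236) (nat_lit 336)) (l (nat_lit 6) (nat_lit 211) (nat_lit 286)))) (n (nat_lit 211) (b (l (nat_lit 7) (nat_lit 211) (nat_lit 236)) (l (nat_lit 7) (nat_lit 186) (nat_lit 186))))))) (n (nat_lit 212) (b (n (nat_lit 211) (b (l (nat_lit 7) (nat_lit 211) (nat_lit 236)) (l (nat_lit 7) (nat_lit 186) (nat_lit 186)))) (n (nat_lit 313) (b (l (nat_lit 4) (nat_lit 212) (nat_lit 288)) (l (nat_lit 4) (nat_lit 237) (nat_lit 338)))))))))) (r (nat_lit 9))))))) (b (b (b (r (nat_lit 10)) (r (nat_lit 11))) (b (n (nat_lit 262) (b (b (b (r (nat_lit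 9)) (n (nat_lit 337) (b (b (n (nat_lit 336) (b (n (nat_lit 338) (b (n (nat_lit 335) (b (b (n (nat_lit 334) (b (n (nat_lit 359) (b (l (nat_lit 2) (nat_lit 333) (nat_lit 358)) (l (nat_lit 2) (nat_lit 334) (nat_lit 360)))) (n (nat_lit 309) (b (l (nat_lit 3) (nat_lit 308) (nat_lit 308)) (l (nat_lit 3) (nat_lit 309) (nat_lit 310)))))) (n (nat_lit 313) (b (l (nat_lit 1) (nat_lit 309) (nat_lit 334)) (l (nat_lit 1) (nat_lit 310) (nat_lit 314))))) (n (nat_lit 339) (b (n (nat_lit 310) (b (l (nat_lit 3) (nat_lit 309) (nat_lit 309)) (l (nat_lit 3) (nat_lit 310) (nat_lit 311)))) (n (nat_lit 314) (b (l (nat_lit 1) (nat_lit 311) (nat_lit 315)) (l (nat_lit 1) (nat_lit 310) (nat_lit 313)))))))) (l (nat_lit 4) (nat_lit 262) (nat_lit 363)))) (l (nat_lit 6) (nat_lit 261) (nat_lit 361)))) (n (nat_lit 362) (b (n (nat_lit 261) (b (l (nat_lit 7) (nat_lit 261) (nat_lit 286)) (l (nat_lit 7) (nat_lit 236) (nat_lit 236)))) (n (nat_lit 361) (b (l (nat_lit 6) (nat_lit 286) (nat_lit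 386)) (l (nat_lit 6) (nat_lit 261) (nat_lit 336))))))) (n (nat_lit 362) (b (n (nat_lit 261) (b (l (nat_lit 7) (nat_lit 261) (nat_lit 286)) (l (nat_lit 7) (nat_lit 236) (nat_lit 236)))) (n (nat_lit 363) (b (l (nat_lit 4) (nat_lit 262) (nat_lit 338)) (l (nat_lit 4) (nat_lit 287) (nat_lit 388))))))))) (b (n (nat_lit 237) (b (b (n (nat_lit 212) (b (n (nat_lit 311) (b (l (nat_lit 6) (nat_lit 236) (nat_lit 336)) (l (nat_lit 6) (nat_lit 211) (nat_lit 286)))) (n (nat_lit 213) (b (l (nat_lit 5) (nat_lit 187) (nat_lit 188)) (l (nat_lit 5) (nat_lit 212) (nat_lit 238)))))) (n (nat_lit 337) (b (n (nat_lit 336) (b (l (nat_lit 6) (nat_lit 261) (nat_lit 361)) (l (nat_lit 6) (nat_lit 236) (nat_lit 311)))) (n (nat_lit 338) (b (l (nat_lit 4) (nat_lit 237) (nat_lit 313)) (l (nat_lit 4) (nat_lit 262) (nat_lit 363))))))) (n (nat_lit 212) (b (n (nat_lit 313) (b (l (nat_lit 4) (nat_lit 212) (nat_lit 288)) (l (nat_lit 4) (nat_lit 237) (nat_lit 338)))) (n (nat_lit 213) (b (l (nat_lit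 5) (nat_lit 187) (nat_lit 188)) (l (nat_lit 5) (nat_lit 212) (nat_lit 238)))))))) (n (nat_lit 237) (b (b (n (nat_lit 337) (b (n (nat_lit 236) (b (l (nat_lit 7) (nat_lit 211) (nat_lit 211)) (l (nat_lit 7) (nat_lit 236) (nat_lit 261)))) (n (nat_lit 338) (b (l (nat_lit 4) (nat_lit 237) (nat_lit 313)) (l (nat_lit 4) (nat_lit 262) (nat_lit 363)))))) (n (nat_lit 212) (b (n (nat_lit 313) (b (l (nat_lit 4) (nat_lit 212) (nat_lit 288)) (l (nat_lit 4) (nat_lit 237) (nat_lit 338)))) (n (nat_lit 213) (b (l (nat_lit 5) (nat_lit 187) (nat_lit 188)) (l (nat_lit 5) (nat_lit 212) (nat_lit 238))))))) (n (nat_lit 212) (b (n (nat_lit 213) (b (l (nat_lit 5) (nat_lit 187) (nat_lit 188)) (l (nat_lit 5) (nat_lit 212) (nat_lit 238)))) (n (nat_lit 211) (b (l (nat_lit 7) (nat_lit 211) (nat_lit 236)) (l (nat_lit 7) (nat_lit 186) (nat_lit 186)))))))))) (n (nat_lit 237) (b (b (n (nat_lit 337) (b (n (nat_lit 336) (b (l (nat_lit 6) (nat_lit 261) (nat_lit 361)) (l (nat_lit 6) (nat_lit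 236) (nat_lit 311)))) (n (nat_lit 236) (b (l (nat_lit 7) (nat_lit 211) (nat_lit 211)) (l (nat_lit 7) (nat_lit 236) (nat_lit 261)))))) (n (nat_lit 212) (b (n (nat_lit 311) (b (l (nat_lit 6) (nat_lit 236) (nat_lit 336)) (l (nat_lit 6) (nat_lit 211) (nat_lit 286)))) (n (nat_lit 213) (b (l (nat_lit 5) (nat_lit 187) (nat_lit 188)) (l (nat_lit 5) (nat_lit 212) (nat_lit 238))))))) (n (nat_lit 212) (b (n (nat_lit 213) (b (l (nat_lit 5) (nat_lit 187) (nat_lit 188)) (l (nat_lit 5) (nat_lit 212) (nat_lit 238)))) (n (nat_lit 211) (b (l (nat_lit 7) (nat_lit 211) (nat_lit 236)) (l (nat_lit 7) (nat_lit 186) (nat_lit 186)))))))))) (n (nat_lit 262) (b (b (r (nat_lit 6)) (r (nat_lit 8))) (b (n (nat_lit 337) (b (b (n (nat_lit 362) (b (n (nat_lit 361) (b (l (nat_lit 6) (nat_lit 286) (nat_lit 386)) (l (nat_lit 6) (nat_lit 261) (nat_lit 336)))) (n (nat_lit 363) (b (l (nat_lit 4) (nat_lit 262) (nat_lit 338)) (l (nat_lit 4) (nat_lit 287) (nat_lit 388)))))) (n (nat_lit 237) (b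 (n (nat_lit 338) (b (l (nat_lit 4) (nat_lit 237) (nat_lit 313)) (l (nat_lit 4) (nat_lit 262) (nat_lit 363)))) (n (nat_lit 236) (b (l (nat_lit 7) (nat_lit 211) (nat_lit 211)) (l (nat_lit 7) (nat_lit 236) (nat_lit 261))))))) (n (nat_lit 362) (b (n (nat_lit 261) (b (l (nat_lit 7) (nat_lit 261) (nat_lit 286)) (l (nat_lit 7) (nat_lit 236) (nat_lit 236)))) (n (nat_lit 361) (b (l (nat_lit 6) (nat_lit 286) (nat_lit 386)) (l (nat_lit 6) (nat_lit 261) (nat_lit 336)))))))) (n (nat_lit 337) (b (b (n (nat_lit 237) (b (n (nat_lit 338) (b (l (nat_lit 4) (nat_lit 237) (nat_lit 313)) (l (nat_lit 4) (nat_lit 262) (nat_lit 363)))) (n (nat_lit 238) (b (l (nat_lit 5) (nat_lit 237) (nat_lit 263)) (l (nat_lit 5) (nat_lit 212) (nat_lit 213)))))) (n (nat_lit 362) (b (n (nat_lit 361) (b (l (nat_lit 6) (nat_lit 286) (nat_lit 386)) (l (nat_lit 6) (nat_lit 261) (nat_lit 336)))) (n (nat_lit 363) (b (l (nat_lit 4) (nat_lit 262) (nat_lit 338)) (l (nat_lit 4) (nat_lit 287) (nat_lit 388)))))))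 (n (nat_lit 362) (b (n (nat_lit 263) (b (l (nat_lit 5) (nat_lit 237) (nat_lit 238)) (l (nat_lit 5) (nat_lit 262) (nat_lit 288)))) (n (nat_lit 361) (b (l (nat_lit 6) (nat_lit 286) (nat_lit 386)) (l (nat_lit 6) (nat_lit 261) (nat_lit 336))))))))))))) (b (b (n (nat_lit 337) (b (b (r (nat_lit 4)) (r (nat_lit 0))) (b (n (nat_lit 262) (b (b (n (nat_lit 362) (b (n (nat_lit 261) (b (l (nat_lit 7) (nat_lit 261) (nat_lit 286)) (l (nat_lit 7) (nat_lit 236) (nat_lit 236)))) (n (nat_lit 363) (b (l (nat_lit 4) (nat_lit 262) (nat_lit 338)) (l (nat_lit 4) (nat_lit 287) (nat_lit 388)))))) (n (nat_lit 237) (b (n (nat_lit 338) (b (l (nat_lit 4) (nat_lit 237) (nat_lit 313)) (l (nat_lit 4) (nat_lit 262) (nat_lit 363)))) (n (nat_lit 238) (b (l (nat_lit 5) (nat_lit 237) (nat_lit 263)) (l (nat_lit 5) (nat_lit 212) (nat_lit 213))))))) (n (nat_lit 237) (b (n (nat_lit 238) (b (l (nat_lit 5) (nat_lit 237) (nat_lit 263)) (l (nat_lit 5) (nat_lit 212) (nat_lit 213)))) (n (nat_lit 236)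 (b (l (nat_lit 7) (nat_lit 211) (nat_lit 211)) (l (nat_lit 7) (nat_lit 236) (nat_lit 261)))))))) (n (nat_lit 262) (b (b (n (nat_lit 362) (b (n (nat_lit 261) (b (l (nat_lit 7) (nat_lit 261) (nat_lit 286)) (l (nat_lit 7) (nat_lit 236) (nat_lit 236)))) (n (nat_lit 361) (b (l (nat_lit 6) (nat_lit 286) (nat_lit 386)) (l (nat_lit 6) (nat_lit 261) (nat_lit 336)))))) (n (nat_lit 237) (b (n (nat_lit 238) (b (l (nat_lit 5) (nat_lit 237) (nat_lit 263)) (l (nat_lit 5) (nat_lit 212) (nat_lit 213)))) (n (nat_lit 336) (b (l (nat_lit 6) (nat_lit 261) (nat_lit 361)) (l (nat_lit 6) (nat_lit 236) (nat_lit 311))))))) (n (nat_lit 237) (b (n (nat_lit 238) (b (l (nat_lit 5) (nat_lit 237) (nat_lit 263)) (l (nat_lit 5) (nat_lit 212) (nat_lit 213)))) (n (nat_lit 236) (b (l (nat_lit 7) (nat_lit 211) (nat_lit 211)) (l (nat_lit 7) (nat_lit 236) (nat_lit 261))))))))))) (r (nat_lit 12))) (r (nat_lit 13))))))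
    (envOK_cons p931 (envOK_cons p944 (envOK_cons p958 (envOK_cons p984 (envOK_cons p986 (envOK_cons p989 (envOK_cons p1011 (envOK_cons p1021 (envOK_cons p1025 (envOK_cons p1034 (envOK_cons p1040 (envOK_cons p1042 (envOK_cons p1257 (envOK_cons p1591 envOK_nil)))))))))))))) (by decide +kernel)

theorem p1608 : Fam (nat_lit 7) (nat_lit 14601473878365596266372218694518422658416925445797431044559854740972205156703597509922592391168) (nat_lit 52884479709732300673440822691115732453764468969198152925081510880366093181505565449596812365373183888517127282187613996318720) (nat_lit 52884479709732300673440822691115732453764468969198152925081510880366093181505565449596812365373183888517127282187613996318720) :=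
  chk_sound Env.nil
    (n (nat_lit 313) (b (b (n (nat_lit 314) (b (n (nat_lit 289) (b (l (nat_lit 1) (nat_lit 286) (nat_lit 290)) (l (nat_lit 1) (nat_lit 285) (nat_lit 288)))) (n (nat_lit 335) (b (l (nat_lit 2) (nat_lit 309) (nat_lit 334)) (l (nat_lit 2) (nat_lit 310) (nat_lit 336)))))) (n (nat_lit 314) (b (n (nat_lit 335) (b (l (nat_lit 2) (nat_lit 309) (nat_lit 334)) (l (nat_lit 2) (nat_lit 310) (nat_lit 336)))) (n (nat_lit 339) (b (l (nat_lit 0) (nat_lit 311) (nat_lit 340)) (l (nat_lit 0) (nat_lit 310) (nat_lit 338))))))) (n (nat_lit 338) (b (n (nat_lit 288) (b (n (nat_lit 363) (b (b (n (nat_lit 388) (b (n (nat_lit 389) (b (l (nat_lit 4) (nat_lit 288) (nat_lit 364)) (l (nat_lit 4) (nat_lit 313) (nat_lit 414)))) (n (nat_lit 387) (b (l (nat_lit 6) (nat_lit 312) (nat_lit 412)) (l (nat_lit 6) (nat_lit 287) (nat_lit 362)))))) (n (nat_lit 287) (b (l (nat_lit 7) (nat_lit 262) (nat_lit 262)) (l (nat_lit 7) (nat_lit 287) (nat_lit 388))))) (n (nat_lit 263)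 (b (n (nat_lit 362) (b (l (nat_lit 6) (nat_lit 262) (nat_lit 337)) (l (nat_lit 6) (nat_lit 287) (nat_lit 387)))) (n (nat_lit 262) (b (l (nat_lit 7) (nat_lit 237) (nat_lit 237)) (l (nat_lit 7) (nat_lit 262) (nat_lit 287)))))))) (l (nat_lit 1) (nat_lit 285) (nat_lit 289)))) (l (nat_lit 0) (nat_lit 310) (nat_lit 339))))))
    envOK_nil (by decide +kernel)

theorem p1621 : Fam (nat_lit 7) (nat_lit 14601473878365596266372218694518422658416925445797431044559854740972205156703597509922592391168) (nat_lit 3305279981858268792090884760733000043918047962964847555905296704969708037714744818430995242106743978348282296340262523240448) (nat_lit 3305279981858268792090884760733000043918047962964847555905296704969708037714744818430995242106743978348282296340262523240448) :=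
  chk_sound Env.nil
    (n (nat_lit 309) (b (b (n (nat_lit 308) (b (n (nat_lit 337) (b (l (nat_lit 0) (nat_lit 309) (nat_lit 338)) (l (nat_lit 0) (nat_lit 308) (nat_lit 336)))) (n (nat_lit 333) (b (l (nat_lit 2) (nat_lit 307) (nat_lit 332)) (l (nat_lit 2) (nat_lit 308) (nat_lit 334)))))) (n (nat_lit 308) (b (n (nat_lit 337) (b (l (nat_lit 0) (nat_lit 309) (nat_lit 338)) (l (nat_lit 0) (nat_lit 308) (nat_lit 336)))) (n (nat_lit 283) (b (l (nat_lit 3) (nat_lit 283) (nat_lit 284)) (l (nat_lit 3) (nat_lit 282) (nat_lit 282))))))) (n (nat_lit 334) (b (n (nat_lit 284) (b (n (nat_lit 359) (b (b (n (nat_lit 384) (b (n (nat_lit 383) (b (l (nat_lit 6) (nat_lit 283) (nat_lit 358)) (l (nat_lit 6) (nat_lit 308) (nat_lit 408)))) (n (nat_lit 385) (b (l (nat_lit 4) (nat_lit 309) (nat_lit 410)) (l (nat_lit 4) (nat_lit 284) (nat_lit 360)))))) (n (nat_lit 259) (b (n (nat_lit 260) (b (l (nat_lit 5) (nat_lit 234) (nat_lit 235)) (l (nat_lit 5) (nat_lit 259) (nat_lit 285))))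 (n (nat_lit 335) (b (l (nat_lit 4) (nat_lit 234) (nat_lit 234)) (l (nat_lit 4) (nat_lit 259) (nat_lit 360))))))) (n (nat_lit 285) (b (l (nat_lit 5) (nat_lit 284) (nat_lit 384)) (l (nat_lit 5) (nat_lit 259) (nat_lit 260)))))) (l (nat_lit 3) (nat_lit 283) (nat_lit 283)))) (l (nat_lit 2) (nat_lit 308) (nat_lit 333))))))
    envOK_nil (by decide +kernel)

theorem p1626 : Fam (nat_lit 7) (nat_lit 14601473878365596266372218694518422658416925445797431044559854740972205156703597509922592391168) (nat_lit 26442239854866150336719230230150317481940236378996233277709483407310618122664067636991200962580019957478782109852876356452352) (nat_lit 26442239854866150336719230230150317481940236378996233277709483407310618122664067636991200962580019957478782109852876356452352) :=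
  chk_sound Env.nil
    (n (nat_lit 309) (b (b (n (nat_lit 308) (b (n (nat_lit 333) (b (l (nat_lit 2) (nat_lit 307) (nat_lit 332)) (l (nat_lit 2) (nat_lit 308) (nat_lit 334)))) (n (nat_lit 287) (b (l (nat_lit 1) (nat_lit 283) (nat_lit 286)) (l (nat_lit 1) (nat_lit 284) (nat_lit 288)))))) (n (nat_lit 308) (b (n (nat_lit 337) (b (l (nat_lit 0) (nat_lit 309) (nat_lit 338)) (l (nat_lit 0) (nat_lit 308) (nat_lit 336)))) (n (nat_lit 333) (b (l (nat_lit 2) (nat_lit 307) (nat_lit 332)) (l (nat_lit 2) (nat_lit 308) (nat_lit 334))))))) (n (nat_lit 337) (b (n (nat_lit 287) (b (n (nat_lit 362) (b (b (n (nat_lit 387) (b (n (nat_lit 388) (b (l (nat_lit 4) (nat_lit 312) (nat_lit 413)) (l (nat_lit 4) (nat_lit 287) (nat_lit 363)))) (n (nat_lit 386) (b (l (nat_lit 6) (nat_lit 311) (nat_lit 411)) (l (nat_lit 6) (nat_lit 286) (nat_lit 361)))))) (n (nat_lit 286) (b (l (nat_lit 7) (nat_lit 286) (nat_lit 387)) (l (nat_lit 7) (nat_lit 261) (nat_lit 261))))) (n (nat_lit 262)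 (b (n (nat_lit 261) (b (l (nat_lit 7) (nat_lit 261) (nat_lit 286)) (l (nat_lit 7) (nat_lit 236) (nat_lit 236)))) (n (nat_lit 361) (b (l (nat_lit 6) (nat_lit 286) (nat_lit 386)) (l (nat_lit 6) (nat_lit 261) (nat_lit 336)))))))) (l (nat_lit 1) (nat_lit 284) (nat_lit 288)))) (l (nat_lit 0) (nat_lit 309) (nat_lit 338))))))
    envOK_nil (by decide +kernel)

theorem p1635 : Fam (nat_lit 7) (nat_lit 14601473878365596266372218694518422658416925445797431044559854740972205156703597509922592391168) (nat_lit 26442239854866150336719168987130023557660748677916194398296998451957611642101835106907681390491093122425621171469665548894208) (nat_lit 26442239854866150336719168987130023557660748677916194398296998451957611642101835106907681390491093122425621171469665548894208) :=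
  chk_sound Env.nil
    (n (nat_lit 309) (b (b (n (nat_lit 337) (b (n (nat_lit 287) (b (n (nat_lit 362) (b (b (n (nat_lit 387) (b (n (nat_lit 388) (b (l (nat_lit 4) (nat_lit 312) (nat_lit 413)) (l (nat_lit 4) (nat_lit 287) (nat_lit 363)))) (n (nat_lit 386) (b (l (nat_lit 6) (nat_lit 311) (nat_lit 411)) (l (nat_lit 6) (nat_lit 286) (nat_lit 361)))))) (n (nat_lit 286) (b (l (nat_lit 7) (nat_lit 286) (nat_lit 387)) (l (nat_lit 7) (nat_lit 261) (nat_lit 261))))) (n (nat_lit 262) (b (n (nat_lit 261) (b (l (nat_lit 7) (nat_lit 261) (nat_lit 286)) (l (nat_lit 7) (nat_lit 236) (nat_lit 236)))) (n (nat_lit 361) (b (l (nat_lit 6) (nat_lit 286) (nat_lit 386)) (l (nat_lit 6) (nat_lit 261) (nat_lit 336)))))))) (l (nat_lit 1) (nat_lit 284) (nat_lit 288)))) (l (nat_lit 0) (nat_lit 309) (nat_lit 338)))) (n (nat_lit 308) (b (n (nat_lit 287) (b (l (nat_lit 1) (nat_lit 283) (nat_lit 286)) (l (nat_lit 1) (nat_lit 284) (nat_lit 288)))) (n (nat_lit 283) (b (l (nat_lit 3) (nat_lit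 283) (nat_lit 284)) (l (nat_lit 3) (nat_lit 282) (nat_lit 282))))))) (n (nat_lit 308) (b (n (nat_lit 337) (b (l (nat_lit 0) (nat_lit 309) (nat_lit 338)) (l (nat_lit 0) (nat_lit 308) (nat_lit 336)))) (n (nat_lit 283) (b (l (nat_lit 3) (nat_lit 283) (nat_lit 284)) (l (nat_lit 3) (nat_lit 282) (nat_lit 282))))))))
    envOK_nil (by decide +kernel)

theorem p1637 : Fam (nat_lit 7) (nat_lit 14601473878365596266372218694518422658416925445797431044559854740972205156703597509922592391168) (nat_lit 52884479709732300673440577719034556756646518164877997407431571058954067259256635329262734077017476548304483528654770766086144) (nat_lit 52884479709732300673440577719034556756646518164877997407431571058954067259256635329262734077017476548304483528654770766086144) :=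
  chk_sound Env.nil
    (n (nat_lit 313) (b (b (n (nat_lit 338) (b (n (nat_lit 288) (b (n (nat_lit 363) (b (b (n (nat_lit 388) (b (n (nat_lit 389) (b (l (nat_lit 4) (nat_lit 288) (nat_lit 364)) (l (nat_lit 4) (nat_lit 313) (nat_lit 414)))) (n (nat_lit 387) (b (l (nat_lit 6) (nat_lit 312) (nat_lit 412)) (l (nat_lit 6) (nat_lit 287) (nat_lit 362)))))) (n (nat_lit 287) (b (l (nat_lit 7) (nat_lit 262) (nat_lit 262)) (l (nat_lit 7) (nat_lit 287) (nat_lit 388))))) (n (nat_lit 263) (b (n (nat_lit 362) (b (l (nat_lit 6) (nat_lit 262) (nat_lit 337)) (l (nat_lit 6) (nat_lit 287) (nat_lit 387)))) (n (nat_lit 262) (b (l (nat_lit 7) (nat_lit 237) (nat_lit 237)) (l (nat_lit 7) (nat_lit 262) (nat_lit 287)))))))) (l (nat_lit 1) (nat_lit 285) (nat_lit 289)))) (l (nat_lit 0) (nat_lit 310) (nat_lit 339)))) (n (nat_lit 314) (b (n (nat_lit 285) (b (l (nat_lit 3) (nat_lit 284) (nat_lit 284)) (l (nat_lit 3) (nat_lit 285) (nat_lit 286)))) (n (nat_lit 289) (b (l (nat_lit 1) (nat_lit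 286) (nat_lit 290)) (l (nat_lit 1) (nat_lit 285) (nat_lit 288))))))) (n (nat_lit 314) (b (n (nat_lit 285) (b (l (nat_lit 3) (nat_lit 284) (nat_lit 284)) (l (nat_lit 3) (nat_lit 285) (nat_lit 286)))) (n (nat_lit 339) (b (l (nat_lit 0) (nat_lit 311) (nat_lit 340)) (l (nat_lit 0) (nat_lit 310) (nat_lit 338))))))))
    envOK_nil (by decide +kernel)

theorem p1640 : Fam (nat_lit 7) (nat_lit 14601473878365596266372218694518422658416925445797431044559854740972205156703597509922592391168) (nat_lit 3305279981858268792089904872408297255446244745684225485305537419321604348719024337094682088683914617497707282208889602310144) (nat_lit 3305279981858268792089904872408297255446244745684225485305537419321604348719024337094682088683914617497707282208889602310144) :=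
  chk_sound Env.nil
    (n (nat_lit 309) (b (b (n (nat_lit 334) (b (n (nat_lit 284) (b (n (nat_lit 359) (b (b (n (nat_lit 384) (b (n (nat_lit 383) (b (l (nat_lit 6) (nat_lit 283) (nat_lit 358)) (l (nat_lit 6) (nat_lit 308) (nat_lit 408)))) (n (nat_lit 385) (b (l (nat_lit 4) (nat_lit 309) (nat_lit 410)) (l (nat_lit 4) (nat_lit 284) (nat_lit 360)))))) (n (nat_lit 259) (b (n (nat_lit 260) (b (l (nat_lit 5) (nat_lit 234) (nat_lit 235)) (l (nat_lit 5) (nat_lit 259) (nat_lit 285)))) (n (nat_lit 335) (b (l (nat_lit 4) (nat_lit 234) (nat_lit 234)) (l (nat_lit 4) (nat_lit 259) (nat_lit 360))))))) (n (nat_lit 285) (b (l (nat_lit 5) (nat_lit 284) (nat_lit 384)) (l (nat_lit 5) (nat_lit 259) (nat_lit 260)))))) (l (nat_lit 3) (nat_lit 283) (nat_lit 283)))) (l (nat_lit 2) (nat_lit 308) (nat_lit 333)))) (n (nat_lit 308) (b (n (nat_lit 287) (b (l (nat_lit 1) (nat_lit 283) (nat_lit 286)) (l (nat_lit 1) (nat_lit 284) (nat_lit 288)))) (n (nat_lit 283) (b (l (nat_lit 3) (nat_lit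 283) (nat_lit 284)) (l (nat_lit 3) (nat_lit 282) (nat_lit 282))))))) (n (nat_lit 308) (b (n (nat_lit 333) (b (l (nat_lit 2) (nat_lit 307) (nat_lit 332)) (l (nat_lit 2) (nat_lit 308) (nat_lit 334)))) (n (nat_lit 287) (b (l (nat_lit 1) (nat_lit 283) (nat_lit 286)) (l (nat_lit 1) (nat_lit 284) (nat_lit 288))))))))
    envOK_nil (by decide +kernel)

theorem p1659 : Fam (nat_lit 6) (nat_lit 14601473878365596266372218694518422658416925445797431044559854740972205156703597509922592391168) (nat_lit 26442239854866150336722528604259456184414320027215460752732185509592603057729494864882988881024639263680192273313729733459968) (nat_lit 26442239854866150336722528604259456184414320027215460752732185509592603057729494864882988881024639263680192273313729733459968) :=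
  chk_sound Env.nil
    (n (nat_lit 337) (b (b (n (nat_lit 362) (b (b (n (nat_lit 286) (b (n (nat_lit 261) (b (l (nat_lit 4) (nat_lit 261) (nat_lit 336)) (l (nat_lit 4) (nat_lit 236) (nat_lit 236)))) (l (nat_lit 7) (nat_lit 286) (nat_lit 387)))) (n (nat_lit 287) (b (n (nat_lit 288) (b (l (nat_lit 5) (nat_lit 262) (nat_lit 263)) (l (nat_lit 1) (nat_lit 284) (nat_lit 309)))) (n (nat_lit 262) (b (n (nat_lit 261) (b (l (nat_lit 7) (nat_lit 261) (nat_lit 286)) (l (nat_lit 7) (nat_lit 236) (nat_lit 236)))) (n (nat_lit 361) (b (l (nat_lit 6) (nat_lit 286) (nat_lit 386)) (l (nat_lit 6) (nat_lit 261) (nat_lit 336))))))))) (n (nat_lit 288) (b (n (nat_lit 313) (b (l (nat_lit 1) (nat_lit 285) (nat_lit 289)) (l (nat_lit 5) (nat_lit 287) (nat_lit 387)))) (n (nat_lit 287) (b (l (nat_lit 5) (nat_lit 262) (nat_lit 263)) (l (nat_lit 1) (nat_lit 284) (nat_lit 309)))))))) (n (nat_lit 338) (b (n (nat_lit 339) (b (l (nat_lit 0) (nat_lit 310) (nat_lit 313)) (l (nat_lit 3) (nat_lit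 311) (nat_lit 340)))) (l (nat_lit 0) (nat_lit 309) (nat_lit 309))))) (n (nat_lit 362) (b (b (n (nat_lit 287) (b (b (n (nat_lit 262) (b (n (nat_lit 263) (b (l (nat_lit 5) (nat_lit 237) (nat_lit 238)) (l (nat_lit 5) (nat_lit 262) (nat_lit 288)))) (n (nat_lit 361) (b (l (nat_lit 6) (nat_lit 286) (nat_lit 386)) (l (nat_lit 6) (nat_lit 261) (nat_lit 336)))))) (n (nat_lit 387) (b (n (nat_lit 388) (b (l (nat_lit 4) (nat_lit 312) (nat_lit 413)) (l (nat_lit 4) (nat_lit 287) (nat_lit 363)))) (n (nat_lit 386) (b (l (nat_lit 6) (nat_lit 311) (nat_lit 411)) (l (nat_lit 6) (nat_lit 286) (nat_lit 361))))))) (n (nat_lit 262) (b (n (nat_lit 263) (b (l (nat_lit 5) (nat_lit 237) (nat_lit 238)) (l (nat_lit 5) (nat_lit 262) (nat_lit 288)))) (n (nat_lit 363) (b (l (nat_lit 4) (nat_lit 262) (nat_lit 338)) (l (nat_lit 4) (nat_lit 287) (nat_lit 388)))))))) (n (nat_lit 286) (b (n (nat_lit 261) (b (l (nat_lit 4) (nat_lit 261) (nat_lit 336)) (l (nat_lit 4) (nat_lit 236) (nat_lit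 236)))) (l (nat_lit 7) (nat_lit 286) (nat_lit 387))))) (n (nat_lit 287) (b (b (n (nat_lit 288) (b (n (nat_lit 289) (b (l (nat_lit 2) (nat_lit 285) (nat_lit 286)) (l (nat_lit 2) (nat_lit 286) (nat_lit 290)))) (l (nat_lit 5) (nat_lit 262) (nat_lit 263)))) (n (nat_lit 262) (b (n (nat_lit 263) (b (l (nat_lit 5) (nat_lit 237) (nat_lit 238)) (l (nat_lit 5) (nat_lit 262) (nat_lit 288)))) (n (nat_lit 363) (b (l (nat_lit 4) (nat_lit 262) (nat_lit 338)) (l (nat_lit 4) (nat_lit 287) (nat_lit 388))))))) (n (nat_lit 262) (b (n (nat_lit 261) (b (l (nat_lit 7) (nat_lit 261) (nat_lit 286)) (l (nat_lit 7) (nat_lit 236) (nat_lit 236)))) (n (nat_lit 363) (b (l (nat_lit 4) (nat_lit 262) (nat_lit 338)) (l (nat_lit 4) (nat_lit 287) (nat_lit 388))))))))))))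
    envOK_nil (by decide +kernel)

theorem p1711 : Fam (nat_lit 9) (nat_lit 14601473878365596266372218694518422658416925445797431044559854740972205156703597509922592391168) (nat_lit 21153792183348177460710108717362299231958288591909328336780730192439108348945589825790066176025976599535995115029943065509888) (nat_lit 21153792183348177460710108717362299231958288591909328336780730192439108348945589825790066176025976599535995115029943065509888) :=
  chk_sound Env.nil
    (n (nat_lit 284) (b (b (n (nat_lit 309) (b (n (nat_lit 337) (b (n (nat_lit 286) (b (b (n (nat_lit 308) (b (l (nat_lit 1) (nat_lit 283) (nat_lit 287)) (l (nat_lit 0) (nat_lit 308) (nat_lit 336)))) (n (nat_lit 362) (b (n (nat_lit 261) (b (l (nat_lit 7) (nat_lit 261) (nat_lit 287)) (l (nat_lit 4) (nat_lit 236) (nat_lit 236)))) (l (nat_lit 7) (nat_lit 286) (nat_lit 387))))) (n (nat_lit 261) (b (n (nat_lit 336) (b (l (nat_lit 4) (nat_lit 261) (nat_lit 362)) (l (nat_lit 0) (nat_lit 308) (nat_lit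 308)))) (l (nat_lit 4) (nat_lit 236) (nat_lit 236)))))) (l (nat_lit 0) (nat_lit 309) (nat_lit 338)))) (l (nat_lit 3) (nat_lit 283) (nat_lit 283)))) (n (nat_lit 285) (b (n (nat_lit 283) (b (l (nat_lit 0) (nat_lit 283) (nat_lit 286)) (l (nat_lit 0) (nat_lit 282) (nat_lit 282)))) (l (nat_lit 3) (nat_lit 284) (nat_lit 313))))) (b (n (nat_lit 283) (b (n (nat_lit 285) (b (l (nat_lit 0) (nat_lit 282) (nat_lit 282)) (l (nat_lit 3) (nat_lit 284) (nat_lit 313)))) (l (nat_lit 3) (nat_lit 283) (nat_lit 309)))) (n (nat_lit 338) (b (b (n (nat_lit 337) (b (n (nat_lit 339) (b (l (nat_lit 3) (nat_lit 310) (nat_lit 336)) (l (nat_lit 3) (nat_lit 311) (nat_lit 340)))) (l (nat_lit 0) (nat_lit 309) (nat_lit 309)))) (n (nat_lit 313) (b (l (nat_lit 3) (nat_lit 284) (nat_lit 285)) (l (nat_lit 0) (nat_lit 310) (nat_lit 339))))) (n (nat_lit 337) (b (n (nat_lit 287) (b (b (n (nat_lit 363) (b (n (nat_lit 388) (b (l (nat_lit 7) (nat_lit 287) (nat_lit 313)) (l (nat_lit 7) (nat_lit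 312) (nat_lit 413)))) (l (nat_lit 4) (nat_lit 262) (nat_lit 262)))) (n (nat_lit 262) (b (n (nat_lit 336) (b (l (nat_lit 6) (nat_lit 261) (nat_lit 361)) (l (nat_lit 6) (nat_lit 236) (nat_lit 237)))) (l (nat_lit 4) (nat_lit 262) (nat_lit 363))))) (n (nat_lit 286) (b (b (n (nat_lit 362) (b (l (nat_lit 7) (nat_lit 286) (nat_lit 387)) (l (nat_lit 7) (nat_lit 261) (nat_lit 261)))) (n (nat_lit 336) (b (b (n (nat_lit 360) (b (n (nat_lit 361) (b (l (nat_lit 5) (nat_lit 286) (nat_lit 386)) (l (nat_lit 6) (nat_lit 285) (nat_lit 385)))) (n (nat_lit 261) (b (l (nat_lit 6) (nat_lit 260) (nat_lit 335)) (l (nat_lit 4) (nat_lit 236) (nat_lit 236)))))) (n (nat_lit 335) (b (n (nat_lit 313) (b (l (nat_lit 2) (nat_lit 310) (nat_lit 314)) (l (nat_lit 3) (nat_lit 284) (nat_lit 285)))) (n (nat_lit 261) (b (l (nat_lit 4) (nat_lit 236) (nat_lit 236)) (l (nat_lit 6) (nat_lit 260) (nat_lit 360))))))) (n (nat_lit 285) (b (n (nat_lit 361) (b (l (nat_lit 7) (nat_lit 260) (nat_lit 260))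 (l (nat_lit 7) (nat_lit 285) (nat_lit 386)))) (l (nat_lit 3) (nat_lit 284) (nat_lit 313))))))) (n (nat_lit 361) (b (b (n (nat_lit 362) (b (l (nat_lit 6) (nat_lit 286) (nat_lit 386)) (l (nat_lit 7) (nat_lit 286) (nat_lit 387)))) (n (nat_lit 285) (b (n (nat_lit 336) (b (l (nat_lit 7) (nat_lit 260) (nat_lit 260)) (l (nat_lit 5) (nat_lit 286) (nat_lit 386)))) (l (nat_lit 3) (nat_lit 284) (nat_lit 313))))) (n (nat_lit 360) (b (n (nat_lit 385) (b (l (nat_lit 5) (nat_lit 285) (nat_lit 335)) (l (nat_lit 6) (nat_lit 285) (nat_lit 336)))) (n (nat_lit 362) (b (l (nat_lit 1) (nat_lit 334) (nat_lit 359)) (l (nat_lit 7) (nat_lit 286) (nat_lit 387)))))))))))) (l (nat_lit 0) (nat_lit 309) (nat_lit 309)))))))))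
    envOK_nil (by decide +kernel)

theorem p1725 : Fam (nat_lit 7) (nat_lit 14601473878365596266372218694518422658416925445797431044559854740972205156703597509922592391168) (nat_lit 520565705612417640109332174858544917626064877666764079826510273752550242127322166810344357944673435648) (nat_lit 520565705612417640109332174858544917626064877666764079826510273752550242127322166810344357944673435648) :=
  chk_sound Env.nil
    (n (nat_lit 284) (b (b (n (nat_lit 309) (b (n (nat_lit 308) (b (n (nat_lit 307) (b (n (nat_lit 332) (b (l (nat_lit 2) (nat_lit 307) (nat_lit 333)) (l (nat_lit 2) (nat_lit 306) (nat_lit 331)))) (n (nat_lit 336) (b (l (nat_lit 0) (nat_lit 307) (nat_lit 335)) (l (nat_lit 0) (nat_lit 308) (nat_lit 337)))))) (n (nat_lit 287) (b (l (nat_lit 1) (nat_lit 283) (nat_lit 286)) (l (nat_lit 1) (nat_lit 284) (nat_lit 288)))))) (l (nat_lit 3) (nat_lit 283) (nat_lit 283)))) (n (nat_lit 285) (b (n (nat_lit 283) (b (l (nat_lit 0) (nat_lit 283) (nat_lit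 286)) (l (nat_lit 0) (nat_lit 282) (nat_lit 282)))) (l (nat_lit 3) (nat_lit 284) (nat_lit 313))))) (b (n (nat_lit 283) (b (n (nat_lit 285) (b (l (nat_lit 0) (nat_lit 282) (nat_lit 282)) (l (nat_lit 3) (nat_lit 284) (nat_lit 313)))) (l (nat_lit 3) (nat_lit 283) (nat_lit 309)))) (n (nat_lit 288) (b (b (n (nat_lit 287) (b (n (nat_lit 289) (b (l (nat_lit 2) (nat_lit 285) (nat_lit 286)) (l (nat_lit 2) (nat_lit 286) (nat_lit 290)))) (l (nat_lit 1) (nat_lit 284) (nat_lit 309)))) (n (nat_lit 313) (b (l (nat_lit 3) (nat_lit 284) (nat_lit 285)) (l (nat_lit 1) (nat_lit 285) (nat_lit 289))))) (n (nat_lit 285) (b (n (nat_lit 287) (b (n (nat_lit 286) (b (n (nat_lit 263) (b (l (nat_lit 1) (nat_lit 259) (nat_lit 262)) (l (nat_lit 1) (nat_lit 260) (nat_lit 264)))) (n (nat_lit 259) (b (l (nat_lit 3) (nat_lit 258) (nat_lit 258)) (l (nat_lit 3) (nat_lit 259) (nat_lit 260)))))) (l (nat_lit 1) (nat_lit 284) (nat_lit 309)))) (l (nat_lit 3) (nat_lit 284) (nat_lit 313)))))))))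
    envOK_nil (by decide +kernel)

theorem p1726 : Fam (nat_lit 10) (nat_lit 12515549038599082514033330309587219421500221810683512323908446920833318705745940722790793478144) (nat_lit 79326718697754290029783345620017487879396265814682566582168786748184723663156108413496406165579928810476650548249095883980800) (nat_lit 79326718697754290029783345620017487879396265814682566582168786748184723663156108413496406165579928810476650548249095883980800) :=
  chk_sound (Env.cons (nat_lit 9) (nat_lit 14601473878365596266372218694518422658416925445797431044559854740972205156703597509922592391168) (nat_lit 21153792183348177460710108717362299231958288591909328336780730192439108348945589825790066176025976599535995115029943065509888) (Env.cons (nat_lit 6) (nat_lit 14601473878365596266372218694518422658416925445797431044559854740972205156703597509922592391168) (nat_lit 26442239854866150336722528604259456184414320027215460752732185509592603057729494864882988881024639263680192273313729733459968)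 (Env.cons (nat_lit 7) (nat_lit 14601473878365596266372218694518422658416925445797431044559854740972205156703597509922592391168) (nat_lit 520565705612417640109332174858544917626064877666764079826510273752550242127322166810344357944673435648) (Env.cons (nat_lit 7) (nat_lit 14601473878365596266372218694518422658416925445797431044559854740972205156703597509922592391168) (nat_lit 52884479709732300673440577719034556756646518164877997407431571058954067259256635329262734077017476548304483528654770766086144) (Env.cons (nat_lit 7) (nat_lit 14601473878365596266372218694518422658416925445797431044559854740972205156703597509922592391168) (nat_lit 26442239854866150336719168987130023557660748677916194398296998451957611642101835106907681390491093122425621171469665548894208) Env.nil)))))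
    (n (nat_lit 310) (b (b (b (r (nat_lit 0)) (r (nat_lit 1))) (b (r (nat_lit 2)) (r (nat_lit 3)))) (b (b (r (nat_lit 4)) (n (nat_lit 313) (b (b (n (nat_lit 314) (b (n (nat_lit 339) (b (l (nat_lit 0) (nat_lit 311) (nat_lit 340)) (l (nat_lit 0) (nat_lit 310) (nat_lit 338)))) (n (nat_lit 289) (b (l (nat_lit 1) (nat_lit 286) (nat_lit 290)) (l (nat_lit 1) (nat_lit 285) (nat_lit 288)))))) (n (nat_lit 309) (b (n (nat_lit 338) (b (l (nat_lit 0) (nat_lit 309) (nat_lit 337)) (l (nat_lit 0) (nat_lit 310) (nat_lit 339)))) (n (nat_lit 284) (b (l (nat_lit 3) (nat_lit 283) (nat_lit 283)) (l (nat_lit 3) (nat_lit 284) (nat_lit 285))))))) (n (nat_lit 314) (b (n (nat_lit 285) (b (l (nat_lit 3) (nat_lit 284) (nat_lit 284)) (l (nat_lit 3) (nat_lit 285) (nat_lit 286)))) (n (nat_lit 289) (b (l (nat_lit 1) (nat_lit 286) (nat_lit 290)) (l (nat_lit 1) (nat_lit 285) (nat_lit 288))))))))) (b (n (nat_lit 313) (b (b (n (nat_lit 314) (b (n (nat_lit 339) (b (l (nat_lit 0) (nat_lit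 311) (nat_lit 340)) (l (nat_lit 0) (nat_lit 310) (nat_lit 338)))) (n (nat_lit 289) (b (l (nat_lit 1) (nat_lit 286) (nat_lit 290)) (l (nat_lit 1) (nat_lit 285) (nat_lit 288)))))) (n (nat_lit 314) (b (n (nat_lit 285) (b (l (nat_lit 3) (nat_lit 284) (nat_lit 284)) (l (nat_lit 3) (nat_lit 285) (nat_lit 286)))) (n (nat_lit 339) (b (l (nat_lit 0) (nat_lit 311) (nat_lit 340)) (l (nat_lit 0) (nat_lit 310) (nat_lit 338))))))) (n (nat_lit 309) (b (n (nat_lit 288) (b (l (nat_lit 1) (nat_lit 284) (nat_lit 287)) (l (nat_lit 1) (nat_lit 285) (nat_lit 289)))) (n (nat_lit 284) (b (l (nat_lit 3) (nat_lit 283) (nat_lit 283)) (l (nat_lit 3) (nat_lit 284) (nat_lit 285)))))))) (n (nat_lit 309) (b (b (n (nat_lit 313) (b (n (nat_lit 338) (b (l (nat_lit 0) (nat_lit 309) (nat_lit 337)) (l (nat_lit 0) (nat_lit 310) (nat_lit 339)))) (n (nat_lit 288) (b (l (nat_lit 1) (nat_lit 284) (nat_lit 287)) (l (nat_lit 1) (nat_lit 285) (nat_lit 289)))))) (n (nat_lit 308) (b (n (nat_lit 337)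 (b (l (nat_lit 0) (nat_lit 309) (nat_lit 338)) (l (nat_lit 0) (nat_lit 308) (nat_lit 336)))) (n (nat_lit 283) (b (l (nat_lit 3) (nat_lit 283) (nat_lit 284)) (l (nat_lit 3) (nat_lit 282) (nat_lit 282))))))) (n (nat_lit 313) (b (n (nat_lit 284) (b (l (nat_lit 3) (nat_lit 283) (nat_lit 283)) (l (nat_lit 3) (nat_lit 284) (nat_lit 285)))) (n (nat_lit 288) (b (l (nat_lit 1) (nat_lit 284) (nat_lit 287)) (l (nat_lit 1) (nat_lit 285) (nat_lit 289))))))))))))
    (envOK_cons p1711 (envOK_cons p1659 (envOK_cons p1725 (envOK_cons p1637 (envOK_cons p1635 envOK_nil))))) (by decide +kernel)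

theorem p1754 : Fam (nat_lit 9) (nat_lit 14601473878365596266372218694518422658416925445797431044559854740972205156703597509922592391168) (nat_lit 1103256207552913419351643800638073789214903873367597738084568343312405056314544282077314984240434515168866619245985792) (nat_lit 1103256207552913419351643800638073789214903873367597738084568343312405056314544282077314984240434515168866619245985792) :=
  chk_sound Env.nil
    (n (nat_lit 334) (b (b (n (nat_lit 309) (b (n (nat_lit 287) (b (n (nat_lit 336) (b (b (n (nat_lit 308) (b (l (nat_lit 0) (nat_lit 308) (nat_lit 337)) (l (nat_lit 1) (nat_lit 283) (nat_lit 286)))) (n (nat_lit 262) (b (n (nat_lit 361) (b (l (nat_lit 5) (nat_lit 286) (nat_lit 386)) (l (nat_lit 6) (nat_lit 261) (nat_lit 337)))) (l (nat_lit 6) (nat_lit 236) (nat_lit 237))))) (n (nat_lit 361) (b (n (nat_lit 262) (b (l (nat_lit 5) (nat_lit 261) (nat_lit 286)) (l (nat_lit 6) (nat_lit 236) (nat_lit 237)))) (l (nat_lit 5) (nat_lit 286) (nat_lit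 386)))))) (l (nat_lit 1) (nat_lit 284) (nat_lit 288)))) (l (nat_lit 2) (nat_lit 308) (nat_lit 333)))) (n (nat_lit 335) (b (n (nat_lit 333) (b (l (nat_lit 1) (nat_lit 308) (nat_lit 336)) (l (nat_lit 1) (nat_lit 307) (nat_lit 332)))) (l (nat_lit 2) (nat_lit 309) (nat_lit 313))))) (b (n (nat_lit 333) (b (n (nat_lit 335) (b (l (nat_lit 1) (nat_lit 307) (nat_lit 332)) (l (nat_lit 2) (nat_lit 309) (nat_lit 313)))) (l (nat_lit 2) (nat_lit 308) (nat_lit 309)))) (n (nat_lit 288) (b (b (n (nat_lit 287) (b (n (nat_lit 289) (b (l (nat_lit 2) (nat_lit 285) (nat_lit 286)) (l (nat_lit 2) (nat_lit 286) (nat_lit 290)))) (l (nat_lit 1) (nat_lit 284) (nat_lit 309)))) (n (nat_lit 313) (b (l (nat_lit 1) (nat_lit 285) (nat_lit 289)) (l (nat_lit 2) (nat_lit 309) (nat_lit 335))))) (n (nat_lit 287) (b (n (nat_lit 337) (b (b (n (nat_lit 263) (b (n (nat_lit 238) (b (l (nat_lit 6) (nat_lit 212) (nat_lit 213)) (l (nat_lit 5) (nat_lit 237) (nat_lit 262)))) (l (nat_lit 5) (nat_lit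 262) (nat_lit 362)))) (n (nat_lit 336) (b (n (nat_lit 362) (b (n (nat_lit 387) (b (l (nat_lit 7) (nat_lit 286) (nat_lit 286)) (l (nat_lit 5) (nat_lit 287) (nat_lit 313)))) (n (nat_lit 363) (b (l (nat_lit 0) (nat_lit 334) (nat_lit 335)) (l (nat_lit 4) (nat_lit 287) (nat_lit 388)))))) (n (nat_lit 262) (b (l (nat_lit 6) (nat_lit 261) (nat_lit 361)) (l (nat_lit 6) (nat_lit 236) (nat_lit 237))))))) (b (n (nat_lit 362) (b (n (nat_lit 286) (b (l (nat_lit 7) (nat_lit 286) (nat_lit 387)) (l (nat_lit 7) (nat_lit 261) (nat_lit 261)))) (l (nat_lit 5) (nat_lit 262) (nat_lit 263)))) (n (nat_lit 262) (b (b (n (nat_lit 336) (b (l (nat_lit 6) (nat_lit 261) (nat_lit 361)) (l (nat_lit 6) (nat_lit 236) (nat_lit 237)))) (n (nat_lit 237) (b (n (nat_lit 313) (b (l (nat_lit 2) (nat_lit 309) (nat_lit 335)) (l (nat_lit 4) (nat_lit 212) (nat_lit 212)))) (n (nat_lit 238) (b (l (nat_lit 5) (nat_lit 237) (nat_lit 263)) (l (nat_lit 5) (nat_lit 212) (nat_lit 213))))))) (n (nat_lit 285)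 (b (b (n (nat_lit 260) (b (n (nat_lit 336) (b (l (nat_lit 4) (nat_lit 235) (nat_lit 235)) (l (nat_lit 6) (nat_lit 261) (nat_lit 361)))) (n (nat_lit 259) (b (l (nat_lit 0) (nat_lit 259) (nat_lit 261)) (l (nat_lit 3) (nat_lit 259) (nat_lit 286)))))) (n (nat_lit 260) (b (n (nat_lit 335) (b (l (nat_lit 6) (nat_lit 259) (nat_lit 359)) (l (nat_lit 2) (nat_lit 309) (nat_lit 313)))) (n (nat_lit 336) (b (l (nat_lit 4) (nat_lit 235) (nat_lit 235)) (l (nat_lit 6) (nat_lit 261) (nat_lit 361))))))) (n (nat_lit 286) (b (n (nat_lit 263) (b (l (nat_lit 1) (nat_lit 260) (nat_lit 264)) (l (nat_lit 5) (nat_lit 237) (nat_lit 238)))) (n (nat_lit 313) (b (l (nat_lit 0) (nat_lit 285) (nat_lit 314)) (l (nat_lit 2) (nat_lit 309) (nat_lit 335))))))))))))) (l (nat_lit 1) (nat_lit 284) (nat_lit 309)))))))))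
    envOK_nil (by decide +kernel)

theorem p1767 : Fam (nat_lit 7) (nat_lit 14601473878365596266372218694518422658416925445797431044559854740972205156703597509922592391168) (nat_lit 69869146308262053100245714820479496896216616226686042949438114783645722749408734192745359082829177307252391936) (nat_lit 69869146308262053100245714820479496896216616226686042949438114783645722749408734192745359082829177307252391936) :=
  chk_sound Env.nil
    (n (nat_lit 334) (b (b (n (nat_lit 335) (b (n (nat_lit 333) (b (l (nat_lit 1) (nat_lit 308) (nat_lit 336)) (l (nat_lit 1) (nat_lit 307) (nat_lit 332)))) (l (nat_lit 2) (nat_lit 309) (nat_lit 313)))) (n (nat_lit 333) (b (n (nat_lit 335) (b (l (nat_lit 1) (nat_lit 307) (nat_lit 332)) (l (nat_lit 2) (nat_lit 309) (nat_lit 313)))) (l (nat_lit 2) (nat_lit 308) (nat_lit 309))))) (b (n (nat_lit 309) (b (n (nat_lit 308) (b (n (nat_lit 307) (b (n (nat_lit 286) (b (l (nat_lit 1) (nat_lit 283) (nat_lit 287)) (l (nat_lit 1) (nat_lit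 282) (nat_lit 285)))) (n (nat_lit 282) (b (l (nat_lit 3) (nat_lit 281) (nat_lit 281)) (l (nat_lit 3) (nat_lit 282) (nat_lit 283)))))) (n (nat_lit 337) (b (l (nat_lit 0) (nat_lit 309) (nat_lit 338)) (l (nat_lit 0) (nat_lit 308) (nat_lit 336)))))) (l (nat_lit 2) (nat_lit 308) (nat_lit 333)))) (n (nat_lit 338) (b (b (n (nat_lit 313) (b (l (nat_lit 2) (nat_lit 309) (nat_lit 335)) (l (nat_lit 0) (nat_lit 310) (nat_lit 339)))) (n (nat_lit 337) (b (n (nat_lit 339) (b (l (nat_lit 3) (nat_lit 310) (nat_lit 336)) (l (nat_lit 3) (nat_lit 311) (nat_lit 340)))) (l (nat_lit 0) (nat_lit 309) (nat_lit 309))))) (n (nat_lit 335) (b (n (nat_lit 337) (b (n (nat_lit 336) (b (n (nat_lit 363) (b (l (nat_lit 0) (nat_lit 334) (nat_lit 362)) (l (nat_lit 0) (nat_lit 335) (nat_lit 364)))) (n (nat_lit 359) (b (l (nat_lit 2) (nat_lit 333) (nat_lit 358)) (l (nat_lit 2) (nat_lit 334) (nat_lit 360)))))) (l (nat_lit 0) (nat_lit 309) (nat_lit 309)))) (l (nat_lit 2) (nat_lit 309) (nat_lit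 313)))))))))
    envOK_nil (by decide +kernel)

theorem p1768 : Fam (nat_lit 10) (nat_lit 12515549038599082514033330309587219421500221810683512323908446920833318705745940722790793478144) (nat_lit 79326718618950278224130063510427861613618931251934196023129498855729521985684325145029315376600339898193799040246522520272896) (nat_lit 79326718618950278224130063510427861613618931251934196023129498855729521985684325145029315376600339898193799040246522520272896) :=
  chk_sound (Env.cons (nat_lit 9) (nat_lit 14601473878365596266372218694518422658416925445797431044559854740972205156703597509922592391168) (nat_lit 1103256207552913419351643800638073789214903873367597738084568343312405056314544282077314984240434515168866619245985792) (Env.cons (nat_lit 6) (nat_lit 14601473878365596266372218694518422658416925445797431044559854740972205156703597509922592391168) (nat_lit 26442239854866150336722528604259456184414320027215460752732185509592603057729494864882988881024639263680192273313729733459968)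 (Env.cons (nat_lit 7) (nat_lit 14601473878365596266372218694518422658416925445797431044559854740972205156703597509922592391168) (nat_lit 52884479709732300673440822691115732453764468969198152925081510880366093181505565449596812365373183888517127282187613996318720) (Env.cons (nat_lit 7) (nat_lit 14601473878365596266372218694518422658416925445797431044559854740972205156703597509922592391168) (nat_lit 26442239854866150336719230230150317481940236378996233277709483407310618122664067636991200962580019957478782109852876356452352) (Env.cons (nat_lit 7) (nat_lit 14601473878365596266372218694518422658416925445797431044559854740972205156703597509922592391168) (nat_lit 69869146308262053100245714820479496896216616226686042949438114783645722749408734192745359082829177307252391936) Env.nil)))))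
    (n (nat_lit 310) (b (b (b (r (nat_lit 0)) (r (nat_lit 1))) (b (r (nat_lit 2)) (r (nat_lit 3)))) (b (b (n (nat_lit 309) (b (b (n (nat_lit 308) (b (n (nat_lit 333) (b (l (nat_lit 2) (nat_lit 307) (nat_lit 332)) (l (nat_lit 2) (nat_lit 308) (nat_lit 334)))) (n (nat_lit 287) (b (l (nat_lit 1) (nat_lit 283) (nat_lit 286)) (l (nat_lit 1) (nat_lit 284) (nat_lit 288)))))) (n (nat_lit 313) (b (n (nat_lit 338) (b (l (nat_lit 0) (nat_lit 309) (nat_lit 337)) (l (nat_lit 0) (nat_lit 310) (nat_lit 339)))) (n (nat_lit 334) (b (l (nat_lit 2) (nat_lit 309) (nat_lit 335)) (l (nat_lit 2) (nat_lit 308) (nat_lit 333))))))) (n (nat_lit 313) (b (n (nat_lit 338) (b (l (nat_lit 0) (nat_lit 309) (nat_lit 337)) (l (nat_lit 0) (nat_lit 310) (nat_lit 339)))) (n (nat_lit 288) (b (l (nat_lit 1) (nat_lit 284) (nat_lit 287)) (l (nat_lit 1) (nat_lit 285) (nat_lit 289)))))))) (n (nat_lit 313) (b (b (n (nat_lit 309) (b (n (nat_lit 334) (b (l (nat_lit 2) (nat_lit 309) (nat_lit 335))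 (l (nat_lit 2) (nat_lit 308) (nat_lit 333)))) (n (nat_lit 338) (b (l (nat_lit 0) (nat_lit 309) (nat_lit 337)) (l (nat_lit 0) (nat_lit 310) (nat_lit 339)))))) (n (nat_lit 314) (b (n (nat_lit 289) (b (l (nat_lit 1) (nat_lit 286) (nat_lit 290)) (l (nat_lit 1) (nat_lit 285) (nat_lit 288)))) (n (nat_lit 335) (b (l (nat_lit 2) (nat_lit 309) (nat_lit 334)) (l (nat_lit 2) (nat_lit 310) (nat_lit 336))))))) (n (nat_lit 314) (b (n (nat_lit 339) (b (l (nat_lit 0) (nat_lit 311) (nat_lit 340)) (l (nat_lit 0) (nat_lit 310) (nat_lit 338)))) (n (nat_lit 289) (b (l (nat_lit 1) (nat_lit 286) (nat_lit 290)) (l (nat_lit 1) (nat_lit 285) (nat_lit 288))))))))) (b (n (nat_lit 313) (b (b (n (nat_lit 309) (b (n (nat_lit 334) (b (l (nat_lit 2) (nat_lit 309) (nat_lit 335)) (l (nat_lit 2) (nat_lit 308) (nat_lit 333)))) (n (nat_lit 288) (b (l (nat_lit 1) (nat_lit 284) (nat_lit 287)) (l (nat_lit 1) (nat_lit 285) (nat_lit 289)))))) (n (nat_lit 314) (b (n (nat_lit 335) (b (l (nat_lit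 2) (nat_lit 309) (nat_lit 334)) (l (nat_lit 2) (nat_lit 310) (nat_lit 336)))) (n (nat_lit 339) (b (l (nat_lit 0) (nat_lit 311) (nat_lit 340)) (l (nat_lit 0) (nat_lit 310) (nat_lit 338))))))) (n (nat_lit 314) (b (n (nat_lit 339) (b (l (nat_lit 0) (nat_lit 311) (nat_lit 340)) (l (nat_lit 0) (nat_lit 310) (nat_lit 338)))) (n (nat_lit 289) (b (l (nat_lit 1) (nat_lit 286) (nat_lit 290)) (l (nat_lit 1) (nat_lit 285) (nat_lit 288)))))))) (r (nat_lit 4))))))
    (envOK_cons p1754 (envOK_cons p1659 (envOK_cons p1608 (envOK_cons p1626 (envOK_cons p1767 envOK_nil))))) (by decide +kernel)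

theorem p1815 : Fam (nat_lit 6) (nat_lit 419952151673887328078602941639913611735027952231718598477260280339157896679598883004855252779219812352) (nat_lit 21153791631720195221332385675001711507725150108094003250343307557053002292100498963033008985251428199071635055823082682843136) (nat_lit 21153791631720195221332385675001711507725150108094003250343307557053002292100498963033008985251428199071635055823082682843136) :=
  chk_sound Env.nil
    (n (nat_lit 338) (b (b (n (nat_lit 310) (b (l (nat_lit 0) (nat_lit 309) (nat_lit 309)) (l (nat_lit 3) (nat_lit 310) (nat_lit 339)))) (n (nat_lit 363) (b (n (nat_lit 287) (b (n (nat_lit 388) (b (l (nat_lit 4) (nat_lit 287) (nat_lit 362)) (l (nat_lit 7) (nat_lit 312) (nat_lit 413)))) (l (nat_lit 4) (nat_lit 262) (nat_lit 262)))) (n (nat_lit 364) (b (n (nat_lit 339) (b (l (nat_lit 0) (nat_lit 336) (nat_lit 365)) (l (nat_lit 3) (nat_lit 311) (nat_lit 340)))) (l (nat_lit 0) (nat_lit 335) (nat_lit 335))))))) (n (nat_lit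 363) (b (n (nat_lit 287) (b (n (nat_lit 388) (b (l (nat_lit 4) (nat_lit 287) (nat_lit 362)) (l (nat_lit 7) (nat_lit 312) (nat_lit 413)))) (l (nat_lit 4) (nat_lit 262) (nat_lit 262)))) (n (nat_lit 309) (b (n (nat_lit 335) (b (n (nat_lit 334) (b (l (nat_lit 3) (nat_lit 308) (nat_lit 308)) (l (nat_lit 1) (nat_lit 308) (nat_lit 333)))) (l (nat_lit 0) (nat_lit 335) (nat_lit 364)))) (l (nat_lit 0) (nat_lit 309) (nat_lit 310))))))))
    envOK_nil (by decide +kernel)

theorem p1840 : Fam (nat_lit 6) (nat_lit 419952151673887328078602941639913611735027952231718598477260280339157896679598883004855252779219812352) (nat_lit 78804148021127575604921714079749933393304549335299593897685223491390618059191722744851199678751218371493608038596608) (nat_lit 78804148021127575604921714079749933393304549335299593897685223491390618059191722744851199678751218371493608038596608) :=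
  chk_sound Env.nil
    (n (nat_lit 338) (b (b (n (nat_lit 335) (b (n (nat_lit 334) (b (n (nat_lit 359) (b (l (nat_lit 2) (nat_lit 333) (nat_lit 358)) (l (nat_lit 2) (nat_lit 334) (nat_lit 360)))) (l (nat_lit 1) (nat_lit 308) (nat_lit 333)))) (n (nat_lit 339) (b (n (nat_lit 364) (b (l (nat_lit 0) (nat_lit 336) (nat_lit 365)) (l (nat_lit 0) (nat_lit 335) (nat_lit 363)))) (l (nat_lit 3) (nat_lit 311) (nat_lit 340)))))) (n (nat_lit 310) (b (l (nat_lit 0) (nat_lit 309) (nat_lit 309)) (l (nat_lit 3) (nat_lit 310) (nat_lit 339))))) (n (nat_lit 335) (b (b (n (nat_lit 334) (b (n (nat_lit 359) (b (l (nat_lit 2) (nat_lit 333) (nat_lit 358)) (l (nat_lit 2) (nat_lit 334) (nat_lit 360)))) (l (nat_lit 1) (nat_lit 308) (nat_lit 333)))) (n (nat_lit 309) (b (n (nat_lit 334) (b (l (nat_lit 3) (nat_lit 308) (nat_lit 308)) (l (nat_lit 1) (nat_lit 308) (nat_lit 333)))) (l (nat_lit 3) (nat_lit 309) (nat_lit 310))))) (n (nat_lit 360) (b (n (nat_lit 310) (b (n (nat_lit 286)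 (b (l (nat_lit 5) (nat_lit 285) (nat_lit 385)) (l (nat_lit 6) (nat_lit 260) (nat_lit 261)))) (l (nat_lit 3) (nat_lit 309) (nat_lit 309)))) (l (nat_lit 2) (nat_lit 334) (nat_lit 359))))))))
    envOK_nil (by decide +kernel)

theorem p1897 : Fam (nat_lit 12) (nat_lit 139984058901661801758922656568858076969822265077387406614761642718683912782078764832245566120268922880) (nat_lit 22181399199493793825629256378852538178375599519767465211412285279174014844958609653258713638779936551559721912925619189158357499904) (nat_lit 22181399199493793825629256378852538178375599519767465211412285279174014844958609653258713638779936551559721912925619189158357499904) :=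
  chk_sound (Env.cons (nat_lit 6) (nat_lit 419952151673887328078602941639913611735027952231718598477260280339157896679598883004855252779219812352) (nat_lit 78804148021127575604921714079749933393304549335299593897685223491390618059191722744851199678751218371493608038596608) (Env.cons (nat_lit 6) (nat_lit 419952151673887328078602941639913611735027952231718598477260280339157896679598883004855252779219812352) (nat_lit 21153791631720195221332385675001711507725150108094003250343307557053002292100498963033008985251428199071635055823082682843136) Env.nil))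
    (n (nat_lit 337) (b (b (b (n (nat_lit 362) (b (b (n (nat_lit 286) (b (l (nat_lit 4) (nat_lit 261) (nat_lit 261)) (l (nat_lit 7) (nat_lit 286) (nat_lit 387)))) (n (nat_lit 287) (b (n (nat_lit 387) (b (n (nat_lit 388) (b (l (nat_lit 4) (nat_lit 312) (nat_lit 413)) (l (nat_lit 4) (nat_lit 287) (nat_lit 363)))) (l (nat_lit 7) (nat_lit 311) (nat_lit 412)))) (n (nat_lit 262) (b (n (nat_lit 263) (b (l (nat_lit 5) (nat_lit 237) (nat_lit 238)) (l (nat_lit 5) (nat_lit 262) (nat_lit 288)))) (l (nat_lit 6) (nat_lit 236) (nat_lit 237))))))) (n (nat_lit 287) (b (b (n (nat_lit 262) (b (n (nat_lit 263) (b (l (nat_lit 5) (nat_lit 237) (nat_lit 238)) (l (nat_lit 5) (nat_lit 262) (nat_lit 288)))) (l (nat_lit 6) (nat_lit 236) (nat_lit 237)))) (n (nat_lit 261) (b (n (nat_lit 262) (b (l (nat_lit 7) (nat_lit 236) (nat_lit 236)) (l (nat_lit 6) (nat_lit 236) (nat_lit 237)))) (l (nat_lit 7) (nat_lit 261) (nat_lit 286))))) (n (nat_lit 288) (b (n (nat_lit 286) (b (n (nat_lit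 310) (b (l (nat_lit 1) (nat_lit 284) (nat_lit 309)) (l (nat_lit 2) (nat_lit 285) (nat_lit 289)))) (l (nat_lit 7) (nat_lit 261) (nat_lit 261)))) (l (nat_lit 5) (nat_lit 262) (nat_lit 263)))))))) (r (nat_lit 0))) (b (r (nat_lit 1)) (n (nat_lit 362) (b (b (n (nat_lit 286) (b (l (nat_lit 4) (nat_lit 261) (nat_lit 261)) (l (nat_lit 7) (nat_lit 286) (nat_lit 387)))) (n (nat_lit 287) (b (n (nat_lit 387) (b (n (nat_lit 388) (b (l (nat_lit 4) (nat_lit 312) (nat_lit 413)) (l (nat_lit 4) (nat_lit 287) (nat_lit 363)))) (l (nat_lit 7) (nat_lit 311) (nat_lit 412)))) (n (nat_lit 262) (b (n (nat_lit 263) (b (l (nat_lit 5) (nat_lit 237) (nat_lit 238)) (l (nat_lit 5) (nat_lit 262) (nat_lit 288)))) (l (nat_lit 6) (nat_lit 236) (nat_lit 237))))))) (n (nat_lit 287) (b (n (nat_lit 261) (b (n (nat_lit 262) (b (l (nat_lit 7) (nat_lit 236) (nat_lit 236)) (l (nat_lit 6) (nat_lit 236) (nat_lit 237)))) (l (nat_lit 7) (nat_lit 261) (nat_lit 286)))) (n (nat_lit 363) (b (n (nat_lit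 335) (b (n (nat_lit 364) (b (l (nat_lit 0) (nat_lit 335) (nat_lit 338)) (l (nat_lit 3) (nat_lit 336) (nat_lit 365)))) (l (nat_lit 0) (nat_lit 334) (nat_lit 334)))) (l (nat_lit 4) (nat_lit 287) (nat_lit 388)))))))))) (n (nat_lit 362) (b (b (n (nat_lit 287) (b (b (n (nat_lit 262) (b (n (nat_lit 263) (b (l (nat_lit 5) (nat_lit 237) (nat_lit 238)) (l (nat_lit 5) (nat_lit 262) (nat_lit 288)))) (l (nat_lit 6) (nat_lit 236) (nat_lit 237)))) (n (nat_lit 261) (b (n (nat_lit 262) (b (l (nat_lit 7) (nat_lit 236) (nat_lit 236)) (l (nat_lit 6) (nat_lit 236) (nat_lit 237)))) (l (nat_lit 7) (nat_lit 261) (nat_lit 286))))) (n (nat_lit 288) (b (n (nat_lit 286) (b (n (nat_lit 310) (b (l (nat_lit 1) (nat_lit 284) (nat_lit 309)) (l (nat_lit 2) (nat_lit 285) (nat_lit 289)))) (l (nat_lit 7) (nat_lit 261) (nat_lit 261)))) (l (nat_lit 5) (nat_lit 262) (nat_lit 263)))))) (n (nat_lit 387) (b (l (nat_lit 7) (nat_lit 311) (nat_lit 412)) (l (nat_lit 7) (nat_lit 286) (nat_lit 286)))))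 (n (nat_lit 387) (b (n (nat_lit 386) (b (n (nat_lit 388) (b (n (nat_lit 359) (b (b (n (nat_lit 385) (b (n (nat_lit 384) (b (n (nat_lit 409) (b (l (nat_lit 2) (nat_lit 383) (nat_lit 408)) (l (nat_lit 2) (nat_lit 384) (nat_lit 410)))) (l (nat_lit 3) (nat_lit 358) (nat_lit 358)))) (l (nat_lit 3) (nat_lit 359) (nat_lit 360)))) (n (nat_lit 335) (b (n (nat_lit 334) (b (l (nat_lit 1) (nat_lit 308) (nat_lit 333)) (l (nat_lit 2) (nat_lit 333) (nat_lit 358)))) (n (nat_lit 338) (b (n (nat_lit 339) (b (l (nat_lit 3) (nat_lit 311) (nat_lit 340)) (l (nat_lit 3) (nat_lit 310) (nat_lit 310)))) (l (nat_lit 2) (nat_lit 334) (nat_lit 360))))))) (b (n (nat_lit 338) (b (n (nat_lit 310) (b (l (nat_lit 0) (nat_lit 309) (nat_lit 309)) (l (nat_lit 3) (nat_lit 310) (nat_lit 339)))) (n (nat_lit 360) (b (l (nat_lit 2) (nat_lit 334) (nat_lit 335)) (l (nat_lit 3) (nat_lit 359) (nat_lit 385)))))) (n (nat_lit 334) (b (b (n (nat_lit 335) (b (l (nat_lit 2) (nat_lit 333) (nat_lit 358))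 (l (nat_lit 1) (nat_lit 308) (nat_lit 333)))) (n (nat_lit 309) (b (b (n (nat_lit 384) (b (n (nat_lit 409) (b (n (nat_lit 408) (b (l (nat_lit 6) (nat_lit 308) (nat_lit 383)) (l (nat_lit 6) (nat_lit 333) (nat_lit 433)))) (n (nat_lit 308) (b (l (nat_lit 7) (nat_lit 308) (nat_lit 333)) (l (nat_lit 7) (nat_lit 283) (nat_lit 283)))))) (n (nat_lit 385) (b (l (nat_lit 3) (nat_lit 358) (nat_lit 358)) (l (nat_lit 4) (nat_lit 309) (nat_lit 410)))))) (n (nat_lit 310) (b (l (nat_lit 0) (nat_lit 309) (nat_lit 338)) (l (nat_lit 0) (nat_lit 308) (nat_lit 308))))) (n (nat_lit 310) (b (l (nat_lit 0) (nat_lit 309) (nat_lit 338)) (l (nat_lit 2) (nat_lit 308) (nat_lit 333))))))) (b (n (nat_lit 309) (b (b (n (nat_lit 308) (b (l (nat_lit 3) (nat_lit 308) (nat_lit 335)) (l (nat_lit 0) (nat_lit 308) (nat_lit 310)))) (n (nat_lit 310) (b (l (nat_lit 2) (nat_lit 308) (nat_lit 333)) (l (nat_lit 0) (nat_lit 308) (nat_lit 308))))) (b (n (nat_lit 333) (b (l (nat_lit 2) (nat_lit 308)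 (nat_lit 310)) (l (nat_lit 1) (nat_lit 308) (nat_lit 335)))) (n (nat_lit 335) (b (l (nat_lit 3) (nat_lit 308) (nat_lit 308)) (l (nat_lit 1) (nat_lit 308) (nat_lit 333))))))) (n (nat_lit 309) (b (b (n (nat_lit 335) (b (l (nat_lit 3) (nat_lit 308) (nat_lit 308)) (l (nat_lit 2) (nat_lit 333) (nat_lit 358)))) (n (nat_lit 310) (b (l (nat_lit 0) (nat_lit 309) (nat_lit 338)) (l (nat_lit 0) (nat_lit 308) (nat_lit 308))))) (n (nat_lit 384) (b (n (nat_lit 358) (b (l (nat_lit 2) (nat_lit 333) (nat_lit 335)) (l (nat_lit 3) (nat_lit 358) (nat_lit 385)))) (n (nat_lit 310) (b (l (nat_lit 0) (nat_lit 309) (nat_lit 338)) (l (nat_lit 5) (nat_lit 284) (nat_lit 285)))))))))))))) (l (nat_lit 4) (nat_lit 312) (nat_lit 413)))) (l (nat_lit 6) (nat_lit 311) (nat_lit 411)))) (l (nat_lit 7) (nat_lit 311) (nat_lit 412))))))))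
    (envOK_cons p1840 (envOK_cons p1815 envOK_nil)) (by decide +kernel)

theorem p1927 : Fam (nat_lit 7) (nat_lit 4697085305531725357440762952501330623609442067638904818801988557826060768913129669006162829015103526332792832) (nat_lit 14091255916595154691596644295394889310864768880780687163748360005166571564312814071741548427574138894605615104) (nat_lit 14091255916595154691596644295394889310864768880780687163748360005166571564312814071741548427574138894605615104) :=
  chk_sound Env.nil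
    (n (nat_lit 286) (b (b (n (nat_lit 287) (b (n (nat_lit 285) (b (n (nat_lit 288) (b (n (nat_lit 289) (b (n (nat_lit 264) (b (l (nat_lit 1) (nat_lit 261) (nat_lit 265)) (l (nat_lit 1) (nat_lit 260) (nat_lit 263)))) (l (nat_lit 2) (nat_lit 286) (nat_lit 290)))) (n (nat_lit 309) (b (n (nat_lit 284) (b (l (nat_lit 2) (nat_lit 283) (nat_lit 308)) (l (nat_lit 0) (nat_lit 283) (nat_lit 283)))) (l (nat_lit 2) (nat_lit 284) (nat_lit 310)))))) (l (nat_lit 7) (nat_lit 260) (nat_lit 260)))) (l (nat_lit 5) (nat_lit 261) (nat_lit 262)))) (n (nat_lit 261) (b (n (nat_lit 337) (b (l (nat_lit 4) (nat_lit 236) (nat_lit 236)) (l (nat_lit 4) (nat_lit 261) (nat_lit 362)))) (n (nat_lit 262) (b (l (nat_lit 5) (nat_lit 236) (nat_lit 237)) (l (nat_lit 5) (nat_lit 261) (nat_lit 287))))))) (n (nat_lit 261) (b (n (nat_lit 337) (b (l (nat_lit 4) (nat_lit 236) (nat_lit 236)) (l (nat_lit 4) (nat_lit 261) (nat_lit 362)))) (n (nat_lit 260) (b (l (nat_lit 7) (nat_lit 235) (nat_lit 235))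 (l (nat_lit 7) (nat_lit 260) (nat_lit 285))))))))
    envOK_nil (by decide +kernel)

theorem p1948 : Fam (nat_lit 7) (nat_lit 4697085305531725357440762952501330623609442067638904818801988557826060768913129669006162829015103526332792832) (nat_lit 78804019438416916722143508959344992876823903876573111938709752087628543442528287597111607165406449361580659696467968) (nat_lit 78804019438416916722143508959344992876823903876573111938709752087628543442528287597111607165406449361580659696467968) :=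
  chk_sound Env.nil
    (n (nat_lit 286) (b (b (n (nat_lit 261) (b (n (nat_lit 260) (b (l (nat_lit 7) (nat_lit 235) (nat_lit 235)) (l (nat_lit 7) (nat_lit 260) (nat_lit 285)))) (n (nat_lit 360) (b (l (nat_lit 6) (nat_lit 285) (nat_lit 385)) (l (nat_lit 6) (nat_lit 260) (nat_lit 335)))))) (n (nat_lit 261) (b (n (nat_lit 262) (b (l (nat_lit 5) (nat_lit 236) (nat_lit 237)) (l (nat_lit 5) (nat_lit 261) (nat_lit 287)))) (n (nat_lit 360) (b (l (nat_lit 6) (nat_lit 285) (nat_lit 385)) (l (nat_lit 6) (nat_lit 260) (nat_lit 335))))))) (n (nat_lit 287) (b (n (nat_lit 285) (b (n (nat_lit 288) (b (n (nat_lit 289) (b (n (nat_lit 264) (b (l (nat_lit 1) (nat_lit 261) (nat_lit 265)) (l (nat_lit 1) (nat_lit 260) (nat_lit 263)))) (l (nat_lit 2) (nat_lit 286) (nat_lit 290)))) (n (nat_lit 309) (b (n (nat_lit 284) (b (l (nat_lit 2) (nat_lit 283) (nat_lit 308)) (l (nat_lit 0) (nat_lit 283) (nat_lit 283)))) (l (nat_lit 2) (nat_lit 284) (nat_lit 310)))))) (l (nat_lit 7) (nat_lit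 260) (nat_lit 260)))) (l (nat_lit 5) (nat_lit 261) (nat_lit 262))))))
    envOK_nil (by decide +kernel)

theorem p1994 : Fam (nat_lit 13) (nat_lit 12515549038599082514033330309587219421500221810683512323908446920833318705745940722790793478144) (nat_lit 465808592566409956526685409719495571279857475366292432903804760974645808905969415671021134152091835630412147365319867987205229117440) (nat_lit 465808592566409956526685409719495571279857475366292432903804760974645808905969415671021134152091835630412147365319867987205229117440) :=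
  chk_sound (Env.cons (nat_lit 6) (nat_lit 419952151673887328078602941639913611735027952231718598477260280339157896679598883004855252779219812352) (nat_lit 21153791631720195221332385675001711507725150108094003250343307557053002292100498963033008985251428199071635055823082682843136) (Env.cons (nat_lit 12) (nat_lit 139984058901661801758922656568858076969822265077387406614761642718683912782078764832245566120268922880) (nat_lit 22181399199493793825629256378852538178375599519767465211412285279174014844958609653258713638779936551559721912925619189158357499904) (Env.cons (nat_lit 7) (nat_lit 4697085305531725357440762952501330623609442067638904818801988557826060768913129669006162829015103526332792832) (nat_lit 14091255916595154691596644295394889310864768880780687163748360005166571564312814071741548427574138894605615104) (Env.cons (nat_lit 7) (nat_lit 4697085305531725357440762952501330623609442067638904818801988557826060768913129669006162829015103526332792832)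 (nat_lit 78804019438416916722143508959344992876823903876573111938709752087628543442528287597111607165406449361580659696467968) Env.nil))))
    (n (nat_lit 336) (b (b (b (b (n (nat_lit 337) (b (b (b (n (nat_lit 338) (b (b (n (nat_lit 335) (b (b (n (nat_lit 334) (b (n (nat_lit 359) (b (l (nat_lit 2) (nat_lit 333) (nat_lit 358)) (l (nat_lit 2) (nat_lit 334) (nat_lit 360)))) (l (nat_lit 1) (nat_lit 308) (nat_lit 333)))) (n (nat_lit 309) (b (n (nat_lit 334) (b (l (nat_lit 3) (nat_lit 308) (nat_lit 308)) (l (nat_lit 1) (nat_lit 308) (nat_lit 333)))) (l (nat_lit 3) (nat_lit 309) (nat_lit 310))))) (n (nat_lit 310) (b (n (nat_lit 386) (b (n (nat_lit 360) (b (n (nat_lit 385) (b (l (nat_lit 5) (nat_lit 310) (nat_lit 410)) (l (nat_lit 4) (nat_lit 310) (nat_lit 411)))) (l (nat_lit 2) (nat_lit 334) (nat_lit 359)))) (n (nat_lit 361) (b (l (nat_lit 7) (nat_lit 285) (nat_lit 285)) (l (nat_lit 5) (nat_lit 286) (nat_lit 287)))))) (l (nat_lit 3) (nat_lit 309) (nat_lit 309))))))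 (n (nat_lit 339) (b (l (nat_lit 3) (nat_lit 311) (nat_lit 340)) (l (nat_lit 3) (nat_lit 310) (nat_lit 310))))) (n (nat_lit 361) (b (n (nat_lit 386) (b (l (nat_lit 5) (nat_lit 286) (nat_lit 287)) (l (nat_lit 5) (nat_lit 311) (nat_lit 411)))) (n (nat_lit 339) (b (l (nat_lit 2) (nat_lit 335) (nat_lit 360)) (l (nat_lit 3) (nat_lit 311) (nat_lit 340)))))))) (n (nat_lit 287) (b (b (n (nat_lit 362) (b (n (nat_lit 387) (b (n (nat_lit 388) (b (l (nat_lit 4) (nat_lit 312) (nat_lit 413)) (l (nat_lit 4) (nat_lit 287) (nat_lit 363)))) (l (nat_lit 7) (nat_lit 311) (nat_lit 412)))) (n (nat_lit 262) (b (n (nat_lit 263) (b (l (nat_lit 5) (nat_lit 237) (nat_lit 238)) (l (nat_lit 5) (nat_lit 262) (nat_lit 288)))) (l (nat_lit 6) (nat_lit 236) (nat_lit 237)))))) (n (nat_lit 361) (b (l (nat_lit 5) (nat_lit 286) (nat_lit 386)) (l (nat_lit 6) (nat_lit 261) (nat_lit 262))))) (n (nat_lit 362) (b (b (n (nat_lit 387) (b (n (nat_lit 388) (b (l (nat_lit 4) (nat_lit 312) (nat_lit 413))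 (l (nat_lit 4) (nat_lit 287) (nat_lit 363)))) (l (nat_lit 7) (nat_lit 311) (nat_lit 412)))) (n (nat_lit 386) (b (n (nat_lit 387) (b (l (nat_lit 6) (nat_lit 311) (nat_lit 411)) (l (nat_lit 7) (nat_lit 311) (nat_lit 412)))) (l (nat_lit 6) (nat_lit 286) (nat_lit 361))))) (n (nat_lit 363) (b (n (nat_lit 361) (b (n (nat_lit 335) (b (l (nat_lit 3) (nat_lit 335) (nat_lit 364)) (l (nat_lit 0) (nat_lit 334) (nat_lit 334)))) (l (nat_lit 6) (nat_lit 286) (nat_lit 386)))) (l (nat_lit 4) (nat_lit 287) (nat_lit 388))))))))) (b (n (nat_lit 287) (b (b (n (nat_lit 338) (b (n (nat_lit 310) (b (l (nat_lit 0) (nat_lit 309) (nat_lit 309)) (l (nat_lit 3) (nat_lit 310) (nat_lit 339)))) (n (nat_lit 262) (b (l (nat_lit 4) (nat_lit 262) (nat_lit 363)) (l (nat_lit 6) (nat_lit 236) (nat_lit 237)))))) (n (nat_lit 361) (b (l (nat_lit 5) (nat_lit 286) (nat_lit 386)) (l (nat_lit 6) (nat_lit 261) (nat_lit 262))))) (n (nat_lit 362) (b (b (n (nat_lit 387) (b (n (nat_lit 388) (b (l (nat_lit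 4) (nat_lit 312) (nat_lit 413)) (l (nat_lit 4) (nat_lit 287) (nat_lit 363)))) (l (nat_lit 7) (nat_lit 311) (nat_lit 412)))) (n (nat_lit 386) (b (n (nat_lit 387) (b (l (nat_lit 6) (nat_lit 311) (nat_lit 411)) (l (nat_lit 7) (nat_lit 311) (nat_lit 412)))) (l (nat_lit 6) (nat_lit 286) (nat_lit 361))))) (n (nat_lit 361) (b (n (nat_lit 339) (b (n (nat_lit 363) (b (n (nat_lit 364) (b (l (nat_lit 3) (nat_lit 336) (nat_lit 365)) (l (nat_lit 1) (nat_lit 336) (nat_lit 340)))) (l (nat_lit 4) (nat_lit 287) (nat_lit 388)))) (n (nat_lit 338) (b (l (nat_lit 3) (nat_lit 310) (nat_lit 310)) (l (nat_lit 2) (nat_lit 335) (nat_lit 360)))))) (l (nat_lit 6) (nat_lit 286) (nat_lit 386)))))))) (r (nat_lit 0)))) (n (nat_lit 338) (b (b (n (nat_lit 335) (b (n (nat_lit 334) (b (n (nat_lit 359) (b (l (nat_lit 2) (nat_lit 333) (nat_lit 358)) (l (nat_lit 2) (nat_lit 334) (nat_lit 360)))) (l (nat_lit 1) (nat_lit 308) (nat_lit 333)))) (n (nat_lit 339) (b (n (nat_lit 364) (b (l (nat_lit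 0) (nat_lit 336) (nat_lit 365)) (l (nat_lit 0) (nat_lit 335) (nat_lit 363)))) (l (nat_lit 3) (nat_lit 311) (nat_lit 340)))))) (n (nat_lit 310) (b (l (nat_lit 0) (nat_lit 309) (nat_lit 309)) (l (nat_lit 3) (nat_lit 310) (nat_lit 339))))) (n (nat_lit 335) (b (b (n (nat_lit 334) (b (n (nat_lit 359) (b (l (nat_lit 2) (nat_lit 333) (nat_lit 358)) (l (nat_lit 2) (nat_lit 334) (nat_lit 360)))) (l (nat_lit 1) (nat_lit 308) (nat_lit 333)))) (n (nat_lit 309) (b (n (nat_lit 334) (b (l (nat_lit 3) (nat_lit 308) (nat_lit 308)) (l (nat_lit 1) (nat_lit 308) (nat_lit 333)))) (l (nat_lit 3) (nat_lit 309) (nat_lit 310))))) (n (nat_lit 310) (b (n (nat_lit 360) (b (n (nat_lit 285) (b (n (nat_lit 260) (b (n (nat_lit 259) (b (l (nat_lit 7) (nat_lit 259) (nat_lit 284)) (l (nat_lit 7) (nat_lit 234) (nat_lit 234)))) (l (nat_lit 4) (nat_lit 235) (nat_lit 235)))) (n (nat_lit 386) (b (n (nat_lit 385) (b (l (nat_lit 5) (nat_lit 310) (nat_lit 410)) (l (nat_lit 4) (nat_lit 310) (nat_lit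 411)))) (l (nat_lit 7) (nat_lit 285) (nat_lit 361)))))) (l (nat_lit 2) (nat_lit 334) (nat_lit 359)))) (l (nat_lit 3) (nat_lit 309) (nat_lit 309)))))))))) (r (nat_lit 1))) (b (n (nat_lit 286) (b (b (n (nat_lit 337) (b (b (n (nat_lit 338) (b (n (nat_lit 339) (b (l (nat_lit 3) (nat_lit 311) (nat_lit 340)) (l (nat_lit 3) (nat_lit 310) (nat_lit 310)))) (n (nat_lit 362) (b (n (nat_lit 363) (b (n (nat_lit 388) (b (l (nat_lit 7) (nat_lit 312) (nat_lit 413)) (l (nat_lit 4) (nat_lit 287) (nat_lit 287)))) (n (nat_lit 335) (b (l (nat_lit 0) (nat_lit 335) (nat_lit 364)) (l (nat_lit 0) (nat_lit 334) (nat_lit 334)))))) (l (nat_lit 7) (nat_lit 286) (nat_lit 387)))))) (n (nat_lit 261) (b (l (nat_lit 4) (nat_lit 261) (nat_lit 362)) (l (nat_lit 4) (nat_lit 236) (nat_lit 236))))) (n (nat_lit 261) (b (n (nat_lit 335) (b (n (nat_lit 338) (b (n (nat_lit 339) (b (n (nat_lit 364) (b (l (nat_lit 0) (nat_lit 336) (nat_lit 365)) (l (nat_lit 0) (nat_lit 335) (nat_lit 363)))) (l (nat_lit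 3) (nat_lit 311) (nat_lit 340)))) (n (nat_lit 309) (b (n (nat_lit 334) (b (l (nat_lit 3) (nat_lit 308) (nat_lit 308)) (l (nat_lit 1) (nat_lit 308) (nat_lit 333)))) (l (nat_lit 3) (nat_lit 309) (nat_lit 310)))))) (l (nat_lit 6) (nat_lit 260) (nat_lit 360)))) (l (nat_lit 4) (nat_lit 236) (nat_lit 236)))))) (n (nat_lit 261) (b (b (n (nat_lit 361) (b (n (nat_lit 260) (b (l (nat_lit 7) (nat_lit 235) (nat_lit 235)) (l (nat_lit 7) (nat_lit 260) (nat_lit 285)))) (n (nat_lit 360) (b (l (nat_lit 6) (nat_lit 285) (nat_lit 385)) (l (nat_lit 6) (nat_lit 260) (nat_lit 335)))))) (n (nat_lit 236) (b (n (nat_lit 235) (b (l (nat_lit 7) (nat_lit 235) (nat_lit 260)) (l (nat_lit 7) (nat_lit 210) (nat_lit 210)))) (l (nat_lit 4) (nat_lit 236) (nat_lit 337))))) (n (nat_lit 236) (b (n (nat_lit 335) (b (l (nat_lit 6) (nat_lit 260) (nat_lit 360)) (l (nat_lit 6) (nat_lit 235) (nat_lit 310)))) (l (nat_lit 4) (nat_lit 236) (nat_lit 337))))))) (b (n (nat_lit 261) (b (b (n (nat_lit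 361) (b (n (nat_lit 262) (b (l (nat_lit 5) (nat_lit 236) (nat_lit 237)) (l (nat_lit 5) (nat_lit 261) (nat_lit 287)))) (n (nat_lit 360) (b (l (nat_lit 6) (nat_lit 285) (nat_lit 385)) (l (nat_lit 6) (nat_lit 260) (nat_lit 335)))))) (n (nat_lit 236) (b (n (nat_lit 235) (b (l (nat_lit 7) (nat_lit 235) (nat_lit 260)) (l (nat_lit 7) (nat_lit 210) (nat_lit 210)))) (n (nat_lit 237) (b (l (nat_lit 5) (nat_lit 211) (nat_lit 212)) (l (nat_lit 5) (nat_lit 236) (nat_lit 262))))))) (n (nat_lit 361) (b (n (nat_lit 260) (b (l (nat_lit 7) (nat_lit 235) (nat_lit 235)) (l (nat_lit 7) (nat_lit 260) (nat_lit 285)))) (n (nat_lit 360) (b (l (nat_lit 6) (nat_lit 285) (nat_lit 385)) (l (nat_lit 6) (nat_lit 260) (nat_lit 335)))))))) (n (nat_lit 287) (b (b (n (nat_lit 337) (b (b (n (nat_lit 263) (b (n (nat_lit 362) (b (l (nat_lit 7) (nat_lit 286) (nat_lit 387)) (l (nat_lit 5) (nat_lit 262) (nat_lit 288)))) (n (nat_lit 262) (b (l (nat_lit 5) (nat_lit 237) (nat_lit 238)) (l (nat_lit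 6) (nat_lit 236) (nat_lit 237)))))) (n (nat_lit 288) (b (n (nat_lit 310) (b (l (nat_lit 1) (nat_lit 284) (nat_lit 309)) (l (nat_lit 2) (nat_lit 285) (nat_lit 289)))) (n (nat_lit 362) (b (l (nat_lit 5) (nat_lit 262) (nat_lit 263)) (l (nat_lit 7) (nat_lit 286) (nat_lit 387))))))) (n (nat_lit 338) (b (n (nat_lit 310) (b (l (nat_lit 0) (nat_lit 309) (nat_lit 309)) (l (nat_lit 3) (nat_lit 310) (nat_lit 339)))) (n (nat_lit 262) (b (l (nat_lit 4) (nat_lit 262) (nat_lit 363)) (l (nat_lit 6) (nat_lit 236) (nat_lit 237)))))))) (n (nat_lit 262) (b (l (nat_lit 5) (nat_lit 261) (nat_lit 361)) (l (nat_lit 6) (nat_lit 236) (nat_lit 237))))) (n (nat_lit 288) (b (b (n (nat_lit 289) (b (l (nat_lit 2) (nat_lit 286) (nat_lit 290)) (l (nat_lit 2) (nat_lit 285) (nat_lit 310)))) (n (nat_lit 309) (b (n (nat_lit 285) (b (n (nat_lit 284) (b (l (nat_lit 2) (nat_lit 283) (nat_lit 308)) (l (nat_lit 0) (nat_lit 283) (nat_lit 283)))) (n (nat_lit 260) (b (l (nat_lit 7) (nat_lit 260)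 (nat_lit 361)) (l (nat_lit 3) (nat_lit 259) (nat_lit 259)))))) (l (nat_lit 1) (nat_lit 284) (nat_lit 310))))) (n (nat_lit 285) (b (n (nat_lit 289) (b (n (nat_lit 264) (b (l (nat_lit 1) (nat_lit 261) (nat_lit 265)) (l (nat_lit 1) (nat_lit 260) (nat_lit 263)))) (l (nat_lit 2) (nat_lit 286) (nat_lit 290)))) (n (nat_lit 260) (b (l (nat_lit 7) (nat_lit 260) (nat_lit 361)) (l (nat_lit 3) (nat_lit 259) (nat_lit 259))))))))))))) (n (nat_lit 361) (b (b (r (nat_lit 2)) (n (nat_lit 386) (b (b (n (nat_lit 286) (b (n (nat_lit 385) (b (l (nat_lit 6) (nat_lit 285) (nat_lit 360)) (l (nat_lit 6) (nat_lit 310) (nat_lit 410)))) (n (nat_lit 387) (b (l (nat_lit 4) (nat_lit 311) (nat_lit 412)) (l (nat_lit 4) (nat_lit 286) (nat_lit 362)))))) (n (nat_lit 411) (b (n (nat_lit 412) (b (l (nat_lit 4) (nat_lit 336) (nat_lit 437)) (l (nat_lit 4) (nat_lit 311) (nat_lit 387)))) (l (nat_lit 5) (nat_lit 311) (nat_lit 337))))) (n (nat_lit 411) (b (n (nat_lit 410) (b (l (nat_lit 6) (nat_lit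 335) (nat_lit 435)) (l (nat_lit 6) (nat_lit 310) (nat_lit 385)))) (l (nat_lit 5) (nat_lit 311) (nat_lit 337))))))) (n (nat_lit 386) (b (n (nat_lit 411) (b (n (nat_lit 412) (b (l (nat_lit 4) (nat_lit 336) (nat_lit 437)) (l (nat_lit 4) (nat_lit 311) (nat_lit 387)))) (n (nat_lit 410) (b (l (nat_lit 6) (nat_lit 335) (nat_lit 435)) (l (nat_lit 6) (nat_lit 310) (nat_lit 385)))))) (l (nat_lit 5) (nat_lit 286) (nat_lit 287)))))))) (b (b (n (nat_lit 361) (b (b (n (nat_lit 386) (b (b (n (nat_lit 286) (b (n (nat_lit 385) (b (l (nat_lit 6) (nat_lit 285) (nat_lit 360)) (l (nat_lit 6) (nat_lit 310) (nat_lit 410)))) (n (nat_lit 387) (b (l (nat_lit 4) (nat_lit 311) (nat_lit 412)) (l (nat_lit 4) (nat_lit 286) (nat_lit 362)))))) (n (nat_lit 411) (b (n (nat_lit 412) (b (l (nat_lit 4) (nat_lit 336) (nat_lit 437)) (l (nat_lit 4) (nat_lit 311) (nat_lit 387)))) (l (nat_lit 5) (nat_lit 311) (nat_lit 337))))) (n (nat_lit 411) (b (n (nat_lit 410) (b (l (nat_lit 6) (nat_lit 335)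 (nat_lit 435)) (l (nat_lit 6) (nat_lit 310) (nat_lit 385)))) (l (nat_lit 5) (nat_lit 311) (nat_lit 337)))))) (n (nat_lit 386) (b (n (nat_lit 411) (b (n (nat_lit 412) (b (l (nat_lit 4) (nat_lit 336) (nat_lit 437)) (l (nat_lit 4) (nat_lit 311) (nat_lit 387)))) (n (nat_lit 410) (b (l (nat_lit 6) (nat_lit 335) (nat_lit 435)) (l (nat_lit 6) (nat_lit 310) (nat_lit 385)))))) (l (nat_lit 5) (nat_lit 286) (nat_lit 287))))) (b (n (nat_lit 287) (b (n (nat_lit 262) (b (l (nat_lit 6) (nat_lit 236) (nat_lit 237)) (l (nat_lit 6) (nat_lit 261) (nat_lit 337)))) (l (nat_lit 5) (nat_lit 286) (nat_lit 386)))) (n (nat_lit 286) (b (b (n (nat_lit 287) (b (n (nat_lit 362) (b (n (nat_lit 363) (b (b (n (nat_lit 335) (b (n (nat_lit 337) (b (l (nat_lit 0) (nat_lit 334) (nat_lit 334)) (l (nat_lit 4) (nat_lit 287) (nat_lit 388)))) (l (nat_lit 3) (nat_lit 335) (nat_lit 364)))) (n (nat_lit 360) (b (n (nat_lit 388) (b (l (nat_lit 0) (nat_lit 360) (nat_lit 389)) (l (nat_lit 4) (nat_lit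 287) (nat_lit 337)))) (l (nat_lit 6) (nat_lit 285) (nat_lit 385))))) (n (nat_lit 335) (b (n (nat_lit 360) (b (l (nat_lit 6) (nat_lit 285) (nat_lit 385)) (l (nat_lit 3) (nat_lit 334) (nat_lit 334)))) (l (nat_lit 3) (nat_lit 335) (nat_lit 364)))))) (l (nat_lit 4) (nat_lit 286) (nat_lit 387)))) (l (nat_lit 5) (nat_lit 261) (nat_lit 262)))) (n (nat_lit 261) (b (n (nat_lit 337) (b (l (nat_lit 4) (nat_lit 236) (nat_lit 236)) (l (nat_lit 4) (nat_lit 261) (nat_lit 362)))) (n (nat_lit 360) (b (l (nat_lit 6) (nat_lit 285) (nat_lit 385)) (l (nat_lit 6) (nat_lit 260) (nat_lit 335))))))) (b (n (nat_lit 261) (b (n (nat_lit 337) (b (l (nat_lit 4) (nat_lit 236) (nat_lit 236)) (l (nat_lit 4) (nat_lit 261) (nat_lit 362)))) (n (nat_lit 262) (b (l (nat_lit 5) (nat_lit 236) (nat_lit 237)) (l (nat_lit 5) (nat_lit 261) (nat_lit 287)))))) (n (nat_lit 261) (b (n (nat_lit 262) (b (l (nat_lit 5) (nat_lit 236) (nat_lit 237)) (l (nat_lit 5) (nat_lit 261) (nat_lit 287)))) (n (nat_lit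 360) (b (l (nat_lit 6) (nat_lit 285) (nat_lit 385)) (l (nat_lit 6) (nat_lit 260) (nat_lit 335)))))))))))) (n (nat_lit 361) (b (b (r (nat_lit 3)) (n (nat_lit 286) (b (b (n (nat_lit 386) (b (n (nat_lit 385) (b (l (nat_lit 6) (nat_lit 285) (nat_lit 360)) (l (nat_lit 6) (nat_lit 310) (nat_lit 410)))) (n (nat_lit 387) (b (l (nat_lit 4) (nat_lit 311) (nat_lit 412)) (l (nat_lit 4) (nat_lit 286) (nat_lit 362)))))) (n (nat_lit 261) (b (n (nat_lit 260) (b (l (nat_lit 7) (nat_lit 235) (nat_lit 235)) (l (nat_lit 7) (nat_lit 260) (nat_lit 285)))) (n (nat_lit 360) (b (l (nat_lit 6) (nat_lit 285) (nat_lit 385)) (l (nat_lit 6) (nat_lit 260) (nat_lit 335))))))) (n (nat_lit 386) (b (n (nat_lit 387) (b (l (nat_lit 4) (nat_lit 311) (nat_lit 412)) (l (nat_lit 4) (nat_lit 286) (nat_lit 362)))) (n (nat_lit 285) (b (l (nat_lit 7) (nat_lit 285) (nat_lit 310)) (l (nat_lit 7) (nat_lit 260) (nat_lit 260))))))))) (b (n (nat_lit 386) (b (n (nat_lit 411) (b (n (nat_lit 412) (b (l (nat_lit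 4) (nat_lit 336) (nat_lit 437)) (l (nat_lit 4) (nat_lit 311) (nat_lit 387)))) (n (nat_lit 410) (b (l (nat_lit 6) (nat_lit 335) (nat_lit 435)) (l (nat_lit 6) (nat_lit 310) (nat_lit 385)))))) (l (nat_lit 5) (nat_lit 286) (nat_lit 287)))) (n (nat_lit 287) (b (n (nat_lit 262) (b (l (nat_lit 5) (nat_lit 261) (nat_lit 286)) (l (nat_lit 6) (nat_lit 236) (nat_lit 237)))) (l (nat_lit 5) (nat_lit 286) (nat_lit 386)))))))) (b (n (nat_lit 361) (b (b (n (nat_lit 386) (b (b (n (nat_lit 286) (b (n (nat_lit 387) (b (l (nat_lit 4) (nat_lit 311) (nat_lit 412)) (l (nat_lit 4) (nat_lit 286) (nat_lit 362)))) (n (nat_lit 285) (b (l (nat_lit 7) (nat_lit 285) (nat_lit 310)) (l (nat_lit 7) (nat_lit 260) (nat_lit 260)))))) (n (nat_lit 411) (b (n (nat_lit 412) (b (l (nat_lit 4) (nat_lit 336) (nat_lit 437)) (l (nat_lit 4) (nat_lit 311) (nat_lit 387)))) (l (nat_lit 5) (nat_lit 311) (nat_lit 337))))) (n (nat_lit 411) (b (n (nat_lit 310) (b (l (nat_lit 7) (nat_lit 285) (nat_lit 285))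 (l (nat_lit 7) (nat_lit 310) (nat_lit 335)))) (l (nat_lit 5) (nat_lit 311) (nat_lit 337)))))) (n (nat_lit 287) (b (n (nat_lit 262) (b (l (nat_lit 6) (nat_lit 236) (nat_lit 237)) (l (nat_lit 6) (nat_lit 261) (nat_lit 337)))) (l (nat_lit 5) (nat_lit 286) (nat_lit 386))))) (b (n (nat_lit 287) (b (n (nat_lit 262) (b (l (nat_lit 5) (nat_lit 261) (nat_lit 286)) (l (nat_lit 6) (nat_lit 236) (nat_lit 237)))) (l (nat_lit 5) (nat_lit 286) (nat_lit 386)))) (r (nat_lit 2))))) (n (nat_lit 361) (b (b (n (nat_lit 386) (b (b (n (nat_lit 286) (b (n (nat_lit 385) (b (l (nat_lit 6) (nat_lit 285) (nat_lit 360)) (l (nat_lit 6) (nat_lit 310) (nat_lit 410)))) (n (nat_lit 285) (b (l (nat_lit 7) (nat_lit 285) (nat_lit 310)) (l (nat_lit 7) (nat_lit 260) (nat_lit 260)))))) (n (nat_lit 411) (b (n (nat_lit 410) (b (l (nat_lit 6) (nat_lit 335) (nat_lit 435)) (l (nat_lit 6) (nat_lit 310) (nat_lit 385)))) (l (nat_lit 5) (nat_lit 311) (nat_lit 337))))) (n (nat_lit 411) (b (n (nat_lit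 310) (b (l (nat_lit 7) (nat_lit 285) (nat_lit 285)) (l (nat_lit 7) (nat_lit 310) (nat_lit 335)))) (l (nat_lit 5) (nat_lit 311) (nat_lit 337)))))) (n (nat_lit 287) (b (n (nat_lit 262) (b (l (nat_lit 6) (nat_lit 236) (nat_lit 237)) (l (nat_lit 6) (nat_lit 261) (nat_lit 337)))) (l (nat_lit 5) (nat_lit 286) (nat_lit 386))))) (r (nat_lit 3))))))) (n (nat_lit 361) (b (b (b (n (nat_lit 286) (b (b (n (nat_lit 261) (b (n (nat_lit 260) (b (l (nat_lit 7) (nat_lit 235) (nat_lit 235)) (l (nat_lit 7) (nat_lit 260) (nat_lit 285)))) (n (nat_lit 360) (b (l (nat_lit 6) (nat_lit 285) (nat_lit 385)) (l (nat_lit 6) (nat_lit 260) (nat_lit 335)))))) (n (nat_lit 261) (b (n (nat_lit 337) (b (l (nat_lit 4) (nat_lit 236) (nat_lit 236)) (l (nat_lit 4) (nat_lit 261) (nat_lit 362)))) (n (nat_lit 260) (b (l (nat_lit 7) (nat_lit 235) (nat_lit 235)) (l (nat_lit 7) (nat_lit 260) (nat_lit 285))))))) (n (nat_lit 360) (b (n (nat_lit 362) (b (n (nat_lit 363) (b (b (n (nat_lit 364) (b (n (nat_lit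 389) (b (l (nat_lit 0) (nat_lit 360) (nat_lit 388)) (l (nat_lit 0) (nat_lit 361) (nat_lit 390)))) (n (nat_lit 339) (b (l (nat_lit 1) (nat_lit 336) (nat_lit 340)) (l (nat_lit 1) (nat_lit 335) (nat_lit 338)))))) (n (nat_lit 335) (b (l (nat_lit 3) (nat_lit 334) (nat_lit 334)) (l (nat_lit 3) (nat_lit 335) (nat_lit 364))))) (n (nat_lit 359) (b (n (nat_lit 334) (b (l (nat_lit 3) (nat_lit 333) (nat_lit 333)) (l (nat_lit 3) (nat_lit 334) (nat_lit 335)))) (n (nat_lit 337) (b (l (nat_lit 1) (nat_lit 334) (nat_lit 338)) (l (nat_lit 1) (nat_lit 333) (nat_lit 358)))))))) (l (nat_lit 4) (nat_lit 286) (nat_lit 387)))) (l (nat_lit 6) (nat_lit 285) (nat_lit 385)))))) (n (nat_lit 386) (b (b (n (nat_lit 286) (b (n (nat_lit 387) (b (l (nat_lit 4) (nat_lit 311) (nat_lit 412)) (l (nat_lit 4) (nat_lit 286) (nat_lit 362)))) (n (nat_lit 285) (b (l (nat_lit 7) (nat_lit 285) (nat_lit 310)) (l (nat_lit 7) (nat_lit 260) (nat_lit 260)))))) (n (nat_lit 411) (b (n (nat_lit 412) (b (l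 (nat_lit 4) (nat_lit 336) (nat_lit 437)) (l (nat_lit 4) (nat_lit 311) (nat_lit 387)))) (l (nat_lit 5) (nat_lit 311) (nat_lit 337))))) (n (nat_lit 411) (b (n (nat_lit 310) (b (l (nat_lit 7) (nat_lit 285) (nat_lit 285)) (l (nat_lit 7) (nat_lit 310) (nat_lit 335)))) (l (nat_lit 5) (nat_lit 311) (nat_lit 337))))))) (b (n (nat_lit 286) (b (b (n (nat_lit 386) (b (n (nat_lit 385) (b (l (nat_lit 6) (nat_lit 285) (nat_lit 360)) (l (nat_lit 6) (nat_lit 310) (nat_lit 410)))) (n (nat_lit 387) (b (l (nat_lit 4) (nat_lit 311) (nat_lit 412)) (l (nat_lit 4) (nat_lit 286) (nat_lit 362)))))) (n (nat_lit 261) (b (n (nat_lit 260) (b (l (nat_lit 7) (nat_lit 235) (nat_lit 235)) (l (nat_lit 7) (nat_lit 260) (nat_lit 285)))) (n (nat_lit 360) (b (l (nat_lit 6) (nat_lit 285) (nat_lit 385)) (l (nat_lit 6) (nat_lit 260) (nat_lit 335))))))) (n (nat_lit 386) (b (n (nat_lit 387) (b (l (nat_lit 4) (nat_lit 311) (nat_lit 412)) (l (nat_lit 4) (nat_lit 286) (nat_lit 362)))) (n (nat_lit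 285) (b (l (nat_lit 7) (nat_lit 285) (nat_lit 310)) (l (nat_lit 7) (nat_lit 260) (nat_lit 260)))))))) (n (nat_lit 386) (b (b (n (nat_lit 286) (b (n (nat_lit 385) (b (l (nat_lit 6) (nat_lit 285) (nat_lit 360)) (l (nat_lit 6) (nat_lit 310) (nat_lit 410)))) (n (nat_lit 285) (b (l (nat_lit 7) (nat_lit 285) (nat_lit 310)) (l (nat_lit 7) (nat_lit 260) (nat_lit 260)))))) (n (nat_lit 411) (b (n (nat_lit 410) (b (l (nat_lit 6) (nat_lit 335) (nat_lit 435)) (l (nat_lit 6) (nat_lit 310) (nat_lit 385)))) (l (nat_lit 5) (nat_lit 311) (nat_lit 337))))) (n (nat_lit 411) (b (n (nat_lit 310) (b (l (nat_lit 7) (nat_lit 285) (nat_lit 285)) (l (nat_lit 7) (nat_lit 310) (nat_lit 335)))) (l (nat_lit 5) (nat_lit 311) (nat_lit 337)))))))) (n (nat_lit 386) (b (b (n (nat_lit 411) (b (n (nat_lit 412) (b (l (nat_lit 4) (nat_lit 336) (nat_lit 437)) (l (nat_lit 4) (nat_lit 311) (nat_lit 387)))) (l (nat_lit 5) (nat_lit 311) (nat_lit 337)))) (n (nat_lit 411) (b (n (nat_lit 412) (b (l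 (nat_lit 4) (nat_lit 336) (nat_lit 437)) (l (nat_lit 4) (nat_lit 311) (nat_lit 387)))) (n (nat_lit 410) (b (l (nat_lit 6) (nat_lit 335) (nat_lit 435)) (l (nat_lit 6) (nat_lit 310) (nat_lit 385))))))) (b (n (nat_lit 411) (b (n (nat_lit 410) (b (l (nat_lit 6) (nat_lit 335) (nat_lit 435)) (l (nat_lit 6) (nat_lit 310) (nat_lit 385)))) (l (nat_lit 5) (nat_lit 311) (nat_lit 337)))) (n (nat_lit 385) (b (n (nat_lit 387) (b (n (nat_lit 388) (b (n (nat_lit 362) (b (n (nat_lit 384) (b (l (nat_lit 1) (nat_lit 358) (nat_lit 383)) (l (nat_lit 1) (nat_lit 359) (nat_lit 363)))) (n (nat_lit 413) (b (l (nat_lit 4) (nat_lit 312) (nat_lit 337)) (l (nat_lit 0) (nat_lit 385) (nat_lit 414)))))) (n (nat_lit 360) (b (l (nat_lit 3) (nat_lit 360) (nat_lit 389)) (l (nat_lit 3) (nat_lit 359) (nat_lit 359)))))) (l (nat_lit 4) (nat_lit 311) (nat_lit 412)))) (l (nat_lit 6) (nat_lit 310) (nat_lit 410)))))))))))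
    (envOK_cons p1815 (envOK_cons p1897 (envOK_cons p1927 (envOK_cons p1948 envOK_nil)))) (by decide +kernel)

end Crest.Agent.R35
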