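import Crest.Agent.R35.C0

/-! Generated strategy certificate for Snaky (part 1). -/

set_option autoImplicit false
set_option maxRecDepth 100000

namespace Crest.Agent.R35

local notation "l" => T.leaf
local notation "n" => T.node
local notation "b" => T.both
local notation "r" => T.ref

theorem p2014 : Fam (nat_lit 6) (nat_lit 45890347842502232321143655148733682050096952472865036984153269408315832478398572127127546626048) (nat_lit 3152160627229947031854375057440376662276108942315415838313225379664695096400732697805774538690009705929612411797504000) (nat_lit 3152160627229947031854375057440376662276108942315415838313225379664695096400732697805774538690009705929612411797504000) :=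
  chk_sound Env.nil
    (n (nat_lit 339) (b (n (nat_lit 364) (b (n (nat_lit 363) (b (l (nat_lit 6) (nat_lit 263) (nat_lit 338)) (l (nat_lit 6) (nat_lit 288) (nat_lit 388)))) (n (nat_lit 365) (b (l (nat_lit 4) (nat_lit 289) (nat_lit 390)) (l (nat_lit 4) (nat_lit 264) (nat_lit 340)))))) (n (nat_lit 239) (b (b (n (nat_lit 214) (b (n (nat_lit 215) (b (l (nat_lit 5) (nat_lit 214) (nat_lit 240)) (l (nat_lit 5) (nat_lit 189) (nat_lit 190)))) (n (nat_lit 213) (b (l (nat_lit 7) (nat_lit 188) (nat_lit 188)) (l (nat_lit 7) (nat_lit 213) (nat_lit 238)))))) (n (nat_lit 240) (b (l (nat_lit 5) (nat_lit 239) (nat_lit 265)) (l (nat_lit 5) (nat_lit 214) (nat_lit 215))))) (n (nat_lit 237) (b (b (n (nat_lit 236) (b (n (nat_lit 261) (b (l (nat_lit 5) (nat_lit 211) (nat_lit 212)) (l (nat_lit 4) (nat_lit 211) (nat_lit 211)))) (n (nat_lit 238) (b (l (nat_lit 0) (nat_lit 236) (nat_lit 265)) (l (nat_lit 7) (nat_lit 213) (nat_lit 213)))))) (n (nat_lit 262) (b (l (nat_lit 6)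 (nat_lit 236) (nat_lit 336)) (l (nat_lit 6) (nat_lit 211) (nat_lit 212))))) (n (nat_lit 236) (b (n (nat_lit 238) (b (l (nat_lit 0) (nat_lit 236) (nat_lit 265)) (l (nat_lit 7) (nat_lit 213) (nat_lit 213)))) (n (nat_lit 211) (b (l (nat_lit 7) (nat_lit 211) (nat_lit 262)) (l (nat_lit 4) (nat_lit 211) (nat_lit 261))))))))))))
    envOK_nil (by decide +kernel)

theorem p2223 : Fam (nat_lit 16) (nat_lit 18788340662190678338665256365824517592317386515172090581510213797883094120151868729010967602641631815080607744) (nat_lit 8379880305850006968163198862359387758371193761143363663165917191182859240685393565264396815235593621994200587456990606794583210008539548259016433186373632) (nat_lit 8379880305850006968163198862359387758371193761143363663165917191182859240685393565264396815235593621994200587456990606794583210008539548259016433186373632) :=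
  chk_sound Env.nil
    (n (nat_lit 285) (b (b (n (nat_lit 288) (b (n (nat_lit 289) (b (n (nat_lit 264) (b (l (nat_lit 1) (nat_lit 261) (nat_lit 265)) (l (nat_lit 1) (nat_lit 260) (nat_lit 263)))) (l (nat_lit 2) (nat_lit 286) (nat_lit 290)))) (n (nat_lit 284) (b (n (nat_lit 259) (b (l (nat_lit 3) (nat_lit 258) (nat_lit 258)) (l (nat_lit 3) (nat_lit 259) (nat_lit 260)))) (l (nat_lit 0) (nat_lit 283) (nat_lit 283)))))) (n (nat_lit 313) (b (l (nat_lit 3) (nat_lit 285) (nat_lit 314)) (l (nat_lit 0) (nat_lit 284) (nat_lit 284))))) (n (nat_lit 361) (b (b (n (nat_lit 336) (b (l (nat_lit 7) (nat_lit 260) (nat_lit 260)) (l (nat_lit 5) (nat_lit 286) (nat_lit 386)))) (n (nat_lit 336) (b (l (nat_lit 5) (nat_lit 261) (nat_lit 262)) (l (nat_lit 7) (nat_lit 260) (nat_lit 260))))) (n (nat_lit 314) (b (n (nat_lit 362) (b (b (n (nat_lit 364) (b (b (n (nat_lit 339) (b (n (nat_lit 289) (b (n (nat_lit 288) (b (l (nat_lit 2) (nat_lit 286) (nat_lit 290)) (l (nat_lit 7)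 (nat_lit 263) (nat_lit 263)))) (l (nat_lit 6) (nat_lit 288) (nat_lit 388)))) (l (nat_lit 1) (nat_lit 336) (nat_lit 340)))) (n (nat_lit 365) (b (n (nat_lit 340) (b (l (nat_lit 1) (nat_lit 336) (nat_lit 339)) (l (nat_lit 1) (nat_lit 337) (nat_lit 341)))) (n (nat_lit 390) (b (l (nat_lit 0) (nat_lit 362) (nat_lit 391)) (l (nat_lit 0) (nat_lit 361) (nat_lit 389))))))) (b (n (nat_lit 365) (b (n (nat_lit 366) (b (n (nat_lit 341) (b (l (nat_lit 1) (nat_lit 337) (nat_lit 340)) (l (nat_lit 1) (nat_lit 338) (nat_lit 342)))) (n (nat_lit 387) (b (l (nat_lit 2) (nat_lit 362) (nat_lit 388)) (l (nat_lit 2) (nat_lit 361) (nat_lit 386)))))) (n (nat_lit 390) (b (l (nat_lit 0) (nat_lit 362) (nat_lit 391)) (l (nat_lit 0) (nat_lit 361) (nat_lit 389)))))) (n (nat_lit 389) (b (n (nat_lit 388) (b (n (nat_lit 339) (b (l (nat_lit 6) (nat_lit 313) (nat_lit 413)) (l (nat_lit 6) (nat_lit 288) (nat_lit 289)))) (l (nat_lit 0) (nat_lit 360) (nat_lit 360)))) (l (nat_lit 0) (nat_lit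 361) (nat_lit 390))))))) (n (nat_lit 364) (b (b (n (nat_lit 339) (b (n (nat_lit 289) (b (n (nat_lit 288) (b (l (nat_lit 2) (nat_lit 286) (nat_lit 290)) (l (nat_lit 7) (nat_lit 263) (nat_lit 263)))) (l (nat_lit 6) (nat_lit 288) (nat_lit 388)))) (l (nat_lit 1) (nat_lit 336) (nat_lit 340)))) (n (nat_lit 365) (b (n (nat_lit 340) (b (l (nat_lit 1) (nat_lit 336) (nat_lit 339)) (l (nat_lit 1) (nat_lit 337) (nat_lit 341)))) (n (nat_lit 390) (b (l (nat_lit 0) (nat_lit 362) (nat_lit 391)) (l (nat_lit 0) (nat_lit 361) (nat_lit 389))))))) (n (nat_lit 360) (b (n (nat_lit 359) (b (n (nat_lit 384) (b (l (nat_lit 2) (nat_lit 359) (nat_lit 385)) (l (nat_lit 2) (nat_lit 358) (nat_lit 383)))) (n (nat_lit 334) (b (l (nat_lit 3) (nat_lit 333) (nat_lit 333)) (l (nat_lit 3) (nat_lit 334) (nat_lit 335)))))) (n (nat_lit 389) (b (l (nat_lit 0) (nat_lit 360) (nat_lit 388)) (l (nat_lit 0) (nat_lit 361) (nat_lit 390))))))))) (b (n (nat_lit 364) (b (b (n (nat_lit 289) (b (n (nat_lit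 365) (b (n (nat_lit 390) (b (l (nat_lit 0) (nat_lit 362) (nat_lit 391)) (l (nat_lit 4) (nat_lit 289) (nat_lit 339)))) (n (nat_lit 386) (b (l (nat_lit 2) (nat_lit 361) (nat_lit 387)) (l (nat_lit 2) (nat_lit 360) (nat_lit 385)))))) (n (nat_lit 288) (b (n (nat_lit 264) (b (l (nat_lit 1) (nat_lit 261) (nat_lit 265)) (l (nat_lit 1) (nat_lit 260) (nat_lit 263)))) (l (nat_lit 2) (nat_lit 286) (nat_lit 290)))))) (n (nat_lit 365) (b (n (nat_lit 366) (b (n (nat_lit 391) (b (l (nat_lit 0) (nat_lit 362) (nat_lit 390)) (l (nat_lit 0) (nat_lit 363) (nat_lit 392)))) (n (nat_lit 341) (b (l (nat_lit 1) (nat_lit 337) (nat_lit 340)) (l (nat_lit 1) (nat_lit 338) (nat_lit 342)))))) (n (nat_lit 386) (b (l (nat_lit 2) (nat_lit 361) (nat_lit 387)) (l (nat_lit 2) (nat_lit 360) (nat_lit 385))))))) (n (nat_lit 339) (b (n (nat_lit 289) (b (b (n (nat_lit 288) (b (l (nat_lit 2) (nat_lit 286) (nat_lit 290)) (l (nat_lit 7) (nat_lit 263) (nat_lit 263)))) (n (nat_lit 264) (b (b (n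 (nat_lit 263) (b (l (nat_lit 7) (nat_lit 238) (nat_lit 238)) (l (nat_lit 7) (nat_lit 263) (nat_lit 288)))) (n (nat_lit 265) (b (l (nat_lit 1) (nat_lit 261) (nat_lit 288)) (l (nat_lit 5) (nat_lit 239) (nat_lit 240))))) (n (nat_lit 265) (b (n (nat_lit 263) (b (l (nat_lit 2) (nat_lit 261) (nat_lit 262)) (l (nat_lit 7) (nat_lit 238) (nat_lit 238)))) (l (nat_lit 5) (nat_lit 239) (nat_lit 240))))))) (b (n (nat_lit 265) (b (n (nat_lit 264) (b (n (nat_lit 263) (b (l (nat_lit 2) (nat_lit 261) (nat_lit 262)) (l (nat_lit 7) (nat_lit 238) (nat_lit 238)))) (l (nat_lit 5) (nat_lit 239) (nat_lit 240)))) (l (nat_lit 5) (nat_lit 264) (nat_lit 290)))) (n (nat_lit 290) (b (l (nat_lit 5) (nat_lit 264) (nat_lit 265)) (l (nat_lit 2) (nat_lit 286) (nat_lit 288))))))) (l (nat_lit 1) (nat_lit 336) (nat_lit 340)))))) (n (nat_lit 360) (b (b (n (nat_lit 359) (b (n (nat_lit 388) (b (l (nat_lit 0) (nat_lit 360) (nat_lit 389)) (l (nat_lit 0) (nat_lit 359) (nat_lit 387)))) (n (nat_lit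 334) (b (l (nat_lit 3) (nat_lit 333) (nat_lit 333)) (l (nat_lit 3) (nat_lit 334) (nat_lit 335)))))) (n (nat_lit 359) (b (n (nat_lit 388) (b (l (nat_lit 0) (nat_lit 360) (nat_lit 389)) (l (nat_lit 0) (nat_lit 359) (nat_lit 387)))) (n (nat_lit 384) (b (l (nat_lit 2) (nat_lit 359) (nat_lit 385)) (l (nat_lit 2) (nat_lit 358) (nat_lit 383))))))) (b (n (nat_lit 359) (b (n (nat_lit 384) (b (l (nat_lit 2) (nat_lit 359) (nat_lit 385)) (l (nat_lit 2) (nat_lit 358) (nat_lit 383)))) (n (nat_lit 334) (b (l (nat_lit 3) (nat_lit 333) (nat_lit 333)) (l (nat_lit 3) (nat_lit 334) (nat_lit 335)))))) (n (nat_lit 385) (b (n (nat_lit 335) (b (n (nat_lit 410) (b (b (b (n (nat_lit 388) (b (n (nat_lit 435) (b (b (n (nat_lit 434) (b (l (nat_lit 6) (nat_lit 334) (nat_lit 409)) (l (nat_lit 6) (nat_lit 359) (nat_lit 459)))) (n (nat_lit 460) (b (n (nat_lit 485) (b (n (nat_lit 486) (b (l (nat_lit 4) (nat_lit 385) (nat_lit 461)) (l (nat_lit 4) (nat_lit 410) (nat_lit 511)))) (n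 (nat_lit 484) (b (l (nat_lit 6) (nat_lit 409) (nat_lit 509)) (l (nat_lit 6) (nat_lit 384) (nat_lit 459)))))) (l (nat_lit 5) (nat_lit 360) (nat_lit 386))))) (n (nat_lit 386) (b (n (nat_lit 409) (b (l (nat_lit 6) (nat_lit 334) (nat_lit 434)) (l (nat_lit 2) (nat_lit 384) (nat_lit 387)))) (l (nat_lit 5) (nat_lit 360) (nat_lit 460)))))) (l (nat_lit 0) (nat_lit 360) (nat_lit 389)))) (n (nat_lit 435) (b (n (nat_lit 460) (b (n (nat_lit 459) (b (l (nat_lit 6) (nat_lit 359) (nat_lit 434)) (l (nat_lit 6) (nat_lit 384) (nat_lit 484)))) (l (nat_lit 5) (nat_lit 360) (nat_lit 386)))) (n (nat_lit 436) (b (l (nat_lit 4) (nat_lit 335) (nat_lit 411)) (l (nat_lit 4) (nat_lit 360) (nat_lit 461))))))) (b (n (nat_lit 435) (b (n (nat_lit 434) (b (l (nat_lit 6) (nat_lit 334) (nat_lit 409)) (l (nat_lit 6) (nat_lit 359) (nat_lit 459)))) (n (nat_lit 436) (b (l (nat_lit 4) (nat_lit 335) (nat_lit 411)) (l (nat_lit 4) (nat_lit 360) (nat_lit 461)))))) (n (nat_lit 411) (b (n (nat_lit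 388) (b (n (nat_lit 409) (b (n (nat_lit 387) (b (l (nat_lit 2) (nat_lit 384) (nat_lit 386)) (l (nat_lit 1) (nat_lit 384) (nat_lit 412)))) (l (nat_lit 6) (nat_lit 334) (nat_lit 434)))) (l (nat_lit 0) (nat_lit 360) (nat_lit 389)))) (l (nat_lit 4) (nat_lit 335) (nat_lit 436)))))) (n (nat_lit 388) (b (n (nat_lit 436) (b (n (nat_lit 435) (b (n (nat_lit 438) (b (b (n (nat_lit 437) (b (n (nat_lit 460) (b (l (nat_lit 2) (nat_lit 434) (nat_lit 459)) (l (nat_lit 5) (nat_lit 360) (nat_lit 386)))) (l (nat_lit 3) (nat_lit 409) (nat_lit 409)))) (n (nat_lit 386) (b (n (nat_lit 387) (b (n (nat_lit 413) (b (l (nat_lit 7) (nat_lit 362) (nat_lit 463)) (l (nat_lit 0) (nat_lit 385) (nat_lit 414)))) (l (nat_lit 2) (nat_lit 384) (nat_lit 409)))) (l (nat_lit 5) (nat_lit 360) (nat_lit 460))))) (b (n (nat_lit 437) (b (n (nat_lit 413) (b (l (nat_lit 6) (nat_lit 362) (nat_lit 462)) (l (nat_lit 1) (nat_lit 410) (nat_lit 414)))) (n (nat_lit 460) (b (l (nat_lit 2) (nat_lit 434)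 (nat_lit 459)) (l (nat_lit 5) (nat_lit 360) (nat_lit 386)))))) (n (nat_lit 437) (b (n (nat_lit 413) (b (l (nat_lit 6) (nat_lit 362) (nat_lit 462)) (l (nat_lit 1) (nat_lit 410) (nat_lit 414)))) (l (nat_lit 3) (nat_lit 409) (nat_lit 409))))))) (l (nat_lit 4) (nat_lit 360) (nat_lit 461)))) (l (nat_lit 4) (nat_lit 335) (nat_lit 411)))) (l (nat_lit 0) (nat_lit 360) (nat_lit 389)))))) (l (nat_lit 3) (nat_lit 334) (nat_lit 334)))) (l (nat_lit 2) (nat_lit 359) (nat_lit 384)))))))))) (l (nat_lit 3) (nat_lit 285) (nat_lit 313))))))))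
    envOK_nil (by decide +kernel)

theorem p2248 : Fam (nat_lit 5) (nat_lit 32879596158833665190452728355050718383259555684716478189902073601450926351604518208491785977386761842447089664) (nat_lit 1251013771301755760098403907676604926756848054379482032203622501197872527216753629894363554011745387364367898559643648) (nat_lit 1251013771301755760098403907676604926756848054379482032203622501197872527216753629894363554011745387364367898559643648) :=
  chk_sound Env.nil
    (n (nat_lit 360) (b (b (n (nat_lit 359) (b (n (nat_lit 384) (b (l (nat_lit 2) (nat_lit 359) (nat_lit 385)) (l (nat_lit 2) (nat_lit 358) (nat_lit 383)))) (n (nat_lit 334) (b (l (nat_lit 3) (nat_lit 333) (nat_lit 333)) (l (nat_lit 3) (nat_lit 334) (nat_lit 335)))))) (n (nat_lit 359) (b (n (nat_lit 358) (b (n (nat_lit 383) (b (l (nat_lit 2) (nat_lit 358) (nat_lit 384)) (l (nat_lit 2) (nat_lit 357) (nat_lit 382)))) (n (nat_lit 387) (b (l (nat_lit 0) (nat_lit 358) (nat_lit 386)) (l (nat_lit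 0) (nat_lit 359) (nat_lit 388)))))) (n (nat_lit 334) (b (l (nat_lit 3) (nat_lit 333) (nat_lit 333)) (l (nat_lit 3) (nat_lit 334) (nat_lit 335))))))) (b (n (nat_lit 386) (b (n (nat_lit 364) (b (n (nat_lit 339) (b (l (nat_lit 1) (nat_lit 336) (nat_lit 340)) (l (nat_lit 1) (nat_lit 335) (nat_lit 338)))) (l (nat_lit 2) (nat_lit 360) (nat_lit 385)))) (n (nat_lit 359) (b (n (nat_lit 387) (b (l (nat_lit 0) (nat_lit 359) (nat_lit 388)) (l (nat_lit 0) (nat_lit 358) (nat_lit 358)))) (n (nat_lit 334) (b (l (nat_lit 3) (nat_lit 333) (nat_lit 333)) (l (nat_lit 3) (nat_lit 334) (nat_lit 335)))))))) (n (nat_lit 364) (b (n (nat_lit 339) (b (l (nat_lit 1) (nat_lit 336) (nat_lit 340)) (l (nat_lit 1) (nat_lit 335) (nat_lit 338)))) (n (nat_lit 385) (b (l (nat_lit 2) (nat_lit 360) (nat_lit 386)) (l (nat_lit 2) (nat_lit 359) (nat_lit 384)))))))))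
    envOK_nil (by decide +kernel)

theorem p2296 : Fam (nat_lit 11) (nat_lit 32879596158833665190452728355050718383259555684716478189902073601450926351604518208491785977386761842447089664) (nat_lit 8379880305849971242586222284647195878352713500590057317240209189050036097445289568345028783482197422197613850602527775653154463339041603096030193525981184) (nat_lit 8379880305849971242586222284647195878352713500590057317240209189050036097445289568345028783482197422197613850602527775653154463339041603096030193525981184) :=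
  chk_sound Env.nil
    (n (nat_lit 360) (b (b (n (nat_lit 359) (b (n (nat_lit 384) (b (l (nat_lit 2) (nat_lit 359) (nat_lit 385)) (l (nat_lit 2) (nat_lit 358) (nat_lit 383)))) (n (nat_lit 334) (b (l (nat_lit 3) (nat_lit 333) (nat_lit 333)) (l (nat_lit 3) (nat_lit 334) (nat_lit 335)))))) (n (nat_lit 359) (b (n (nat_lit 388) (b (l (nat_lit 0) (nat_lit 360) (nat_lit 389)) (l (nat_lit 0) (nat_lit 359) (nat_lit 387)))) (n (nat_lit 334) (b (l (nat_lit 3) (nat_lit 333) (nat_lit 333)) (l (nat_lit 3) (nat_lit 334) (nat_lit 335))))))) (b (n (nat_lit 359) (b (n (nat_lit 388) (b (l (nat_lit 0) (nat_lit 360) (nat_lit 389)) (l (nat_lit 0) (nat_lit 359) (nat_lit 387)))) (n (nat_lit 384) (b (l (nat_lit 2) (nat_lit 359) (nat_lit 385)) (l (nat_lit 2) (nat_lit 358) (nat_lit 383)))))) (n (nat_lit 388) (b (n (nat_lit 385) (b (n (nat_lit 335) (b (n (nat_lit 410) (b (b (b (n (nat_lit 436) (b (n (nat_lit 435) (b (n (nat_lit 437) (b (n (nat_lit 338) (b (n (nat_lit 412)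 (b (l (nat_lit 5) (nat_lit 337) (nat_lit 387)) (l (nat_lit 6) (nat_lit 337) (nat_lit 413)))) (l (nat_lit 1) (nat_lit 335) (nat_lit 339)))) (n (nat_lit 438) (b (n (nat_lit 460) (b (l (nat_lit 2) (nat_lit 434) (nat_lit 459)) (l (nat_lit 5) (nat_lit 360) (nat_lit 386)))) (l (nat_lit 3) (nat_lit 409) (nat_lit 409)))))) (l (nat_lit 4) (nat_lit 360) (nat_lit 461)))) (l (nat_lit 4) (nat_lit 335) (nat_lit 411)))) (n (nat_lit 409) (b (n (nat_lit 411) (b (n (nat_lit 387) (b (l (nat_lit 2) (nat_lit 384) (nat_lit 386)) (l (nat_lit 1) (nat_lit 384) (nat_lit 412)))) (l (nat_lit 4) (nat_lit 335) (nat_lit 436)))) (l (nat_lit 6) (nat_lit 334) (nat_lit 434))))) (b (n (nat_lit 435) (b (n (nat_lit 460) (b (n (nat_lit 459) (b (l (nat_lit 6) (nat_lit 359) (nat_lit 434)) (l (nat_lit 6) (nat_lit 384) (nat_lit 484)))) (l (nat_lit 5) (nat_lit 360) (nat_lit 386)))) (n (nat_lit 436) (b (l (nat_lit 4) (nat_lit 335) (nat_lit 411)) (l (nat_lit 4) (nat_lit 360) (nat_lit 461))))))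 (n (nat_lit 435) (b (n (nat_lit 434) (b (l (nat_lit 6) (nat_lit 334) (nat_lit 409)) (l (nat_lit 6) (nat_lit 359) (nat_lit 459)))) (n (nat_lit 436) (b (l (nat_lit 4) (nat_lit 335) (nat_lit 411)) (l (nat_lit 4) (nat_lit 360) (nat_lit 461)))))))) (n (nat_lit 435) (b (b (n (nat_lit 434) (b (l (nat_lit 6) (nat_lit 334) (nat_lit 409)) (l (nat_lit 6) (nat_lit 359) (nat_lit 459)))) (n (nat_lit 460) (b (n (nat_lit 485) (b (n (nat_lit 486) (b (l (nat_lit 4) (nat_lit 385) (nat_lit 461)) (l (nat_lit 4) (nat_lit 410) (nat_lit 511)))) (n (nat_lit 484) (b (l (nat_lit 6) (nat_lit 409) (nat_lit 509)) (l (nat_lit 6) (nat_lit 384) (nat_lit 459)))))) (l (nat_lit 5) (nat_lit 360) (nat_lit 386))))) (n (nat_lit 386) (b (n (nat_lit 409) (b (l (nat_lit 6) (nat_lit 334) (nat_lit 434)) (l (nat_lit 2) (nat_lit 384) (nat_lit 387)))) (l (nat_lit 5) (nat_lit 360) (nat_lit 460)))))))) (l (nat_lit 3) (nat_lit 334) (nat_lit 334)))) (l (nat_lit 2) (nat_lit 359) (nat_lit 384)))) (l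 (nat_lit 0) (nat_lit 360) (nat_lit 389)))))))
    envOK_nil (by decide +kernel)

theorem p2325 : Fam (nat_lit 5) (nat_lit 4697085165547678971328372785088495428063291221722171357266467968689839969464218068228773612333019596888997888) (nat_lit 4697085305531725357444725997155873695080586171007312930560122720736757878386136243593014286756740323753328640) (nat_lit 4697085305531725357444725997155873695080586171007312930560122720736757878386136243593014286756740323753328640) :=
  chk_sound Env.nil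
    (n (nat_lit 285) (b (b (n (nat_lit 288) (b (n (nat_lit 289) (b (n (nat_lit 264) (b (l (nat_lit 1) (nat_lit 261) (nat_lit 265)) (l (nat_lit 1) (nat_lit 260) (nat_lit 263)))) (l (nat_lit 2) (nat_lit 286) (nat_lit 290)))) (n (nat_lit 260) (b (l (nat_lit 3) (nat_lit 259) (nat_lit 259)) (l (nat_lit 7) (nat_lit 260) (nat_lit 336)))))) (n (nat_lit 336) (b (l (nat_lit 5) (nat_lit 261) (nat_lit 262)) (l (nat_lit 7) (nat_lit 260) (nat_lit 260))))) (b (n (nat_lit 284) (b (n (nat_lit 288) (b (n (nat_lit 259) (b (l (nat_lit 3) (nat_lit 258) (nat_lit 258)) (l (nat_lit 3) (nat_lit 259) (nat_lit 260)))) (n (nat_lit 263) (b (l (nat_lit 1) (nat_lit 259) (nat_lit 262)) (l (nat_lit 1) (nat_lit 260) (nat_lit 264)))))) (l (nat_lit 0) (nat_lit 283) (nat_lit 283)))) (n (nat_lit 284) (b (n (nat_lit 262) (b (l (nat_lit 1) (nat_lit 259) (nat_lit 263)) (l (nat_lit 5) (nat_lit 261) (nat_lit 336)))) (l (nat_lit 0) (nat_lit 283) (nat_lit 283)))))))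
    envOK_nil (by decide +kernel)

theorem p2379 : Fam (nat_lit 17) (nat_lit 12515549411591509821373311926123905531615851886025625421919235001181301375615563482190825127936) (nat_lit 8379880305850102236372728556880530574980656024662614225075731871229928201856844756714889931054852605631017080744522578745965295468876737022821318954844160) (nat_lit 8379880305850102236372728556880530574980656024662614225075731871229928201856844756714889931054852605631017080744522578745965295468876737022821318954844160) :=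
  chk_sound (Env.cons (nat_lit 16) (nat_lit 18788340662190678338665256365824517592317386515172090581510213797883094120151868729010967602641631815080607744) (nat_lit 8379880305850006968163198862359387758371193761143363663165917191182859240685393565264396815235593621994200587456990606794583210008539548259016433186373632) (Env.cons (nat_lit 5) (nat_lit 32879596158833665190452728355050718383259555684716478189902073601450926351604518208491785977386761842447089664) (nat_lit 1251013771301755760098403907676604926756848054379482032203622501197872527216753629894363554011745387364367898559643648) (Env.cons (nat_lit 11) (nat_lit 32879596158833665190452728355050718383259555684716478189902073601450926351604518208491785977386761842447089664) (nat_lit 8379880305849971242586222284647195878352713500590057317240209189050036097445289568345028783482197422197613850602527775653154463339041603096030193525981184) (Env.cons (nat_lit 5) (nat_lit 4697085165547678971328372785088495428063291221722171357266467968689839969464218068228773612333019596888997888)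 (nat_lit 4697085305531725357444725997155873695080586171007312930560122720736757878386136243593014286756740323753328640) Env.nil))))
    (n (nat_lit 363) (b (b (b (r (nat_lit 0)) (n (nat_lit 361) (b (b (n (nat_lit 362) (b (b (b (n (nat_lit 388) (b (n (nat_lit 389) (b (n (nat_lit 390) (b (l (nat_lit 3) (nat_lit 361) (nat_lit 387)) (l (nat_lit 3) (nat_lit 362) (nat_lit 391)))) (l (nat_lit 0) (nat_lit 360) (nat_lit 360)))) (n (nat_lit 313) (b (n (nat_lit 285) (b (l (nat_lit 3) (nat_lit 285) (nat_lit 314)) (l (nat_lit 0) (nat_lit 284) (nat_lit 284)))) (l (nat_lit 7) (nat_lit 287) (nat_lit 338)))))) (r (nat_lit 1))) (b (n (nat_lit 360) (b (b (n (nat_lit 364) (b (n (nat_lit 389) (b (l (nat_lit 0) (nat_lit 360) (nat_lit 388)) (l (nat_lit 0) (nat_lit 361) (nat_lit 390)))) (n (nat_lit 385) (b (l (nat_lit 2) (nat_lit 360) (nat_lit 386)) (l (nat_lit 2) (nat_lit 359) (nat_lit 384)))))) (n (nat_lit 359) (b (n (nat_lit 384) (b (l (nat_lit 2) (nat_lit 359) (nat_lit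 385)) (l (nat_lit 2) (nat_lit 358) (nat_lit 383)))) (n (nat_lit 334) (b (l (nat_lit 3) (nat_lit 333) (nat_lit 333)) (l (nat_lit 3) (nat_lit 334) (nat_lit 335))))))) (n (nat_lit 359) (b (n (nat_lit 388) (b (l (nat_lit 0) (nat_lit 360) (nat_lit 389)) (l (nat_lit 0) (nat_lit 359) (nat_lit 387)))) (n (nat_lit 334) (b (l (nat_lit 3) (nat_lit 333) (nat_lit 333)) (l (nat_lit 3) (nat_lit 334) (nat_lit 335)))))))) (n (nat_lit 364) (b (b (n (nat_lit 360) (b (n (nat_lit 385) (b (l (nat_lit 2) (nat_lit 360) (nat_lit 386)) (l (nat_lit 2) (nat_lit 359) (nat_lit 384)))) (n (nat_lit 339) (b (l (nat_lit 1) (nat_lit 336) (nat_lit 340)) (l (nat_lit 1) (nat_lit 335) (nat_lit 338)))))) (n (nat_lit 365) (b (n (nat_lit 390) (b (l (nat_lit 0) (nat_lit 362) (nat_lit 391)) (l (nat_lit 0) (nat_lit 361) (nat_lit 389)))) (n (nat_lit 386) (b (l (nat_lit 2) (nat_lit 361) (nat_lit 387)) (l (nat_lit 2) (nat_lit 360) (nat_lit 385))))))) (n (nat_lit 365) (b (n (nat_lit 340) (b (l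 (nat_lit 1) (nat_lit 336) (nat_lit 339)) (l (nat_lit 1) (nat_lit 337) (nat_lit 341)))) (n (nat_lit 390) (b (l (nat_lit 0) (nat_lit 362) (nat_lit 391)) (l (nat_lit 0) (nat_lit 361) (nat_lit 389)))))))))) (b (n (nat_lit 360) (b (n (nat_lit 359) (b (n (nat_lit 384) (b (l (nat_lit 2) (nat_lit 359) (nat_lit 385)) (l (nat_lit 2) (nat_lit 358) (nat_lit 383)))) (n (nat_lit 334) (b (l (nat_lit 3) (nat_lit 333) (nat_lit 333)) (l (nat_lit 3) (nat_lit 334) (nat_lit 335)))))) (n (nat_lit 364) (b (n (nat_lit 389) (b (l (nat_lit 0) (nat_lit 360) (nat_lit 388)) (l (nat_lit 0) (nat_lit 361) (nat_lit 390)))) (n (nat_lit 339) (b (l (nat_lit 1) (nat_lit 336) (nat_lit 340)) (l (nat_lit 1) (nat_lit 335) (nat_lit 338)))))))) (n (nat_lit 364) (b (b (n (nat_lit 365) (b (n (nat_lit 340) (b (l (nat_lit 1) (nat_lit 336) (nat_lit 339)) (l (nat_lit 1) (nat_lit 337) (nat_lit 341)))) (n (nat_lit 386) (b (l (nat_lit 2) (nat_lit 361) (nat_lit 387)) (l (nat_lit 2) (nat_lit 360) (nat_lit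 385)))))) (n (nat_lit 365) (b (n (nat_lit 390) (b (l (nat_lit 0) (nat_lit 362) (nat_lit 391)) (l (nat_lit 0) (nat_lit 361) (nat_lit 389)))) (n (nat_lit 386) (b (l (nat_lit 2) (nat_lit 361) (nat_lit 387)) (l (nat_lit 2) (nat_lit 360) (nat_lit 385))))))) (n (nat_lit 389) (b (n (nat_lit 313) (b (n (nat_lit 285) (b (l (nat_lit 3) (nat_lit 285) (nat_lit 314)) (l (nat_lit 0) (nat_lit 284) (nat_lit 284)))) (n (nat_lit 338) (b (n (nat_lit 339) (b (l (nat_lit 7) (nat_lit 313) (nat_lit 414)) (l (nat_lit 1) (nat_lit 336) (nat_lit 340)))) (l (nat_lit 7) (nat_lit 287) (nat_lit 388)))))) (l (nat_lit 0) (nat_lit 361) (nat_lit 390))))))))) (n (nat_lit 336) (b (n (nat_lit 362) (b (n (nat_lit 335) (b (n (nat_lit 360) (b (l (nat_lit 6) (nat_lit 285) (nat_lit 385)) (l (nat_lit 3) (nat_lit 334) (nat_lit 334)))) (l (nat_lit 3) (nat_lit 335) (nat_lit 364)))) (l (nat_lit 4) (nat_lit 286) (nat_lit 387)))) (l (nat_lit 5) (nat_lit 286) (nat_lit 386))))) (b (n (nat_lit 285)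 (b (n (nat_lit 284) (b (l (nat_lit 0) (nat_lit 283) (nat_lit 283)) (l (nat_lit 0) (nat_lit 284) (nat_lit 313)))) (n (nat_lit 336) (b (l (nat_lit 7) (nat_lit 260) (nat_lit 260)) (l (nat_lit 5) (nat_lit 286) (nat_lit 386)))))) (n (nat_lit 362) (b (n (nat_lit 360) (b (n (nat_lit 359) (b (n (nat_lit 384) (b (l (nat_lit 2) (nat_lit 359) (nat_lit 385)) (l (nat_lit 2) (nat_lit 358) (nat_lit 383)))) (n (nat_lit 334) (b (l (nat_lit 3) (nat_lit 333) (nat_lit 333)) (l (nat_lit 3) (nat_lit 334) (nat_lit 335)))))) (n (nat_lit 364) (b (n (nat_lit 389) (b (l (nat_lit 0) (nat_lit 360) (nat_lit 388)) (l (nat_lit 0) (nat_lit 361) (nat_lit 390)))) (n (nat_lit 339) (b (l (nat_lit 1) (nat_lit 336) (nat_lit 340)) (l (nat_lit 1) (nat_lit 335) (nat_lit 338)))))))) (n (nat_lit 285) (b (n (nat_lit 313) (b (l (nat_lit 3) (nat_lit 285) (nat_lit 314)) (l (nat_lit 0) (nat_lit 284) (nat_lit 284)))) (n (nat_lit 336) (b (l (nat_lit 4) (nat_lit 286) (nat_lit 387)) (l (nat_lit 7)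 (nat_lit 260) (nat_lit 260)))))))))))) (b (n (nat_lit 313) (b (n (nat_lit 285) (b (l (nat_lit 3) (nat_lit 285) (nat_lit 314)) (l (nat_lit 0) (nat_lit 284) (nat_lit 284)))) (n (nat_lit 338) (b (n (nat_lit 288) (b (n (nat_lit 289) (b (l (nat_lit 5) (nat_lit 263) (nat_lit 264)) (l (nat_lit 2) (nat_lit 286) (nat_lit 290)))) (l (nat_lit 7) (nat_lit 262) (nat_lit 262)))) (l (nat_lit 7) (nat_lit 287) (nat_lit 388)))))) (n (nat_lit 285) (b (b (n (nat_lit 313) (b (l (nat_lit 3) (nat_lit 285) (nat_lit 314)) (l (nat_lit 0) (nat_lit 284) (nat_lit 284)))) (n (nat_lit 262) (b (n (nat_lit 336) (b (l (nat_lit 5) (nat_lit 261) (nat_lit 361)) (l (nat_lit 6) (nat_lit 236) (nat_lit 237)))) (n (nat_lit 284) (b (l (nat_lit 1) (nat_lit 259) (nat_lit 263)) (l (nat_lit 0) (nat_lit 283) (nat_lit 283))))))) (n (nat_lit 288) (b (n (nat_lit 289) (b (n (nat_lit 264) (b (l (nat_lit 1) (nat_lit 261) (nat_lit 265)) (l (nat_lit 1) (nat_lit 260) (nat_lit 263)))) (l (nat_lit 2) (nat_lit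 286) (nat_lit 290)))) (n (nat_lit 262) (b (n (nat_lit 336) (b (l (nat_lit 5) (nat_lit 261) (nat_lit 361)) (l (nat_lit 6) (nat_lit 236) (nat_lit 237)))) (n (nat_lit 313) (b (l (nat_lit 7) (nat_lit 262) (nat_lit 338)) (l (nat_lit 0) (nat_lit 285) (nat_lit 314)))))))))))) (b (b (n (nat_lit 361) (b (b (n (nat_lit 336) (b (n (nat_lit 362) (b (n (nat_lit 335) (b (n (nat_lit 360) (b (l (nat_lit 6) (nat_lit 285) (nat_lit 385)) (l (nat_lit 3) (nat_lit 334) (nat_lit 334)))) (l (nat_lit 3) (nat_lit 335) (nat_lit 364)))) (l (nat_lit 4) (nat_lit 286) (nat_lit 387)))) (l (nat_lit 5) (nat_lit 286) (nat_lit 386)))) (n (nat_lit 336) (b (l (nat_lit 5) (nat_lit 286) (nat_lit 386)) (l (nat_lit 5) (nat_lit 261) (nat_lit 262))))) (b (n (nat_lit 336) (b (n (nat_lit 362) (b (n (nat_lit 335) (b (n (nat_lit 360) (b (l (nat_lit 6) (nat_lit 285) (nat_lit 385)) (l (nat_lit 3) (nat_lit 334) (nat_lit 334)))) (l (nat_lit 3) (nat_lit 335) (nat_lit 364)))) (l (nat_lit 4) (nat_lit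 286) (nat_lit 387)))) (l (nat_lit 5) (nat_lit 261) (nat_lit 262)))) (n (nat_lit 362) (b (b (b (r (nat_lit 2)) (n (nat_lit 338) (b (n (nat_lit 313) (b (n (nat_lit 288) (b (l (nat_lit 6) (nat_lit 287) (nat_lit 387)) (l (nat_lit 7) (nat_lit 262) (nat_lit 262)))) (l (nat_lit 7) (nat_lit 287) (nat_lit 388)))) (n (nat_lit 339) (b (n (nat_lit 340) (b (l (nat_lit 1) (nat_lit 336) (nat_lit 364)) (l (nat_lit 2) (nat_lit 337) (nat_lit 341)))) (l (nat_lit 1) (nat_lit 335) (nat_lit 360))))))) (b (n (nat_lit 360) (b (b (n (nat_lit 364) (b (n (nat_lit 389) (b (l (nat_lit 0) (nat_lit 360) (nat_lit 388)) (l (nat_lit 0) (nat_lit 361) (nat_lit 390)))) (n (nat_lit 385) (b (l (nat_lit 2) (nat_lit 360) (nat_lit 386)) (l (nat_lit 2) (nat_lit 359) (nat_lit 384)))))) (n (nat_lit 359) (b (n (nat_lit 384) (b (l (nat_lit 2) (nat_lit 359) (nat_lit 385)) (l (nat_lit 2) (nat_lit 358) (nat_lit 383)))) (n (nat_lit 334) (b (l (nat_lit 3) (nat_lit 333) (nat_lit 333)) (l (nat_lit 3)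 (nat_lit 334) (nat_lit 335))))))) (n (nat_lit 359) (b (n (nat_lit 388) (b (l (nat_lit 0) (nat_lit 360) (nat_lit 389)) (l (nat_lit 0) (nat_lit 359) (nat_lit 387)))) (n (nat_lit 334) (b (l (nat_lit 3) (nat_lit 333) (nat_lit 333)) (l (nat_lit 3) (nat_lit 334) (nat_lit 335)))))))) (n (nat_lit 364) (b (b (n (nat_lit 360) (b (n (nat_lit 385) (b (l (nat_lit 2) (nat_lit 360) (nat_lit 386)) (l (nat_lit 2) (nat_lit 359) (nat_lit 384)))) (n (nat_lit 339) (b (l (nat_lit 1) (nat_lit 336) (nat_lit 340)) (l (nat_lit 1) (nat_lit 335) (nat_lit 338)))))) (n (nat_lit 365) (b (n (nat_lit 390) (b (l (nat_lit 0) (nat_lit 362) (nat_lit 391)) (l (nat_lit 0) (nat_lit 361) (nat_lit 389)))) (n (nat_lit 386) (b (l (nat_lit 2) (nat_lit 361) (nat_lit 387)) (l (nat_lit 2) (nat_lit 360) (nat_lit 385))))))) (n (nat_lit 365) (b (n (nat_lit 340) (b (l (nat_lit 1) (nat_lit 336) (nat_lit 339)) (l (nat_lit 1) (nat_lit 337) (nat_lit 341)))) (n (nat_lit 390) (b (l (nat_lit 0) (nat_lit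 362) (nat_lit 391)) (l (nat_lit 0) (nat_lit 361) (nat_lit 389)))))))))) (b (n (nat_lit 360) (b (n (nat_lit 359) (b (n (nat_lit 384) (b (l (nat_lit 2) (nat_lit 359) (nat_lit 385)) (l (nat_lit 2) (nat_lit 358) (nat_lit 383)))) (n (nat_lit 334) (b (l (nat_lit 3) (nat_lit 333) (nat_lit 333)) (l (nat_lit 3) (nat_lit 334) (nat_lit 335)))))) (n (nat_lit 364) (b (n (nat_lit 389) (b (l (nat_lit 0) (nat_lit 360) (nat_lit 388)) (l (nat_lit 0) (nat_lit 361) (nat_lit 390)))) (n (nat_lit 339) (b (l (nat_lit 1) (nat_lit 336) (nat_lit 340)) (l (nat_lit 1) (nat_lit 335) (nat_lit 338)))))))) (n (nat_lit 364) (b (b (n (nat_lit 365) (b (n (nat_lit 340) (b (l (nat_lit 1) (nat_lit 336) (nat_lit 339)) (l (nat_lit 1) (nat_lit 337) (nat_lit 341)))) (n (nat_lit 386) (b (l (nat_lit 2) (nat_lit 361) (nat_lit 387)) (l (nat_lit 2) (nat_lit 360) (nat_lit 385)))))) (n (nat_lit 365) (b (n (nat_lit 390) (b (l (nat_lit 0) (nat_lit 362) (nat_lit 391)) (l (nat_lit 0) (nat_lit 361) (nat_lit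 389)))) (n (nat_lit 386) (b (l (nat_lit 2) (nat_lit 361) (nat_lit 387)) (l (nat_lit 2) (nat_lit 360) (nat_lit 385))))))) (n (nat_lit 389) (b (n (nat_lit 339) (b (n (nat_lit 313) (b (b (n (nat_lit 314) (b (n (nat_lit 289) (b (l (nat_lit 6) (nat_lit 288) (nat_lit 388)) (l (nat_lit 1) (nat_lit 286) (nat_lit 290)))) (l (nat_lit 7) (nat_lit 288) (nat_lit 288)))) (n (nat_lit 338) (b (l (nat_lit 7) (nat_lit 287) (nat_lit 388)) (l (nat_lit 7) (nat_lit 313) (nat_lit 414))))) (n (nat_lit 338) (b (l (nat_lit 4) (nat_lit 288) (nat_lit 288)) (l (nat_lit 7) (nat_lit 313) (nat_lit 414)))))) (l (nat_lit 1) (nat_lit 336) (nat_lit 340)))) (l (nat_lit 0) (nat_lit 361) (nat_lit 390)))))))))))) (n (nat_lit 361) (b (b (n (nat_lit 336) (b (n (nat_lit 362) (b (n (nat_lit 335) (b (n (nat_lit 360) (b (l (nat_lit 6) (nat_lit 285) (nat_lit 385)) (l (nat_lit 3) (nat_lit 334) (nat_lit 334)))) (l (nat_lit 3) (nat_lit 335) (nat_lit 364)))) (l (nat_lit 4) (nat_lit 286) (nat_lit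 387)))) (l (nat_lit 5) (nat_lit 286) (nat_lit 386)))) (r (nat_lit 3))) (n (nat_lit 362) (b (b (b (r (nat_lit 2)) (n (nat_lit 338) (b (n (nat_lit 313) (b (n (nat_lit 288) (b (l (nat_lit 6) (nat_lit 287) (nat_lit 387)) (l (nat_lit 7) (nat_lit 262) (nat_lit 262)))) (l (nat_lit 7) (nat_lit 287) (nat_lit 388)))) (n (nat_lit 339) (b (n (nat_lit 340) (b (l (nat_lit 1) (nat_lit 336) (nat_lit 364)) (l (nat_lit 2) (nat_lit 337) (nat_lit 341)))) (l (nat_lit 1) (nat_lit 335) (nat_lit 360))))))) (b (n (nat_lit 360) (b (b (n (nat_lit 364) (b (n (nat_lit 389) (b (l (nat_lit 0) (nat_lit 360) (nat_lit 388)) (l (nat_lit 0) (nat_lit 361) (nat_lit 390)))) (n (nat_lit 385) (b (l (nat_lit 2) (nat_lit 360) (nat_lit 386)) (l (nat_lit 2) (nat_lit 359) (nat_lit 384)))))) (n (nat_lit 359) (b (n (nat_lit 384) (b (l (nat_lit 2) (nat_lit 359) (nat_lit 385)) (l (nat_lit 2) (nat_lit 358) (nat_lit 383)))) (n (nat_lit 334) (b (l (nat_lit 3) (nat_lit 333) (nat_lit 333)) (l (nat_lit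 3) (nat_lit 334) (nat_lit 335))))))) (n (nat_lit 359) (b (n (nat_lit 388) (b (l (nat_lit 0) (nat_lit 360) (nat_lit 389)) (l (nat_lit 0) (nat_lit 359) (nat_lit 387)))) (n (nat_lit 334) (b (l (nat_lit 3) (nat_lit 333) (nat_lit 333)) (l (nat_lit 3) (nat_lit 334) (nat_lit 335)))))))) (n (nat_lit 364) (b (b (n (nat_lit 360) (b (n (nat_lit 385) (b (l (nat_lit 2) (nat_lit 360) (nat_lit 386)) (l (nat_lit 2) (nat_lit 359) (nat_lit 384)))) (n (nat_lit 339) (b (l (nat_lit 1) (nat_lit 336) (nat_lit 340)) (l (nat_lit 1) (nat_lit 335) (nat_lit 338)))))) (n (nat_lit 365) (b (n (nat_lit 390) (b (l (nat_lit 0) (nat_lit 362) (nat_lit 391)) (l (nat_lit 0) (nat_lit 361) (nat_lit 389)))) (n (nat_lit 386) (b (l (nat_lit 2) (nat_lit 361) (nat_lit 387)) (l (nat_lit 2) (nat_lit 360) (nat_lit 385))))))) (n (nat_lit 365) (b (n (nat_lit 340) (b (l (nat_lit 1) (nat_lit 336) (nat_lit 339)) (l (nat_lit 1) (nat_lit 337) (nat_lit 341)))) (n (nat_lit 390) (b (l (nat_lit 0) (nat_lit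 362) (nat_lit 391)) (l (nat_lit 0) (nat_lit 361) (nat_lit 389)))))))))) (b (n (nat_lit 360) (b (n (nat_lit 359) (b (n (nat_lit 384) (b (l (nat_lit 2) (nat_lit 359) (nat_lit 385)) (l (nat_lit 2) (nat_lit 358) (nat_lit 383)))) (n (nat_lit 334) (b (l (nat_lit 3) (nat_lit 333) (nat_lit 333)) (l (nat_lit 3) (nat_lit 334) (nat_lit 335)))))) (n (nat_lit 364) (b (n (nat_lit 389) (b (l (nat_lit 0) (nat_lit 360) (nat_lit 388)) (l (nat_lit 0) (nat_lit 361) (nat_lit 390)))) (n (nat_lit 339) (b (l (nat_lit 1) (nat_lit 336) (nat_lit 340)) (l (nat_lit 1) (nat_lit 335) (nat_lit 338)))))))) (n (nat_lit 364) (b (b (n (nat_lit 365) (b (n (nat_lit 340) (b (l (nat_lit 1) (nat_lit 336) (nat_lit 339)) (l (nat_lit 1) (nat_lit 337) (nat_lit 341)))) (n (nat_lit 386) (b (l (nat_lit 2) (nat_lit 361) (nat_lit 387)) (l (nat_lit 2) (nat_lit 360) (nat_lit 385)))))) (n (nat_lit 365) (b (n (nat_lit 390) (b (l (nat_lit 0) (nat_lit 362) (nat_lit 391)) (l (nat_lit 0) (nat_lit 361) (nat_lit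 389)))) (n (nat_lit 386) (b (l (nat_lit 2) (nat_lit 361) (nat_lit 387)) (l (nat_lit 2) (nat_lit 360) (nat_lit 385))))))) (b (n (nat_lit 365) (b (n (nat_lit 340) (b (l (nat_lit 1) (nat_lit 336) (nat_lit 339)) (l (nat_lit 1) (nat_lit 337) (nat_lit 341)))) (n (nat_lit 390) (b (l (nat_lit 0) (nat_lit 362) (nat_lit 391)) (l (nat_lit 0) (nat_lit 361) (nat_lit 389)))))) (n (nat_lit 389) (b (n (nat_lit 339) (b (n (nat_lit 386) (b (n (nat_lit 414) (b (n (nat_lit 338) (b (l (nat_lit 7) (nat_lit 338) (nat_lit 439)) (l (nat_lit 7) (nat_lit 313) (nat_lit 313)))) (n (nat_lit 415) (b (n (nat_lit 413) (b (n (nat_lit 387) (b (l (nat_lit 3) (nat_lit 386) (nat_lit 412)) (l (nat_lit 0) (nat_lit 386) (nat_lit 388)))) (l (nat_lit 6) (nat_lit 338) (nat_lit 438)))) (l (nat_lit 4) (nat_lit 339) (nat_lit 440)))))) (l (nat_lit 2) (nat_lit 360) (nat_lit 385)))) (l (nat_lit 1) (nat_lit 336) (nat_lit 340)))) (l (nat_lit 0) (nat_lit 361) (nat_lit 390))))))))))))) (n (nat_lit 361)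 (b (b (n (nat_lit 336) (b (n (nat_lit 362) (b (n (nat_lit 335) (b (n (nat_lit 360) (b (l (nat_lit 6) (nat_lit 285) (nat_lit 385)) (l (nat_lit 3) (nat_lit 334) (nat_lit 334)))) (l (nat_lit 3) (nat_lit 335) (nat_lit 364)))) (l (nat_lit 4) (nat_lit 286) (nat_lit 387)))) (l (nat_lit 5) (nat_lit 261) (nat_lit 262)))) (r (nat_lit 3))) (n (nat_lit 362) (b (b (b (r (nat_lit 2)) (n (nat_lit 339) (b (b (n (nat_lit 364) (b (n (nat_lit 388) (b (n (nat_lit 413) (b (n (nat_lit 314) (b (l (nat_lit 6) (nat_lit 288) (nat_lit 289)) (l (nat_lit 5) (nat_lit 313) (nat_lit 338)))) (l (nat_lit 5) (nat_lit 338) (nat_lit 438)))) (n (nat_lit 365) (b (n (nat_lit 387) (b (l (nat_lit 2) (nat_lit 361) (nat_lit 386)) (l (nat_lit 2) (nat_lit 362) (nat_lit 366)))) (n (nat_lit 390) (b (l (nat_lit 0) (nat_lit 362) (nat_lit 391)) (l (nat_lit 0) (nat_lit 361) (nat_lit 389)))))))) (l (nat_lit 1) (nat_lit 336) (nat_lit 340)))) (n (nat_lit 360) (b (n (nat_lit 359) (b (n (nat_lit 388) (b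 (l (nat_lit 0) (nat_lit 360) (nat_lit 389)) (l (nat_lit 0) (nat_lit 359) (nat_lit 387)))) (n (nat_lit 334) (b (l (nat_lit 3) (nat_lit 333) (nat_lit 333)) (l (nat_lit 3) (nat_lit 334) (nat_lit 335)))))) (l (nat_lit 1) (nat_lit 335) (nat_lit 338))))) (b (n (nat_lit 340) (b (n (nat_lit 338) (b (l (nat_lit 2) (nat_lit 337) (nat_lit 341)) (l (nat_lit 1) (nat_lit 335) (nat_lit 360)))) (l (nat_lit 1) (nat_lit 336) (nat_lit 364)))) (n (nat_lit 364) (b (n (nat_lit 389) (b (n (nat_lit 388) (b (n (nat_lit 314) (b (l (nat_lit 6) (nat_lit 313) (nat_lit 413)) (l (nat_lit 6) (nat_lit 288) (nat_lit 289)))) (l (nat_lit 0) (nat_lit 360) (nat_lit 360)))) (l (nat_lit 0) (nat_lit 361) (nat_lit 390)))) (l (nat_lit 1) (nat_lit 336) (nat_lit 340)))))))) (b (r (nat_lit 1)) (n (nat_lit 360) (b (b (n (nat_lit 364) (b (n (nat_lit 389) (b (l (nat_lit 0) (nat_lit 360) (nat_lit 388)) (l (nat_lit 0) (nat_lit 361) (nat_lit 390)))) (n (nat_lit 385) (b (l (nat_lit 2) (nat_lit 360)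 (nat_lit 386)) (l (nat_lit 2) (nat_lit 359) (nat_lit 384)))))) (n (nat_lit 359) (b (n (nat_lit 384) (b (l (nat_lit 2) (nat_lit 359) (nat_lit 385)) (l (nat_lit 2) (nat_lit 358) (nat_lit 383)))) (n (nat_lit 334) (b (l (nat_lit 3) (nat_lit 333) (nat_lit 333)) (l (nat_lit 3) (nat_lit 334) (nat_lit 335))))))) (n (nat_lit 359) (b (n (nat_lit 388) (b (l (nat_lit 0) (nat_lit 360) (nat_lit 389)) (l (nat_lit 0) (nat_lit 359) (nat_lit 387)))) (n (nat_lit 334) (b (l (nat_lit 3) (nat_lit 333) (nat_lit 333)) (l (nat_lit 3) (nat_lit 334) (nat_lit 335)))))))))) (b (b (n (nat_lit 364) (b (b (n (nat_lit 360) (b (n (nat_lit 385) (b (l (nat_lit 2) (nat_lit 360) (nat_lit 386)) (l (nat_lit 2) (nat_lit 359) (nat_lit 384)))) (n (nat_lit 339) (b (l (nat_lit 1) (nat_lit 336) (nat_lit 340)) (l (nat_lit 1) (nat_lit 335) (nat_lit 338)))))) (n (nat_lit 365) (b (n (nat_lit 390) (b (l (nat_lit 0) (nat_lit 362) (nat_lit 391)) (l (nat_lit 0) (nat_lit 361) (nat_lit 389)))) (n (nat_lit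 386) (b (l (nat_lit 2) (nat_lit 361) (nat_lit 387)) (l (nat_lit 2) (nat_lit 360) (nat_lit 385))))))) (n (nat_lit 365) (b (n (nat_lit 340) (b (l (nat_lit 1) (nat_lit 336) (nat_lit 339)) (l (nat_lit 1) (nat_lit 337) (nat_lit 341)))) (n (nat_lit 390) (b (l (nat_lit 0) (nat_lit 362) (nat_lit 391)) (l (nat_lit 0) (nat_lit 361) (nat_lit 389)))))))) (n (nat_lit 360) (b (n (nat_lit 359) (b (n (nat_lit 384) (b (l (nat_lit 2) (nat_lit 359) (nat_lit 385)) (l (nat_lit 2) (nat_lit 358) (nat_lit 383)))) (n (nat_lit 334) (b (l (nat_lit 3) (nat_lit 333) (nat_lit 333)) (l (nat_lit 3) (nat_lit 334) (nat_lit 335)))))) (n (nat_lit 364) (b (n (nat_lit 389) (b (l (nat_lit 0) (nat_lit 360) (nat_lit 388)) (l (nat_lit 0) (nat_lit 361) (nat_lit 390)))) (n (nat_lit 339) (b (l (nat_lit 1) (nat_lit 336) (nat_lit 340)) (l (nat_lit 1) (nat_lit 335) (nat_lit 338))))))))) (n (nat_lit 364) (b (b (n (nat_lit 365) (b (n (nat_lit 340) (b (l (nat_lit 1) (nat_lit 336) (nat_lit 339)) (l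 (nat_lit 1) (nat_lit 337) (nat_lit 341)))) (n (nat_lit 386) (b (l (nat_lit 2) (nat_lit 361) (nat_lit 387)) (l (nat_lit 2) (nat_lit 360) (nat_lit 385)))))) (n (nat_lit 365) (b (n (nat_lit 390) (b (l (nat_lit 0) (nat_lit 362) (nat_lit 391)) (l (nat_lit 0) (nat_lit 361) (nat_lit 389)))) (n (nat_lit 386) (b (l (nat_lit 2) (nat_lit 361) (nat_lit 387)) (l (nat_lit 2) (nat_lit 360) (nat_lit 385))))))) (b (n (nat_lit 365) (b (n (nat_lit 340) (b (l (nat_lit 1) (nat_lit 336) (nat_lit 339)) (l (nat_lit 1) (nat_lit 337) (nat_lit 341)))) (n (nat_lit 390) (b (l (nat_lit 0) (nat_lit 362) (nat_lit 391)) (l (nat_lit 0) (nat_lit 361) (nat_lit 389)))))) (n (nat_lit 389) (b (n (nat_lit 339) (b (n (nat_lit 414) (b (b (n (nat_lit 439) (b (n (nat_lit 438) (b (l (nat_lit 6) (nat_lit 363) (nat_lit 463)) (l (nat_lit 6) (nat_lit 338) (nat_lit 413)))) (l (nat_lit 7) (nat_lit 338) (nat_lit 338)))) (n (nat_lit 386) (b (n (nat_lit 388) (b (n (nat_lit 314) (b (l (nat_lit 6) (nat_lit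 313) (nat_lit 413)) (l (nat_lit 6) (nat_lit 288) (nat_lit 289)))) (n (nat_lit 415) (b (l (nat_lit 0) (nat_lit 386) (nat_lit 387)) (l (nat_lit 4) (nat_lit 339) (nat_lit 440)))))) (l (nat_lit 2) (nat_lit 360) (nat_lit 385))))) (n (nat_lit 439) (b (n (nat_lit 440) (b (l (nat_lit 4) (nat_lit 364) (nat_lit 465)) (l (nat_lit 4) (nat_lit 339) (nat_lit 415)))) (l (nat_lit 7) (nat_lit 338) (nat_lit 338)))))) (l (nat_lit 1) (nat_lit 336) (nat_lit 340)))) (l (nat_lit 0) (nat_lit 361) (nat_lit 390)))))))))))))))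
    (envOK_cons p2223 (envOK_cons p2248 (envOK_cons p2296 (envOK_cons p2325 envOK_nil)))) (by decide +kernel)

theorem p2382 : Fam (nat_lit 18) (nat_lit 12515549287260700718926651387278343494910641860911587722582305641065307152325689229057481244672) (nat_lit 8379880305850102236372728556880530574980656024662614225075731871229928201860550104619549597687362430309426332363321002415516971947763367112602802400002048) (nat_lit 8379880305850102236372728556880530574980656024662614225075731871229928201860550104619549597687362430309426332363321002415516971947763367112602802400002048) :=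
  chk_sound (Env.cons (nat_lit 6) (nat_lit 45890347842502232321143655148733682050096952472865036984153269408315832478398572127127546626048) (nat_lit 3152160627229947031854375057440376662276108942315415838313225379664695096400732697805774538690009705929612411797504000) (Env.cons (nat_lit 17) (nat_lit 12515549411591509821373311926123905531615851886025625421919235001181301375615563482190825127936) (nat_lit 8379880305850102236372728556880530574980656024662614225075731871229928201856844756714889931054852605631017080744522578745965295468876737022821318954844160) (Env.cons (nat_lit 6) (nat_lit 12515549411591509821373311926123905531615851886025625421919235001181301375615563482190825127936) (nat_lit 236412044223994833571256018989351774191649105374859421676518808213759708492092618153713929297977829116040637732356096) (Env.cons (nat_lit 7) (nat_lit 12515549411591509821373311926123905531615851886025625421919235001181301375615563482190825127936) (nat_lit 157608029482663222380891580037973585966157301696431717926819587562039472008751915122197576236776741298106601817767936)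 (Env.cons (nat_lit 8) (nat_lit 12515549411591509821373311926123905531615851886025625421919235001181301375615563482190825127936) (nat_lit 1891296353791958668570010605256741743740445153972785031852336602201603798958554360282814568834791274683351627210948608) Env.nil)))))
    (n (nat_lit 286) (b (b (b (n (nat_lit 264) (b (b (b (n (nat_lit 289) (b (b (n (nat_lit 314) (b (b (r (nat_lit 0)) (n (nat_lit 336) (b (n (nat_lit 361) (b (l (nat_lit 5) (nat_lit 261) (nat_lit 262)) (l (nat_lit 5) (nat_lit 286) (nat_lit 386)))) (n (nat_lit 313) (b (l (nat_lit 2) (nat_lit 310) (nat_lit 335)) (l (nat_lit 3) (nat_lit 285) (nat_lit 285))))))) (n (nat_lit 339) (b (n (nat_lit 265) (b (l (nat_lit 1) (nat_lit 261) (nat_lit 288)) (l (nat_lit 5) (nat_lit 239) (nat_lit 240)))) (n (nat_lit 313) (b (l (nat_lit 0) (nat_lit 311) (nat_lit 340)) (l (nat_lit 3) (nat_lit 285) (nat_lit 285)))))))) (n (nat_lit 314) (b (b (n (nat_lit 313) (b (n (nat_lit 339) (b (n (nat_lit 338) (b (l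 (nat_lit 6) (nat_lit 263) (nat_lit 363)) (l (nat_lit 6) (nat_lit 238) (nat_lit 239)))) (l (nat_lit 0) (nat_lit 311) (nat_lit 340)))) (l (nat_lit 1) (nat_lit 286) (nat_lit 290)))) (n (nat_lit 336) (b (n (nat_lit 361) (b (l (nat_lit 5) (nat_lit 261) (nat_lit 262)) (l (nat_lit 5) (nat_lit 286) (nat_lit 386)))) (n (nat_lit 313) (b (l (nat_lit 2) (nat_lit 310) (nat_lit 335)) (l (nat_lit 3) (nat_lit 285) (nat_lit 285))))))) (r (nat_lit 0))))) (b (n (nat_lit 288) (b (l (nat_lit 2) (nat_lit 286) (nat_lit 290)) (l (nat_lit 1) (nat_lit 261) (nat_lit 265)))) (n (nat_lit 239) (b (b (n (nat_lit 214) (b (n (nat_lit 189) (b (n (nat_lit 188) (b (l (nat_lit 7) (nat_lit 188) (nat_lit 213)) (l (nat_lit 7) (nat_lit 163) (nat_lit 163)))) (n (nat_lit 190) (b (l (nat_lit 5) (nat_lit 164) (nat_lit 165)) (l (nat_lit 5) (nat_lit 189) (nat_lit 215)))))) (n (nat_lit 288) (b (l (nat_lit 2) (nat_lit 286) (nat_lit 290)) (l (nat_lit 6) (nat_lit 213) (nat_lit 313)))))) (n (nat_lit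 313) (b (n (nat_lit 288) (b (l (nat_lit 6) (nat_lit 213) (nat_lit 214)) (l (nat_lit 2) (nat_lit 286) (nat_lit 290)))) (n (nat_lit 314) (b (l (nat_lit 3) (nat_lit 285) (nat_lit 285)) (l (nat_lit 6) (nat_lit 238) (nat_lit 338))))))) (b (n (nat_lit 214) (b (b (n (nat_lit 237) (b (b (n (nat_lit 236) (b (n (nat_lit 261) (b (l (nat_lit 5) (nat_lit 211) (nat_lit 212)) (l (nat_lit 4) (nat_lit 211) (nat_lit 211)))) (n (nat_lit 215) (b (l (nat_lit 1) (nat_lit 211) (nat_lit 238)) (l (nat_lit 5) (nat_lit 189) (nat_lit 190)))))) (n (nat_lit 262) (b (l (nat_lit 6) (nat_lit 236) (nat_lit 336)) (l (nat_lit 6) (nat_lit 211) (nat_lit 212))))) (n (nat_lit 236) (b (n (nat_lit 262) (b (l (nat_lit 6) (nat_lit 236) (nat_lit 336)) (l (nat_lit 7) (nat_lit 211) (nat_lit 211)))) (n (nat_lit 215) (b (l (nat_lit 1) (nat_lit 211) (nat_lit 238)) (l (nat_lit 5) (nat_lit 189) (nat_lit 190)))))))) (n (nat_lit 213) (b (n (nat_lit 237) (b (b (n (nat_lit 236) (b (n (nat_lit 261) (b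 (l (nat_lit 5) (nat_lit 211) (nat_lit 212)) (l (nat_lit 4) (nat_lit 211) (nat_lit 211)))) (n (nat_lit 238) (b (l (nat_lit 1) (nat_lit 210) (nat_lit 235)) (l (nat_lit 7) (nat_lit 213) (nat_lit 314)))))) (n (nat_lit 262) (b (l (nat_lit 6) (nat_lit 236) (nat_lit 336)) (l (nat_lit 6) (nat_lit 211) (nat_lit 212))))) (n (nat_lit 262) (b (l (nat_lit 5) (nat_lit 212) (nat_lit 238)) (l (nat_lit 6) (nat_lit 236) (nat_lit 336)))))) (l (nat_lit 7) (nat_lit 188) (nat_lit 188))))) (n (nat_lit 189) (b (n (nat_lit 188) (b (l (nat_lit 7) (nat_lit 188) (nat_lit 213)) (l (nat_lit 7) (nat_lit 163) (nat_lit 163)))) (n (nat_lit 190) (b (l (nat_lit 5) (nat_lit 164) (nat_lit 165)) (l (nat_lit 5) (nat_lit 189) (nat_lit 215)))))))) (n (nat_lit 336) (b (b (n (nat_lit 361) (b (l (nat_lit 5) (nat_lit 261) (nat_lit 262)) (l (nat_lit 5) (nat_lit 286) (nat_lit 386)))) (n (nat_lit 361) (b (n (nat_lit 363) (b (n (nat_lit 335) (b (n (nat_lit 362) (b (l (nat_lit 4) (nat_lit 286) (nat_lit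 387)) (l (nat_lit 3) (nat_lit 335) (nat_lit 364)))) (n (nat_lit 360) (b (l (nat_lit 6) (nat_lit 260) (nat_lit 261)) (l (nat_lit 6) (nat_lit 285) (nat_lit 385)))))) (n (nat_lit 313) (b (b (n (nat_lit 288) (b (l (nat_lit 5) (nat_lit 263) (nat_lit 338)) (l (nat_lit 2) (nat_lit 286) (nat_lit 290)))) (n (nat_lit 338) (b (l (nat_lit 5) (nat_lit 263) (nat_lit 288)) (l (nat_lit 6) (nat_lit 238) (nat_lit 314))))) (b (n (nat_lit 314) (b (l (nat_lit 1) (nat_lit 286) (nat_lit 290)) (l (nat_lit 6) (nat_lit 238) (nat_lit 338)))) (n (nat_lit 290) (b (l (nat_lit 1) (nat_lit 286) (nat_lit 314)) (l (nat_lit 2) (nat_lit 286) (nat_lit 288))))))))) (l (nat_lit 5) (nat_lit 286) (nat_lit 386))))) (n (nat_lit 314) (b (n (nat_lit 313) (b (l (nat_lit 2) (nat_lit 310) (nat_lit 335)) (l (nat_lit 3) (nat_lit 285) (nat_lit 285)))) (n (nat_lit 237) (b (n (nat_lit 238) (b (n (nat_lit 211) (b (n (nat_lit 236) (b (l (nat_lit 3) (nat_lit 210) (nat_lit 210)) (l (nat_lit 4) (nat_lit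 211) (nat_lit 261)))) (n (nat_lit 240) (b (l (nat_lit 5) (nat_lit 214) (nat_lit 215)) (l (nat_lit 3) (nat_lit 211) (nat_lit 212)))))) (l (nat_lit 7) (nat_lit 213) (nat_lit 213)))) (l (nat_lit 6) (nat_lit 236) (nat_lit 262)))))))))))))) (n (nat_lit 285) (b (n (nat_lit 262) (b (n (nat_lit 336) (b (l (nat_lit 5) (nat_lit 261) (nat_lit 361)) (l (nat_lit 6) (nat_lit 236) (nat_lit 237)))) (n (nat_lit 263) (b (l (nat_lit 2) (nat_lit 260) (nat_lit 261)) (l (nat_lit 1) (nat_lit 260) (nat_lit 288)))))) (n (nat_lit 284) (b (l (nat_lit 0) (nat_lit 283) (nat_lit 283)) (l (nat_lit 0) (nat_lit 284) (nat_lit 313))))))) (b (n (nat_lit 262) (b (n (nat_lit 263) (b (n (nat_lit 285) (b (l (nat_lit 2) (nat_lit 260) (nat_lit 261)) (l (nat_lit 1) (nat_lit 259) (nat_lit 284)))) (l (nat_lit 2) (nat_lit 261) (nat_lit 265)))) (n (nat_lit 237) (b (l (nat_lit 6) (nat_lit 236) (nat_lit 336)) (l (nat_lit 6) (nat_lit 211) (nat_lit 212)))))) (n (nat_lit 285) (b (n (nat_lit 313) (b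 (l (nat_lit 3) (nat_lit 285) (nat_lit 314)) (l (nat_lit 0) (nat_lit 284) (nat_lit 284)))) (n (nat_lit 288) (b (n (nat_lit 289) (b (l (nat_lit 1) (nat_lit 261) (nat_lit 265)) (l (nat_lit 2) (nat_lit 286) (nat_lit 290)))) (l (nat_lit 1) (nat_lit 260) (nat_lit 263)))))))) (n (nat_lit 262) (b (n (nat_lit 237) (b (l (nat_lit 6) (nat_lit 236) (nat_lit 336)) (l (nat_lit 6) (nat_lit 211) (nat_lit 212)))) (n (nat_lit 289) (b (b (n (nat_lit 288) (b (l (nat_lit 2) (nat_lit 286) (nat_lit 290)) (l (nat_lit 1) (nat_lit 261) (nat_lit 265)))) (n (nat_lit 263) (b (n (nat_lit 261) (b (n (nat_lit 236) (b (l (nat_lit 4) (nat_lit 211) (nat_lit 211)) (l (nat_lit 3) (nat_lit 235) (nat_lit 235)))) (l (nat_lit 0) (nat_lit 261) (nat_lit 290)))) (l (nat_lit 2) (nat_lit 261) (nat_lit 265))))) (b (n (nat_lit 265) (b (l (nat_lit 1) (nat_lit 261) (nat_lit 288)) (l (nat_lit 2) (nat_lit 261) (nat_lit 263)))) (n (nat_lit 290) (b (n (nat_lit 314) (b (n (nat_lit 263) (b (n (nat_lit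 238) (b (n (nat_lit 213) (b (l (nat_lit 6) (nat_lit 187) (nat_lit 188)) (l (nat_lit 7) (nat_lit 213) (nat_lit 239)))) (l (nat_lit 7) (nat_lit 238) (nat_lit 339)))) (l (nat_lit 0) (nat_lit 261) (nat_lit 261)))) (l (nat_lit 1) (nat_lit 286) (nat_lit 313)))) (l (nat_lit 2) (nat_lit 286) (nat_lit 288))))))))))) (r (nat_lit 1))) (b (r (nat_lit 2)) (r (nat_lit 3)))) (b (n (nat_lit 285) (b (n (nat_lit 313) (b (l (nat_lit 3) (nat_lit 285) (nat_lit 314)) (l (nat_lit 0) (nat_lit 284) (nat_lit 284)))) (n (nat_lit 288) (b (n (nat_lit 289) (b (n (nat_lit 264) (b (l (nat_lit 1) (nat_lit 261) (nat_lit 265)) (l (nat_lit 1) (nat_lit 260) (nat_lit 263)))) (l (nat_lit 2) (nat_lit 286) (nat_lit 290)))) (n (nat_lit 260) (b (n (nat_lit 336) (b (n (nat_lit 235) (b (l (nat_lit 7) (nat_lit 235) (nat_lit 261)) (l (nat_lit 4) (nat_lit 210) (nat_lit 210)))) (l (nat_lit 7) (nat_lit 260) (nat_lit 361)))) (l (nat_lit 3) (nat_lit 259) (nat_lit 259)))))))) (r (nat_lit 4)))))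
    (envOK_cons p2014 (envOK_cons p2379 (envOK_cons p282 (envOK_cons p299 (envOK_cons p1426 envOK_nil))))) (by decide +kernel)

theorem p2478 : Fam (nat_lit 11) (nat_lit 12515549287260700718926651387278343494910641860911587722582305641065307152325689229057481244672) (nat_lit 10047511729213055146750590687220542291270747101918547469981033349414159149954811322634740117919329586201851710714937344) (nat_lit 10047511729213055146750590687220542291270747101918547469981033349414159149954811322634740117919329586201851710714937344) :=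
  chk_sound (Env.cons (nat_lit 6) (nat_lit 12515549411591509821373311926123905531615851886025625421919235001181301375615563482190825127936) (nat_lit 551628103189321313328975682296802608042445576727619347893214843863059694122600333568292031594892818891229554259525632) (Env.cons (nat_lit 6) (nat_lit 12515549411591509821373311926123905531615851886025625421919235001181301375615563482190825127936) (nat_lit 551628103189321278332914023574011556867523897852022517235359615629836157626455948654349847826319677988386683070971904) Env.nil))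
    (n (nat_lit 286) (b (b (b (n (nat_lit 336) (b (b (b (n (nat_lit 361) (b (n (nat_lit 362) (b (n (nat_lit 363) (b (b (n (nat_lit 335) (b (n (nat_lit 337) (b (l (nat_lit 0) (nat_lit 334) (nat_lit 334)) (l (nat_lit 4) (nat_lit 287) (nat_lit 388)))) (l (nat_lit 3) (nat_lit 335) (nat_lit 364)))) (n (nat_lit 360) (b (n (nat_lit 388) (b (l (nat_lit 0) (nat_lit 360) (nat_lit 389)) (l (nat_lit 4) (nat_lit 287) (nat_lit 337)))) (l (nat_lit 6) (nat_lit 285) (nat_lit 385))))) (n (nat_lit 335) (b (n (nat_lit 360) (b (l (nat_lit 6) (nat_lit 285) (nat_lit 385)) (l (nat_lit 3) (nat_lit 334) (nat_lit 334)))) (l (nat_lit 3) (nat_lit 335) (nat_lit 364)))))) (l (nat_lit 4) (nat_lit 286) (nat_lit 387)))) (l (nat_lit 5) (nat_lit 286) (nat_lit 386)))) (n (nat_lit 361) (b (n (nat_lit 362) (b (n (nat_lit 337) (b (n (nat_lit 363) (b (n (nat_lit 335) (b (l (nat_lit 3) (nat_lit 335) (nat_lit 364)) (l (nat_lit 0) (nat_lit 334) (nat_lit 334)))) (l (nat_lit 4) (nat_lit 287)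 (nat_lit 388)))) (l (nat_lit 7) (nat_lit 261) (nat_lit 261)))) (l (nat_lit 4) (nat_lit 286) (nat_lit 387)))) (l (nat_lit 5) (nat_lit 286) (nat_lit 386))))) (b (n (nat_lit 313) (b (n (nat_lit 285) (b (l (nat_lit 3) (nat_lit 285) (nat_lit 314)) (l (nat_lit 0) (nat_lit 284) (nat_lit 284)))) (n (nat_lit 337) (b (b (n (nat_lit 362) (b (l (nat_lit 7) (nat_lit 286) (nat_lit 387)) (l (nat_lit 7) (nat_lit 261) (nat_lit 261)))) (n (nat_lit 363) (b (b (n (nat_lit 335) (b (n (nat_lit 338) (b (l (nat_lit 0) (nat_lit 335) (nat_lit 364)) (l (nat_lit 7) (nat_lit 287) (nat_lit 388)))) (l (nat_lit 1) (nat_lit 309) (nat_lit 334)))) (n (nat_lit 364) (b (n (nat_lit 335) (b (l (nat_lit 1) (nat_lit 309) (nat_lit 334)) (l (nat_lit 0) (nat_lit 335) (nat_lit 338)))) (n (nat_lit 362) (b (l (nat_lit 7) (nat_lit 286) (nat_lit 387)) (l (nat_lit 3) (nat_lit 336) (nat_lit 365))))))) (n (nat_lit 362) (b (l (nat_lit 4) (nat_lit 287) (nat_lit 388)) (l (nat_lit 7) (nat_lit 286) (nat_lit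 387))))))) (n (nat_lit 261) (b (n (nat_lit 335) (b (l (nat_lit 6) (nat_lit 260) (nat_lit 360)) (l (nat_lit 1) (nat_lit 309) (nat_lit 334)))) (l (nat_lit 4) (nat_lit 236) (nat_lit 236)))))))) (n (nat_lit 261) (b (n (nat_lit 361) (b (n (nat_lit 360) (b (l (nat_lit 6) (nat_lit 285) (nat_lit 385)) (l (nat_lit 6) (nat_lit 260) (nat_lit 335)))) (l (nat_lit 5) (nat_lit 286) (nat_lit 386)))) (n (nat_lit 236) (b (l (nat_lit 4) (nat_lit 236) (nat_lit 337)) (l (nat_lit 4) (nat_lit 211) (nat_lit 211)))))))) (b (n (nat_lit 361) (b (n (nat_lit 360) (b (n (nat_lit 362) (b (n (nat_lit 335) (b (n (nat_lit 334) (b (l (nat_lit 3) (nat_lit 334) (nat_lit 363)) (l (nat_lit 0) (nat_lit 333) (nat_lit 333)))) (l (nat_lit 6) (nat_lit 260) (nat_lit 261)))) (l (nat_lit 4) (nat_lit 286) (nat_lit 387)))) (l (nat_lit 6) (nat_lit 285) (nat_lit 385)))) (l (nat_lit 5) (nat_lit 286) (nat_lit 386)))) (n (nat_lit 361) (b (n (nat_lit 362) (b (n (nat_lit 337) (b (n (nat_lit 360) (b (n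 (nat_lit 338) (b (l (nat_lit 2) (nat_lit 335) (nat_lit 339)) (l (nat_lit 1) (nat_lit 334) (nat_lit 359)))) (l (nat_lit 6) (nat_lit 285) (nat_lit 385)))) (l (nat_lit 7) (nat_lit 261) (nat_lit 261)))) (l (nat_lit 4) (nat_lit 286) (nat_lit 387)))) (l (nat_lit 5) (nat_lit 286) (nat_lit 386))))))) (r (nat_lit 0))) (b (r (nat_lit 1)) (n (nat_lit 285) (b (b (n (nat_lit 288) (b (n (nat_lit 289) (b (n (nat_lit 264) (b (l (nat_lit 1) (nat_lit 261) (nat_lit 265)) (l (nat_lit 1) (nat_lit 260) (nat_lit 263)))) (l (nat_lit 2) (nat_lit 286) (nat_lit 290)))) (n (nat_lit 284) (b (n (nat_lit 259) (b (l (nat_lit 3) (nat_lit 258) (nat_lit 258)) (l (nat_lit 3) (nat_lit 259) (nat_lit 260)))) (l (nat_lit 0) (nat_lit 283) (nat_lit 283)))))) (n (nat_lit 313) (b (l (nat_lit 3) (nat_lit 285) (nat_lit 314)) (l (nat_lit 0) (nat_lit 284) (nat_lit 284))))) (n (nat_lit 288) (b (b (n (nat_lit 313) (b (n (nat_lit 337) (b (n (nat_lit 263) (b (l (nat_lit 6) (nat_lit 237) (nat_lit 238))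 (l (nat_lit 1) (nat_lit 260) (nat_lit 264)))) (n (nat_lit 362) (b (l (nat_lit 7) (nat_lit 261) (nat_lit 261)) (l (nat_lit 5) (nat_lit 287) (nat_lit 387)))))) (l (nat_lit 3) (nat_lit 285) (nat_lit 314)))) (n (nat_lit 289) (b (n (nat_lit 264) (b (l (nat_lit 1) (nat_lit 261) (nat_lit 265)) (l (nat_lit 1) (nat_lit 260) (nat_lit 263)))) (l (nat_lit 2) (nat_lit 286) (nat_lit 290))))) (n (nat_lit 261) (b (n (nat_lit 236) (b (l (nat_lit 4) (nat_lit 236) (nat_lit 337)) (l (nat_lit 4) (nat_lit 211) (nat_lit 211)))) (n (nat_lit 289) (b (l (nat_lit 3) (nat_lit 260) (nat_lit 260)) (l (nat_lit 2) (nat_lit 286) (nat_lit 290)))))))))))) (b (n (nat_lit 285) (b (n (nat_lit 313) (b (l (nat_lit 3) (nat_lit 285) (nat_lit 314)) (l (nat_lit 0) (nat_lit 284) (nat_lit 284)))) (n (nat_lit 288) (b (n (nat_lit 289) (b (n (nat_lit 264) (b (l (nat_lit 1) (nat_lit 261) (nat_lit 265)) (l (nat_lit 1) (nat_lit 260) (nat_lit 263)))) (l (nat_lit 2) (nat_lit 286) (nat_lit 290)))) (n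 (nat_lit 260) (b (n (nat_lit 336) (b (n (nat_lit 235) (b (l (nat_lit 7) (nat_lit 235) (nat_lit 261)) (l (nat_lit 4) (nat_lit 210) (nat_lit 210)))) (l (nat_lit 7) (nat_lit 260) (nat_lit 361)))) (l (nat_lit 3) (nat_lit 259) (nat_lit 259)))))))) (n (nat_lit 361) (b (b (n (nat_lit 285) (b (n (nat_lit 313) (b (l (nat_lit 3) (nat_lit 285) (nat_lit 314)) (l (nat_lit 0) (nat_lit 284) (nat_lit 284)))) (n (nat_lit 288) (b (n (nat_lit 289) (b (n (nat_lit 264) (b (l (nat_lit 1) (nat_lit 261) (nat_lit 265)) (l (nat_lit 1) (nat_lit 260) (nat_lit 263)))) (l (nat_lit 2) (nat_lit 286) (nat_lit 290)))) (n (nat_lit 260) (b (l (nat_lit 3) (nat_lit 259) (nat_lit 259)) (l (nat_lit 7) (nat_lit 260) (nat_lit 336)))))))) (n (nat_lit 362) (b (b (n (nat_lit 387) (b (l (nat_lit 7) (nat_lit 286) (nat_lit 337)) (l (nat_lit 4) (nat_lit 286) (nat_lit 336)))) (n (nat_lit 337) (b (l (nat_lit 7) (nat_lit 286) (nat_lit 387)) (l (nat_lit 6) (nat_lit 286) (nat_lit 386))))) (b (n (nat_lit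 386) (b (l (nat_lit 5) (nat_lit 286) (nat_lit 336)) (l (nat_lit 6) (nat_lit 286) (nat_lit 337)))) (n (nat_lit 336) (b (l (nat_lit 5) (nat_lit 286) (nat_lit 386)) (l (nat_lit 4) (nat_lit 286) (nat_lit 387)))))))) (n (nat_lit 313) (b (b (n (nat_lit 288) (b (b (n (nat_lit 362) (b (b (n (nat_lit 363) (b (b (n (nat_lit 364) (b (b (n (nat_lit 360) (b (n (nat_lit 389) (b (l (nat_lit 0) (nat_lit 360) (nat_lit 388)) (l (nat_lit 0) (nat_lit 361) (nat_lit 390)))) (n (nat_lit 385) (b (l (nat_lit 2) (nat_lit 360) (nat_lit 386)) (l (nat_lit 2) (nat_lit 359) (nat_lit 384)))))) (n (nat_lit 365) (b (n (nat_lit 340) (b (l (nat_lit 1) (nat_lit 336) (nat_lit 339)) (l (nat_lit 1) (nat_lit 337) (nat_lit 341)))) (n (nat_lit 386) (b (l (nat_lit 2) (nat_lit 361) (nat_lit 387)) (l (nat_lit 2) (nat_lit 360) (nat_lit 385))))))) (n (nat_lit 365) (b (n (nat_lit 340) (b (l (nat_lit 1) (nat_lit 336) (nat_lit 339)) (l (nat_lit 1) (nat_lit 337) (nat_lit 341)))) (n (nat_lit 390) (b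 (l (nat_lit 0) (nat_lit 362) (nat_lit 391)) (l (nat_lit 0) (nat_lit 361) (nat_lit 389)))))))) (n (nat_lit 338) (b (n (nat_lit 289) (b (l (nat_lit 5) (nat_lit 263) (nat_lit 264)) (l (nat_lit 2) (nat_lit 286) (nat_lit 290)))) (l (nat_lit 6) (nat_lit 287) (nat_lit 387))))) (n (nat_lit 338) (b (n (nat_lit 289) (b (l (nat_lit 5) (nat_lit 263) (nat_lit 264)) (l (nat_lit 2) (nat_lit 286) (nat_lit 290)))) (l (nat_lit 7) (nat_lit 287) (nat_lit 388)))))) (n (nat_lit 337) (b (l (nat_lit 7) (nat_lit 286) (nat_lit 387)) (l (nat_lit 6) (nat_lit 286) (nat_lit 386))))) (b (n (nat_lit 289) (b (n (nat_lit 363) (b (n (nat_lit 337) (b (l (nat_lit 6) (nat_lit 286) (nat_lit 386)) (l (nat_lit 4) (nat_lit 287) (nat_lit 388)))) (n (nat_lit 264) (b (l (nat_lit 5) (nat_lit 263) (nat_lit 338)) (l (nat_lit 1) (nat_lit 261) (nat_lit 265)))))) (l (nat_lit 2) (nat_lit 286) (nat_lit 290)))) (n (nat_lit 363) (b (b (n (nat_lit 388) (b (l (nat_lit 7) (nat_lit 287) (nat_lit 338)) (l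 (nat_lit 4) (nat_lit 287) (nat_lit 337)))) (n (nat_lit 338) (b (l (nat_lit 7) (nat_lit 287) (nat_lit 388)) (l (nat_lit 6) (nat_lit 287) (nat_lit 387))))) (b (n (nat_lit 387) (b (l (nat_lit 5) (nat_lit 287) (nat_lit 337)) (l (nat_lit 6) (nat_lit 287) (nat_lit 338)))) (n (nat_lit 337) (b (l (nat_lit 5) (nat_lit 287) (nat_lit 387)) (l (nat_lit 4) (nat_lit 287) (nat_lit 388)))))))))) (n (nat_lit 264) (b (n (nat_lit 285) (b (l (nat_lit 0) (nat_lit 284) (nat_lit 284)) (l (nat_lit 1) (nat_lit 260) (nat_lit 263)))) (n (nat_lit 289) (b (l (nat_lit 1) (nat_lit 261) (nat_lit 265)) (l (nat_lit 2) (nat_lit 286) (nat_lit 290))))))) (n (nat_lit 362) (b (b (n (nat_lit 363) (b (b (n (nat_lit 364) (b (b (n (nat_lit 360) (b (n (nat_lit 389) (b (l (nat_lit 0) (nat_lit 360) (nat_lit 388)) (l (nat_lit 0) (nat_lit 361) (nat_lit 390)))) (n (nat_lit 385) (b (l (nat_lit 2) (nat_lit 360) (nat_lit 386)) (l (nat_lit 2) (nat_lit 359) (nat_lit 384)))))) (n (nat_lit 365) (b (n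 (nat_lit 340) (b (l (nat_lit 1) (nat_lit 336) (nat_lit 339)) (l (nat_lit 1) (nat_lit 337) (nat_lit 341)))) (n (nat_lit 386) (b (l (nat_lit 2) (nat_lit 361) (nat_lit 387)) (l (nat_lit 2) (nat_lit 360) (nat_lit 385))))))) (n (nat_lit 365) (b (n (nat_lit 340) (b (l (nat_lit 1) (nat_lit 336) (nat_lit 339)) (l (nat_lit 1) (nat_lit 337) (nat_lit 341)))) (n (nat_lit 390) (b (l (nat_lit 0) (nat_lit 362) (nat_lit 391)) (l (nat_lit 0) (nat_lit 361) (nat_lit 389)))))))) (n (nat_lit 338) (b (l (nat_lit 7) (nat_lit 287) (nat_lit 388)) (l (nat_lit 6) (nat_lit 287) (nat_lit 387))))) (b (n (nat_lit 338) (b (n (nat_lit 364) (b (n (nat_lit 339) (b (l (nat_lit 1) (nat_lit 336) (nat_lit 340)) (l (nat_lit 1) (nat_lit 335) (nat_lit 360)))) (l (nat_lit 4) (nat_lit 288) (nat_lit 389)))) (l (nat_lit 6) (nat_lit 287) (nat_lit 387)))) (n (nat_lit 338) (b (n (nat_lit 364) (b (n (nat_lit 339) (b (l (nat_lit 1) (nat_lit 336) (nat_lit 340)) (l (nat_lit 1) (nat_lit 335) (nat_lit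 360)))) (l (nat_lit 4) (nat_lit 288) (nat_lit 389)))) (l (nat_lit 7) (nat_lit 287) (nat_lit 388))))))) (n (nat_lit 363) (b (b (n (nat_lit 388) (b (l (nat_lit 7) (nat_lit 287) (nat_lit 338)) (l (nat_lit 4) (nat_lit 287) (nat_lit 337)))) (n (nat_lit 338) (b (l (nat_lit 7) (nat_lit 287) (nat_lit 388)) (l (nat_lit 6) (nat_lit 287) (nat_lit 387))))) (b (n (nat_lit 387) (b (l (nat_lit 5) (nat_lit 287) (nat_lit 337)) (l (nat_lit 6) (nat_lit 287) (nat_lit 338)))) (n (nat_lit 337) (b (l (nat_lit 5) (nat_lit 287) (nat_lit 387)) (l (nat_lit 4) (nat_lit 287) (nat_lit 388)))))))) (n (nat_lit 337) (b (l (nat_lit 5) (nat_lit 262) (nat_lit 263)) (l (nat_lit 6) (nat_lit 286) (nat_lit 386)))))))) (n (nat_lit 285) (b (l (nat_lit 3) (nat_lit 285) (nat_lit 314)) (l (nat_lit 0) (nat_lit 284) (nat_lit 284))))) (n (nat_lit 289) (b (b (n (nat_lit 362) (b (b (n (nat_lit 363) (b (b (n (nat_lit 339) (b (n (nat_lit 340) (b (l (nat_lit 0) (nat_lit 311) (nat_lit 314)) (l (nat_lit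 1) (nat_lit 336) (nat_lit 364)))) (n (nat_lit 338) (b (l (nat_lit 1) (nat_lit 335) (nat_lit 360)) (l (nat_lit 7) (nat_lit 287) (nat_lit 388)))))) (n (nat_lit 288) (b (n (nat_lit 264) (b (l (nat_lit 5) (nat_lit 263) (nat_lit 338)) (l (nat_lit 1) (nat_lit 261) (nat_lit 265)))) (n (nat_lit 337) (b (l (nat_lit 5) (nat_lit 262) (nat_lit 263)) (l (nat_lit 6) (nat_lit 286) (nat_lit 386))))))) (n (nat_lit 337) (b (l (nat_lit 6) (nat_lit 286) (nat_lit 386)) (l (nat_lit 4) (nat_lit 287) (nat_lit 388)))))) (n (nat_lit 363) (b (b (n (nat_lit 338) (b (n (nat_lit 288) (b (l (nat_lit 5) (nat_lit 263) (nat_lit 264)) (l (nat_lit 6) (nat_lit 287) (nat_lit 387)))) (l (nat_lit 7) (nat_lit 287) (nat_lit 388)))) (n (nat_lit 337) (b (l (nat_lit 4) (nat_lit 287) (nat_lit 388)) (l (nat_lit 7) (nat_lit 286) (nat_lit 387))))) (b (n (nat_lit 388) (b (l (nat_lit 7) (nat_lit 287) (nat_lit 338)) (l (nat_lit 4) (nat_lit 287) (nat_lit 337)))) (n (nat_lit 288) (b (n (nat_lit 264)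 (b (l (nat_lit 5) (nat_lit 263) (nat_lit 338)) (l (nat_lit 1) (nat_lit 261) (nat_lit 265)))) (n (nat_lit 337) (b (l (nat_lit 5) (nat_lit 287) (nat_lit 387)) (l (nat_lit 5) (nat_lit 262) (nat_lit 263)))))))))) (b (n (nat_lit 337) (b (l (nat_lit 7) (nat_lit 286) (nat_lit 387)) (l (nat_lit 6) (nat_lit 286) (nat_lit 386)))) (n (nat_lit 363) (b (b (n (nat_lit 338) (b (n (nat_lit 288) (b (l (nat_lit 5) (nat_lit 263) (nat_lit 264)) (l (nat_lit 6) (nat_lit 287) (nat_lit 387)))) (n (nat_lit 339) (b (n (nat_lit 340) (b (l (nat_lit 1) (nat_lit 336) (nat_lit 364)) (l (nat_lit 2) (nat_lit 337) (nat_lit 341)))) (l (nat_lit 1) (nat_lit 335) (nat_lit 360)))))) (n (nat_lit 364) (b (b (n (nat_lit 360) (b (n (nat_lit 389) (b (l (nat_lit 0) (nat_lit 360) (nat_lit 388)) (l (nat_lit 0) (nat_lit 361) (nat_lit 390)))) (n (nat_lit 385) (b (l (nat_lit 2) (nat_lit 360) (nat_lit 386)) (l (nat_lit 2) (nat_lit 359) (nat_lit 384)))))) (n (nat_lit 365) (b (n (nat_lit 340) (b (l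 (nat_lit 1) (nat_lit 336) (nat_lit 339)) (l (nat_lit 1) (nat_lit 337) (nat_lit 341)))) (n (nat_lit 386) (b (l (nat_lit 2) (nat_lit 361) (nat_lit 387)) (l (nat_lit 2) (nat_lit 360) (nat_lit 385))))))) (n (nat_lit 365) (b (n (nat_lit 340) (b (l (nat_lit 1) (nat_lit 336) (nat_lit 339)) (l (nat_lit 1) (nat_lit 337) (nat_lit 341)))) (n (nat_lit 390) (b (l (nat_lit 0) (nat_lit 362) (nat_lit 391)) (l (nat_lit 0) (nat_lit 361) (nat_lit 389))))))))) (b (n (nat_lit 338) (b (n (nat_lit 288) (b (l (nat_lit 5) (nat_lit 263) (nat_lit 264)) (l (nat_lit 6) (nat_lit 287) (nat_lit 387)))) (l (nat_lit 7) (nat_lit 287) (nat_lit 388)))) (n (nat_lit 339) (b (n (nat_lit 340) (b (l (nat_lit 0) (nat_lit 311) (nat_lit 314)) (l (nat_lit 1) (nat_lit 336) (nat_lit 364)))) (n (nat_lit 338) (b (l (nat_lit 1) (nat_lit 335) (nat_lit 360)) (l (nat_lit 7) (nat_lit 287) (nat_lit 388)))))))))))) (n (nat_lit 288) (b (n (nat_lit 264) (b (n (nat_lit 263) (b (n (nat_lit 238) (b (l (nat_lit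 6) (nat_lit 237) (nat_lit 337)) (l (nat_lit 6) (nat_lit 212) (nat_lit 213)))) (n (nat_lit 338) (b (l (nat_lit 5) (nat_lit 263) (nat_lit 363)) (l (nat_lit 5) (nat_lit 238) (nat_lit 239)))))) (l (nat_lit 1) (nat_lit 261) (nat_lit 265)))) (l (nat_lit 2) (nat_lit 286) (nat_lit 290))))) (b (n (nat_lit 290) (b (l (nat_lit 1) (nat_lit 286) (nat_lit 314)) (l (nat_lit 2) (nat_lit 286) (nat_lit 288)))) (n (nat_lit 314) (b (n (nat_lit 339) (b (n (nat_lit 363) (b (b (n (nat_lit 362) (b (n (nat_lit 337) (b (l (nat_lit 7) (nat_lit 286) (nat_lit 387)) (l (nat_lit 6) (nat_lit 286) (nat_lit 386)))) (n (nat_lit 338) (b (l (nat_lit 1) (nat_lit 335) (nat_lit 360)) (l (nat_lit 6) (nat_lit 263) (nat_lit 264)))))) (n (nat_lit 338) (b (l (nat_lit 6) (nat_lit 263) (nat_lit 264)) (l (nat_lit 5) (nat_lit 288) (nat_lit 388))))) (n (nat_lit 362) (b (n (nat_lit 364) (b (n (nat_lit 390) (b (l (nat_lit 4) (nat_lit 289) (nat_lit 365)) (l (nat_lit 0) (nat_lit 361) (nat_lit 389))))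 (l (nat_lit 6) (nat_lit 288) (nat_lit 388)))) (n (nat_lit 337) (b (l (nat_lit 7) (nat_lit 286) (nat_lit 387)) (l (nat_lit 6) (nat_lit 286) (nat_lit 386)))))))) (l (nat_lit 0) (nat_lit 311) (nat_lit 340)))) (l (nat_lit 1) (nat_lit 286) (nat_lit 290))))))))))))))
    (envOK_cons p520 (envOK_cons p526 envOK_nil)) (by decide +kernel)

theorem p2498 : Fam (nat_lit 6) (nat_lit 12515549287260708129620362575514850603453682416937690331861324242061405677611065735497778200576) (nat_lit 1103256209901456535814650225210450913389054821546683999046077386214177628158446444522521683993282744042769686183542784) (nat_lit 1103256209901456535814650225210450913389054821546683999046077386214177628158446444522521683993282744042769686183542784) :=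
  chk_sound Env.nil
    (n (nat_lit 337) (b (b (n (nat_lit 362) (b (n (nat_lit 286) (b (l (nat_lit 7) (nat_lit 286) (nat_lit 387)) (l (nat_lit 7) (nat_lit 261) (nat_lit 261)))) (n (nat_lit 363) (b (l (nat_lit 4) (nat_lit 262) (nat_lit 338)) (l (nat_lit 4) (nat_lit 287) (nat_lit 388)))))) (n (nat_lit 362) (b (n (nat_lit 261) (b (l (nat_lit 7) (nat_lit 261) (nat_lit 286)) (l (nat_lit 7) (nat_lit 236) (nat_lit 236)))) (n (nat_lit 361) (b (l (nat_lit 6) (nat_lit 286) (nat_lit 386)) (l (nat_lit 6) (nat_lit 261) (nat_lit 336))))))) (b (n (nat_lit 362) (b (n (nat_lit 361) (b (l (nat_lit 6) (nat_lit 286) (nat_lit 386)) (l (nat_lit 6) (nat_lit 261) (nat_lit 336)))) (n (nat_lit 363) (b (l (nat_lit 4) (nat_lit 262) (nat_lit 338)) (l (nat_lit 4) (nat_lit 287) (nat_lit 388)))))) (n (nat_lit 336) (b (n (nat_lit 335) (b (n (nat_lit 360) (b (n (nat_lit 338) (b (l (nat_lit 4) (nat_lit 262) (nat_lit 363)) (l (nat_lit 2) (nat_lit 334) (nat_lit 359)))) (n (nat_lit 261)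 (b (l (nat_lit 7) (nat_lit 236) (nat_lit 236)) (l (nat_lit 6) (nat_lit 260) (nat_lit 286)))))) (n (nat_lit 313) (b (l (nat_lit 2) (nat_lit 310) (nat_lit 314)) (l (nat_lit 1) (nat_lit 309) (nat_lit 334)))))) (l (nat_lit 6) (nat_lit 261) (nat_lit 361)))))))
    envOK_nil (by decide +kernel)

theorem p2501 : Fam (nat_lit 8) (nat_lit 12515549287260708129620362575514850603453682416937690331861324242061405677611065735497778200576) (nat_lit 788040269537534160716776267976838582254432913898298848500330870831322042874149024181942018052261267459621483876188160) (nat_lit 788040269537534160716776267976838582254432913898298848500330870831322042874149024181942018052261267459621483876188160) :=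
  chk_sound Env.nil
    (n (nat_lit 337) (b (b (n (nat_lit 362) (b (n (nat_lit 361) (b (l (nat_lit 6) (nat_lit 286) (nat_lit 386)) (l (nat_lit 6) (nat_lit 261) (nat_lit 336)))) (n (nat_lit 363) (b (l (nat_lit 4) (nat_lit 262) (nat_lit 338)) (l (nat_lit 4) (nat_lit 287) (nat_lit 388)))))) (n (nat_lit 362) (b (n (nat_lit 263) (b (l (nat_lit 5) (nat_lit 237) (nat_lit 238)) (l (nat_lit 5) (nat_lit 262) (nat_lit 288)))) (n (nat_lit 361) (b (l (nat_lit 6) (nat_lit 286) (nat_lit 386)) (l (nat_lit 6) (nat_lit 261) (nat_lit 336))))))) (b (n (nat_lit 362) (b (n (nat_lit 363) (b (l (nat_lit 4) (nat_lit 262) (nat_lit 338)) (l (nat_lit 4) (nat_lit 287) (nat_lit 388)))) (n (nat_lit 263) (b (l (nat_lit 5) (nat_lit 237) (nat_lit 238)) (l (nat_lit 5) (nat_lit 262) (nat_lit 288)))))) (n (nat_lit 336) (b (n (nat_lit 313) (b (n (nat_lit 335) (b (l (nat_lit 1) (nat_lit 309) (nat_lit 334)) (l (nat_lit 2) (nat_lit 310) (nat_lit 314)))) (n (nat_lit 338) (b (n (nat_lit 263)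 (b (n (nat_lit 339) (b (n (nat_lit 364) (b (l (nat_lit 4) (nat_lit 263) (nat_lit 288)) (l (nat_lit 0) (nat_lit 336) (nat_lit 365)))) (l (nat_lit 3) (nat_lit 311) (nat_lit 340)))) (l (nat_lit 5) (nat_lit 237) (nat_lit 238)))) (l (nat_lit 4) (nat_lit 262) (nat_lit 363)))))) (l (nat_lit 6) (nat_lit 261) (nat_lit 361)))))))
    envOK_nil (by decide +kernel)

theorem p2516 : Fam (nat_lit 19) (nat_lit 12515549038599082514033330309587219421500221810683512323908446920833318705745940722790793478144) (nat_lit 8379880305850102236372728556880530574980656024662614505043824643455454521540835175716494841796545344105544366529992301817092513412059543469358358118531072) (nat_lit 8379880305850102236372728556880530574980656024662614505043824643455454521540835175716494841796545344105544366529992301817092513412059543469358358118531072) :=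
  chk_sound (Env.cons (nat_lit 18) (nat_lit 12515549287260700718926651387278343494910641860911587722582305641065307152325689229057481244672) (nat_lit 8379880305850102236372728556880530574980656024662614225075731871229928201860550104619549597687362430309426332363321002415516971947763367112602802400002048) (Env.cons (nat_lit 11) (nat_lit 12515549287260700718926651387278343494910641860911587722582305641065307152325689229057481244672) (nat_lit 10047511729213055146750590687220542291270747101918547469981033349414159149954811322634740117919329586201851710714937344) (Env.cons (nat_lit 6) (nat_lit 12515549287260708129620362575514850603453682416937690331861324242061405677611065735497778200576) (nat_lit 1103256209901456535814650225210450913389054821546683999046077386214177628158446444522521683993282744042769686183542784) (Env.cons (nat_lit 8) (nat_lit 12515549287260708129620362575514850603453682416937690331861324242061405677611065735497778200576) (nat_lit 788040269537534160716776267976838582254432913898298848500330870831322042874149024181942018052261267459621483876188160)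 Env.nil))))
    (n (nat_lit 287) (b (b (b (b (r (nat_lit 0)) (r (nat_lit 1))) (b (n (nat_lit 262) (b (b (n (nat_lit 237) (b (b (n (nat_lit 337) (b (n (nat_lit 236) (b (l (nat_lit 7) (nat_lit 211) (nat_lit 211)) (l (nat_lit 7) (nat_lit 236) (nat_lit 261)))) (n (nat_lit 338) (b (l (nat_lit 4) (nat_lit 237) (nat_lit 313)) (l (nat_lit 4) (nat_lit 262) (nat_lit 363)))))) (n (nat_lit 212) (b (n (nat_lit 211) (b (l (nat_lit 7) (nat_lit 211) (nat_lit 236)) (l (nat_lit 7) (nat_lit 186) (nat_lit 186)))) (l (nat_lit 6) (nat_lit 211) (nat_lit 286))))) (n (nat_lit 212) (b (n (nat_lit 313) (b (l (nat_lit 4) (nat_lit 212) (nat_lit 288)) (l (nat_lit 4) (nat_lit 237) (nat_lit 338)))) (l (nat_lit 6) (nat_lit 211) (nat_lit 286)))))) (n (nat_lit 237) (b (n (nat_lit 212) (b (n (nat_lit 213) (b (l (nat_lit 5) (nat_lit 187) (nat_lit 188)) (l (nat_lit 5) (nat_lit 212) (nat_lit 238)))) (n (nat_lit 211) (b (l (nat_lit 7) (nat_lit 211) (nat_lit 236)) (l (nat_lit 7) (nat_lit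 186) (nat_lit 186)))))) (l (nat_lit 6) (nat_lit 236) (nat_lit 336))))) (b (n (nat_lit 336) (b (n (nat_lit 361) (b (l (nat_lit 5) (nat_lit 286) (nat_lit 386)) (l (nat_lit 6) (nat_lit 261) (nat_lit 337)))) (l (nat_lit 6) (nat_lit 236) (nat_lit 237)))) (n (nat_lit 337) (b (b (n (nat_lit 263) (b (n (nat_lit 261) (b (n (nat_lit 260) (b (b (n (nat_lit 259) (b (n (nat_lit 234) (b (l (nat_lit 3) (nat_lit 234) (nat_lit 235)) (l (nat_lit 3) (nat_lit 233) (nat_lit 233)))) (n (nat_lit 284) (b (l (nat_lit 2) (nat_lit 258) (nat_lit 283)) (l (nat_lit 2) (nat_lit 259) (nat_lit 285)))))) (n (nat_lit 288) (b (l (nat_lit 0) (nat_lit 260) (nat_lit 289)) (l (nat_lit 0) (nat_lit 259) (nat_lit 259))))) (n (nat_lit 264) (b (n (nat_lit 285) (b (l (nat_lit 2) (nat_lit 259) (nat_lit 284)) (l (nat_lit 2) (nat_lit 260) (nat_lit 286)))) (n (nat_lit 289) (b (l (nat_lit 0) (nat_lit 261) (nat_lit 290)) (l (nat_lit 0) (nat_lit 260) (nat_lit 288)))))))) (l (nat_lit 7) (nat_lit 236)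 (nat_lit 236)))) (l (nat_lit 5) (nat_lit 237) (nat_lit 238)))) (n (nat_lit 336) (b (n (nat_lit 335) (b (n (nat_lit 360) (b (n (nat_lit 338) (b (l (nat_lit 4) (nat_lit 262) (nat_lit 363)) (l (nat_lit 2) (nat_lit 334) (nat_lit 359)))) (n (nat_lit 261) (b (l (nat_lit 7) (nat_lit 236) (nat_lit 236)) (l (nat_lit 6) (nat_lit 260) (nat_lit 286)))))) (n (nat_lit 313) (b (l (nat_lit 2) (nat_lit 310) (nat_lit 314)) (l (nat_lit 1) (nat_lit 309) (nat_lit 334)))))) (l (nat_lit 6) (nat_lit 261) (nat_lit 361))))) (n (nat_lit 336) (b (n (nat_lit 313) (b (n (nat_lit 335) (b (l (nat_lit 1) (nat_lit 309) (nat_lit 334)) (l (nat_lit 2) (nat_lit 310) (nat_lit 314)))) (n (nat_lit 338) (b (n (nat_lit 263) (b (n (nat_lit 339) (b (n (nat_lit 364) (b (l (nat_lit 4) (nat_lit 263) (nat_lit 288)) (l (nat_lit 0) (nat_lit 336) (nat_lit 365)))) (l (nat_lit 3) (nat_lit 311) (nat_lit 340)))) (l (nat_lit 5) (nat_lit 237) (nat_lit 238)))) (l (nat_lit 4) (nat_lit 262) (nat_lit 363))))))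 (l (nat_lit 6) (nat_lit 261) (nat_lit 361))))))))) (n (nat_lit 262) (b (b (n (nat_lit 237) (b (b (n (nat_lit 337) (b (n (nat_lit 236) (b (l (nat_lit 7) (nat_lit 211) (nat_lit 211)) (l (nat_lit 7) (nat_lit 236) (nat_lit 261)))) (n (nat_lit 238) (b (l (nat_lit 5) (nat_lit 237) (nat_lit 263)) (l (nat_lit 5) (nat_lit 212) (nat_lit 213)))))) (n (nat_lit 212) (b (n (nat_lit 211) (b (l (nat_lit 7) (nat_lit 211) (nat_lit 236)) (l (nat_lit 7) (nat_lit 186) (nat_lit 186)))) (l (nat_lit 6) (nat_lit 211) (nat_lit 286))))) (n (nat_lit 212) (b (n (nat_lit 213) (b (l (nat_lit 5) (nat_lit 187) (nat_lit 188)) (l (nat_lit 5) (nat_lit 212) (nat_lit 238)))) (l (nat_lit 6) (nat_lit 211) (nat_lit 286)))))) (n (nat_lit 237) (b (n (nat_lit 212) (b (n (nat_lit 211) (b (l (nat_lit 7) (nat_lit 211) (nat_lit 236)) (l (nat_lit 7) (nat_lit 186) (nat_lit 186)))) (l (nat_lit 6) (nat_lit 211) (nat_lit 286)))) (l (nat_lit 6) (nat_lit 236) (nat_lit 336))))) (b (n (nat_lit 336) (b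 (n (nat_lit 361) (b (l (nat_lit 5) (nat_lit 286) (nat_lit 386)) (l (nat_lit 6) (nat_lit 261) (nat_lit 337)))) (l (nat_lit 6) (nat_lit 236) (nat_lit 237)))) (n (nat_lit 337) (b (b (n (nat_lit 261) (b (n (nat_lit 263) (b (n (nat_lit 260) (b (n (nat_lit 286) (b (n (nat_lit 264) (b (l (nat_lit 2) (nat_lit 260) (nat_lit 285)) (l (nat_lit 2) (nat_lit 261) (nat_lit 265)))) (n (nat_lit 235) (b (l (nat_lit 7) (nat_lit 235) (nat_lit 336)) (l (nat_lit 3) (nat_lit 234) (nat_lit 234)))))) (n (nat_lit 288) (b (l (nat_lit 0) (nat_lit 260) (nat_lit 289)) (l (nat_lit 0) (nat_lit 259) (nat_lit 259)))))) (l (nat_lit 5) (nat_lit 237) (nat_lit 238)))) (l (nat_lit 7) (nat_lit 236) (nat_lit 236)))) (n (nat_lit 362) (b (n (nat_lit 286) (b (l (nat_lit 7) (nat_lit 286) (nat_lit 387)) (l (nat_lit 7) (nat_lit 261) (nat_lit 261)))) (n (nat_lit 263) (b (l (nat_lit 5) (nat_lit 237) (nat_lit 238)) (l (nat_lit 5) (nat_lit 262) (nat_lit 288))))))) (b (n (nat_lit 362) (b (n (nat_lit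 261) (b (l (nat_lit 7) (nat_lit 261) (nat_lit 286)) (l (nat_lit 7) (nat_lit 236) (nat_lit 236)))) (n (nat_lit 361) (b (l (nat_lit 6) (nat_lit 286) (nat_lit 386)) (l (nat_lit 6) (nat_lit 261) (nat_lit 336)))))) (n (nat_lit 362) (b (n (nat_lit 263) (b (l (nat_lit 5) (nat_lit 237) (nat_lit 238)) (l (nat_lit 5) (nat_lit 262) (nat_lit 288)))) (n (nat_lit 361) (b (l (nat_lit 6) (nat_lit 286) (nat_lit 386)) (l (nat_lit 6) (nat_lit 261) (nat_lit 336)))))))))))))) (b (b (n (nat_lit 262) (b (b (r (nat_lit 2)) (n (nat_lit 237) (b (b (n (nat_lit 337) (b (n (nat_lit 236) (b (l (nat_lit 7) (nat_lit 211) (nat_lit 211)) (l (nat_lit 7) (nat_lit 236) (nat_lit 261)))) (n (nat_lit 338) (b (l (nat_lit 4) (nat_lit 237) (nat_lit 313)) (l (nat_lit 4) (nat_lit 262) (nat_lit 363)))))) (n (nat_lit 212) (b (n (nat_lit 211) (b (l (nat_lit 7) (nat_lit 211) (nat_lit 236)) (l (nat_lit 7) (nat_lit 186) (nat_lit 186)))) (l (nat_lit 6) (nat_lit 211) (nat_lit 286))))) (n (nat_lit 212)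 (b (n (nat_lit 313) (b (l (nat_lit 4) (nat_lit 212) (nat_lit 288)) (l (nat_lit 4) (nat_lit 237) (nat_lit 338)))) (l (nat_lit 6) (nat_lit 211) (nat_lit 286))))))) (b (n (nat_lit 237) (b (n (nat_lit 212) (b (n (nat_lit 211) (b (l (nat_lit 7) (nat_lit 211) (nat_lit 236)) (l (nat_lit 7) (nat_lit 186) (nat_lit 186)))) (l (nat_lit 6) (nat_lit 211) (nat_lit 286)))) (l (nat_lit 6) (nat_lit 236) (nat_lit 336)))) (n (nat_lit 336) (b (n (nat_lit 361) (b (l (nat_lit 5) (nat_lit 286) (nat_lit 386)) (l (nat_lit 6) (nat_lit 261) (nat_lit 337)))) (l (nat_lit 6) (nat_lit 236) (nat_lit 237))))))) (n (nat_lit 262) (b (b (r (nat_lit 2)) (n (nat_lit 237) (b (b (n (nat_lit 337) (b (n (nat_lit 236) (b (l (nat_lit 7) (nat_lit 211) (nat_lit 211)) (l (nat_lit 7) (nat_lit 236) (nat_lit 261)))) (n (nat_lit 238) (b (l (nat_lit 5) (nat_lit 237) (nat_lit 263)) (l (nat_lit 5) (nat_lit 212) (nat_lit 213)))))) (n (nat_lit 212) (b (n (nat_lit 211) (b (l (nat_lit 7) (nat_lit 211) (nat_lit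 236)) (l (nat_lit 7) (nat_lit 186) (nat_lit 186)))) (l (nat_lit 6) (nat_lit 211) (nat_lit 286))))) (n (nat_lit 212) (b (n (nat_lit 213) (b (l (nat_lit 5) (nat_lit 187) (nat_lit 188)) (l (nat_lit 5) (nat_lit 212) (nat_lit 238)))) (l (nat_lit 6) (nat_lit 211) (nat_lit 286))))))) (b (n (nat_lit 237) (b (n (nat_lit 212) (b (n (nat_lit 213) (b (l (nat_lit 5) (nat_lit 187) (nat_lit 188)) (l (nat_lit 5) (nat_lit 212) (nat_lit 238)))) (n (nat_lit 211) (b (l (nat_lit 7) (nat_lit 211) (nat_lit 236)) (l (nat_lit 7) (nat_lit 186) (nat_lit 186)))))) (l (nat_lit 6) (nat_lit 236) (nat_lit 336)))) (n (nat_lit 336) (b (n (nat_lit 361) (b (l (nat_lit 5) (nat_lit 286) (nat_lit 386)) (l (nat_lit 6) (nat_lit 261) (nat_lit 337)))) (l (nat_lit 6) (nat_lit 236) (nat_lit 237)))))))) (b (n (nat_lit 262) (b (b (r (nat_lit 3)) (n (nat_lit 237) (b (n (nat_lit 212) (b (n (nat_lit 213) (b (l (nat_lit 5) (nat_lit 187) (nat_lit 188)) (l (nat_lit 5) (nat_lit 212) (nat_lit 238))))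 (n (nat_lit 211) (b (l (nat_lit 7) (nat_lit 211) (nat_lit 236)) (l (nat_lit 7) (nat_lit 186) (nat_lit 186)))))) (l (nat_lit 6) (nat_lit 236) (nat_lit 336))))) (b (n (nat_lit 336) (b (n (nat_lit 361) (b (l (nat_lit 5) (nat_lit 286) (nat_lit 386)) (l (nat_lit 6) (nat_lit 261) (nat_lit 337)))) (l (nat_lit 6) (nat_lit 236) (nat_lit 237)))) (n (nat_lit 337) (b (b (n (nat_lit 362) (b (n (nat_lit 363) (b (l (nat_lit 4) (nat_lit 262) (nat_lit 338)) (l (nat_lit 4) (nat_lit 287) (nat_lit 388)))) (n (nat_lit 263) (b (l (nat_lit 5) (nat_lit 237) (nat_lit 238)) (l (nat_lit 5) (nat_lit 262) (nat_lit 288)))))) (n (nat_lit 237) (b (n (nat_lit 338) (b (l (nat_lit 4) (nat_lit 237) (nat_lit 313)) (l (nat_lit 4) (nat_lit 262) (nat_lit 363)))) (n (nat_lit 236) (b (l (nat_lit 7) (nat_lit 211) (nat_lit 211)) (l (nat_lit 7) (nat_lit 236) (nat_lit 261))))))) (n (nat_lit 237) (b (n (nat_lit 238) (b (l (nat_lit 5) (nat_lit 237) (nat_lit 263)) (l (nat_lit 5) (nat_lit 212) (nat_lit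 213)))) (n (nat_lit 236) (b (l (nat_lit 7) (nat_lit 211) (nat_lit 211)) (l (nat_lit 7) (nat_lit 236) (nat_lit 261))))))))))) (n (nat_lit 262) (b (b (r (nat_lit 3)) (n (nat_lit 337) (b (b (n (nat_lit 237) (b (n (nat_lit 338) (b (l (nat_lit 4) (nat_lit 237) (nat_lit 313)) (l (nat_lit 4) (nat_lit 262) (nat_lit 363)))) (n (nat_lit 238) (b (l (nat_lit 5) (nat_lit 237) (nat_lit 263)) (l (nat_lit 5) (nat_lit 212) (nat_lit 213)))))) (n (nat_lit 362) (b (n (nat_lit 286) (b (l (nat_lit 7) (nat_lit 286) (nat_lit 387)) (l (nat_lit 7) (nat_lit 261) (nat_lit 261)))) (n (nat_lit 263) (b (l (nat_lit 5) (nat_lit 237) (nat_lit 238)) (l (nat_lit 5) (nat_lit 262) (nat_lit 288))))))) (n (nat_lit 362) (b (n (nat_lit 286) (b (l (nat_lit 7) (nat_lit 286) (nat_lit 387)) (l (nat_lit 7) (nat_lit 261) (nat_lit 261)))) (n (nat_lit 363) (b (l (nat_lit 4) (nat_lit 262) (nat_lit 338)) (l (nat_lit 4) (nat_lit 287) (nat_lit 388))))))))) (n (nat_lit 336) (b (n (nat_lit 361) (b (l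 (nat_lit 5) (nat_lit 286) (nat_lit 386)) (l (nat_lit 5) (nat_lit 261) (nat_lit 286)))) (l (nat_lit 6) (nat_lit 236) (nat_lit 237))))))))) (b (n (nat_lit 262) (b (b (n (nat_lit 237) (b (n (nat_lit 212) (b (n (nat_lit 211) (b (l (nat_lit 7) (nat_lit 211) (nat_lit 236)) (l (nat_lit 7) (nat_lit 186) (nat_lit 186)))) (l (nat_lit 6) (nat_lit 211) (nat_lit 286)))) (l (nat_lit 6) (nat_lit 236) (nat_lit 336)))) (n (nat_lit 237) (b (n (nat_lit 212) (b (n (nat_lit 211) (b (l (nat_lit 7) (nat_lit 211) (nat_lit 236)) (l (nat_lit 7) (nat_lit 186) (nat_lit 186)))) (l (nat_lit 6) (nat_lit 211) (nat_lit 286)))) (n (nat_lit 337) (b (n (nat_lit 238) (b (l (nat_lit 5) (nat_lit 237) (nat_lit 263)) (l (nat_lit 5) (nat_lit 212) (nat_lit 213)))) (n (nat_lit 338) (b (l (nat_lit 4) (nat_lit 237) (nat_lit 313)) (l (nat_lit 4) (nat_lit 262) (nat_lit 363))))))))) (r (nat_lit 3)))) (n (nat_lit 262) (b (b (b (n (nat_lit 337) (b (b (n (nat_lit 362) (b (n (nat_lit 286) (b (l (nat_lit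 7) (nat_lit 286) (nat_lit 387)) (l (nat_lit 7) (nat_lit 261) (nat_lit 261)))) (n (nat_lit 363) (b (l (nat_lit 4) (nat_lit 262) (nat_lit 338)) (l (nat_lit 4) (nat_lit 287) (nat_lit 388)))))) (n (nat_lit 362) (b (n (nat_lit 363) (b (l (nat_lit 4) (nat_lit 262) (nat_lit 338)) (l (nat_lit 4) (nat_lit 287) (nat_lit 388)))) (n (nat_lit 263) (b (l (nat_lit 5) (nat_lit 237) (nat_lit 238)) (l (nat_lit 5) (nat_lit 262) (nat_lit 288))))))) (n (nat_lit 263) (b (n (nat_lit 261) (b (n (nat_lit 260) (b (b (n (nat_lit 259) (b (n (nat_lit 234) (b (l (nat_lit 3) (nat_lit 234) (nat_lit 235)) (l (nat_lit 3) (nat_lit 233) (nat_lit 233)))) (n (nat_lit 284) (b (l (nat_lit 2) (nat_lit 258) (nat_lit 283)) (l (nat_lit 2) (nat_lit 259) (nat_lit 285)))))) (n (nat_lit 288) (b (l (nat_lit 0) (nat_lit 260) (nat_lit 289)) (l (nat_lit 0) (nat_lit 259) (nat_lit 259))))) (n (nat_lit 264) (b (n (nat_lit 285) (b (l (nat_lit 2) (nat_lit 259) (nat_lit 284)) (l (nat_lit 2) (nat_lit 260)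 (nat_lit 286)))) (n (nat_lit 289) (b (l (nat_lit 0) (nat_lit 261) (nat_lit 290)) (l (nat_lit 0) (nat_lit 260) (nat_lit 288)))))))) (l (nat_lit 7) (nat_lit 236) (nat_lit 236)))) (l (nat_lit 5) (nat_lit 237) (nat_lit 238)))))) (n (nat_lit 337) (b (b (n (nat_lit 362) (b (n (nat_lit 363) (b (l (nat_lit 4) (nat_lit 262) (nat_lit 338)) (l (nat_lit 4) (nat_lit 287) (nat_lit 388)))) (n (nat_lit 263) (b (l (nat_lit 5) (nat_lit 237) (nat_lit 238)) (l (nat_lit 5) (nat_lit 262) (nat_lit 288)))))) (n (nat_lit 237) (b (n (nat_lit 338) (b (l (nat_lit 4) (nat_lit 237) (nat_lit 313)) (l (nat_lit 4) (nat_lit 262) (nat_lit 363)))) (n (nat_lit 236) (b (l (nat_lit 7) (nat_lit 211) (nat_lit 211)) (l (nat_lit 7) (nat_lit 236) (nat_lit 261))))))) (n (nat_lit 237) (b (n (nat_lit 238) (b (l (nat_lit 5) (nat_lit 237) (nat_lit 263)) (l (nat_lit 5) (nat_lit 212) (nat_lit 213)))) (n (nat_lit 236) (b (l (nat_lit 7) (nat_lit 211) (nat_lit 211)) (l (nat_lit 7) (nat_lit 236) (nat_lit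 261))))))))) (b (n (nat_lit 237) (b (b (n (nat_lit 337) (b (n (nat_lit 236) (b (l (nat_lit 7) (nat_lit 211) (nat_lit 211)) (l (nat_lit 7) (nat_lit 236) (nat_lit 261)))) (n (nat_lit 338) (b (l (nat_lit 4) (nat_lit 237) (nat_lit 313)) (l (nat_lit 4) (nat_lit 262) (nat_lit 363)))))) (n (nat_lit 212) (b (n (nat_lit 211) (b (l (nat_lit 7) (nat_lit 211) (nat_lit 236)) (l (nat_lit 7) (nat_lit 186) (nat_lit 186)))) (l (nat_lit 6) (nat_lit 211) (nat_lit 286))))) (n (nat_lit 212) (b (n (nat_lit 313) (b (l (nat_lit 4) (nat_lit 212) (nat_lit 288)) (l (nat_lit 4) (nat_lit 237) (nat_lit 338)))) (l (nat_lit 6) (nat_lit 211) (nat_lit 286)))))) (n (nat_lit 337) (b (b (n (nat_lit 237) (b (n (nat_lit 338) (b (l (nat_lit 4) (nat_lit 237) (nat_lit 313)) (l (nat_lit 4) (nat_lit 262) (nat_lit 363)))) (n (nat_lit 238) (b (l (nat_lit 5) (nat_lit 237) (nat_lit 263)) (l (nat_lit 5) (nat_lit 212) (nat_lit 213)))))) (n (nat_lit 362) (b (n (nat_lit 286) (b (l (nat_lit 7) (nat_lit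 286) (nat_lit 387)) (l (nat_lit 7) (nat_lit 261) (nat_lit 261)))) (n (nat_lit 263) (b (l (nat_lit 5) (nat_lit 237) (nat_lit 238)) (l (nat_lit 5) (nat_lit 262) (nat_lit 288))))))) (n (nat_lit 362) (b (n (nat_lit 286) (b (l (nat_lit 7) (nat_lit 286) (nat_lit 387)) (l (nat_lit 7) (nat_lit 261) (nat_lit 261)))) (n (nat_lit 363) (b (l (nat_lit 4) (nat_lit 262) (nat_lit 338)) (l (nat_lit 4) (nat_lit 287) (nat_lit 388)))))))))) (b (n (nat_lit 237) (b (n (nat_lit 212) (b (n (nat_lit 211) (b (l (nat_lit 7) (nat_lit 211) (nat_lit 236)) (l (nat_lit 7) (nat_lit 186) (nat_lit 186)))) (l (nat_lit 6) (nat_lit 211) (nat_lit 286)))) (n (nat_lit 337) (b (n (nat_lit 238) (b (l (nat_lit 5) (nat_lit 237) (nat_lit 263)) (l (nat_lit 5) (nat_lit 212) (nat_lit 213)))) (n (nat_lit 338) (b (l (nat_lit 4) (nat_lit 237) (nat_lit 313)) (l (nat_lit 4) (nat_lit 262) (nat_lit 363)))))))) (n (nat_lit 237) (b (b (n (nat_lit 238) (b (n (nat_lit 236) (b (n (nat_lit 235) (b (n (nat_lit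 261) (b (n (nat_lit 239) (b (l (nat_lit 2) (nat_lit 235) (nat_lit 260)) (l (nat_lit 2) (nat_lit 236) (nat_lit 240)))) (n (nat_lit 210) (b (l (nat_lit 7) (nat_lit 210) (nat_lit 286)) (l (nat_lit 3) (nat_lit 209) (nat_lit 209)))))) (n (nat_lit 263) (b (l (nat_lit 0) (nat_lit 234) (nat_lit 234)) (l (nat_lit 0) (nat_lit 235) (nat_lit 264)))))) (l (nat_lit 7) (nat_lit 211) (nat_lit 211)))) (l (nat_lit 5) (nat_lit 212) (nat_lit 213)))) (n (nat_lit 212) (b (n (nat_lit 213) (b (l (nat_lit 5) (nat_lit 187) (nat_lit 188)) (l (nat_lit 5) (nat_lit 212) (nat_lit 238)))) (n (nat_lit 211) (b (l (nat_lit 7) (nat_lit 211) (nat_lit 236)) (l (nat_lit 7) (nat_lit 186) (nat_lit 186))))))) (b (n (nat_lit 212) (b (n (nat_lit 211) (b (l (nat_lit 7) (nat_lit 211) (nat_lit 236)) (l (nat_lit 7) (nat_lit 186) (nat_lit 186)))) (l (nat_lit 6) (nat_lit 211) (nat_lit 286)))) (n (nat_lit 212) (b (n (nat_lit 213) (b (l (nat_lit 5) (nat_lit 187) (nat_lit 188)) (l (nat_lit 5) (nat_lit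 212) (nat_lit 238)))) (l (nat_lit 6) (nat_lit 211) (nat_lit 286)))))))))))))
    (envOK_cons p2382 (envOK_cons p2478 (envOK_cons p2498 (envOK_cons p2501 envOK_nil)))) (by decide +kernel)

theorem p2536 : Fam (nat_lit 6) (nat_lit 14601473878365596266372218694518422658416925445797431044559854740972205156703597509922592391168) (nat_lit 78804014741331672433467126905740558660059059745755443565105730909383064572891294252894363865081540469705191213498368) (nat_lit 78804014741331672433467126905740558660059059745755443565105730909383064572891294252894363865081540469705191213498368) :=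
  chk_sound Env.nil
    (n (nat_lit 284) (b (b (n (nat_lit 309) (b (n (nat_lit 334) (b (n (nat_lit 335) (b (n (nat_lit 259) (b (l (nat_lit 4) (nat_lit 259) (nat_lit 360)) (l (nat_lit 4) (nat_lit 234) (nat_lit 234)))) (l (nat_lit 2) (nat_lit 309) (nat_lit 313)))) (l (nat_lit 2) (nat_lit 308) (nat_lit 333)))) (l (nat_lit 3) (nat_lit 283) (nat_lit 283)))) (n (nat_lit 283) (b (n (nat_lit 285) (b (l (nat_lit 0) (nat_lit 283) (nat_lit 286)) (l (nat_lit 0) (nat_lit 282) (nat_lit 282)))) (l (nat_lit 3) (nat_lit 283) (nat_lit 309))))) (b (n (nat_lit 285) (b (n (nat_lit 283) (b (l (nat_lit 0) (nat_lit 283) (nat_lit 286)) (l (nat_lit 0) (nat_lit 282) (nat_lit 282)))) (l (nat_lit 3) (nat_lit 284) (nat_lit 313)))) (n (nat_lit 335) (b (b (n (nat_lit 313) (b (l (nat_lit 3) (nat_lit 284) (nat_lit 285)) (l (nat_lit 2) (nat_lit 309) (nat_lit 334)))) (n (nat_lit 360) (b (n (nat_lit 385) (b (l (nat_lit 7) (nat_lit 284) (nat_lit 309)) (l (nat_lit 5) (nat_lit 285) (nat_lit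 286)))) (n (nat_lit 285) (b (l (nat_lit 7) (nat_lit 259) (nat_lit 259)) (l (nat_lit 3) (nat_lit 284) (nat_lit 313))))))) (b (n (nat_lit 334) (b (n (nat_lit 333) (b (l (nat_lit 1) (nat_lit 307) (nat_lit 332)) (l (nat_lit 2) (nat_lit 308) (nat_lit 309)))) (l (nat_lit 2) (nat_lit 309) (nat_lit 313)))) (n (nat_lit 360) (b (b (n (nat_lit 385) (b (l (nat_lit 7) (nat_lit 284) (nat_lit 309)) (l (nat_lit 5) (nat_lit 285) (nat_lit 286)))) (n (nat_lit 285) (b (n (nat_lit 286) (b (l (nat_lit 5) (nat_lit 285) (nat_lit 385)) (l (nat_lit 5) (nat_lit 260) (nat_lit 261)))) (l (nat_lit 7) (nat_lit 259) (nat_lit 259))))) (n (nat_lit 259) (b (n (nat_lit 309) (b (l (nat_lit 4) (nat_lit 259) (nat_lit 334)) (l (nat_lit 4) (nat_lit 234) (nat_lit 234)))) (l (nat_lit 7) (nat_lit 259) (nat_lit 285))))))))))))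
    envOK_nil (by decide +kernel)

theorem p2539 : Fam (nat_lit 20) (nat_lit 8343699359066055009355553539724812947666814540455674882605631280555545803830627148527195652096) (nat_lit 8379880305850102236372750738238744597468322900575039578144993165799043697218053173268299862458808940193795309264325496830665274309404344283224178782371840) (nat_lit 8379880305850102236372750738238744597468322900575039578144993165799043697218053173268299862458808940193795309264325496830665274309404344283224178782371840) :=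
  chk_sound (Env.cons (nat_lit 7) (nat_lit 14601473878365596266372218694518422658416925445797431044559854740972205156703597509922592391168) (nat_lit 52884479709732300673440822691115732453764468969198152925081510880366093181505565449596812365373183888517127282187613996318720) (Env.cons (nat_lit 7) (nat_lit 14601473878365596266372218694518422658416925445797431044559854740972205156703597509922592391168) (nat_lit 3305279981858268792090884760733000043918047962964847555905296704969708037714744818430995242106743978348282296340262523240448) (Env.cons (nat_lit 7) (nat_lit 14601473878365596266372218694518422658416925445797431044559854740972205156703597509922592391168) (nat_lit 26442239854866150336719230230150317481940236378996233277709483407310618122664067636991200962580019957478782109852876356452352) (Env.cons (nat_lit 7) (nat_lit 14601473878365596266372218694518422658416925445797431044559854740972205156703597509922592391168) (nat_lit 26442239854866150336719168987130023557660748677916194398296998451957611642101835106907681390491093122425621171469665548894208)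 (Env.cons (nat_lit 7) (nat_lit 14601473878365596266372218694518422658416925445797431044559854740972205156703597509922592391168) (nat_lit 52884479709732300673440577719034556756646518164877997407431571058954067259256635329262734077017476548304483528654770766086144) (Env.cons (nat_lit 7) (nat_lit 14601473878365596266372218694518422658416925445797431044559854740972205156703597509922592391168) (nat_lit 3305279981858268792089904872408297255446244745684225485305537419321604348719024337094682088683914617497707282208889602310144) (Env.cons (nat_lit 6) (nat_lit 14601473878365596266372218694518422658416925445797431044559854740972205156703597509922592391168) (nat_lit 26442239854866150336722528604259456184414320027215460752732185509592603057729494864882988881024639263680192273313729733459968) (Env.cons (nat_lit 7) (nat_lit 14601473878365596266372218694518422658416925445797431044559854740972205156703597509922592391168) (nat_lit 6610559963716537584183711800141939237425778319930822496982104979311670003164162206618162227518915243228319518300622733443072)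 (Env.cons (nat_lit 7) (nat_lit 14601473878365596266372218694518422658416925445797431044559854740972205156703597509922592391168) (nat_lit 6610559963716537584179792246843128083538565450808334214583067836719255247181280281272909613827597799826019461775131049721856) (Env.cons (nat_lit 10) (nat_lit 12515549038599082514033330309587219421500221810683512323908446920833318705745940722790793478144) (nat_lit 79326718697754290029783345620017487879396265814682566582168786748184723663156108413496406165579928810476650548249095883980800) (Env.cons (nat_lit 10) (nat_lit 12515549038599082514033330309587219421500221810683512323908446920833318705745940722790793478144) (nat_lit 79326718618950278224130063510427861613618931251934196023129498855729521985684325145029315376600339898193799040246522520272896) (Env.cons (nat_lit 13) (nat_lit 12515549038599082514033330309587219421500221810683512323908446920833318705745940722790793478144) (nat_lit 465808592566409956526685409719495571279857475366292432903804760974645808905969415671021134152091835630412147365319867987205229117440)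 (Env.cons (nat_lit 19) (nat_lit 12515549038599082514033330309587219421500221810683512323908446920833318705745940722790793478144) (nat_lit 8379880305850102236372728556880530574980656024662614505043824643455454521540835175716494841796545344105544366529992301817092513412059543469358358118531072) (Env.cons (nat_lit 7) (nat_lit 14601473878365596266372218694518422658416925445797431044559854740972205156703597509922592391168) (nat_lit 69869146308262053100245714820479496896216616226686042949438114783645722749408734192745359082829177307252391936) (Env.cons (nat_lit 9) (nat_lit 14601473878365596266372218694518422658416925445797431044559854740972205156703597509922592391168) (nat_lit 21153792183348177460710108717362299231958288591909328336780730192439108348945589825790066176025976599535995115029943065509888) (Env.cons (nat_lit 6) (nat_lit 14601473878365596266372218694518422658416925445797431044559854740972205156703597509922592391168) (nat_lit 78804014741331672433467126905740558660059059745755443565105730909383064572891294252894363865081540469705191213498368)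 (Env.cons (nat_lit 9) (nat_lit 14601473878365596266372218694518422658416925445797431044559854740972205156703597509922592391168) (nat_lit 1103256207552913419351643800638073789214903873367597738084568343312405056314544282077314984240434515168866619245985792) (Env.cons (nat_lit 7) (nat_lit 14601473878365596266372218694518422658416925445797431044559854740972205156703597509922592391168) (nat_lit 520565705612417640109332174858544917626064877666764079826510273752550242127322166810344357944673435648) Env.nil))))))))))))))))))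
    (n (nat_lit 311) (b (b (b (b (n (nat_lit 310) (b (b (n (nat_lit 309) (b (b (n (nat_lit 313) (b (n (nat_lit 338) (b (l (nat_lit 0) (nat_lit 309) (nat_lit 337)) (l (nat_lit 0) (nat_lit 310) (nat_lit 339)))) (n (nat_lit 288) (b (l (nat_lit 1) (nat_lit 284) (nat_lit 287)) (l (nat_lit 1) (nat_lit 285) (nat_lit 289)))))) (n (nat_lit 308) (b (n (nat_lit 337) (b (l (nat_lit 0) (nat_lit 309) (nat_lit 338)) (l (nat_lit 0) (nat_lit 308) (nat_lit 336)))) (n (nat_lit 283) (b (l (nat_lit 3) (nat_lit 283) (nat_lit 284)) (l (nat_lit 3) (nat_lit 282) (nat_lit 282))))))) (n (nat_lit 313) (b (n (nat_lit 284) (b (l (nat_lit 3) (nat_lit 283) (nat_lit 283)) (l (nat_lit 3) (nat_lit 284) (nat_lit 285)))) (n (nat_lit 288) (b (l (nat_lit 1) (nat_lit 284) (nat_lit 287)) (l (nat_lit 1) (nat_lit 285) (nat_lit 289)))))))) (n (nat_lit 309) (b (b (n (nat_lit 313) (b (n (nat_lit 334) (b (l (nat_lit 2) (nat_lit 309) (nat_lit 335)) (l (nat_lit 2) (nat_lit 308) (nat_lit 333))))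 (n (nat_lit 288) (b (l (nat_lit 1) (nat_lit 284) (nat_lit 287)) (l (nat_lit 1) (nat_lit 285) (nat_lit 289)))))) (n (nat_lit 308) (b (n (nat_lit 283) (b (l (nat_lit 3) (nat_lit 283) (nat_lit 284)) (l (nat_lit 3) (nat_lit 282) (nat_lit 282)))) (n (nat_lit 333) (b (l (nat_lit 2) (nat_lit 307) (nat_lit 332)) (l (nat_lit 2) (nat_lit 308) (nat_lit 334))))))) (n (nat_lit 313) (b (n (nat_lit 284) (b (l (nat_lit 3) (nat_lit 283) (nat_lit 283)) (l (nat_lit 3) (nat_lit 284) (nat_lit 285)))) (n (nat_lit 288) (b (l (nat_lit 1) (nat_lit 284) (nat_lit 287)) (l (nat_lit 1) (nat_lit 285) (nat_lit 289))))))))) (b (r (nat_lit 0)) (r (nat_lit 1))))) (n (nat_lit 310) (b (b (b (r (nat_lit 0)) (r (nat_lit 2))) (b (n (nat_lit 313) (b (b (n (nat_lit 309) (b (n (nat_lit 288) (b (l (nat_lit 1) (nat_lit 284) (nat_lit 287)) (l (nat_lit 1) (nat_lit 285) (nat_lit 289)))) (n (nat_lit 338) (b (l (nat_lit 0) (nat_lit 309) (nat_lit 337)) (l (nat_lit 0) (nat_lit 310) (nat_lit 339))))))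 (n (nat_lit 314) (b (n (nat_lit 285) (b (l (nat_lit 3) (nat_lit 284) (nat_lit 284)) (l (nat_lit 3) (nat_lit 285) (nat_lit 286)))) (n (nat_lit 339) (b (l (nat_lit 0) (nat_lit 311) (nat_lit 340)) (l (nat_lit 0) (nat_lit 310) (nat_lit 338))))))) (n (nat_lit 314) (b (n (nat_lit 285) (b (l (nat_lit 3) (nat_lit 284) (nat_lit 284)) (l (nat_lit 3) (nat_lit 285) (nat_lit 286)))) (n (nat_lit 289) (b (l (nat_lit 1) (nat_lit 286) (nat_lit 290)) (l (nat_lit 1) (nat_lit 285) (nat_lit 288)))))))) (n (nat_lit 313) (b (b (n (nat_lit 309) (b (n (nat_lit 334) (b (l (nat_lit 2) (nat_lit 309) (nat_lit 335)) (l (nat_lit 2) (nat_lit 308) (nat_lit 333)))) (n (nat_lit 288) (b (l (nat_lit 1) (nat_lit 284) (nat_lit 287)) (l (nat_lit 1) (nat_lit 285) (nat_lit 289)))))) (n (nat_lit 314) (b (n (nat_lit 285) (b (l (nat_lit 3) (nat_lit 284) (nat_lit 284)) (l (nat_lit 3) (nat_lit 285) (nat_lit 286)))) (n (nat_lit 289) (b (l (nat_lit 1) (nat_lit 286) (nat_lit 290)) (l (nat_lit 1)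 (nat_lit 285) (nat_lit 288))))))) (n (nat_lit 314) (b (n (nat_lit 335) (b (l (nat_lit 2) (nat_lit 309) (nat_lit 334)) (l (nat_lit 2) (nat_lit 310) (nat_lit 336)))) (n (nat_lit 285) (b (l (nat_lit 3) (nat_lit 284) (nat_lit 284)) (l (nat_lit 3) (nat_lit 285) (nat_lit 286)))))))))) (n (nat_lit 313) (b (b (n (nat_lit 309) (b (n (nat_lit 334) (b (l (nat_lit 2) (nat_lit 309) (nat_lit 335)) (l (nat_lit 2) (nat_lit 308) (nat_lit 333)))) (n (nat_lit 338) (b (l (nat_lit 0) (nat_lit 309) (nat_lit 337)) (l (nat_lit 0) (nat_lit 310) (nat_lit 339)))))) (n (nat_lit 314) (b (n (nat_lit 285) (b (l (nat_lit 3) (nat_lit 284) (nat_lit 284)) (l (nat_lit 3) (nat_lit 285) (nat_lit 286)))) (n (nat_lit 339) (b (l (nat_lit 0) (nat_lit 311) (nat_lit 340)) (l (nat_lit 0) (nat_lit 310) (nat_lit 338))))))) (n (nat_lit 314) (b (n (nat_lit 335) (b (l (nat_lit 2) (nat_lit 309) (nat_lit 334)) (l (nat_lit 2) (nat_lit 310) (nat_lit 336)))) (n (nat_lit 285) (b (l (nat_lit 3) (nat_lit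 284) (nat_lit 284)) (l (nat_lit 3) (nat_lit 285) (nat_lit 286))))))))))) (b (n (nat_lit 310) (b (b (b (r (nat_lit 0)) (n (nat_lit 313) (b (b (n (nat_lit 309) (b (n (nat_lit 288) (b (l (nat_lit 1) (nat_lit 284) (nat_lit 287)) (l (nat_lit 1) (nat_lit 285) (nat_lit 289)))) (n (nat_lit 338) (b (l (nat_lit 0) (nat_lit 309) (nat_lit 337)) (l (nat_lit 0) (nat_lit 310) (nat_lit 339)))))) (n (nat_lit 314) (b (n (nat_lit 285) (b (l (nat_lit 3) (nat_lit 284) (nat_lit 284)) (l (nat_lit 3) (nat_lit 285) (nat_lit 286)))) (n (nat_lit 339) (b (l (nat_lit 0) (nat_lit 311) (nat_lit 340)) (l (nat_lit 0) (nat_lit 310) (nat_lit 338))))))) (n (nat_lit 314) (b (n (nat_lit 285) (b (l (nat_lit 3) (nat_lit 284) (nat_lit 284)) (l (nat_lit 3) (nat_lit 285) (nat_lit 286)))) (n (nat_lit 289) (b (l (nat_lit 1) (nat_lit 286) (nat_lit 290)) (l (nat_lit 1) (nat_lit 285) (nat_lit 288))))))))) (b (n (nat_lit 313) (b (b (n (nat_lit 314) (b (n (nat_lit 289) (b (l (nat_lit 1) (nat_lit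 286) (nat_lit 290)) (l (nat_lit 1) (nat_lit 285) (nat_lit 288)))) (n (nat_lit 335) (b (l (nat_lit 2) (nat_lit 309) (nat_lit 334)) (l (nat_lit 2) (nat_lit 310) (nat_lit 336)))))) (n (nat_lit 314) (b (n (nat_lit 335) (b (l (nat_lit 2) (nat_lit 309) (nat_lit 334)) (l (nat_lit 2) (nat_lit 310) (nat_lit 336)))) (n (nat_lit 285) (b (l (nat_lit 3) (nat_lit 284) (nat_lit 284)) (l (nat_lit 3) (nat_lit 285) (nat_lit 286))))))) (n (nat_lit 309) (b (n (nat_lit 288) (b (l (nat_lit 1) (nat_lit 284) (nat_lit 287)) (l (nat_lit 1) (nat_lit 285) (nat_lit 289)))) (n (nat_lit 284) (b (l (nat_lit 3) (nat_lit 283) (nat_lit 283)) (l (nat_lit 3) (nat_lit 284) (nat_lit 285)))))))) (n (nat_lit 313) (b (b (n (nat_lit 314) (b (n (nat_lit 335) (b (l (nat_lit 2) (nat_lit 309) (nat_lit 334)) (l (nat_lit 2) (nat_lit 310) (nat_lit 336)))) (n (nat_lit 339) (b (l (nat_lit 0) (nat_lit 311) (nat_lit 340)) (l (nat_lit 0) (nat_lit 310) (nat_lit 338)))))) (n (nat_lit 309) (b (n (nat_lit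 338) (b (l (nat_lit 0) (nat_lit 309) (nat_lit 337)) (l (nat_lit 0) (nat_lit 310) (nat_lit 339)))) (n (nat_lit 284) (b (l (nat_lit 3) (nat_lit 283) (nat_lit 283)) (l (nat_lit 3) (nat_lit 284) (nat_lit 285))))))) (n (nat_lit 314) (b (n (nat_lit 335) (b (l (nat_lit 2) (nat_lit 309) (nat_lit 334)) (l (nat_lit 2) (nat_lit 310) (nat_lit 336)))) (n (nat_lit 285) (b (l (nat_lit 3) (nat_lit 284) (nat_lit 284)) (l (nat_lit 3) (nat_lit 285) (nat_lit 286)))))))))) (r (nat_lit 3)))) (n (nat_lit 310) (b (b (r (nat_lit 4)) (n (nat_lit 309) (b (b (n (nat_lit 313) (b (n (nat_lit 338) (b (l (nat_lit 0) (nat_lit 309) (nat_lit 337)) (l (nat_lit 0) (nat_lit 310) (nat_lit 339)))) (n (nat_lit 334) (b (l (nat_lit 2) (nat_lit 309) (nat_lit 335)) (l (nat_lit 2) (nat_lit 308) (nat_lit 333)))))) (n (nat_lit 308) (b (n (nat_lit 283) (b (l (nat_lit 3) (nat_lit 283) (nat_lit 284)) (l (nat_lit 3) (nat_lit 282) (nat_lit 282)))) (n (nat_lit 333) (b (l (nat_lit 2) (nat_lit 307) (nat_lit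 332)) (l (nat_lit 2) (nat_lit 308) (nat_lit 334))))))) (n (nat_lit 313) (b (n (nat_lit 284) (b (l (nat_lit 3) (nat_lit 283) (nat_lit 283)) (l (nat_lit 3) (nat_lit 284) (nat_lit 285)))) (n (nat_lit 338) (b (l (nat_lit 0) (nat_lit 309) (nat_lit 337)) (l (nat_lit 0) (nat_lit 310) (nat_lit 339))))))))) (b (n (nat_lit 309) (b (b (n (nat_lit 308) (b (n (nat_lit 333) (b (l (nat_lit 2) (nat_lit 307) (nat_lit 332)) (l (nat_lit 2) (nat_lit 308) (nat_lit 334)))) (n (nat_lit 287) (b (l (nat_lit 1) (nat_lit 283) (nat_lit 286)) (l (nat_lit 1) (nat_lit 284) (nat_lit 288)))))) (n (nat_lit 313) (b (n (nat_lit 338) (b (l (nat_lit 0) (nat_lit 309) (nat_lit 337)) (l (nat_lit 0) (nat_lit 310) (nat_lit 339)))) (n (nat_lit 334) (b (l (nat_lit 2) (nat_lit 309) (nat_lit 335)) (l (nat_lit 2) (nat_lit 308) (nat_lit 333))))))) (n (nat_lit 313) (b (n (nat_lit 338) (b (l (nat_lit 0) (nat_lit 309) (nat_lit 337)) (l (nat_lit 0) (nat_lit 310) (nat_lit 339)))) (n (nat_lit 288) (b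 (l (nat_lit 1) (nat_lit 284) (nat_lit 287)) (l (nat_lit 1) (nat_lit 285) (nat_lit 289)))))))) (r (nat_lit 5))))))) (b (b (n (nat_lit 310) (b (b (r (nat_lit 3)) (r (nat_lit 0))) (b (n (nat_lit 309) (b (b (n (nat_lit 313) (b (n (nat_lit 338) (b (l (nat_lit 0) (nat_lit 309) (nat_lit 337)) (l (nat_lit 0) (nat_lit 310) (nat_lit 339)))) (n (nat_lit 334) (b (l (nat_lit 2) (nat_lit 309) (nat_lit 335)) (l (nat_lit 2) (nat_lit 308) (nat_lit 333)))))) (n (nat_lit 308) (b (n (nat_lit 283) (b (l (nat_lit 3) (nat_lit 283) (nat_lit 284)) (l (nat_lit 3) (nat_lit 282) (nat_lit 282)))) (n (nat_lit 333) (b (l (nat_lit 2) (nat_lit 307) (nat_lit 332)) (l (nat_lit 2) (nat_lit 308) (nat_lit 334))))))) (n (nat_lit 308) (b (n (nat_lit 337) (b (l (nat_lit 0) (nat_lit 309) (nat_lit 338)) (l (nat_lit 0) (nat_lit 308) (nat_lit 336)))) (n (nat_lit 283) (b (l (nat_lit 3) (nat_lit 283) (nat_lit 284)) (l (nat_lit 3) (nat_lit 282) (nat_lit 282)))))))) (n (nat_lit 309) (b (b (n (nat_lit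 313) (b (n (nat_lit 334) (b (l (nat_lit 2) (nat_lit 309) (nat_lit 335)) (l (nat_lit 2) (nat_lit 308) (nat_lit 333)))) (n (nat_lit 288) (b (l (nat_lit 1) (nat_lit 284) (nat_lit 287)) (l (nat_lit 1) (nat_lit 285) (nat_lit 289)))))) (n (nat_lit 308) (b (n (nat_lit 283) (b (l (nat_lit 3) (nat_lit 283) (nat_lit 284)) (l (nat_lit 3) (nat_lit 282) (nat_lit 282)))) (n (nat_lit 333) (b (l (nat_lit 2) (nat_lit 307) (nat_lit 332)) (l (nat_lit 2) (nat_lit 308) (nat_lit 334))))))) (n (nat_lit 308) (b (n (nat_lit 287) (b (l (nat_lit 1) (nat_lit 283) (nat_lit 286)) (l (nat_lit 1) (nat_lit 284) (nat_lit 288)))) (n (nat_lit 283) (b (l (nat_lit 3) (nat_lit 283) (nat_lit 284)) (l (nat_lit 3) (nat_lit 282) (nat_lit 282))))))))))) (n (nat_lit 310) (b (b (b (r (nat_lit 6)) (r (nat_lit 4))) (b (r (nat_lit 3)) (n (nat_lit 309) (b (b (n (nat_lit 313) (b (n (nat_lit 284) (b (l (nat_lit 3) (nat_lit 283) (nat_lit 283)) (l (nat_lit 3) (nat_lit 284) (nat_lit 285)))) (n (nat_lit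 338) (b (l (nat_lit 0) (nat_lit 309) (nat_lit 337)) (l (nat_lit 0) (nat_lit 310) (nat_lit 339)))))) (n (nat_lit 308) (b (n (nat_lit 337) (b (l (nat_lit 0) (nat_lit 309) (nat_lit 338)) (l (nat_lit 0) (nat_lit 308) (nat_lit 336)))) (n (nat_lit 333) (b (l (nat_lit 2) (nat_lit 307) (nat_lit 332)) (l (nat_lit 2) (nat_lit 308) (nat_lit 334))))))) (n (nat_lit 308) (b (n (nat_lit 283) (b (l (nat_lit 3) (nat_lit 283) (nat_lit 284)) (l (nat_lit 3) (nat_lit 282) (nat_lit 282)))) (n (nat_lit 333) (b (l (nat_lit 2) (nat_lit 307) (nat_lit 332)) (l (nat_lit 2) (nat_lit 308) (nat_lit 334)))))))))) (n (nat_lit 309) (b (b (n (nat_lit 313) (b (n (nat_lit 284) (b (l (nat_lit 3) (nat_lit 283) (nat_lit 283)) (l (nat_lit 3) (nat_lit 284) (nat_lit 285)))) (n (nat_lit 288) (b (l (nat_lit 1) (nat_lit 284) (nat_lit 287)) (l (nat_lit 1) (nat_lit 285) (nat_lit 289)))))) (n (nat_lit 308) (b (n (nat_lit 333) (b (l (nat_lit 2) (nat_lit 307) (nat_lit 332)) (l (nat_lit 2) (nat_lit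 308) (nat_lit 334)))) (n (nat_lit 287) (b (l (nat_lit 1) (nat_lit 283) (nat_lit 286)) (l (nat_lit 1) (nat_lit 284) (nat_lit 288))))))) (n (nat_lit 308) (b (n (nat_lit 283) (b (l (nat_lit 3) (nat_lit 283) (nat_lit 284)) (l (nat_lit 3) (nat_lit 282) (nat_lit 282)))) (n (nat_lit 333) (b (l (nat_lit 2) (nat_lit 307) (nat_lit 332)) (l (nat_lit 2) (nat_lit 308) (nat_lit 334))))))))))) (b (n (nat_lit 310) (b (b (r (nat_lit 5)) (r (nat_lit 7))) (b (n (nat_lit 313) (b (b (n (nat_lit 309) (b (n (nat_lit 334) (b (l (nat_lit 2) (nat_lit 309) (nat_lit 335)) (l (nat_lit 2) (nat_lit 308) (nat_lit 333)))) (n (nat_lit 288) (b (l (nat_lit 1) (nat_lit 284) (nat_lit 287)) (l (nat_lit 1) (nat_lit 285) (nat_lit 289)))))) (n (nat_lit 314) (b (n (nat_lit 335) (b (l (nat_lit 2) (nat_lit 309) (nat_lit 334)) (l (nat_lit 2) (nat_lit 310) (nat_lit 336)))) (n (nat_lit 339) (b (l (nat_lit 0) (nat_lit 311) (nat_lit 340)) (l (nat_lit 0) (nat_lit 310) (nat_lit 338))))))) (n (nat_lit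 314) (b (n (nat_lit 339) (b (l (nat_lit 0) (nat_lit 311) (nat_lit 340)) (l (nat_lit 0) (nat_lit 310) (nat_lit 338)))) (n (nat_lit 289) (b (l (nat_lit 1) (nat_lit 286) (nat_lit 290)) (l (nat_lit 1) (nat_lit 285) (nat_lit 288)))))))) (n (nat_lit 313) (b (b (n (nat_lit 314) (b (n (nat_lit 339) (b (l (nat_lit 0) (nat_lit 311) (nat_lit 340)) (l (nat_lit 0) (nat_lit 310) (nat_lit 338)))) (n (nat_lit 289) (b (l (nat_lit 1) (nat_lit 286) (nat_lit 290)) (l (nat_lit 1) (nat_lit 285) (nat_lit 288)))))) (n (nat_lit 314) (b (n (nat_lit 285) (b (l (nat_lit 3) (nat_lit 284) (nat_lit 284)) (l (nat_lit 3) (nat_lit 285) (nat_lit 286)))) (n (nat_lit 339) (b (l (nat_lit 0) (nat_lit 311) (nat_lit 340)) (l (nat_lit 0) (nat_lit 310) (nat_lit 338))))))) (n (nat_lit 309) (b (n (nat_lit 288) (b (l (nat_lit 1) (nat_lit 284) (nat_lit 287)) (l (nat_lit 1) (nat_lit 285) (nat_lit 289)))) (n (nat_lit 284) (b (l (nat_lit 3) (nat_lit 283) (nat_lit 283)) (l (nat_lit 3) (nat_lit 284)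 (nat_lit 285))))))))))) (n (nat_lit 310) (b (b (r (nat_lit 8)) (r (nat_lit 1))) (b (n (nat_lit 313) (b (b (n (nat_lit 314) (b (n (nat_lit 339) (b (l (nat_lit 0) (nat_lit 311) (nat_lit 340)) (l (nat_lit 0) (nat_lit 310) (nat_lit 338)))) (n (nat_lit 289) (b (l (nat_lit 1) (nat_lit 286) (nat_lit 290)) (l (nat_lit 1) (nat_lit 285) (nat_lit 288)))))) (n (nat_lit 309) (b (n (nat_lit 338) (b (l (nat_lit 0) (nat_lit 309) (nat_lit 337)) (l (nat_lit 0) (nat_lit 310) (nat_lit 339)))) (n (nat_lit 284) (b (l (nat_lit 3) (nat_lit 283) (nat_lit 283)) (l (nat_lit 3) (nat_lit 284) (nat_lit 285))))))) (n (nat_lit 314) (b (n (nat_lit 285) (b (l (nat_lit 3) (nat_lit 284) (nat_lit 284)) (l (nat_lit 3) (nat_lit 285) (nat_lit 286)))) (n (nat_lit 289) (b (l (nat_lit 1) (nat_lit 286) (nat_lit 290)) (l (nat_lit 1) (nat_lit 285) (nat_lit 288)))))))) (n (nat_lit 313) (b (b (n (nat_lit 309) (b (n (nat_lit 334) (b (l (nat_lit 2) (nat_lit 309) (nat_lit 335)) (l (nat_lit 2) (nat_lit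 308) (nat_lit 333)))) (n (nat_lit 338) (b (l (nat_lit 0) (nat_lit 309) (nat_lit 337)) (l (nat_lit 0) (nat_lit 310) (nat_lit 339)))))) (n (nat_lit 314) (b (n (nat_lit 289) (b (l (nat_lit 1) (nat_lit 286) (nat_lit 290)) (l (nat_lit 1) (nat_lit 285) (nat_lit 288)))) (n (nat_lit 335) (b (l (nat_lit 2) (nat_lit 309) (nat_lit 334)) (l (nat_lit 2) (nat_lit 310) (nat_lit 336))))))) (n (nat_lit 314) (b (n (nat_lit 339) (b (l (nat_lit 0) (nat_lit 311) (nat_lit 340)) (l (nat_lit 0) (nat_lit 310) (nat_lit 338)))) (n (nat_lit 289) (b (l (nat_lit 1) (nat_lit 286) (nat_lit 290)) (l (nat_lit 1) (nat_lit 285) (nat_lit 288)))))))))))))) (b (b (b (r (nat_lit 9)) (r (nat_lit 10))) (b (r (nat_lit 11)) (r (nat_lit 12)))) (b (n (nat_lit 310) (b (b (b (r (nat_lit 13)) (r (nat_lit 14))) (b (r (nat_lit 7)) (r (nat_lit 1)))) (b (b (n (nat_lit 309) (b (b (n (nat_lit 313) (b (n (nat_lit 284) (b (l (nat_lit 3) (nat_lit 283) (nat_lit 283)) (l (nat_lit 3) (nat_lit 284) (nat_lit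 285)))) (n (nat_lit 338) (b (l (nat_lit 0) (nat_lit 309) (nat_lit 337)) (l (nat_lit 0) (nat_lit 310) (nat_lit 339)))))) (n (nat_lit 308) (b (n (nat_lit 337) (b (l (nat_lit 0) (nat_lit 309) (nat_lit 338)) (l (nat_lit 0) (nat_lit 308) (nat_lit 336)))) (n (nat_lit 333) (b (l (nat_lit 2) (nat_lit 307) (nat_lit 332)) (l (nat_lit 2) (nat_lit 308) (nat_lit 334))))))) (n (nat_lit 308) (b (n (nat_lit 283) (b (l (nat_lit 3) (nat_lit 283) (nat_lit 284)) (l (nat_lit 3) (nat_lit 282) (nat_lit 282)))) (n (nat_lit 333) (b (l (nat_lit 2) (nat_lit 307) (nat_lit 332)) (l (nat_lit 2) (nat_lit 308) (nat_lit 334)))))))) (n (nat_lit 309) (b (b (n (nat_lit 313) (b (n (nat_lit 338) (b (l (nat_lit 0) (nat_lit 309) (nat_lit 337)) (l (nat_lit 0) (nat_lit 310) (nat_lit 339)))) (n (nat_lit 334) (b (l (nat_lit 2) (nat_lit 309) (nat_lit 335)) (l (nat_lit 2) (nat_lit 308) (nat_lit 333)))))) (n (nat_lit 308) (b (n (nat_lit 283) (b (l (nat_lit 3) (nat_lit 283) (nat_lit 284)) (l (nat_lit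 3) (nat_lit 282) (nat_lit 282)))) (n (nat_lit 333) (b (l (nat_lit 2) (nat_lit 307) (nat_lit 332)) (l (nat_lit 2) (nat_lit 308) (nat_lit 334))))))) (n (nat_lit 308) (b (n (nat_lit 337) (b (l (nat_lit 0) (nat_lit 309) (nat_lit 338)) (l (nat_lit 0) (nat_lit 308) (nat_lit 336)))) (n (nat_lit 283) (b (l (nat_lit 3) (nat_lit 283) (nat_lit 284)) (l (nat_lit 3) (nat_lit 282) (nat_lit 282))))))))) (r (nat_lit 15))))) (n (nat_lit 310) (b (b (b (r (nat_lit 15)) (r (nat_lit 16))) (b (r (nat_lit 17)) (r (nat_lit 5)))) (b (b (r (nat_lit 8)) (n (nat_lit 309) (b (b (n (nat_lit 313) (b (n (nat_lit 284) (b (l (nat_lit 3) (nat_lit 283) (nat_lit 283)) (l (nat_lit 3) (nat_lit 284) (nat_lit 285)))) (n (nat_lit 288) (b (l (nat_lit 1) (nat_lit 284) (nat_lit 287)) (l (nat_lit 1) (nat_lit 285) (nat_lit 289)))))) (n (nat_lit 308) (b (n (nat_lit 333) (b (l (nat_lit 2) (nat_lit 307) (nat_lit 332)) (l (nat_lit 2) (nat_lit 308) (nat_lit 334)))) (n (nat_lit 287) (b (l (nat_lit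 1) (nat_lit 283) (nat_lit 286)) (l (nat_lit 1) (nat_lit 284) (nat_lit 288))))))) (n (nat_lit 308) (b (n (nat_lit 283) (b (l (nat_lit 3) (nat_lit 283) (nat_lit 284)) (l (nat_lit 3) (nat_lit 282) (nat_lit 282)))) (n (nat_lit 333) (b (l (nat_lit 2) (nat_lit 307) (nat_lit 332)) (l (nat_lit 2) (nat_lit 308) (nat_lit 334))))))))) (b (n (nat_lit 309) (b (b (n (nat_lit 313) (b (n (nat_lit 334) (b (l (nat_lit 2) (nat_lit 309) (nat_lit 335)) (l (nat_lit 2) (nat_lit 308) (nat_lit 333)))) (n (nat_lit 288) (b (l (nat_lit 1) (nat_lit 284) (nat_lit 287)) (l (nat_lit 1) (nat_lit 285) (nat_lit 289)))))) (n (nat_lit 308) (b (n (nat_lit 283) (b (l (nat_lit 3) (nat_lit 283) (nat_lit 284)) (l (nat_lit 3) (nat_lit 282) (nat_lit 282)))) (n (nat_lit 333) (b (l (nat_lit 2) (nat_lit 307) (nat_lit 332)) (l (nat_lit 2) (nat_lit 308) (nat_lit 334))))))) (n (nat_lit 313) (b (n (nat_lit 284) (b (l (nat_lit 3) (nat_lit 283) (nat_lit 283)) (l (nat_lit 3) (nat_lit 284) (nat_lit 285))))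 (n (nat_lit 288) (b (l (nat_lit 1) (nat_lit 284) (nat_lit 287)) (l (nat_lit 1) (nat_lit 285) (nat_lit 289)))))))) (n (nat_lit 309) (b (b (n (nat_lit 313) (b (n (nat_lit 334) (b (l (nat_lit 2) (nat_lit 309) (nat_lit 335)) (l (nat_lit 2) (nat_lit 308) (nat_lit 333)))) (n (nat_lit 288) (b (l (nat_lit 1) (nat_lit 284) (nat_lit 287)) (l (nat_lit 1) (nat_lit 285) (nat_lit 289)))))) (n (nat_lit 308) (b (n (nat_lit 283) (b (l (nat_lit 3) (nat_lit 283) (nat_lit 284)) (l (nat_lit 3) (nat_lit 282) (nat_lit 282)))) (n (nat_lit 333) (b (l (nat_lit 2) (nat_lit 307) (nat_lit 332)) (l (nat_lit 2) (nat_lit 308) (nat_lit 334))))))) (n (nat_lit 308) (b (n (nat_lit 287) (b (l (nat_lit 1) (nat_lit 283) (nat_lit 286)) (l (nat_lit 1) (nat_lit 284) (nat_lit 288)))) (n (nat_lit 283) (b (l (nat_lit 3) (nat_lit 283) (nat_lit 284)) (l (nat_lit 3) (nat_lit 282) (nat_lit 282))))))))))))))))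
    (envOK_cons p1608 (envOK_cons p1621 (envOK_cons p1626 (envOK_cons p1635 (envOK_cons p1637 (envOK_cons p1640 (envOK_cons p1659 (envOK_cons p212 (envOK_cons p210 (envOK_cons p1726 (envOK_cons p1768 (envOK_cons p1994 (envOK_cons p2516 (envOK_cons p1767 (envOK_cons p1711 (envOK_cons p2536 (envOK_cons p1754 (envOK_cons p1725 envOK_nil)))))))))))))))))) (by decide +kernel)

theorem p2548 : Fam (nat_lit 8) (nat_lit 279968101115925134047353499319930152181142708231565782546248918899963984685054368582985341452834308096) (nat_lit 26442239973072285765896169614189774047111550910874397981352903103177800885002786974364083949460431157228585913071602356977664) (nat_lit 26442239973072285765896169614189774047111550910874397981352903103177800885002786974364083949460431157228585913071602356977664) :=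
  chk_sound Env.nil
    (n (nat_lit 362) (b (b (n (nat_lit 286) (b (n (nat_lit 361) (b (n (nat_lit 363) (b (n (nat_lit 336) (b (n (nat_lit 360) (b (n (nat_lit 359) (b (l (nat_lit 1) (nat_lit 333) (nat_lit 358)) (l (nat_lit 1) (nat_lit 334) (nat_lit 338)))) (n (nat_lit 385) (b (l (nat_lit 6) (nat_lit 285) (nat_lit 311)) (l (nat_lit 2) (nat_lit 359) (nat_lit 384)))))) (n (nat_lit 364) (b (l (nat_lit 3) (nat_lit 336) (nat_lit 365)) (l (nat_lit 3) (nat_lit 335) (nat_lit 335)))))) (l (nat_lit 4) (nat_lit 287) (nat_lit 388)))) (l (nat_lit 6) (nat_lit 286) (nat_lit 386)))) (l (nat_lit 7) (nat_lit 261) (nat_lit 261)))) (n (nat_lit 387) (b (n (nat_lit 286) (b (l (nat_lit 7) (nat_lit 261) (nat_lit 261)) (l (nat_lit 7) (nat_lit 286) (nat_lit 311)))) (n (nat_lit 386) (b (l (nat_lit 6) (nat_lit 311) (nat_lit 411)) (l (nat_lit 6) (nat_lit 286) (nat_lit 361))))))) (b (n (nat_lit 387) (b (n (nat_lit 286) (b (l (nat_lit 7) (nat_lit 261) (nat_lit 261)) (l (nat_lit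 7) (nat_lit 286) (nat_lit 311)))) (n (nat_lit 388) (b (l (nat_lit 4) (nat_lit 312) (nat_lit 413)) (l (nat_lit 4) (nat_lit 287) (nat_lit 363)))))) (n (nat_lit 387) (b (n (nat_lit 388) (b (l (nat_lit 4) (nat_lit 312) (nat_lit 413)) (l (nat_lit 4) (nat_lit 287) (nat_lit 363)))) (n (nat_lit 386) (b (l (nat_lit 6) (nat_lit 311) (nat_lit 411)) (l (nat_lit 6) (nat_lit 286) (nat_lit 361)))))))))
    envOK_nil (by decide +kernel)

theorem p2558 : Fam (nat_lit 8) (nat_lit 279968101115925134047353499319930152181142708231565782546248918899963984685054368582985341452834308096) (nat_lit 4697085585499818129667221753367991976496897257348985149771200590089821782393710374179689000545711714832744448) (nat_lit 4697085585499818129667221753367991976496897257348985149771200590089821782393710374179689000545711714832744448) :=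
  chk_sound Env.nil
    (n (nat_lit 262) (b (b (n (nat_lit 336) (b (n (nat_lit 261) (b (n (nat_lit 263) (b (n (nat_lit 286) (b (n (nat_lit 260) (b (n (nat_lit 259) (b (l (nat_lit 0) (nat_lit 258) (nat_lit 258)) (l (nat_lit 0) (nat_lit 259) (nat_lit 288)))) (n (nat_lit 235) (b (l (nat_lit 7) (nat_lit 235) (nat_lit 311)) (l (nat_lit 3) (nat_lit 234) (nat_lit 234)))))) (n (nat_lit 264) (b (l (nat_lit 2) (nat_lit 260) (nat_lit 285)) (l (nat_lit 2) (nat_lit 261) (nat_lit 265)))))) (l (nat_lit 5) (nat_lit 237) (nat_lit 238)))) (l (nat_lit 7) (nat_lit 236) (nat_lit 236)))) (l (nat_lit 6) (nat_lit 261) (nat_lit 361)))) (n (nat_lit 237) (b (n (nat_lit 238) (b (l (nat_lit 5) (nat_lit 237) (nat_lit 263)) (l (nat_lit 5) (nat_lit 212) (nat_lit 213)))) (n (nat_lit 336) (b (l (nat_lit 6) (nat_lit 261) (nat_lit 361)) (l (nat_lit 6) (nat_lit 236) (nat_lit 311))))))) (b (n (nat_lit 237) (b (n (nat_lit 238) (b (l (nat_lit 5) (nat_lit 237) (nat_lit 263)) (l (nat_lit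 5) (nat_lit 212) (nat_lit 213)))) (n (nat_lit 236) (b (l (nat_lit 7) (nat_lit 211) (nat_lit 211)) (l (nat_lit 7) (nat_lit 236) (nat_lit 261)))))) (n (nat_lit 237) (b (n (nat_lit 336) (b (l (nat_lit 6) (nat_lit 261) (nat_lit 361)) (l (nat_lit 6) (nat_lit 236) (nat_lit 311)))) (n (nat_lit 236) (b (l (nat_lit 7) (nat_lit 211) (nat_lit 211)) (l (nat_lit 7) (nat_lit 236) (nat_lit 261)))))))))
    envOK_nil (by decide +kernel)

theorem p2594 : Fam (nat_lit 7) (nat_lit 8343699607727680624942585805652444129620275146709852890558508601783632775695752161234180374528) (nat_lit 822406338225048899253791587252888190313528646617389556250889496546990968238903283451643850242637430784) (nat_lit 822406338225048899253791587252888190313528646617389556250889496546990968238903283451643850242637430784) :=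
  chk_sound Env.nil
    (n (nat_lit 237) (b (b (n (nat_lit 212) (b (n (nat_lit 313) (b (l (nat_lit 4) (nat_lit 212) (nat_lit 288)) (l (nat_lit 4) (nat_lit 237) (nat_lit 338)))) (n (nat_lit 213) (b (l (nat_lit 5) (nat_lit 187) (nat_lit 188)) (l (nat_lit 5) (nat_lit 212) (nat_lit 238)))))) (n (nat_lit 212) (b (n (nat_lit 311) (b (l (nat_lit 6) (nat_lit 236) (nat_lit 336)) (l (nat_lit 6) (nat_lit 211) (nat_lit 286)))) (n (nat_lit 213) (b (l (nat_lit 5) (nat_lit 187) (nat_lit 188)) (l (nat_lit 5) (nat_lit 212) (nat_lit 238))))))) (n (nat_lit 313) (b (n (nat_lit 311) (b (n (nat_lit 310) (b (b (n (nat_lit 309) (b (n (nat_lit 334) (b (l (nat_lit 2) (nat_lit 309) (nat_lit 335)) (l (nat_lit 2) (nat_lit 308) (nat_lit 333)))) (n (nat_lit 284) (b (l (nat_lit 3) (nat_lit 283) (nat_lit 283)) (l (nat_lit 3) (nat_lit 284) (nat_lit 285)))))) (n (nat_lit 314) (b (n (nat_lit 285) (b (l (nat_lit 3) (nat_lit 284) (nat_lit 284)) (l (nat_lit 3) (nat_lit 285) (nat_lit 286))))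 (n (nat_lit 289) (b (l (nat_lit 1) (nat_lit 286) (nat_lit 290)) (l (nat_lit 1) (nat_lit 285) (nat_lit 288))))))) (n (nat_lit 288) (b (l (nat_lit 1) (nat_lit 285) (nat_lit 289)) (l (nat_lit 1) (nat_lit 284) (nat_lit 309)))))) (l (nat_lit 6) (nat_lit 236) (nat_lit 336)))) (l (nat_lit 4) (nat_lit 237) (nat_lit 338))))))
    envOK_nil (by decide +kernel)

theorem p2595 : Fam (nat_lit 14) (nat_lit 8343699607727673214248874617415937021077234590683750281279490000787534250410375654793883418624) (nat_lit 788040160917438605052694587428846034412474492223883536523619015501465128590280709630857921155444019960537073491902464) (nat_lit 788040160917438605052694587428846034412474492223883536523619015501465128590280709630857921155444019960537073491902464) :=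
  chk_sound (Env.cons (nat_lit 7) (nat_lit 8343699607727680624942585805652444129620275146709852890558508601783632775695752161234180374528) (nat_lit 822406338225048899253791587252888190313528646617389556250889496546990968238903283451643850242637430784) Env.nil)
    (n (nat_lit 262) (b (b (b (n (nat_lit 337) (b (b (n (nat_lit 362) (b (n (nat_lit 363) (b (l (nat_lit 4) (nat_lit 262) (nat_lit 338)) (l (nat_lit 4) (nat_lit 287) (nat_lit 388)))) (n (nat_lit 263) (b (l (nat_lit 5) (nat_lit 237) (nat_lit 238)) (l (nat_lit 5) (nat_lit 262) (nat_lit 288)))))) (n (nat_lit 362) (b (n (nat_lit 263) (b (l (nat_lit 5) (nat_lit 237) (nat_lit 238)) (l (nat_lit 5) (nat_lit 262) (nat_lit 288)))) (n (nat_lit 361) (b (l (nat_lit 6) (nat_lit 286) (nat_lit 386)) (l (nat_lit 6) (nat_lit 261) (nat_lit 336))))))) (b (n (nat_lit 362) (b (n (nat_lit 361) (b (l (nat_lit 6) (nat_lit 286) (nat_lit 386)) (l (nat_lit 6) (nat_lit 261) (nat_lit 336)))) (n (nat_lit 363) (b (l (nat_lit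 4) (nat_lit 262) (nat_lit 338)) (l (nat_lit 4) (nat_lit 287) (nat_lit 388)))))) (n (nat_lit 336) (b (n (nat_lit 335) (b (b (n (nat_lit 313) (b (n (nat_lit 314) (b (l (nat_lit 2) (nat_lit 310) (nat_lit 311)) (l (nat_lit 2) (nat_lit 311) (nat_lit 315)))) (l (nat_lit 1) (nat_lit 309) (nat_lit 334)))) (n (nat_lit 338) (b (n (nat_lit 334) (b (n (nat_lit 359) (b (l (nat_lit 2) (nat_lit 333) (nat_lit 358)) (l (nat_lit 2) (nat_lit 334) (nat_lit 360)))) (n (nat_lit 309) (b (l (nat_lit 3) (nat_lit 308) (nat_lit 308)) (l (nat_lit 3) (nat_lit 309) (nat_lit 310)))))) (l (nat_lit 4) (nat_lit 262) (nat_lit 363))))) (n (nat_lit 338) (b (n (nat_lit 313) (b (n (nat_lit 263) (b (n (nat_lit 264) (b (b (n (nat_lit 310) (b (n (nat_lit 288) (b (n (nat_lit 285) (b (n (nat_lit 311) (b (l (nat_lit 3) (nat_lit 284) (nat_lit 284)) (l (nat_lit 1) (nat_lit 285) (nat_lit 289)))) (l (nat_lit 1) (nat_lit 260) (nat_lit 286)))) (l (nat_lit 5) (nat_lit 238) (nat_lit 239)))) (l (nat_lit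 3) (nat_lit 309) (nat_lit 309)))) (n (nat_lit 265) (b (n (nat_lit 266) (b (n (nat_lit 291) (b (l (nat_lit 0) (nat_lit 262) (nat_lit 290)) (l (nat_lit 0) (nat_lit 263) (nat_lit 292)))) (n (nat_lit 241) (b (l (nat_lit 1) (nat_lit 238) (nat_lit 242)) (l (nat_lit 1) (nat_lit 237) (nat_lit 240)))))) (l (nat_lit 2) (nat_lit 261) (nat_lit 286))))) (n (nat_lit 265) (b (b (n (nat_lit 288) (b (l (nat_lit 2) (nat_lit 262) (nat_lit 266)) (l (nat_lit 5) (nat_lit 238) (nat_lit 239)))) (n (nat_lit 266) (b (n (nat_lit 291) (b (l (nat_lit 0) (nat_lit 262) (nat_lit 290)) (l (nat_lit 0) (nat_lit 263) (nat_lit 292)))) (n (nat_lit 241) (b (l (nat_lit 1) (nat_lit 238) (nat_lit 242)) (l (nat_lit 1) (nat_lit 237) (nat_lit 240))))))) (n (nat_lit 290) (b (n (nat_lit 239) (b (n (nat_lit 315) (b (n (nat_lit 240) (b (l (nat_lit 1) (nat_lit 237) (nat_lit 241)) (l (nat_lit 7) (nat_lit 214) (nat_lit 214)))) (l (nat_lit 7) (nat_lit 239) (nat_lit 340)))) (l (nat_lit 5) (nat_lit 238)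 (nat_lit 288)))) (l (nat_lit 0) (nat_lit 262) (nat_lit 291)))))))) (l (nat_lit 5) (nat_lit 237) (nat_lit 238)))) (l (nat_lit 1) (nat_lit 310) (nat_lit 314)))) (l (nat_lit 4) (nat_lit 262) (nat_lit 363)))))) (l (nat_lit 6) (nat_lit 261) (nat_lit 361))))))) (n (nat_lit 237) (b (b (n (nat_lit 337) (b (n (nat_lit 238) (b (l (nat_lit 5) (nat_lit 237) (nat_lit 263)) (l (nat_lit 5) (nat_lit 212) (nat_lit 213)))) (n (nat_lit 336) (b (l (nat_lit 6) (nat_lit 261) (nat_lit 361)) (l (nat_lit 6) (nat_lit 236) (nat_lit 311)))))) (n (nat_lit 212) (b (n (nat_lit 311) (b (l (nat_lit 6) (nat_lit 236) (nat_lit 336)) (l (nat_lit 6) (nat_lit 211) (nat_lit 286)))) (n (nat_lit 211) (b (l (nat_lit 7) (nat_lit 211) (nat_lit 236)) (l (nat_lit 7) (nat_lit 186) (nat_lit 186))))))) (n (nat_lit 212) (b (n (nat_lit 213) (b (l (nat_lit 5) (nat_lit 187) (nat_lit 188)) (l (nat_lit 5) (nat_lit 212) (nat_lit 238)))) (n (nat_lit 211) (b (l (nat_lit 7) (nat_lit 211) (nat_lit 236)) (l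 (nat_lit 7) (nat_lit 186) (nat_lit 186))))))))) (b (n (nat_lit 237) (b (b (n (nat_lit 337) (b (n (nat_lit 336) (b (l (nat_lit 6) (nat_lit 261) (nat_lit 361)) (l (nat_lit 6) (nat_lit 236) (nat_lit 311)))) (n (nat_lit 338) (b (l (nat_lit 4) (nat_lit 237) (nat_lit 313)) (l (nat_lit 4) (nat_lit 262) (nat_lit 363)))))) (n (nat_lit 212) (b (n (nat_lit 311) (b (l (nat_lit 6) (nat_lit 236) (nat_lit 336)) (l (nat_lit 6) (nat_lit 211) (nat_lit 286)))) (n (nat_lit 211) (b (l (nat_lit 7) (nat_lit 211) (nat_lit 236)) (l (nat_lit 7) (nat_lit 186) (nat_lit 186))))))) (n (nat_lit 212) (b (n (nat_lit 211) (b (l (nat_lit 7) (nat_lit 211) (nat_lit 236)) (l (nat_lit 7) (nat_lit 186) (nat_lit 186)))) (n (nat_lit 313) (b (l (nat_lit 4) (nat_lit 212) (nat_lit 288)) (l (nat_lit 4) (nat_lit 237) (nat_lit 338)))))))) (n (nat_lit 237) (b (b (n (nat_lit 337) (b (n (nat_lit 238) (b (l (nat_lit 5) (nat_lit 237) (nat_lit 263)) (l (nat_lit 5) (nat_lit 212) (nat_lit 213)))) (n (nat_lit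 338) (b (l (nat_lit 4) (nat_lit 237) (nat_lit 313)) (l (nat_lit 4) (nat_lit 262) (nat_lit 363)))))) (n (nat_lit 212) (b (n (nat_lit 213) (b (l (nat_lit 5) (nat_lit 187) (nat_lit 188)) (l (nat_lit 5) (nat_lit 212) (nat_lit 238)))) (n (nat_lit 211) (b (l (nat_lit 7) (nat_lit 211) (nat_lit 236)) (l (nat_lit 7) (nat_lit 186) (nat_lit 186))))))) (n (nat_lit 212) (b (n (nat_lit 211) (b (l (nat_lit 7) (nat_lit 211) (nat_lit 236)) (l (nat_lit 7) (nat_lit 186) (nat_lit 186)))) (n (nat_lit 313) (b (l (nat_lit 4) (nat_lit 212) (nat_lit 288)) (l (nat_lit 4) (nat_lit 237) (nat_lit 338)))))))))) (r (nat_lit 0))))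
    (envOK_cons p2594 envOK_nil) (by decide +kernel)

theorem p2598 : Fam (nat_lit 9) (nat_lit 8343699607727673214248874617415937021077234590683750281279490000787534250410375654793883418624) (nat_lit 157608038876834515866546525011883609538910682783805342682125030020082333445685278656154040252887033847954808391073792) (nat_lit 157608038876834515866546525011883609538910682783805342682125030020082333445685278656154040252887033847954808391073792) :=
  chk_sound (Env.cons (nat_lit 7) (nat_lit 8343699607727680624942585805652444129620275146709852890558508601783632775695752161234180374528) (nat_lit 822406338225048899253791587252888190313528646617389556250889496546990968238903283451643850242637430784) Env.nil)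
    (n (nat_lit 262) (b (b (b (r (nat_lit 0)) (n (nat_lit 337) (b (b (n (nat_lit 336) (b (n (nat_lit 261) (b (n (nat_lit 263) (b (n (nat_lit 286) (b (n (nat_lit 260) (b (n (nat_lit 259) (b (l (nat_lit 0) (nat_lit 258) (nat_lit 258)) (l (nat_lit 0) (nat_lit 259) (nat_lit 288)))) (n (nat_lit 235) (b (l (nat_lit 7) (nat_lit 235) (nat_lit 311)) (l (nat_lit 3) (nat_lit 234) (nat_lit 234)))))) (n (nat_lit 264) (b (l (nat_lit 2) (nat_lit 260) (nat_lit 285)) (l (nat_lit 2) (nat_lit 261) (nat_lit 265)))))) (l (nat_lit 5) (nat_lit 237) (nat_lit 238)))) (l (nat_lit 7) (nat_lit 236) (nat_lit 236)))) (l (nat_lit 6) (nat_lit 261) (nat_lit 361)))) (n (nat_lit 362) (b (n (nat_lit 263) (b (l (nat_lit 5) (nat_lit 237) (nat_lit 238)) (l (nat_lit 5) (nat_lit 262) (nat_lit 288)))) (n (nat_lit 261) (b (l (nat_lit 7) (nat_lit 261) (nat_lit 286)) (l (nat_lit 7) (nat_lit 236) (nat_lit 236))))))) (b (n (nat_lit 362) (b (n (nat_lit 261) (b (l (nat_lit 7) (nat_lit 261) (nat_lit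 286)) (l (nat_lit 7) (nat_lit 236) (nat_lit 236)))) (n (nat_lit 361) (b (l (nat_lit 6) (nat_lit 286) (nat_lit 386)) (l (nat_lit 6) (nat_lit 261) (nat_lit 336)))))) (n (nat_lit 362) (b (n (nat_lit 263) (b (l (nat_lit 5) (nat_lit 237) (nat_lit 238)) (l (nat_lit 5) (nat_lit 262) (nat_lit 288)))) (n (nat_lit 361) (b (l (nat_lit 6) (nat_lit 286) (nat_lit 386)) (l (nat_lit 6) (nat_lit 261) (nat_lit 336)))))))))) (b (n (nat_lit 237) (b (b (n (nat_lit 337) (b (n (nat_lit 236) (b (l (nat_lit 7) (nat_lit 211) (nat_lit 211)) (l (nat_lit 7) (nat_lit 236) (nat_lit 261)))) (n (nat_lit 238) (b (l (nat_lit 5) (nat_lit 237) (nat_lit 263)) (l (nat_lit 5) (nat_lit 212) (nat_lit 213)))))) (n (nat_lit 212) (b (n (nat_lit 311) (b (l (nat_lit 6) (nat_lit 236) (nat_lit 336)) (l (nat_lit 6) (nat_lit 211) (nat_lit 286)))) (n (nat_lit 213) (b (l (nat_lit 5) (nat_lit 187) (nat_lit 188)) (l (nat_lit 5) (nat_lit 212) (nat_lit 238))))))) (n (nat_lit 212) (b (n (nat_lit 311) (b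 (l (nat_lit 6) (nat_lit 236) (nat_lit 336)) (l (nat_lit 6) (nat_lit 211) (nat_lit 286)))) (n (nat_lit 211) (b (l (nat_lit 7) (nat_lit 211) (nat_lit 236)) (l (nat_lit 7) (nat_lit 186) (nat_lit 186)))))))) (n (nat_lit 237) (b (b (n (nat_lit 337) (b (n (nat_lit 236) (b (l (nat_lit 7) (nat_lit 211) (nat_lit 211)) (l (nat_lit 7) (nat_lit 236) (nat_lit 261)))) (n (nat_lit 238) (b (l (nat_lit 5) (nat_lit 237) (nat_lit 263)) (l (nat_lit 5) (nat_lit 212) (nat_lit 213)))))) (n (nat_lit 212) (b (n (nat_lit 313) (b (l (nat_lit 4) (nat_lit 212) (nat_lit 288)) (l (nat_lit 4) (nat_lit 237) (nat_lit 338)))) (n (nat_lit 213) (b (l (nat_lit 5) (nat_lit 187) (nat_lit 188)) (l (nat_lit 5) (nat_lit 212) (nat_lit 238))))))) (n (nat_lit 212) (b (n (nat_lit 211) (b (l (nat_lit 7) (nat_lit 211) (nat_lit 236)) (l (nat_lit 7) (nat_lit 186) (nat_lit 186)))) (n (nat_lit 313) (b (l (nat_lit 4) (nat_lit 212) (nat_lit 288)) (l (nat_lit 4) (nat_lit 237) (nat_lit 338)))))))))) (n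 (nat_lit 237) (b (b (n (nat_lit 337) (b (n (nat_lit 336) (b (l (nat_lit 6) (nat_lit 261) (nat_lit 361)) (l (nat_lit 6) (nat_lit 236) (nat_lit 311)))) (n (nat_lit 236) (b (l (nat_lit 7) (nat_lit 211) (nat_lit 211)) (l (nat_lit 7) (nat_lit 236) (nat_lit 261)))))) (n (nat_lit 212) (b (n (nat_lit 311) (b (l (nat_lit 6) (nat_lit 236) (nat_lit 336)) (l (nat_lit 6) (nat_lit 211) (nat_lit 286)))) (n (nat_lit 313) (b (l (nat_lit 4) (nat_lit 212) (nat_lit 288)) (l (nat_lit 4) (nat_lit 237) (nat_lit 338))))))) (n (nat_lit 212) (b (n (nat_lit 211) (b (l (nat_lit 7) (nat_lit 211) (nat_lit 236)) (l (nat_lit 7) (nat_lit 186) (nat_lit 186)))) (n (nat_lit 313) (b (l (nat_lit 4) (nat_lit 212) (nat_lit 288)) (l (nat_lit 4) (nat_lit 237) (nat_lit 338))))))))))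
    (envOK_cons p2594 envOK_nil) (by decide +kernel)

theorem p2632 : Fam (nat_lit 8) (nat_lit 419952147502037897207193641855457919563745551808731378477498237710200976633814427669290184782309752832) (nat_lit 630432159910852099043897942330224473160453751245915274151215756980439117266728452798139748776688890428714715248066560) (nat_lit 630432159910852099043897942330224473160453751245915274151215756980439117266728452798139748776688890428714715248066560) :=
  chk_sound Env.nil
    (n (nat_lit 335) (b (b (n (nat_lit 334) (b (n (nat_lit 333) (b (n (nat_lit 358) (b (l (nat_lit 2) (nat_lit 333) (nat_lit 359)) (l (nat_lit 2) (nat_lit 332) (nat_lit 357)))) (l (nat_lit 1) (nat_lit 308) (nat_lit 311)))) (l (nat_lit 1) (nat_lit 309) (nat_lit 313)))) (n (nat_lit 334) (b (b (n (nat_lit 338) (b (n (nat_lit 309) (b (l (nat_lit 3) (nat_lit 308) (nat_lit 308)) (l (nat_lit 3) (nat_lit 309) (nat_lit 310)))) (n (nat_lit 359) (b (l (nat_lit 2) (nat_lit 333) (nat_lit 358))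 (l (nat_lit 2) (nat_lit 334) (nat_lit 360)))))) (n (nat_lit 333) (b (n (nat_lit 308) (b (l (nat_lit 3) (nat_lit 308) (nat_lit 309)) (l (nat_lit 3) (nat_lit 307) (nat_lit 307)))) (l (nat_lit 1) (nat_lit 308) (nat_lit 311))))) (n (nat_lit 333) (b (n (nat_lit 358) (b (l (nat_lit 2) (nat_lit 333) (nat_lit 359)) (l (nat_lit 2) (nat_lit 332) (nat_lit 357)))) (l (nat_lit 1) (nat_lit 308) (nat_lit 311))))))) (b (n (nat_lit 313) (b (n (nat_lit 314) (b (l (nat_lit 1) (nat_lit 310) (nat_lit 338)) (l (nat_lit 2) (nat_lit 311) (nat_lit 315)))) (l (nat_lit 1) (nat_lit 309) (nat_lit 334)))) (n (nat_lit 338) (b (b (n (nat_lit 363) (b (n (nat_lit 313) (b (l (nat_lit 7) (nat_lit 287) (nat_lit 388)) (l (nat_lit 1) (nat_lit 310) (nat_lit 314)))) (l (nat_lit 0) (nat_lit 335) (nat_lit 364)))) (n (nat_lit 363) (b (l (nat_lit 4) (nat_lit 262) (nat_lit 262)) (l (nat_lit 0) (nat_lit 335) (nat_lit 364))))) (n (nat_lit 313) (b (n (nat_lit 310) (b (n (nat_lit 285) (b (b (n (nat_lit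 261) (b (n (nat_lit 236) (b (l (nat_lit 7) (nat_lit 236) (nat_lit 262)) (l (nat_lit 5) (nat_lit 235) (nat_lit 260)))) (n (nat_lit 360) (b (l (nat_lit 5) (nat_lit 260) (nat_lit 286)) (l (nat_lit 2) (nat_lit 334) (nat_lit 359)))))) (n (nat_lit 284) (b (l (nat_lit 3) (nat_lit 284) (nat_lit 311)) (l (nat_lit 0) (nat_lit 284) (nat_lit 286))))) (n (nat_lit 360) (b (n (nat_lit 284) (b (l (nat_lit 7) (nat_lit 259) (nat_lit 259)) (l (nat_lit 3) (nat_lit 284) (nat_lit 311)))) (l (nat_lit 2) (nat_lit 334) (nat_lit 359)))))) (l (nat_lit 3) (nat_lit 309) (nat_lit 309)))) (l (nat_lit 1) (nat_lit 310) (nat_lit 314)))))))))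
    envOK_nil (by decide +kernel)

theorem p2659 : Fam (nat_lit 7) (nat_lit 419952147502037897207193641855457919563745551808731378477498237710200976633814427669290184782309752832) (nat_lit 7932672492327184973727123561631891187988205753135238860380011646137725275471490896859551576674454436737701967968816490086400) (nat_lit 7932672492327184973727123561631891187988205753135238860380011646137725275471490896859551576674454436737701967968816490086400) :=
  chk_sound Env.nil
    (n (nat_lit 335) (b (b (n (nat_lit 334) (b (n (nat_lit 333) (b (n (nat_lit 358) (b (l (nat_lit 2) (nat_lit 333) (nat_lit 359)) (l (nat_lit 2) (nat_lit 332) (nat_lit 357)))) (l (nat_lit 1) (nat_lit 308) (nat_lit 311)))) (l (nat_lit 1) (nat_lit 309) (nat_lit 313)))) (n (nat_lit 334) (b (b (n (nat_lit 338) (b (n (nat_lit 309) (b (l (nat_lit 3) (nat_lit 308) (nat_lit 308)) (l (nat_lit 3) (nat_lit 309) (nat_lit 310)))) (n (nat_lit 359) (b (l (nat_lit 2) (nat_lit 333) (nat_lit 358)) (l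 (nat_lit 2) (nat_lit 334) (nat_lit 360)))))) (n (nat_lit 333) (b (n (nat_lit 308) (b (l (nat_lit 3) (nat_lit 308) (nat_lit 309)) (l (nat_lit 3) (nat_lit 307) (nat_lit 307)))) (l (nat_lit 1) (nat_lit 308) (nat_lit 311))))) (n (nat_lit 333) (b (n (nat_lit 358) (b (l (nat_lit 2) (nat_lit 333) (nat_lit 359)) (l (nat_lit 2) (nat_lit 332) (nat_lit 357)))) (l (nat_lit 1) (nat_lit 308) (nat_lit 311))))))) (b (n (nat_lit 313) (b (n (nat_lit 314) (b (l (nat_lit 1) (nat_lit 310) (nat_lit 338)) (l (nat_lit 2) (nat_lit 311) (nat_lit 315)))) (l (nat_lit 1) (nat_lit 309) (nat_lit 334)))) (n (nat_lit 313) (b (b (n (nat_lit 314) (b (l (nat_lit 2) (nat_lit 310) (nat_lit 311)) (l (nat_lit 2) (nat_lit 311) (nat_lit 315)))) (n (nat_lit 314) (b (l (nat_lit 1) (nat_lit 310) (nat_lit 338)) (l (nat_lit 2) (nat_lit 311) (nat_lit 315))))) (n (nat_lit 361) (b (b (n (nat_lit 386) (b (l (nat_lit 5) (nat_lit 286) (nat_lit 311)) (l (nat_lit 5) (nat_lit 311) (nat_lit 411)))) (n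 (nat_lit 311) (b (b (n (nat_lit 360) (b (n (nat_lit 385) (b (l (nat_lit 6) (nat_lit 285) (nat_lit 286)) (l (nat_lit 5) (nat_lit 310) (nat_lit 410)))) (n (nat_lit 359) (b (l (nat_lit 1) (nat_lit 333) (nat_lit 358)) (l (nat_lit 2) (nat_lit 334) (nat_lit 338)))))) (n (nat_lit 310) (b (n (nat_lit 285) (b (l (nat_lit 4) (nat_lit 260) (nat_lit 260)) (l (nat_lit 3) (nat_lit 284) (nat_lit 284)))) (n (nat_lit 309) (b (l (nat_lit 0) (nat_lit 308) (nat_lit 308)) (l (nat_lit 0) (nat_lit 309) (nat_lit 338))))))) (n (nat_lit 285) (b (b (n (nat_lit 286) (b (l (nat_lit 0) (nat_lit 284) (nat_lit 284)) (l (nat_lit 7) (nat_lit 260) (nat_lit 260)))) (n (nat_lit 260) (b (l (nat_lit 4) (nat_lit 260) (nat_lit 310)) (l (nat_lit 7) (nat_lit 260) (nat_lit 286))))) (b (n (nat_lit 310) (b (l (nat_lit 4) (nat_lit 260) (nat_lit 260)) (l (nat_lit 3) (nat_lit 284) (nat_lit 284)))) (n (nat_lit 284) (b (l (nat_lit 0) (nat_lit 284) (nat_lit 286)) (l (nat_lit 3) (nat_lit 284) (nat_lit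 310)))))))))) (n (nat_lit 310) (b (n (nat_lit 338) (b (n (nat_lit 363) (b (l (nat_lit 0) (nat_lit 335) (nat_lit 364)) (l (nat_lit 7) (nat_lit 287) (nat_lit 388)))) (l (nat_lit 3) (nat_lit 309) (nat_lit 309)))) (n (nat_lit 386) (b (n (nat_lit 285) (b (l (nat_lit 4) (nat_lit 285) (nat_lit 360)) (l (nat_lit 4) (nat_lit 260) (nat_lit 260)))) (l (nat_lit 7) (nat_lit 310) (nat_lit 411)))))))))))))
    envOK_nil (by decide +kernel)

theorem p2665 : Fam (nat_lit 7) (nat_lit 279968101115925134047353499319930152181142708231565782546248918899963984685054368582985341452834308096) (nat_lit 21153791946936132062440064205970120287742487845944192886646460133128521936410191556105872260394605276550439324225085286383616) (nat_lit 21153791946936132062440064205970120287742487845944192886646460133128521936410191556105872260394605276550439324225085286383616) :=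
  chk_sound Env.nil
    (n (nat_lit 362) (b (b (n (nat_lit 288) (b (n (nat_lit 286) (b (n (nat_lit 285) (b (b (n (nat_lit 284) (b (n (nat_lit 259) (b (l (nat_lit 3) (nat_lit 258) (nat_lit 258)) (l (nat_lit 3) (nat_lit 259) (nat_lit 260)))) (n (nat_lit 309) (b (l (nat_lit 2) (nat_lit 283) (nat_lit 308)) (l (nat_lit 2) (nat_lit 284) (nat_lit 310)))))) (n (nat_lit 313) (b (l (nat_lit 0) (nat_lit 284) (nat_lit 284)) (l (nat_lit 0) (nat_lit 285) (nat_lit 314))))) (n (nat_lit 289) (b (n (nat_lit 310) (b (l (nat_lit 2) (nat_lit 284) (nat_lit 309)) (l (nat_lit 2) (nat_lit 285) (nat_lit 311)))) (n (nat_lit 314) (b (l (nat_lit 0) (nat_lit 286) (nat_lit 315)) (l (nat_lit 0) (nat_lit 285) (nat_lit 313)))))))) (l (nat_lit 7) (nat_lit 261) (nat_lit 261)))) (l (nat_lit 5) (nat_lit 262) (nat_lit 263)))) (n (nat_lit 387) (b (n (nat_lit 286) (b (l (nat_lit 7) (nat_lit 261) (nat_lit 261)) (l (nat_lit 7) (nat_lit 286) (nat_lit 311)))) (n (nat_lit 388) (b (l (nat_lit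 4) (nat_lit 312) (nat_lit 413)) (l (nat_lit 4) (nat_lit 287) (nat_lit 363))))))) (n (nat_lit 387) (b (n (nat_lit 288) (b (l (nat_lit 5) (nat_lit 262) (nat_lit 263)) (l (nat_lit 5) (nat_lit 287) (nat_lit 313)))) (n (nat_lit 388) (b (l (nat_lit 4) (nat_lit 312) (nat_lit 413)) (l (nat_lit 4) (nat_lit 287) (nat_lit 363))))))))
    envOK_nil (by decide +kernel)

theorem p2666 : Fam (nat_lit 7) (nat_lit 279968101115925134047353499319930152181142708231565782546248918899963984685054368582985341452834308096) (nat_lit 5288448223146077239604849622835766793253829057822408124134235581244037852044228805080653185219582599395272237332770611789824) (nat_lit 5288448223146077239604849622835766793253829057822408124134235581244037852044228805080653185219582599395272237332770611789824) :=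
  chk_sound Env.nil
    (n (nat_lit 362) (b (b (n (nat_lit 288) (b (n (nat_lit 286) (b (n (nat_lit 285) (b (b (n (nat_lit 284) (b (n (nat_lit 259) (b (l (nat_lit 3) (nat_lit 258) (nat_lit 258)) (l (nat_lit 3) (nat_lit 259) (nat_lit 260)))) (n (nat_lit 309) (b (l (nat_lit 2) (nat_lit 283) (nat_lit 308)) (l (nat_lit 2) (nat_lit 284) (nat_lit 310)))))) (n (nat_lit 313) (b (l (nat_lit 0) (nat_lit 284) (nat_lit 284)) (l (nat_lit 0) (nat_lit 285) (nat_lit 314))))) (n (nat_lit 289) (b (n (nat_lit 310) (b (l (nat_lit 2) (nat_lit 284) (nat_lit 309)) (l (nat_lit 2) (nat_lit 285) (nat_lit 311)))) (n (nat_lit 314) (b (l (nat_lit 0) (nat_lit 286) (nat_lit 315)) (l (nat_lit 0) (nat_lit 285) (nat_lit 313)))))))) (l (nat_lit 7) (nat_lit 261) (nat_lit 261)))) (l (nat_lit 5) (nat_lit 262) (nat_lit 263)))) (n (nat_lit 387) (b (n (nat_lit 286) (b (l (nat_lit 7) (nat_lit 261) (nat_lit 261)) (l (nat_lit 7) (nat_lit 286) (nat_lit 311)))) (n (nat_lit 386) (b (l (nat_lit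 6) (nat_lit 311) (nat_lit 411)) (l (nat_lit 6) (nat_lit 286) (nat_lit 361))))))) (n (nat_lit 387) (b (n (nat_lit 288) (b (l (nat_lit 5) (nat_lit 262) (nat_lit 263)) (l (nat_lit 5) (nat_lit 287) (nat_lit 313)))) (n (nat_lit 386) (b (l (nat_lit 6) (nat_lit 311) (nat_lit 411)) (l (nat_lit 6) (nat_lit 286) (nat_lit 361))))))))
    envOK_nil (by decide +kernel)

theorem p2680 : Fam (nat_lit 8) (nat_lit 279968101115925134047360910013641340417649816774606338572351528178982585681152893868361847893131264000) (nat_lit 27595376432469032897784281774130500930128102784827589947095653927086412356701750311282465328010993730970451968) (nat_lit 27595376432469032897784281774130500930128102784827589947095653927086412356701750311282465328010993730970451968) :=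
  chk_sound Env.nil
    (n (nat_lit 336) (b (n (nat_lit 335) (b (b (n (nat_lit 313) (b (n (nat_lit 314) (b (l (nat_lit 2) (nat_lit 310) (nat_lit 311)) (l (nat_lit 2) (nat_lit 311) (nat_lit 315)))) (l (nat_lit 1) (nat_lit 309) (nat_lit 334)))) (n (nat_lit 338) (b (n (nat_lit 334) (b (n (nat_lit 359) (b (l (nat_lit 2) (nat_lit 333) (nat_lit 358)) (l (nat_lit 2) (nat_lit 334) (nat_lit 360)))) (n (nat_lit 309) (b (l (nat_lit 3) (nat_lit 308) (nat_lit 308)) (l (nat_lit 3) (nat_lit 309) (nat_lit 310)))))) (l (nat_lit 4) (nat_lit 262) (nat_lit 363))))) (n (nat_lit 338) (b (n (nat_lit 310) (b (n (nat_lit 261) (b (n (nat_lit 360) (b (n (nat_lit 286) (b (l (nat_lit 5) (nat_lit 260) (nat_lit 285)) (l (nat_lit 6) (nat_lit 260) (nat_lit 311)))) (l (nat_lit 2) (nat_lit 334) (nat_lit 359)))) (l (nat_lit 7) (nat_lit 236) (nat_lit 236)))) (l (nat_lit 3) (nat_lit 309) (nat_lit 309)))) (l (nat_lit 4) (nat_lit 262) (nat_lit 363)))))) (l (nat_lit 6) (nat_lit 261) (nat_lit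 361))))
    envOK_nil (by decide +kernel)

theorem p2694 : Fam (nat_lit 12) (nat_lit 8343699607727673214248874617415937021077234590683750281279490000787534250410375654793883418624) (nat_lit 29086463848233280455271706187188129386583134095327495019548823211605010328128853021688417590112723955527730570926139576942592) (nat_lit 29086463848233280455271706187188129386583134095327495019548823211605010328128853021688417590112723955527730570926139576942592) :=
  chk_sound (Env.cons (nat_lit 7) (nat_lit 279968101115925134047353499319930152181142708231565782546248918899963984685054368582985341452834308096) (nat_lit 21153791946936132062440064205970120287742487845944192886646460133128521936410191556105872260394605276550439324225085286383616) (Env.cons (nat_lit 7) (nat_lit 279968101115925134047353499319930152181142708231565782546248918899963984685054368582985341452834308096) (nat_lit 5288448223146077239604849622835766793253829057822408124134235581244037852044228805080653185219582599395272237332770611789824)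 (Env.cons (nat_lit 8) (nat_lit 279968101115925134047353499319930152181142708231565782546248918899963984685054368582985341452834308096) (nat_lit 26442239973072285765896169614189774047111550910874397981352903103177800885002786974364083949460431157228585913071602356977664) (Env.cons (nat_lit 7) (nat_lit 419952147502037897207193641855457919563745551808731378477498237710200976633814427669290184782309752832) (nat_lit 7932672492327184973727123561631891187988205753135238860380011646137725275471490896859551576674454436737701967968816490086400) Env.nil))))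
    (n (nat_lit 337) (b (b (b (r (nat_lit 0)) (r (nat_lit 1))) (b (r (nat_lit 2)) (n (nat_lit 362) (b (b (n (nat_lit 262) (b (n (nat_lit 361) (b (l (nat_lit 6) (nat_lit 286) (nat_lit 386)) (l (nat_lit 6) (nat_lit 261) (nat_lit 336)))) (n (nat_lit 363) (b (l (nat_lit 4) (nat_lit 262) (nat_lit 338)) (l (nat_lit 4) (nat_lit 287) (nat_lit 388)))))) (n (nat_lit 387) (b (n (nat_lit 288) (b (l (nat_lit 5) (nat_lit 262) (nat_lit 263)) (l (nat_lit 5) (nat_lit 287) (nat_lit 313)))) (n (nat_lit 388) (b (l (nat_lit 4) (nat_lit 312) (nat_lit 413)) (l (nat_lit 4) (nat_lit 287) (nat_lit 363))))))) (n (nat_lit 387) (b (n (nat_lit 288) (b (l (nat_lit 5) (nat_lit 262) (nat_lit 263)) (l (nat_lit 5) (nat_lit 287) (nat_lit 313)))) (n (nat_lit 386) (b (l (nat_lit 6) (nat_lit 311) (nat_lit 411)) (l (nat_lit 6) (nat_lit 286) (nat_lit 361)))))))))) (n (nat_lit 336) (b (b (r (nat_lit 3)) (n (nat_lit 262) (b (n (nat_lit 237) (b (n (nat_lit 338) (b (l (nat_lit 4) (nat_lit 237)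 (nat_lit 313)) (l (nat_lit 4) (nat_lit 262) (nat_lit 363)))) (n (nat_lit 238) (b (l (nat_lit 5) (nat_lit 237) (nat_lit 263)) (l (nat_lit 5) (nat_lit 212) (nat_lit 213)))))) (l (nat_lit 6) (nat_lit 261) (nat_lit 361))))) (b (n (nat_lit 361) (b (n (nat_lit 386) (b (l (nat_lit 5) (nat_lit 286) (nat_lit 311)) (l (nat_lit 5) (nat_lit 311) (nat_lit 411)))) (l (nat_lit 6) (nat_lit 261) (nat_lit 262)))) (n (nat_lit 335) (b (b (n (nat_lit 334) (b (n (nat_lit 333) (b (n (nat_lit 358) (b (l (nat_lit 2) (nat_lit 333) (nat_lit 359)) (l (nat_lit 2) (nat_lit 332) (nat_lit 357)))) (l (nat_lit 1) (nat_lit 308) (nat_lit 311)))) (l (nat_lit 1) (nat_lit 309) (nat_lit 313)))) (n (nat_lit 334) (b (b (n (nat_lit 338) (b (n (nat_lit 309) (b (l (nat_lit 3) (nat_lit 308) (nat_lit 308)) (l (nat_lit 3) (nat_lit 309) (nat_lit 310)))) (n (nat_lit 359) (b (l (nat_lit 2) (nat_lit 333) (nat_lit 358)) (l (nat_lit 2) (nat_lit 334) (nat_lit 360)))))) (n (nat_lit 333) (b (n (nat_lit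 308) (b (l (nat_lit 3) (nat_lit 308) (nat_lit 309)) (l (nat_lit 3) (nat_lit 307) (nat_lit 307)))) (l (nat_lit 1) (nat_lit 308) (nat_lit 311))))) (n (nat_lit 333) (b (n (nat_lit 358) (b (l (nat_lit 2) (nat_lit 333) (nat_lit 359)) (l (nat_lit 2) (nat_lit 332) (nat_lit 357)))) (l (nat_lit 1) (nat_lit 308) (nat_lit 311))))))) (b (n (nat_lit 313) (b (n (nat_lit 314) (b (l (nat_lit 1) (nat_lit 310) (nat_lit 338)) (l (nat_lit 2) (nat_lit 311) (nat_lit 315)))) (l (nat_lit 1) (nat_lit 309) (nat_lit 334)))) (n (nat_lit 338) (b (b (n (nat_lit 363) (b (n (nat_lit 313) (b (l (nat_lit 7) (nat_lit 287) (nat_lit 388)) (l (nat_lit 1) (nat_lit 310) (nat_lit 314)))) (l (nat_lit 0) (nat_lit 335) (nat_lit 364)))) (n (nat_lit 363) (b (l (nat_lit 4) (nat_lit 262) (nat_lit 262)) (l (nat_lit 0) (nat_lit 335) (nat_lit 364))))) (n (nat_lit 313) (b (n (nat_lit 310) (b (n (nat_lit 262) (b (n (nat_lit 263) (b (n (nat_lit 285) (b (b (n (nat_lit 360) (b (n (nat_lit 284) (b (l (nat_lit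 7) (nat_lit 259) (nat_lit 259)) (l (nat_lit 3) (nat_lit 284) (nat_lit 311)))) (l (nat_lit 2) (nat_lit 334) (nat_lit 359)))) (n (nat_lit 286) (b (n (nat_lit 360) (b (l (nat_lit 5) (nat_lit 260) (nat_lit 261)) (l (nat_lit 2) (nat_lit 334) (nat_lit 359)))) (n (nat_lit 264) (b (l (nat_lit 1) (nat_lit 260) (nat_lit 288)) (l (nat_lit 2) (nat_lit 261) (nat_lit 265))))))) (n (nat_lit 284) (b (l (nat_lit 3) (nat_lit 284) (nat_lit 311)) (l (nat_lit 0) (nat_lit 284) (nat_lit 286)))))) (l (nat_lit 5) (nat_lit 237) (nat_lit 238)))) (l (nat_lit 4) (nat_lit 237) (nat_lit 237)))) (l (nat_lit 3) (nat_lit 309) (nat_lit 309)))) (l (nat_lit 1) (nat_lit 310) (nat_lit 314))))))))))))))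
    (envOK_cons p2665 (envOK_cons p2666 (envOK_cons p2548 (envOK_cons p2659 envOK_nil)))) (by decide +kernel)

theorem p2696 : Fam (nat_lit 7) (nat_lit 8343699607727680624942585805652444129620275146709852890558508601783632775695752161234180374528) (nat_lit 630432127324823500586750036659929096647110469566350847614798607207788905765891013470442394282825892000639621091295232) (nat_lit 630432127324823500586750036659929096647110469566350847614798607207788905765891013470442394282825892000639621091295232) :=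
  chk_sound Env.nil
    (n (nat_lit 337) (b (b (n (nat_lit 261) (b (n (nat_lit 263) (b (n (nat_lit 264) (b (b (n (nat_lit 265) (b (n (nat_lit 240) (b (l (nat_lit 1) (nat_lit 236) (nat_lit 239)) (l (nat_lit 1) (nat_lit 237) (nat_lit 241)))) (n (nat_lit 290) (b (l (nat_lit 0) (nat_lit 262) (nat_lit 291)) (l (nat_lit 0) (nat_lit 261) (nat_lit 289)))))) (n (nat_lit 286) (b (l (nat_lit 2) (nat_lit 260) (nat_lit 285)) (l (nat_lit 2) (nat_lit 261) (nat_lit 265))))) (n (nat_lit 260) (b (n (nat_lit 285) (b (l (nat_lit 2) (nat_lit 259) (nat_lit 284)) (l (nat_lit 2) (nat_lit 260) (nat_lit 286)))) (n (nat_lit 288) (b (l (nat_lit 0) (nat_lit 260) (nat_lit 289)) (l (nat_lit 0) (nat_lit 259) (nat_lit 259)))))))) (l (nat_lit 5) (nat_lit 237) (nat_lit 238)))) (l (nat_lit 7) (nat_lit 236) (nat_lit 236)))) (n (nat_lit 362) (b (n (nat_lit 363) (b (l (nat_lit 4) (nat_lit 262) (nat_lit 338)) (l (nat_lit 4) (nat_lit 287) (nat_lit 388)))) (n (nat_lit 263) (b (l (nat_lit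 5) (nat_lit 237) (nat_lit 238)) (l (nat_lit 5) (nat_lit 262) (nat_lit 288))))))) (n (nat_lit 362) (b (n (nat_lit 261) (b (l (nat_lit 7) (nat_lit 261) (nat_lit 286)) (l (nat_lit 7) (nat_lit 236) (nat_lit 236)))) (n (nat_lit 363) (b (l (nat_lit 4) (nat_lit 262) (nat_lit 338)) (l (nat_lit 4) (nat_lit 287) (nat_lit 388))))))))
    envOK_nil (by decide +kernel)

theorem p2707 : Fam (nat_lit 7) (nat_lit 8343699607727680624942585805652444129620275146709852890558508601783632775695752161234180374528) (nat_lit 559936210575549875822616428754285134168389703466671269474916070454878252582069695245572624670384979968) (nat_lit 559936210575549875822616428754285134168389703466671269474916070454878252582069695245572624670384979968) :=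
  chk_sound Env.nil
    (n (nat_lit 237) (b (b (n (nat_lit 238) (b (n (nat_lit 236) (b (n (nat_lit 239) (b (b (n (nat_lit 240) (b (n (nat_lit 215) (b (l (nat_lit 1) (nat_lit 211) (nat_lit 214)) (l (nat_lit 1) (nat_lit 212) (nat_lit 216)))) (n (nat_lit 265) (b (l (nat_lit 0) (nat_lit 237) (nat_lit 266)) (l (nat_lit 0) (nat_lit 236) (nat_lit 264)))))) (n (nat_lit 261) (b (l (nat_lit 2) (nat_lit 235) (nat_lit 260)) (l (nat_lit 2) (nat_lit 236) (nat_lit 240))))) (n (nat_lit 235) (b (n (nat_lit 260) (b (l (nat_lit 2) (nat_lit 234) (nat_lit 259)) (l (nat_lit 2) (nat_lit 235) (nat_lit 261)))) (n (nat_lit 263) (b (l (nat_lit 0) (nat_lit 234) (nat_lit 234)) (l (nat_lit 0) (nat_lit 235) (nat_lit 264)))))))) (l (nat_lit 7) (nat_lit 211) (nat_lit 211)))) (l (nat_lit 5) (nat_lit 212) (nat_lit 213)))) (n (nat_lit 212) (b (n (nat_lit 211) (b (l (nat_lit 7) (nat_lit 211) (nat_lit 236)) (l (nat_lit 7) (nat_lit 186) (nat_lit 186)))) (n (nat_lit 313) (b (l (nat_lit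 4) (nat_lit 212) (nat_lit 288)) (l (nat_lit 4) (nat_lit 237) (nat_lit 338))))))) (n (nat_lit 212) (b (n (nat_lit 313) (b (l (nat_lit 4) (nat_lit 212) (nat_lit 288)) (l (nat_lit 4) (nat_lit 237) (nat_lit 338)))) (n (nat_lit 213) (b (l (nat_lit 5) (nat_lit 187) (nat_lit 188)) (l (nat_lit 5) (nat_lit 212) (nat_lit 238))))))))
    envOK_nil (by decide +kernel)

theorem p2721 : Fam (nat_lit 9) (nat_lit 8343699607727673214248874617415937021077234590683750281279490000787534250410375654793883418624) (nat_lit 788040156807486722967599898194564443598596227258920406738482436452541559721632784601913283660268318871901524757315584) (nat_lit 788040156807486722967599898194564443598596227258920406738482436452541559721632784601913283660268318871901524757315584) :=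
  chk_sound (Env.cons (nat_lit 7) (nat_lit 8343699607727680624942585805652444129620275146709852890558508601783632775695752161234180374528) (nat_lit 559936210575549875822616428754285134168389703466671269474916070454878252582069695245572624670384979968) Env.nil)
    (n (nat_lit 262) (b (b (b (r (nat_lit 0)) (n (nat_lit 237) (b (b (n (nat_lit 337) (b (n (nat_lit 236) (b (l (nat_lit 7) (nat_lit 211) (nat_lit 211)) (l (nat_lit 7) (nat_lit 236) (nat_lit 261)))) (n (nat_lit 238) (b (l (nat_lit 5) (nat_lit 237) (nat_lit 263)) (l (nat_lit 5) (nat_lit 212) (nat_lit 213)))))) (n (nat_lit 212) (b (n (nat_lit 311) (b (l (nat_lit 6) (nat_lit 236) (nat_lit 336)) (l (nat_lit 6) (nat_lit 211) (nat_lit 286)))) (n (nat_lit 213) (b (l (nat_lit 5) (nat_lit 187) (nat_lit 188)) (l (nat_lit 5) (nat_lit 212) (nat_lit 238))))))) (n (nat_lit 212) (b (n (nat_lit 311) (b (l (nat_lit 6) (nat_lit 236) (nat_lit 336)) (l (nat_lit 6) (nat_lit 211) (nat_lit 286)))) (n (nat_lit 211)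 (b (l (nat_lit 7) (nat_lit 211) (nat_lit 236)) (l (nat_lit 7) (nat_lit 186) (nat_lit 186))))))))) (b (n (nat_lit 237) (b (b (n (nat_lit 337) (b (n (nat_lit 336) (b (l (nat_lit 6) (nat_lit 261) (nat_lit 361)) (l (nat_lit 6) (nat_lit 236) (nat_lit 311)))) (n (nat_lit 236) (b (l (nat_lit 7) (nat_lit 211) (nat_lit 211)) (l (nat_lit 7) (nat_lit 236) (nat_lit 261)))))) (n (nat_lit 212) (b (n (nat_lit 311) (b (l (nat_lit 6) (nat_lit 236) (nat_lit 336)) (l (nat_lit 6) (nat_lit 211) (nat_lit 286)))) (n (nat_lit 313) (b (l (nat_lit 4) (nat_lit 212) (nat_lit 288)) (l (nat_lit 4) (nat_lit 237) (nat_lit 338))))))) (n (nat_lit 212) (b (n (nat_lit 211) (b (l (nat_lit 7) (nat_lit 211) (nat_lit 236)) (l (nat_lit 7) (nat_lit 186) (nat_lit 186)))) (n (nat_lit 313) (b (l (nat_lit 4) (nat_lit 212) (nat_lit 288)) (l (nat_lit 4) (nat_lit 237) (nat_lit 338)))))))) (n (nat_lit 337) (b (b (n (nat_lit 237) (b (n (nat_lit 336) (b (l (nat_lit 6) (nat_lit 261) (nat_lit 361))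 (l (nat_lit 6) (nat_lit 236) (nat_lit 311)))) (n (nat_lit 338) (b (l (nat_lit 4) (nat_lit 237) (nat_lit 313)) (l (nat_lit 4) (nat_lit 262) (nat_lit 363)))))) (n (nat_lit 362) (b (n (nat_lit 363) (b (l (nat_lit 4) (nat_lit 262) (nat_lit 338)) (l (nat_lit 4) (nat_lit 287) (nat_lit 388)))) (n (nat_lit 263) (b (l (nat_lit 5) (nat_lit 237) (nat_lit 238)) (l (nat_lit 5) (nat_lit 262) (nat_lit 288))))))) (n (nat_lit 362) (b (n (nat_lit 263) (b (l (nat_lit 5) (nat_lit 237) (nat_lit 238)) (l (nat_lit 5) (nat_lit 262) (nat_lit 288)))) (n (nat_lit 361) (b (l (nat_lit 6) (nat_lit 286) (nat_lit 386)) (l (nat_lit 6) (nat_lit 261) (nat_lit 336)))))))))) (n (nat_lit 337) (b (b (n (nat_lit 362) (b (n (nat_lit 363) (b (l (nat_lit 4) (nat_lit 262) (nat_lit 338)) (l (nat_lit 4) (nat_lit 287) (nat_lit 388)))) (n (nat_lit 263) (b (l (nat_lit 5) (nat_lit 237) (nat_lit 238)) (l (nat_lit 5) (nat_lit 262) (nat_lit 288)))))) (n (nat_lit 362) (b (n (nat_lit 261) (b (l (nat_lit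 7) (nat_lit 261) (nat_lit 286)) (l (nat_lit 7) (nat_lit 236) (nat_lit 236)))) (n (nat_lit 361) (b (l (nat_lit 6) (nat_lit 286) (nat_lit 386)) (l (nat_lit 6) (nat_lit 261) (nat_lit 336))))))) (n (nat_lit 263) (b (n (nat_lit 261) (b (n (nat_lit 338) (b (n (nat_lit 288) (b (n (nat_lit 264) (b (n (nat_lit 239) (b (l (nat_lit 1) (nat_lit 236) (nat_lit 240)) (l (nat_lit 5) (nat_lit 238) (nat_lit 313)))) (n (nat_lit 265) (b (l (nat_lit 2) (nat_lit 262) (nat_lit 266)) (l (nat_lit 2) (nat_lit 261) (nat_lit 286)))))) (n (nat_lit 260) (b (l (nat_lit 0) (nat_lit 260) (nat_lit 289)) (l (nat_lit 0) (nat_lit 259) (nat_lit 259)))))) (l (nat_lit 4) (nat_lit 262) (nat_lit 363)))) (l (nat_lit 7) (nat_lit 236) (nat_lit 236)))) (l (nat_lit 5) (nat_lit 237) (nat_lit 238))))))))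
    (envOK_cons p2707 envOK_nil) (by decide +kernel)

theorem p2751 : Fam (nat_lit 5) (nat_lit 8343700291547123277705507581066528222955889728810957627632601481425502478504684047027274776576) (nat_lit 525653067516168051094186730489978604072995288212179784571862305870255777528227067611508977434624) (nat_lit 525653067516168051094186730489978604072995288212179784571862305870255777528227067611508977434624) :=
  chk_sound Env.nil
    (n (nat_lit 289) (b (b (n (nat_lit 314) (b (l (nat_lit 0) (nat_lit 286) (nat_lit 315)) (l (nat_lit 0) (nat_lit 285) (nat_lit 313)))) (n (nat_lit 290) (b (n (nat_lit 291) (b (n (nat_lit 316) (b (l (nat_lit 0) (nat_lit 288) (nat_lit 317)) (l (nat_lit 0) (nat_lit 287) (nat_lit 315)))) (l (nat_lit 2) (nat_lit 287) (nat_lit 313)))) (n (nat_lit 265) (b (l (nat_lit 1) (nat_lit 261) (nat_lit 264)) (l (nat_lit 1) (nat_lit 262) (nat_lit 266))))))) (b (n (nat_lit 290) (b (n (nat_lit 265) (b (l (nat_lit 1) (nat_lit 261) (nat_lit 264))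 (l (nat_lit 1) (nat_lit 262) (nat_lit 266)))) (n (nat_lit 313) (b (l (nat_lit 0) (nat_lit 285) (nat_lit 314)) (l (nat_lit 2) (nat_lit 287) (nat_lit 291)))))) (n (nat_lit 290) (b (n (nat_lit 265) (b (l (nat_lit 1) (nat_lit 261) (nat_lit 264)) (l (nat_lit 1) (nat_lit 262) (nat_lit 266)))) (n (nat_lit 315) (b (l (nat_lit 0) (nat_lit 287) (nat_lit 316)) (l (nat_lit 0) (nat_lit 286) (nat_lit 314)))))))))
    envOK_nil (by decide +kernel)

theorem p2755 : Fam (nat_lit 8) (nat_lit 8343699794223886867918865425684280076135049628354806830284884040961525585345187034493899243520) (nat_lit 18788341222127377020634413581755076987523865537920247537985408603056444343093244987760969403761419053783056384) (nat_lit 18788341222127377020634413581755076987523865537920247537985408603056444343093244987760969403761419053783056384) :=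
  chk_sound (Env.cons (nat_lit 5) (nat_lit 8343700291547123277705507581066528222955889728810957627632601481425502478504684047027274776576) (nat_lit 525653067516168051094186730489978604072995288212179784571862305870255777528227067611508977434624) Env.nil)
    (n (nat_lit 288) (b (b (r (nat_lit 0)) (n (nat_lit 289) (b (n (nat_lit 264) (b (l (nat_lit 1) (nat_lit 261) (nat_lit 265)) (l (nat_lit 1) (nat_lit 260) (nat_lit 263)))) (n (nat_lit 260) (b (l (nat_lit 3) (nat_lit 260) (nat_lit 261)) (l (nat_lit 3) (nat_lit 259) (nat_lit 259))))))) (b (n (nat_lit 289) (b (n (nat_lit 260) (b (l (nat_lit 3) (nat_lit 260) (nat_lit 261)) (l (nat_lit 3) (nat_lit 259) (nat_lit 259)))) (n (nat_lit 314) (b (l (nat_lit 0) (nat_lit 286) (nat_lit 315)) (l (nat_lit 0) (nat_lit 285) (nat_lit 313)))))) (n (nat_lit 313) (b (n (nat_lit 263) (b (n (nat_lit 238) (b (n (nat_lit 262) (b (n (nat_lit 260) (b (n (nat_lit 239) (b (l (nat_lit 1) (nat_lit 235) (nat_lit 261)) (l (nat_lit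 5) (nat_lit 213) (nat_lit 214)))) (l (nat_lit 3) (nat_lit 259) (nat_lit 259)))) (n (nat_lit 338) (b (l (nat_lit 7) (nat_lit 262) (nat_lit 363)) (l (nat_lit 4) (nat_lit 237) (nat_lit 237)))))) (l (nat_lit 6) (nat_lit 212) (nat_lit 213)))) (l (nat_lit 1) (nat_lit 260) (nat_lit 264)))) (l (nat_lit 0) (nat_lit 285) (nat_lit 314)))))))
    (envOK_cons p2751 envOK_nil) (by decide +kernel)

theorem p2769 : Fam (nat_lit 9) (nat_lit 8343699732058482316695535156261499057782444615797787980616419360903528473700249907927227301888) (nat_lit 18788341222127380931743534768022470792972713248184621947168535986865302435739411635055135428574787329687814144) (nat_lit 18788341222127380931743534768022470792972713248184621947168535986865302435739411635055135428574787329687814144) :=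
  chk_sound (Env.cons (nat_lit 8) (nat_lit 8343699794223886867918865425684280076135049628354806830284884040961525585345187034493899243520) (nat_lit 18788341222127377020634413581755076987523865537920247537985408603056444343093244987760969403761419053783056384) Env.nil)
    (n (nat_lit 285) (b (b (r (nat_lit 0)) (n (nat_lit 284) (b (n (nat_lit 283) (b (n (nat_lit 308) (b (l (nat_lit 2) (nat_lit 283) (nat_lit 309)) (l (nat_lit 2) (nat_lit 282) (nat_lit 307)))) (n (nat_lit 258) (b (l (nat_lit 3) (nat_lit 257) (nat_lit 257)) (l (nat_lit 3) (nat_lit 258) (nat_lit 259)))))) (l (nat_lit 0) (nat_lit 284) (nat_lit 313))))) (b (n (nat_lit 284) (b (b (n (nat_lit 288) (b (n (nat_lit 309) (b (l (nat_lit 2) (nat_lit 283) (nat_lit 308)) (l (nat_lit 2) (nat_lit 284) (nat_lit 310)))) (n (nat_lit 263) (b (l (nat_lit 1) (nat_lit 259) (nat_lit 262)) (l (nat_lit 1) (nat_lit 260) (nat_lit 264)))))) (n (nat_lit 283) (b (n (nat_lit 308) (b (l (nat_lit 2) (nat_lit 283) (nat_lit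 309)) (l (nat_lit 2) (nat_lit 282) (nat_lit 307)))) (n (nat_lit 258) (b (l (nat_lit 3) (nat_lit 257) (nat_lit 257)) (l (nat_lit 3) (nat_lit 258) (nat_lit 259))))))) (n (nat_lit 288) (b (n (nat_lit 259) (b (l (nat_lit 3) (nat_lit 258) (nat_lit 258)) (l (nat_lit 3) (nat_lit 259) (nat_lit 260)))) (n (nat_lit 263) (b (l (nat_lit 1) (nat_lit 259) (nat_lit 262)) (l (nat_lit 1) (nat_lit 260) (nat_lit 264)))))))) (n (nat_lit 313) (b (n (nat_lit 314) (b (l (nat_lit 0) (nat_lit 285) (nat_lit 288)) (l (nat_lit 3) (nat_lit 286) (nat_lit 315)))) (l (nat_lit 0) (nat_lit 284) (nat_lit 284)))))))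
    (envOK_cons p2755 envOK_nil) (by decide +kernel)

theorem p2811 : Fam (nat_lit 6) (nat_lit 8343699794223886867918865425684280076135049628354806830284884040961525585345187034493899243520) (nat_lit 3522813979148917087648045566234958242467862249715103740773207108104557623646511869072097157416895237253496832) (nat_lit 3522813979148917087648045566234958242467862249715103740773207108104557623646511869072097157416895237253496832) :=
  chk_sound Env.nil
    (n (nat_lit 288) (b (b (n (nat_lit 310) (b (n (nat_lit 335) (b (b (n (nat_lit 334) (b (n (nat_lit 313) (b (l (nat_lit 0) (nat_lit 285) (nat_lit 314)) (l (nat_lit 2) (nat_lit 309) (nat_lit 311)))) (n (nat_lit 260) (b (l (nat_lit 3) (nat_lit 259) (nat_lit 259)) (l (nat_lit 6) (nat_lit 259) (nat_lit 359)))))) (n (nat_lit 261) (b (n (nat_lit 260) (b (l (nat_lit 3) (nat_lit 259) (nat_lit 259)) (l (nat_lit 5) (nat_lit 235) (nat_lit 236)))) (l (nat_lit 5) (nat_lit 260) (nat_lit 360))))) (n (nat_lit 261)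 (b (n (nat_lit 236) (b (l (nat_lit 6) (nat_lit 210) (nat_lit 211)) (l (nat_lit 6) (nat_lit 235) (nat_lit 311)))) (l (nat_lit 5) (nat_lit 260) (nat_lit 360)))))) (l (nat_lit 2) (nat_lit 284) (nat_lit 309)))) (n (nat_lit 289) (b (n (nat_lit 310) (b (l (nat_lit 2) (nat_lit 284) (nat_lit 309)) (l (nat_lit 2) (nat_lit 285) (nat_lit 311)))) (n (nat_lit 260) (b (l (nat_lit 3) (nat_lit 260) (nat_lit 261)) (l (nat_lit 3) (nat_lit 259) (nat_lit 259))))))) (b (n (nat_lit 289) (b (n (nat_lit 310) (b (l (nat_lit 2) (nat_lit 284) (nat_lit 309)) (l (nat_lit 2) (nat_lit 285) (nat_lit 311)))) (n (nat_lit 314) (b (l (nat_lit 0) (nat_lit 286) (nat_lit 315)) (l (nat_lit 0) (nat_lit 285) (nat_lit 313)))))) (n (nat_lit 289) (b (n (nat_lit 260) (b (l (nat_lit 3) (nat_lit 260) (nat_lit 261)) (l (nat_lit 3) (nat_lit 259) (nat_lit 259)))) (n (nat_lit 314) (b (l (nat_lit 0) (nat_lit 286) (nat_lit 315)) (l (nat_lit 0) (nat_lit 285) (nat_lit 313)))))))))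
    envOK_nil (by decide +kernel)

theorem p2812 : Fam (nat_lit 7) (nat_lit 8343699732058482316695535156261499057782444615797787980616419360903528473700249907927227301888) (nat_lit 3522813979148917869869907102731723539584132563174622774900881821035334739180948308036586745745082815459885056) (nat_lit 3522813979148917869869907102731723539584132563174622774900881821035334739180948308036586745745082815459885056) :=
  chk_sound (Env.cons (nat_lit 6) (nat_lit 8343699794223886867918865425684280076135049628354806830284884040961525585345187034493899243520) (nat_lit 3522813979148917087648045566234958242467862249715103740773207108104557623646511869072097157416895237253496832) Env.nil)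
    (n (nat_lit 285) (b (b (n (nat_lit 284) (b (b (n (nat_lit 288) (b (n (nat_lit 259) (b (l (nat_lit 3) (nat_lit 258) (nat_lit 258)) (l (nat_lit 3) (nat_lit 259) (nat_lit 260)))) (n (nat_lit 309) (b (l (nat_lit 2) (nat_lit 283) (nat_lit 308)) (l (nat_lit 2) (nat_lit 284) (nat_lit 310)))))) (n (nat_lit 283) (b (n (nat_lit 308) (b (l (nat_lit 2) (nat_lit 283) (nat_lit 309)) (l (nat_lit 2) (nat_lit 282) (nat_lit 307)))) (l (nat_lit 0) (nat_lit 283) (nat_lit 311))))) (n (nat_lit 283) (b (n (nat_lit 258) (b (l (nat_lit 3) (nat_lit 257) (nat_lit 257)) (l (nat_lit 3) (nat_lit 258) (nat_lit 259)))) (l (nat_lit 0) (nat_lit 283) (nat_lit 311)))))) (n (nat_lit 313) (b (n (nat_lit 314) (b (l (nat_lit 3) (nat_lit 285) (nat_lit 311)) (l (nat_lit 3) (nat_lit 286) (nat_lit 315)))) (l (nat_lit 0) (nat_lit 284) (nat_lit 284))))) (b (n (nat_lit 284) (b (n (nat_lit 283) (b (n (nat_lit 308) (b (l (nat_lit 2) (nat_lit 283) (nat_lit 309)) (l (nat_lit 2) (nat_lit 282)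 (nat_lit 307)))) (n (nat_lit 258) (b (l (nat_lit 3) (nat_lit 257) (nat_lit 257)) (l (nat_lit 3) (nat_lit 258) (nat_lit 259)))))) (l (nat_lit 0) (nat_lit 284) (nat_lit 313)))) (r (nat_lit 0)))))
    (envOK_cons p2811 envOK_nil) (by decide +kernel)

theorem p2842 : Fam (nat_lit 10) (nat_lit 8343699607727673214248874617415937021077234590683750281279490000787534250410375654793883418624) (nat_lit 26442239854866153859533008152385838971574840391199097319933390819844924184160506225373927169602660480327764003575201966063616) (nat_lit 26442239854866153859533008152385838971574840391199097319933390819844924184160506225373927169602660480327764003575201966063616) :=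
  chk_sound (Env.cons (nat_lit 9) (nat_lit 8343699732058482316695535156261499057782444615797787980616419360903528473700249907927227301888) (nat_lit 18788341222127380931743534768022470792972713248184621947168535986865302435739411635055135428574787329687814144) (Env.cons (nat_lit 7) (nat_lit 8343699732058482316695535156261499057782444615797787980616419360903528473700249907927227301888) (nat_lit 3522813979148917869869907102731723539584132563174622774900881821035334739180948308036586745745082815459885056) Env.nil))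
    (n (nat_lit 286) (b (b (b (n (nat_lit 337) (b (b (n (nat_lit 362) (b (n (nat_lit 387) (b (n (nat_lit 386) (b (l (nat_lit 6) (nat_lit 311) (nat_lit 411)) (l (nat_lit 6) (nat_lit 286) (nat_lit 361)))) (l (nat_lit 7) (nat_lit 286) (nat_lit 311)))) (n (nat_lit 262) (b (n (nat_lit 263) (b (l (nat_lit 5) (nat_lit 237) (nat_lit 238)) (l (nat_lit 5) (nat_lit 262) (nat_lit 288)))) (n (nat_lit 363) (b (l (nat_lit 4) (nat_lit 262) (nat_lit 338)) (l (nat_lit 4) (nat_lit 287) (nat_lit 388)))))))) (n (nat_lit 261) (b (n (nat_lit 236) (b (l (nat_lit 4) (nat_lit 236) (nat_lit 311)) (l (nat_lit 4) (nat_lit 211) (nat_lit 211)))) (l (nat_lit 7) (nat_lit 261) (nat_lit 362))))) (n (nat_lit 262) (b (b (n (nat_lit 237) (b (n (nat_lit 338) (b (l (nat_lit 4) (nat_lit 237) (nat_lit 313)) (l (nat_lit 4) (nat_lit 262) (nat_lit 363)))) (n (nat_lit 238) (b (l (nat_lit 5) (nat_lit 237) (nat_lit 263)) (l (nat_lit 5) (nat_lit 212) (nat_lit 213)))))) (n (nat_lit 237) (b (n (nat_lit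 338) (b (l (nat_lit 4) (nat_lit 237) (nat_lit 313)) (l (nat_lit 4) (nat_lit 262) (nat_lit 363)))) (n (nat_lit 236) (b (l (nat_lit 7) (nat_lit 211) (nat_lit 211)) (l (nat_lit 7) (nat_lit 236) (nat_lit 261))))))) (n (nat_lit 261) (b (n (nat_lit 263) (b (n (nat_lit 260) (b (n (nat_lit 259) (b (n (nat_lit 234) (b (l (nat_lit 3) (nat_lit 234) (nat_lit 235)) (l (nat_lit 3) (nat_lit 233) (nat_lit 233)))) (l (nat_lit 0) (nat_lit 258) (nat_lit 258)))) (n (nat_lit 289) (b (n (nat_lit 264) (b (l (nat_lit 2) (nat_lit 261) (nat_lit 265)) (l (nat_lit 0) (nat_lit 261) (nat_lit 290)))) (l (nat_lit 3) (nat_lit 260) (nat_lit 288)))))) (l (nat_lit 5) (nat_lit 237) (nat_lit 238)))) (l (nat_lit 7) (nat_lit 236) (nat_lit 236)))))))) (r (nat_lit 0))) (b (n (nat_lit 285) (b (b (n (nat_lit 288) (b (b (n (nat_lit 289) (b (n (nat_lit 310) (b (l (nat_lit 2) (nat_lit 284) (nat_lit 309)) (l (nat_lit 2) (nat_lit 285) (nat_lit 311)))) (n (nat_lit 314) (b (l (nat_lit 0) (nat_lit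 286) (nat_lit 315)) (l (nat_lit 0) (nat_lit 285) (nat_lit 313)))))) (n (nat_lit 289) (b (n (nat_lit 311) (b (l (nat_lit 2) (nat_lit 285) (nat_lit 310)) (l (nat_lit 2) (nat_lit 286) (nat_lit 290)))) (n (nat_lit 264) (b (l (nat_lit 1) (nat_lit 261) (nat_lit 265)) (l (nat_lit 1) (nat_lit 260) (nat_lit 263))))))) (n (nat_lit 263) (b (n (nat_lit 238) (b (n (nat_lit 337) (b (l (nat_lit 6) (nat_lit 237) (nat_lit 313)) (l (nat_lit 5) (nat_lit 262) (nat_lit 362)))) (l (nat_lit 6) (nat_lit 212) (nat_lit 213)))) (l (nat_lit 1) (nat_lit 260) (nat_lit 264)))))) (n (nat_lit 313) (b (n (nat_lit 314) (b (l (nat_lit 3) (nat_lit 285) (nat_lit 311)) (l (nat_lit 3) (nat_lit 286) (nat_lit 315)))) (l (nat_lit 0) (nat_lit 284) (nat_lit 284))))) (b (n (nat_lit 284) (b (n (nat_lit 283) (b (n (nat_lit 308) (b (l (nat_lit 2) (nat_lit 283) (nat_lit 309)) (l (nat_lit 2) (nat_lit 282) (nat_lit 307)))) (n (nat_lit 258) (b (l (nat_lit 3) (nat_lit 257) (nat_lit 257)) (l (nat_lit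 3) (nat_lit 258) (nat_lit 259)))))) (l (nat_lit 0) (nat_lit 284) (nat_lit 313)))) (n (nat_lit 284) (b (b (n (nat_lit 283) (b (n (nat_lit 258) (b (l (nat_lit 3) (nat_lit 257) (nat_lit 257)) (l (nat_lit 3) (nat_lit 258) (nat_lit 259)))) (l (nat_lit 0) (nat_lit 283) (nat_lit 311)))) (n (nat_lit 283) (b (n (nat_lit 308) (b (l (nat_lit 2) (nat_lit 283) (nat_lit 309)) (l (nat_lit 2) (nat_lit 282) (nat_lit 307)))) (l (nat_lit 0) (nat_lit 283) (nat_lit 311))))) (n (nat_lit 309) (b (n (nat_lit 259) (b (n (nat_lit 310) (b (n (nat_lit 234) (b (l (nat_lit 4) (nat_lit 234) (nat_lit 335)) (l (nat_lit 4) (nat_lit 209) (nat_lit 209)))) (l (nat_lit 2) (nat_lit 284) (nat_lit 288)))) (l (nat_lit 3) (nat_lit 258) (nat_lit 258)))) (l (nat_lit 2) (nat_lit 283) (nat_lit 308))))))))) (n (nat_lit 337) (b (b (n (nat_lit 362) (b (n (nat_lit 387) (b (n (nat_lit 386) (b (l (nat_lit 6) (nat_lit 311) (nat_lit 411)) (l (nat_lit 6) (nat_lit 286) (nat_lit 361)))) (l (nat_lit 7) (nat_lit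 286) (nat_lit 311)))) (l (nat_lit 7) (nat_lit 261) (nat_lit 261)))) (n (nat_lit 262) (b (b (n (nat_lit 237) (b (n (nat_lit 338) (b (l (nat_lit 4) (nat_lit 237) (nat_lit 313)) (l (nat_lit 4) (nat_lit 262) (nat_lit 363)))) (n (nat_lit 236) (b (l (nat_lit 7) (nat_lit 211) (nat_lit 211)) (l (nat_lit 7) (nat_lit 236) (nat_lit 261)))))) (n (nat_lit 263) (b (n (nat_lit 261) (b (n (nat_lit 285) (b (l (nat_lit 2) (nat_lit 260) (nat_lit 264)) (l (nat_lit 1) (nat_lit 259) (nat_lit 284)))) (l (nat_lit 7) (nat_lit 236) (nat_lit 236)))) (l (nat_lit 5) (nat_lit 237) (nat_lit 238))))) (n (nat_lit 237) (b (n (nat_lit 338) (b (l (nat_lit 4) (nat_lit 237) (nat_lit 313)) (l (nat_lit 4) (nat_lit 262) (nat_lit 363)))) (n (nat_lit 238) (b (l (nat_lit 5) (nat_lit 237) (nat_lit 263)) (l (nat_lit 5) (nat_lit 212) (nat_lit 213))))))))) (n (nat_lit 362) (b (b (n (nat_lit 387) (b (n (nat_lit 388) (b (l (nat_lit 4) (nat_lit 312) (nat_lit 413)) (l (nat_lit 4) (nat_lit 287) (nat_lit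 363)))) (n (nat_lit 386) (b (l (nat_lit 6) (nat_lit 311) (nat_lit 411)) (l (nat_lit 6) (nat_lit 286) (nat_lit 361)))))) (n (nat_lit 387) (b (n (nat_lit 386) (b (l (nat_lit 6) (nat_lit 311) (nat_lit 411)) (l (nat_lit 6) (nat_lit 286) (nat_lit 361)))) (l (nat_lit 7) (nat_lit 286) (nat_lit 311))))) (n (nat_lit 363) (b (n (nat_lit 262) (b (n (nat_lit 237) (b (n (nat_lit 212) (b (n (nat_lit 211) (b (l (nat_lit 7) (nat_lit 211) (nat_lit 236)) (l (nat_lit 7) (nat_lit 186) (nat_lit 186)))) (l (nat_lit 6) (nat_lit 211) (nat_lit 311)))) (n (nat_lit 238) (b (l (nat_lit 5) (nat_lit 237) (nat_lit 263)) (l (nat_lit 5) (nat_lit 212) (nat_lit 213)))))) (l (nat_lit 4) (nat_lit 262) (nat_lit 338)))) (l (nat_lit 4) (nat_lit 287) (nat_lit 388)))))))))) (b (r (nat_lit 1)) (n (nat_lit 337) (b (b (n (nat_lit 362) (b (n (nat_lit 387) (b (n (nat_lit 386) (b (l (nat_lit 6) (nat_lit 311) (nat_lit 411)) (l (nat_lit 6) (nat_lit 286) (nat_lit 361)))) (l (nat_lit 7) (nat_lit 286)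 (nat_lit 311)))) (n (nat_lit 262) (b (n (nat_lit 263) (b (l (nat_lit 5) (nat_lit 237) (nat_lit 238)) (l (nat_lit 5) (nat_lit 262) (nat_lit 288)))) (n (nat_lit 363) (b (l (nat_lit 4) (nat_lit 262) (nat_lit 338)) (l (nat_lit 4) (nat_lit 287) (nat_lit 388)))))))) (n (nat_lit 362) (b (n (nat_lit 387) (b (n (nat_lit 388) (b (l (nat_lit 4) (nat_lit 312) (nat_lit 413)) (l (nat_lit 4) (nat_lit 287) (nat_lit 363)))) (n (nat_lit 386) (b (l (nat_lit 6) (nat_lit 311) (nat_lit 411)) (l (nat_lit 6) (nat_lit 286) (nat_lit 361)))))) (l (nat_lit 7) (nat_lit 261) (nat_lit 261))))) (n (nat_lit 262) (b (b (n (nat_lit 237) (b (b (n (nat_lit 236) (b (l (nat_lit 7) (nat_lit 211) (nat_lit 211)) (l (nat_lit 7) (nat_lit 236) (nat_lit 261)))) (n (nat_lit 212) (b (n (nat_lit 187) (b (n (nat_lit 186) (b (l (nat_lit 7) (nat_lit 186) (nat_lit 211)) (l (nat_lit 7) (nat_lit 161) (nat_lit 161)))) (l (nat_lit 6) (nat_lit 186) (nat_lit 261)))) (n (nat_lit 213) (b (l (nat_lit 5) (nat_lit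 187) (nat_lit 188)) (l (nat_lit 5) (nat_lit 212) (nat_lit 238))))))) (b (n (nat_lit 212) (b (n (nat_lit 213) (b (l (nat_lit 5) (nat_lit 187) (nat_lit 188)) (l (nat_lit 5) (nat_lit 212) (nat_lit 238)))) (n (nat_lit 261) (b (l (nat_lit 7) (nat_lit 236) (nat_lit 236)) (l (nat_lit 6) (nat_lit 186) (nat_lit 187)))))) (n (nat_lit 212) (b (n (nat_lit 213) (b (l (nat_lit 5) (nat_lit 187) (nat_lit 188)) (l (nat_lit 5) (nat_lit 212) (nat_lit 238)))) (n (nat_lit 211) (b (l (nat_lit 7) (nat_lit 211) (nat_lit 236)) (l (nat_lit 7) (nat_lit 186) (nat_lit 186))))))))) (n (nat_lit 263) (b (n (nat_lit 285) (b (n (nat_lit 264) (b (l (nat_lit 1) (nat_lit 260) (nat_lit 288)) (l (nat_lit 2) (nat_lit 261) (nat_lit 265)))) (l (nat_lit 1) (nat_lit 259) (nat_lit 284)))) (l (nat_lit 5) (nat_lit 237) (nat_lit 238))))) (n (nat_lit 261) (b (n (nat_lit 288) (b (b (n (nat_lit 285) (b (n (nat_lit 289) (b (n (nat_lit 310) (b (l (nat_lit 2) (nat_lit 284) (nat_lit 309)) (l (nat_lit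 2) (nat_lit 285) (nat_lit 311)))) (l (nat_lit 3) (nat_lit 261) (nat_lit 290)))) (n (nat_lit 284) (b (l (nat_lit 1) (nat_lit 258) (nat_lit 283)) (l (nat_lit 1) (nat_lit 259) (nat_lit 263)))))) (n (nat_lit 260) (b (l (nat_lit 0) (nat_lit 259) (nat_lit 259)) (l (nat_lit 3) (nat_lit 260) (nat_lit 289))))) (n (nat_lit 285) (b (b (n (nat_lit 263) (b (l (nat_lit 2) (nat_lit 260) (nat_lit 264)) (l (nat_lit 1) (nat_lit 259) (nat_lit 284)))) (n (nat_lit 260) (b (n (nat_lit 235) (b (n (nat_lit 210) (b (l (nat_lit 4) (nat_lit 210) (nat_lit 311)) (l (nat_lit 4) (nat_lit 185) (nat_lit 185)))) (n (nat_lit 263) (b (l (nat_lit 3) (nat_lit 234) (nat_lit 234)) (l (nat_lit 1) (nat_lit 260) (nat_lit 264)))))) (l (nat_lit 3) (nat_lit 259) (nat_lit 259))))) (n (nat_lit 259) (b (n (nat_lit 284) (b (l (nat_lit 1) (nat_lit 258) (nat_lit 283)) (l (nat_lit 3) (nat_lit 258) (nat_lit 258)))) (l (nat_lit 3) (nat_lit 259) (nat_lit 260)))))))) (l (nat_lit 7) (nat_lit 236) (nat_lit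 236)))))))))))
    (envOK_cons p2769 (envOK_cons p2812 envOK_nil)) (by decide +kernel)

theorem p2896 : Fam (nat_lit 6) (nat_lit 12515549411591509821373311926123905531615851886025625421919235001181301375615563482190825127936) (nat_lit 236412044223994886065325561901140152263502658284019762379072833460542063384547548226833240016548509317927608881512448) (nat_lit 236412044223994886065325561901140152263502658284019762379072833460542063384547548226833240016548509317927608881512448) :=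
  chk_sound Env.nil
    (n (nat_lit 336) (b (b (n (nat_lit 335) (b (n (nat_lit 313) (b (n (nat_lit 334) (b (l (nat_lit 1) (nat_lit 308) (nat_lit 333)) (l (nat_lit 2) (nat_lit 309) (nat_lit 310)))) (l (nat_lit 2) (nat_lit 310) (nat_lit 314)))) (n (nat_lit 360) (b (n (nat_lit 361) (b (l (nat_lit 5) (nat_lit 286) (nat_lit 386)) (l (nat_lit 6) (nat_lit 285) (nat_lit 385)))) (l (nat_lit 6) (nat_lit 260) (nat_lit 261)))))) (n (nat_lit 262) (b (l (nat_lit 5) (nat_lit 261) (nat_lit 361)) (l (nat_lit 6) (nat_lit 236) (nat_lit 237))))) (n (nat_lit 261) (b (n (nat_lit 237) (b (n (nat_lit 236) (b (l (nat_lit 4) (nat_lit 211) (nat_lit 211)) (l (nat_lit 5) (nat_lit 211) (nat_lit 212)))) (l (nat_lit 6) (nat_lit 236) (nat_lit 262)))) (n (nat_lit 335) (b (n (nat_lit 313) (b (n (nat_lit 334) (b (l (nat_lit 1) (nat_lit 308) (nat_lit 333)) (l (nat_lit 2) (nat_lit 309) (nat_lit 310)))) (l (nat_lit 2) (nat_lit 310) (nat_lit 314)))) (l (nat_lit 6) (nat_lit 260) (nat_lit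 360))))))))
    envOK_nil (by decide +kernel)

theorem p2924 : Fam (nat_lit 9) (nat_lit 8343699732058482316695535156261499057782444615797787980616419360903528473700249907927227301888) (nat_lit 236412045398266186201313389016539291038525713508811464275578527414553148935683738542739092361397137862882444785483776) (nat_lit 236412045398266186201313389016539291038525713508811464275578527414553148935683738542739092361397137862882444785483776) :=
  chk_sound (Env.cons (nat_lit 7) (nat_lit 12515549411591509821373311926123905531615851886025625421919235001181301375615563482190825127936) (nat_lit 157608029482663222380891580037973585966157301696431717926819587562039472008751915122197576236776741298106601817767936) (Env.cons (nat_lit 6) (nat_lit 12515549411591509821373311926123905531615851886025625421919235001181301375615563482190825127936) (nat_lit 236412044223994886065325561901140152263502658284019762379072833460542063384547548226833240016548509317927608881512448)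 Env.nil))
    (n (nat_lit 311) (b (b (b (n (nat_lit 336) (b (b (n (nat_lit 261) (b (n (nat_lit 236) (b (n (nat_lit 235) (b (l (nat_lit 7) (nat_lit 235) (nat_lit 260)) (l (nat_lit 7) (nat_lit 210) (nat_lit 210)))) (l (nat_lit 4) (nat_lit 211) (nat_lit 211)))) (n (nat_lit 361) (b (n (nat_lit 360) (b (l (nat_lit 6) (nat_lit 285) (nat_lit 385)) (l (nat_lit 6) (nat_lit 260) (nat_lit 335)))) (l (nat_lit 5) (nat_lit 286) (nat_lit 386)))))) (n (nat_lit 262) (b (l (nat_lit 5) (nat_lit 261) (nat_lit 361)) (l (nat_lit 6) (nat_lit 236) (nat_lit 237))))) (n (nat_lit 261) (b (b (n (nat_lit 236) (b (n (nat_lit 235) (b (l (nat_lit 7) (nat_lit 235) (nat_lit 260)) (l (nat_lit 7) (nat_lit 210) (nat_lit 210)))) (l (nat_lit 4) (nat_lit 211) (nat_lit 211)))) (n (nat_lit 237) (b (n (nat_lit 236) (b (l (nat_lit 4) (nat_lit 211) (nat_lit 211)) (l (nat_lit 5) (nat_lit 211) (nat_lit 212)))) (l (nat_lit 6) (nat_lit 236) (nat_lit 262))))) (n (nat_lit 262) (b (n (nat_lit 260)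 (b (n (nat_lit 263) (b (n (nat_lit 264) (b (n (nat_lit 239) (b (l (nat_lit 1) (nat_lit 235) (nat_lit 238)) (l (nat_lit 1) (nat_lit 236) (nat_lit 240)))) (l (nat_lit 2) (nat_lit 261) (nat_lit 265)))) (n (nat_lit 284) (b (n (nat_lit 259) (b (l (nat_lit 2) (nat_lit 258) (nat_lit 283)) (l (nat_lit 0) (nat_lit 258) (nat_lit 258)))) (l (nat_lit 2) (nat_lit 259) (nat_lit 285)))))) (l (nat_lit 7) (nat_lit 235) (nat_lit 235)))) (l (nat_lit 6) (nat_lit 236) (nat_lit 237)))))))) (n (nat_lit 313) (b (b (n (nat_lit 285) (b (l (nat_lit 3) (nat_lit 285) (nat_lit 314)) (l (nat_lit 0) (nat_lit 284) (nat_lit 284)))) (n (nat_lit 336) (b (n (nat_lit 361) (b (l (nat_lit 5) (nat_lit 261) (nat_lit 262)) (l (nat_lit 5) (nat_lit 286) (nat_lit 386)))) (n (nat_lit 314) (b (l (nat_lit 2) (nat_lit 310) (nat_lit 335)) (l (nat_lit 3) (nat_lit 286) (nat_lit 315))))))) (n (nat_lit 310) (b (b (n (nat_lit 309) (b (n (nat_lit 334) (b (l (nat_lit 2) (nat_lit 309) (nat_lit 335)) (l (nat_lit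 2) (nat_lit 308) (nat_lit 333)))) (l (nat_lit 1) (nat_lit 283) (nat_lit 308)))) (n (nat_lit 284) (b (n (nat_lit 309) (b (l (nat_lit 1) (nat_lit 283) (nat_lit 308)) (l (nat_lit 3) (nat_lit 283) (nat_lit 283)))) (l (nat_lit 3) (nat_lit 284) (nat_lit 285))))) (n (nat_lit 285) (b (n (nat_lit 361) (b (n (nat_lit 335) (b (n (nat_lit 360) (b (l (nat_lit 4) (nat_lit 285) (nat_lit 386)) (l (nat_lit 5) (nat_lit 285) (nat_lit 385)))) (l (nat_lit 2) (nat_lit 309) (nat_lit 334)))) (n (nat_lit 336) (b (l (nat_lit 5) (nat_lit 261) (nat_lit 262)) (l (nat_lit 7) (nat_lit 260) (nat_lit 260)))))) (l (nat_lit 3) (nat_lit 284) (nat_lit 284))))))))) (b (r (nat_lit 0)) (r (nat_lit 1)))) (n (nat_lit 310) (b (b (b (n (nat_lit 309) (b (n (nat_lit 284) (b (n (nat_lit 259) (b (b (n (nat_lit 334) (b (n (nat_lit 258) (b (l (nat_lit 3) (nat_lit 258) (nat_lit 285)) (l (nat_lit 7) (nat_lit 233) (nat_lit 233)))) (l (nat_lit 2) (nat_lit 308) (nat_lit 333)))) (n (nat_lit 335) (b (n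 (nat_lit 285) (b (l (nat_lit 7) (nat_lit 259) (nat_lit 360)) (l (nat_lit 3) (nat_lit 258) (nat_lit 258)))) (l (nat_lit 4) (nat_lit 234) (nat_lit 234))))) (n (nat_lit 334) (b (n (nat_lit 335) (b (l (nat_lit 4) (nat_lit 234) (nat_lit 234)) (l (nat_lit 4) (nat_lit 259) (nat_lit 360)))) (l (nat_lit 2) (nat_lit 308) (nat_lit 333)))))) (l (nat_lit 3) (nat_lit 283) (nat_lit 283)))) (l (nat_lit 1) (nat_lit 283) (nat_lit 308)))) (n (nat_lit 309) (b (n (nat_lit 284) (b (n (nat_lit 285) (b (n (nat_lit 334) (b (n (nat_lit 260) (b (l (nat_lit 5) (nat_lit 259) (nat_lit 359)) (l (nat_lit 6) (nat_lit 234) (nat_lit 235)))) (l (nat_lit 2) (nat_lit 308) (nat_lit 333)))) (l (nat_lit 3) (nat_lit 284) (nat_lit 313)))) (l (nat_lit 3) (nat_lit 283) (nat_lit 283)))) (l (nat_lit 1) (nat_lit 283) (nat_lit 308))))) (b (n (nat_lit 309) (b (n (nat_lit 284) (b (n (nat_lit 285) (b (n (nat_lit 335) (b (n (nat_lit 259) (b (l (nat_lit 4) (nat_lit 234) (nat_lit 234)) (l (nat_lit 3)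 (nat_lit 258) (nat_lit 258)))) (n (nat_lit 360) (b (l (nat_lit 5) (nat_lit 285) (nat_lit 385)) (l (nat_lit 5) (nat_lit 260) (nat_lit 261)))))) (l (nat_lit 3) (nat_lit 284) (nat_lit 313)))) (l (nat_lit 3) (nat_lit 283) (nat_lit 283)))) (l (nat_lit 1) (nat_lit 283) (nat_lit 308)))) (n (nat_lit 335) (b (n (nat_lit 360) (b (n (nat_lit 261) (b (l (nat_lit 6) (nat_lit 235) (nat_lit 236)) (l (nat_lit 5) (nat_lit 260) (nat_lit 285)))) (l (nat_lit 5) (nat_lit 285) (nat_lit 385)))) (n (nat_lit 334) (b (n (nat_lit 333) (b (l (nat_lit 1) (nat_lit 307) (nat_lit 332)) (l (nat_lit 2) (nat_lit 308) (nat_lit 309)))) (l (nat_lit 2) (nat_lit 309) (nat_lit 313)))))))) (b (n (nat_lit 309) (b (n (nat_lit 334) (b (n (nat_lit 284) (b (n (nat_lit 335) (b (n (nat_lit 259) (b (l (nat_lit 4) (nat_lit 259) (nat_lit 360)) (l (nat_lit 4) (nat_lit 234) (nat_lit 234)))) (l (nat_lit 2) (nat_lit 309) (nat_lit 313)))) (l (nat_lit 3) (nat_lit 283) (nat_lit 283)))) (l (nat_lit 2) (nat_lit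 308) (nat_lit 333)))) (l (nat_lit 1) (nat_lit 283) (nat_lit 308)))) (n (nat_lit 285) (b (b (n (nat_lit 284) (b (l (nat_lit 0) (nat_lit 283) (nat_lit 283)) (l (nat_lit 0) (nat_lit 284) (nat_lit 313)))) (n (nat_lit 335) (b (n (nat_lit 360) (b (l (nat_lit 5) (nat_lit 285) (nat_lit 385)) (l (nat_lit 5) (nat_lit 260) (nat_lit 261)))) (n (nat_lit 313) (b (l (nat_lit 2) (nat_lit 309) (nat_lit 334)) (l (nat_lit 3) (nat_lit 285) (nat_lit 314))))))) (n (nat_lit 284) (b (n (nat_lit 259) (b (n (nat_lit 335) (b (n (nat_lit 234) (b (l (nat_lit 4) (nat_lit 209) (nat_lit 209)) (l (nat_lit 7) (nat_lit 234) (nat_lit 260)))) (l (nat_lit 7) (nat_lit 259) (nat_lit 360)))) (l (nat_lit 3) (nat_lit 258) (nat_lit 258)))) (l (nat_lit 0) (nat_lit 283) (nat_lit 283)))))))))))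
    (envOK_cons p299 (envOK_cons p2896 envOK_nil)) (by decide +kernel)

theorem p3006 : Fam (nat_lit 6) (nat_lit 12515549411591509821373311926123905531615851886025625421919235001181301375615563482190825127936) (nat_lit 78804014741331803668611259763588119437356557608442921056242758188025940502534234339012571334738980780843595349360640) (nat_lit 78804014741331803668611259763588119437356557608442921056242758188025940502534234339012571334738980780843595349360640) :=
  chk_sound Env.nil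
    (n (nat_lit 310) (b (b (n (nat_lit 335) (b (n (nat_lit 261) (b (n (nat_lit 360) (b (l (nat_lit 6) (nat_lit 260) (nat_lit 336)) (l (nat_lit 5) (nat_lit 285) (nat_lit 385)))) (l (nat_lit 6) (nat_lit 235) (nat_lit 236)))) (n (nat_lit 334) (b (n (nat_lit 309) (b (l (nat_lit 2) (nat_lit 308) (nat_lit 333)) (l (nat_lit 1) (nat_lit 283) (nat_lit 308)))) (l (nat_lit 2) (nat_lit 309) (nat_lit 313)))))) (n (nat_lit 288) (b (l (nat_lit 2) (nat_lit 285) (nat_lit 289)) (l (nat_lit 1) (nat_lit 284) (nat_lit 309))))) (n (nat_lit 335) (b (n (nat_lit 289) (b (n (nat_lit 313) (b (n (nat_lit 314) (b (l (nat_lit 3) (nat_lit 286) (nat_lit 315)) (l (nat_lit 1) (nat_lit 286) (nat_lit 290)))) (l (nat_lit 2) (nat_lit 309) (nat_lit 334)))) (l (nat_lit 2) (nat_lit 285) (nat_lit 288)))) (n (nat_lit 261) (b (n (nat_lit 360) (b (l (nat_lit 6) (nat_lit 260) (nat_lit 336)) (l (nat_lit 5) (nat_lit 285) (nat_lit 385)))) (l (nat_lit 6) (nat_lit 235) (nat_lit 236))))))))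
    envOK_nil (by decide +kernel)

theorem p3026 : Fam (nat_lit 7) (nat_lit 8343700105050917034729559244859338223502912115447392985127943695478273847409896974930298273792) (nat_lit 559936210575549875822613186575786489307924448620077327457253125194767826312001024246281169584770777088) (nat_lit 559936210575549875822613186575786489307924448620077327457253125194767826312001024246281169584770777088) :=
  chk_sound Env.nil
    (n (nat_lit 238) (b (n (nat_lit 313) (b (n (nat_lit 239) (b (b (n (nat_lit 235) (b (n (nat_lit 234) (b (n (nat_lit 209) (b (l (nat_lit 3) (nat_lit 209) (nat_lit 210)) (l (nat_lit 3) (nat_lit 208) (nat_lit 208)))) (n (nat_lit 259) (b (l (nat_lit 2) (nat_lit 233) (nat_lit 258)) (l (nat_lit 2) (nat_lit 234) (nat_lit 260)))))) (n (nat_lit 264) (b (l (nat_lit 0) (nat_lit 236) (nat_lit 265)) (l (nat_lit 0) (nat_lit 235) (nat_lit 263)))))) (n (nat_lit 214) (b (l (nat_lit 1) (nat_lit 211) (nat_lit 215)) (l (nat_lit 5) (nat_lit 213) (nat_lit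 263))))) (n (nat_lit 240) (b (n (nat_lit 215) (b (l (nat_lit 1) (nat_lit 211) (nat_lit 214)) (l (nat_lit 1) (nat_lit 212) (nat_lit 216)))) (n (nat_lit 265) (b (l (nat_lit 0) (nat_lit 237) (nat_lit 266)) (l (nat_lit 0) (nat_lit 236) (nat_lit 264)))))))) (l (nat_lit 4) (nat_lit 237) (nat_lit 338)))) (l (nat_lit 5) (nat_lit 212) (nat_lit 213))))
    envOK_nil (by decide +kernel)

theorem p3063 : Fam (nat_lit 7) (nat_lit 8343699794223886867918865425684280076135049628354806830284884040961525585345187034493899243520) (nat_lit 4109949642340265163313853752426009928809800722169624750487107186613452218315169299022169853682200382795677696) (nat_lit 4109949642340265163313853752426009928809800722169624750487107186613452218315169299022169853682200382795677696) :=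
  chk_sound Env.nil
    (n (nat_lit 284) (b (b (n (nat_lit 283) (b (n (nat_lit 308) (b (l (nat_lit 2) (nat_lit 283) (nat_lit 309)) (l (nat_lit 2) (nat_lit 282) (nat_lit 307)))) (n (nat_lit 258) (b (l (nat_lit 3) (nat_lit 257) (nat_lit 257)) (l (nat_lit 3) (nat_lit 258) (nat_lit 259)))))) (n (nat_lit 283) (b (n (nat_lit 258) (b (l (nat_lit 3) (nat_lit 257) (nat_lit 257)) (l (nat_lit 3) (nat_lit 258) (nat_lit 259)))) (l (nat_lit 0) (nat_lit 283) (nat_lit 311))))) (b (n (nat_lit 283) (b (n (nat_lit 308) (b (l (nat_lit 2) (nat_lit 283) (nat_lit 309)) (l (nat_lit 2) (nat_lit 282) (nat_lit 307)))) (l (nat_lit 0) (nat_lit 283) (nat_lit 311)))) (n (nat_lit 259) (b (n (nat_lit 309) (b (n (nat_lit 334) (b (n (nat_lit 310) (b (n (nat_lit 333) (b (l (nat_lit 2) (nat_lit 308) (nat_lit 311)) (l (nat_lit 6) (nat_lit 258) (nat_lit 358)))) (n (nat_lit 335) (b (l (nat_lit 4) (nat_lit 234) (nat_lit 234)) (l (nat_lit 4) (nat_lit 259) (nat_lit 360)))))) (n (nat_lit 260)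 (b (l (nat_lit 5) (nat_lit 234) (nat_lit 235)) (l (nat_lit 5) (nat_lit 259) (nat_lit 359)))))) (l (nat_lit 2) (nat_lit 283) (nat_lit 308)))) (l (nat_lit 3) (nat_lit 258) (nat_lit 258)))))))
    envOK_nil (by decide +kernel)

theorem p3065 : Fam (nat_lit 13) (nat_lit 8343699607727673214248874617415937021077234590683750281279490000787534250410375654793883418624) (nat_lit 2482326464939080024598593665370904766707029613053909846497412398587708736376150017228477840431961126916326867427393536) (nat_lit 2482326464939080024598593665370904766707029613053909846497412398587708736376150017228477840431961126916326867427393536) :=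
  chk_sound (Env.cons (nat_lit 5) (nat_lit 8343700291547123277705507581066528222955889728810957627632601481425502478504684047027274776576) (nat_lit 525653067516168051094186730489978604072995288212179784571862305870255777528227067611508977434624) (Env.cons (nat_lit 9) (nat_lit 8343699732058482316695535156261499057782444615797787980616419360903528473700249907927227301888) (nat_lit 18788341222127380931743534768022470792972713248184621947168535986865302435739411635055135428574787329687814144) (Env.cons (nat_lit 8) (nat_lit 8343699794223886867918865425684280076135049628354806830284884040961525585345187034493899243520) (nat_lit 18788341222127377020634413581755076987523865537920247537985408603056444343093244987760969403761419053783056384) (Env.cons (nat_lit 7) (nat_lit 8343699732058482316695535156261499057782444615797787980616419360903528473700249907927227301888) (nat_lit 3522813979148917869869907102731723539584132563174622774900881821035334739180948308036586745745082815459885056)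 (Env.cons (nat_lit 9) (nat_lit 8343699732058482316695535156261499057782444615797787980616419360903528473700249907927227301888) (nat_lit 236412045398266186201313389016539291038525713508811464275578527414553148935683738542739092361397137862882444785483776) (Env.cons (nat_lit 6) (nat_lit 12515549411591509821373311926123905531615851886025625421919235001181301375615563482190825127936) (nat_lit 236412044223994833571256018989351774191649105374859421676518808213759708492092618153713929297977829116040637732356096) (Env.cons (nat_lit 6) (nat_lit 12515549411591509821373311926123905531615851886025625421919235001181301375615563482190825127936) (nat_lit 78804014741331803668611259763588119437356557608442921056242758188025940502534234339012571334738980780843595349360640) (Env.cons (nat_lit 7) (nat_lit 8343700105050917034729559244859338223502912115447392985127943695478273847409896974930298273792) (nat_lit 559936210575549875822613186575786489307924448620077327457253125194767826312001024246281169584770777088)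 (Env.cons (nat_lit 7) (nat_lit 8343699794223886867918865425684280076135049628354806830284884040961525585345187034493899243520) (nat_lit 4109949642340265163313853752426009928809800722169624750487107186613452218315169299022169853682200382795677696) Env.nil)))))))))
    (n (nat_lit 286) (b (b (b (n (nat_lit 285) (b (b (n (nat_lit 313) (b (n (nat_lit 314) (b (l (nat_lit 3) (nat_lit 285) (nat_lit 311)) (l (nat_lit 3) (nat_lit 286) (nat_lit 315)))) (l (nat_lit 0) (nat_lit 284) (nat_lit 284)))) (n (nat_lit 284) (b (b (n (nat_lit 288) (b (n (nat_lit 309) (b (l (nat_lit 2) (nat_lit 283) (nat_lit 308)) (l (nat_lit 2) (nat_lit 284) (nat_lit 310)))) (n (nat_lit 263) (b (l (nat_lit 1) (nat_lit 259) (nat_lit 262)) (l (nat_lit 1) (nat_lit 260) (nat_lit 264)))))) (n (nat_lit 283) (b (n (nat_lit 308) (b (l (nat_lit 2) (nat_lit 283) (nat_lit 309)) (l (nat_lit 2) (nat_lit 282) (nat_lit 307)))) (n (nat_lit 258) (b (l (nat_lit 3) (nat_lit 257) (nat_lit 257)) (l (nat_lit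 3) (nat_lit 258) (nat_lit 259))))))) (n (nat_lit 288) (b (n (nat_lit 259) (b (l (nat_lit 3) (nat_lit 258) (nat_lit 258)) (l (nat_lit 3) (nat_lit 259) (nat_lit 260)))) (n (nat_lit 263) (b (l (nat_lit 1) (nat_lit 259) (nat_lit 262)) (l (nat_lit 1) (nat_lit 260) (nat_lit 264))))))))) (n (nat_lit 288) (b (b (n (nat_lit 289) (b (n (nat_lit 310) (b (l (nat_lit 2) (nat_lit 284) (nat_lit 309)) (l (nat_lit 2) (nat_lit 285) (nat_lit 311)))) (n (nat_lit 314) (b (l (nat_lit 0) (nat_lit 286) (nat_lit 315)) (l (nat_lit 0) (nat_lit 285) (nat_lit 313)))))) (n (nat_lit 289) (b (n (nat_lit 311) (b (l (nat_lit 2) (nat_lit 285) (nat_lit 310)) (l (nat_lit 2) (nat_lit 286) (nat_lit 290)))) (n (nat_lit 264) (b (l (nat_lit 1) (nat_lit 261) (nat_lit 265)) (l (nat_lit 1) (nat_lit 260) (nat_lit 263))))))) (b (r (nat_lit 0)) (n (nat_lit 313) (b (n (nat_lit 263) (b (n (nat_lit 238) (b (n (nat_lit 237) (b (n (nat_lit 262) (b (n (nat_lit 260) (b (n (nat_lit 235) (b (n (nat_lit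 311) (b (l (nat_lit 6) (nat_lit 236) (nat_lit 336)) (l (nat_lit 4) (nat_lit 210) (nat_lit 210)))) (n (nat_lit 236) (b (l (nat_lit 7) (nat_lit 211) (nat_lit 211)) (l (nat_lit 0) (nat_lit 234) (nat_lit 234)))))) (l (nat_lit 3) (nat_lit 259) (nat_lit 259)))) (l (nat_lit 7) (nat_lit 237) (nat_lit 338)))) (l (nat_lit 7) (nat_lit 212) (nat_lit 212)))) (l (nat_lit 6) (nat_lit 212) (nat_lit 213)))) (l (nat_lit 1) (nat_lit 260) (nat_lit 264)))) (l (nat_lit 0) (nat_lit 285) (nat_lit 314))))))))) (n (nat_lit 285) (b (b (n (nat_lit 288) (b (b (n (nat_lit 289) (b (n (nat_lit 310) (b (l (nat_lit 2) (nat_lit 284) (nat_lit 309)) (l (nat_lit 2) (nat_lit 285) (nat_lit 311)))) (n (nat_lit 314) (b (l (nat_lit 0) (nat_lit 286) (nat_lit 315)) (l (nat_lit 0) (nat_lit 285) (nat_lit 313)))))) (n (nat_lit 289) (b (n (nat_lit 311) (b (l (nat_lit 2) (nat_lit 285) (nat_lit 310)) (l (nat_lit 2) (nat_lit 286) (nat_lit 290)))) (n (nat_lit 264) (b (l (nat_lit 1) (nat_lit 261) (nat_lit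 265)) (l (nat_lit 1) (nat_lit 260) (nat_lit 263))))))) (n (nat_lit 313) (b (n (nat_lit 263) (b (n (nat_lit 238) (b (n (nat_lit 237) (b (n (nat_lit 239) (b (n (nat_lit 262) (b (n (nat_lit 240) (b (l (nat_lit 2) (nat_lit 236) (nat_lit 261)) (l (nat_lit 2) (nat_lit 237) (nat_lit 241)))) (l (nat_lit 7) (nat_lit 237) (nat_lit 338)))) (l (nat_lit 5) (nat_lit 213) (nat_lit 214)))) (l (nat_lit 7) (nat_lit 212) (nat_lit 212)))) (l (nat_lit 6) (nat_lit 212) (nat_lit 213)))) (l (nat_lit 1) (nat_lit 260) (nat_lit 264)))) (l (nat_lit 0) (nat_lit 285) (nat_lit 314)))))) (n (nat_lit 284) (b (b (n (nat_lit 288) (b (n (nat_lit 309) (b (l (nat_lit 2) (nat_lit 283) (nat_lit 308)) (l (nat_lit 2) (nat_lit 284) (nat_lit 310)))) (n (nat_lit 263) (b (l (nat_lit 1) (nat_lit 259) (nat_lit 262)) (l (nat_lit 1) (nat_lit 260) (nat_lit 264)))))) (n (nat_lit 283) (b (n (nat_lit 308) (b (l (nat_lit 2) (nat_lit 283) (nat_lit 309)) (l (nat_lit 2) (nat_lit 282) (nat_lit 307)))) (l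 (nat_lit 0) (nat_lit 283) (nat_lit 311))))) (n (nat_lit 283) (b (n (nat_lit 262) (b (l (nat_lit 1) (nat_lit 259) (nat_lit 263)) (l (nat_lit 1) (nat_lit 258) (nat_lit 261)))) (l (nat_lit 0) (nat_lit 283) (nat_lit 311))))))) (b (n (nat_lit 313) (b (n (nat_lit 314) (b (l (nat_lit 3) (nat_lit 285) (nat_lit 311)) (l (nat_lit 3) (nat_lit 286) (nat_lit 315)))) (l (nat_lit 0) (nat_lit 284) (nat_lit 284)))) (n (nat_lit 313) (b (n (nat_lit 314) (b (l (nat_lit 0) (nat_lit 285) (nat_lit 288)) (l (nat_lit 3) (nat_lit 286) (nat_lit 315)))) (l (nat_lit 0) (nat_lit 284) (nat_lit 284)))))))) (b (r (nat_lit 1)) (n (nat_lit 285) (b (b (r (nat_lit 2)) (n (nat_lit 313) (b (n (nat_lit 314) (b (l (nat_lit 3) (nat_lit 285) (nat_lit 311)) (l (nat_lit 3) (nat_lit 286) (nat_lit 315)))) (l (nat_lit 0) (nat_lit 284) (nat_lit 284))))) (n (nat_lit 284) (b (b (n (nat_lit 288) (b (n (nat_lit 259) (b (l (nat_lit 3) (nat_lit 258) (nat_lit 258)) (l (nat_lit 3) (nat_lit 259) (nat_lit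 260)))) (n (nat_lit 263) (b (l (nat_lit 1) (nat_lit 259) (nat_lit 262)) (l (nat_lit 1) (nat_lit 260) (nat_lit 264)))))) (n (nat_lit 283) (b (n (nat_lit 262) (b (l (nat_lit 1) (nat_lit 259) (nat_lit 263)) (l (nat_lit 1) (nat_lit 258) (nat_lit 261)))) (l (nat_lit 0) (nat_lit 283) (nat_lit 311))))) (n (nat_lit 283) (b (n (nat_lit 258) (b (l (nat_lit 3) (nat_lit 257) (nat_lit 257)) (l (nat_lit 3) (nat_lit 258) (nat_lit 259)))) (l (nat_lit 0) (nat_lit 283) (nat_lit 311)))))))))) (b (b (r (nat_lit 3)) (r (nat_lit 4))) (b (n (nat_lit 311) (b (b (b (n (nat_lit 261) (b (b (b (n (nat_lit 236) (b (n (nat_lit 237) (b (n (nat_lit 262) (b (n (nat_lit 235) (b (n (nat_lit 263) (b (l (nat_lit 3) (nat_lit 235) (nat_lit 264)) (l (nat_lit 0) (nat_lit 234) (nat_lit 234)))) (l (nat_lit 7) (nat_lit 210) (nat_lit 210)))) (l (nat_lit 6) (nat_lit 236) (nat_lit 336)))) (l (nat_lit 5) (nat_lit 211) (nat_lit 212)))) (l (nat_lit 4) (nat_lit 211) (nat_lit 211)))) (n (nat_lit 262)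 (b (b (n (nat_lit 237) (b (l (nat_lit 6) (nat_lit 236) (nat_lit 336)) (l (nat_lit 6) (nat_lit 211) (nat_lit 212)))) (n (nat_lit 289) (b (n (nat_lit 313) (b (n (nat_lit 314) (b (l (nat_lit 3) (nat_lit 286) (nat_lit 315)) (l (nat_lit 1) (nat_lit 286) (nat_lit 290)))) (n (nat_lit 237) (b (l (nat_lit 4) (nat_lit 237) (nat_lit 338)) (l (nat_lit 6) (nat_lit 211) (nat_lit 212)))))) (n (nat_lit 288) (b (l (nat_lit 3) (nat_lit 260) (nat_lit 260)) (l (nat_lit 2) (nat_lit 285) (nat_lit 310))))))) (n (nat_lit 260) (b (n (nat_lit 288) (b (l (nat_lit 3) (nat_lit 260) (nat_lit 289)) (l (nat_lit 0) (nat_lit 259) (nat_lit 259)))) (n (nat_lit 336) (b (l (nat_lit 5) (nat_lit 261) (nat_lit 361)) (l (nat_lit 7) (nat_lit 235) (nat_lit 235))))))))) (b (n (nat_lit 260) (b (n (nat_lit 259) (b (n (nat_lit 288) (b (l (nat_lit 0) (nat_lit 259) (nat_lit 262)) (l (nat_lit 3) (nat_lit 260) (nat_lit 289)))) (l (nat_lit 0) (nat_lit 258) (nat_lit 258)))) (n (nat_lit 235) (b (n (nat_lit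 210) (b (l (nat_lit 4) (nat_lit 185) (nat_lit 185)) (l (nat_lit 7) (nat_lit 210) (nat_lit 236)))) (l (nat_lit 7) (nat_lit 235) (nat_lit 336)))))) (n (nat_lit 236) (b (n (nat_lit 235) (b (n (nat_lit 260) (b (n (nat_lit 259) (b (n (nat_lit 237) (b (l (nat_lit 2) (nat_lit 234) (nat_lit 238)) (l (nat_lit 5) (nat_lit 211) (nat_lit 212)))) (l (nat_lit 0) (nat_lit 258) (nat_lit 258)))) (l (nat_lit 7) (nat_lit 235) (nat_lit 336)))) (l (nat_lit 7) (nat_lit 210) (nat_lit 210)))) (l (nat_lit 4) (nat_lit 211) (nat_lit 211)))))) (b (n (nat_lit 313) (b (n (nat_lit 289) (b (n (nat_lit 314) (b (l (nat_lit 3) (nat_lit 286) (nat_lit 315)) (l (nat_lit 1) (nat_lit 286) (nat_lit 290)))) (n (nat_lit 288) (b (l (nat_lit 3) (nat_lit 260) (nat_lit 260)) (l (nat_lit 1) (nat_lit 285) (nat_lit 310)))))) (n (nat_lit 237) (b (n (nat_lit 236) (b (l (nat_lit 4) (nat_lit 211) (nat_lit 211)) (l (nat_lit 5) (nat_lit 211) (nat_lit 212)))) (n (nat_lit 262) (b (l (nat_lit 4) (nat_lit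 237) (nat_lit 338)) (l (nat_lit 5) (nat_lit 236) (nat_lit 336)))))))) (n (nat_lit 236) (b (n (nat_lit 237) (b (n (nat_lit 238) (b (b (n (nat_lit 260) (b (n (nat_lit 262) (b (l (nat_lit 1) (nat_lit 234) (nat_lit 259)) (l (nat_lit 5) (nat_lit 212) (nat_lit 213)))) (l (nat_lit 2) (nat_lit 235) (nat_lit 239)))) (n (nat_lit 235) (b (n (nat_lit 213) (b (l (nat_lit 1) (nat_lit 210) (nat_lit 214)) (l (nat_lit 5) (nat_lit 212) (nat_lit 262)))) (l (nat_lit 7) (nat_lit 210) (nat_lit 210))))) (n (nat_lit 235) (b (n (nat_lit 260) (b (l (nat_lit 2) (nat_lit 235) (nat_lit 239)) (l (nat_lit 2) (nat_lit 234) (nat_lit 259)))) (l (nat_lit 7) (nat_lit 210) (nat_lit 210)))))) (l (nat_lit 5) (nat_lit 211) (nat_lit 212)))) (l (nat_lit 4) (nat_lit 211) (nat_lit 211))))))) (n (nat_lit 336) (b (n (nat_lit 261) (b (n (nat_lit 236) (b (n (nat_lit 235) (b (l (nat_lit 7) (nat_lit 235) (nat_lit 260)) (l (nat_lit 7) (nat_lit 210) (nat_lit 210)))) (l (nat_lit 4) (nat_lit 211) (nat_lit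 211)))) (n (nat_lit 335) (b (n (nat_lit 313) (b (n (nat_lit 334) (b (l (nat_lit 1) (nat_lit 308) (nat_lit 333)) (l (nat_lit 2) (nat_lit 309) (nat_lit 310)))) (l (nat_lit 2) (nat_lit 310) (nat_lit 314)))) (l (nat_lit 6) (nat_lit 260) (nat_lit 360)))))) (n (nat_lit 361) (b (l (nat_lit 5) (nat_lit 261) (nat_lit 262)) (l (nat_lit 5) (nat_lit 286) (nat_lit 386))))))) (b (n (nat_lit 313) (b (b (n (nat_lit 314) (b (n (nat_lit 289) (b (n (nat_lit 288) (b (n (nat_lit 264) (b (n (nat_lit 338) (b (l (nat_lit 5) (nat_lit 263) (nat_lit 363)) (l (nat_lit 6) (nat_lit 238) (nat_lit 239)))) (l (nat_lit 1) (nat_lit 261) (nat_lit 265)))) (l (nat_lit 2) (nat_lit 285) (nat_lit 310)))) (l (nat_lit 1) (nat_lit 286) (nat_lit 290)))) (l (nat_lit 3) (nat_lit 286) (nat_lit 315)))) (n (nat_lit 336) (b (n (nat_lit 361) (b (l (nat_lit 5) (nat_lit 261) (nat_lit 262)) (l (nat_lit 5) (nat_lit 286) (nat_lit 386)))) (n (nat_lit 314) (b (l (nat_lit 2) (nat_lit 310) (nat_lit 335)) (l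 (nat_lit 3) (nat_lit 286) (nat_lit 315))))))) (n (nat_lit 288) (b (b (n (nat_lit 289) (b (n (nat_lit 264) (b (n (nat_lit 338) (b (n (nat_lit 239) (b (l (nat_lit 5) (nat_lit 238) (nat_lit 263)) (l (nat_lit 6) (nat_lit 213) (nat_lit 214)))) (l (nat_lit 5) (nat_lit 263) (nat_lit 363)))) (l (nat_lit 1) (nat_lit 261) (nat_lit 265)))) (l (nat_lit 2) (nat_lit 286) (nat_lit 290)))) (n (nat_lit 310) (b (l (nat_lit 1) (nat_lit 284) (nat_lit 309)) (l (nat_lit 2) (nat_lit 285) (nat_lit 289))))) (n (nat_lit 338) (b (n (nat_lit 263) (b (b (n (nat_lit 238) (b (n (nat_lit 239) (b (l (nat_lit 5) (nat_lit 238) (nat_lit 264)) (l (nat_lit 5) (nat_lit 213) (nat_lit 214)))) (l (nat_lit 6) (nat_lit 212) (nat_lit 213)))) (n (nat_lit 262) (b (n (nat_lit 264) (b (l (nat_lit 5) (nat_lit 238) (nat_lit 239)) (l (nat_lit 2) (nat_lit 261) (nat_lit 265)))) (l (nat_lit 7) (nat_lit 237) (nat_lit 237))))) (n (nat_lit 237) (b (n (nat_lit 238) (b (l (nat_lit 6) (nat_lit 212) (nat_lit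 213)) (l (nat_lit 7) (nat_lit 212) (nat_lit 212)))) (l (nat_lit 7) (nat_lit 237) (nat_lit 262)))))) (n (nat_lit 363) (b (n (nat_lit 362) (b (n (nat_lit 310) (b (n (nat_lit 335) (b (n (nat_lit 364) (b (n (nat_lit 361) (b (n (nat_lit 385) (b (l (nat_lit 2) (nat_lit 360) (nat_lit 386)) (l (nat_lit 5) (nat_lit 285) (nat_lit 360)))) (l (nat_lit 3) (nat_lit 335) (nat_lit 336)))) (l (nat_lit 4) (nat_lit 288) (nat_lit 389)))) (l (nat_lit 2) (nat_lit 309) (nat_lit 334)))) (l (nat_lit 1) (nat_lit 284) (nat_lit 309)))) (l (nat_lit 6) (nat_lit 287) (nat_lit 387)))) (l (nat_lit 7) (nat_lit 287) (nat_lit 388)))))))))) (r (nat_lit 5)))) (b (r (nat_lit 6)) (n (nat_lit 288) (b (b (n (nat_lit 236) (b (b (n (nat_lit 261) (b (n (nat_lit 310) (b (l (nat_lit 6) (nat_lit 235) (nat_lit 335)) (l (nat_lit 1) (nat_lit 284) (nat_lit 309)))) (l (nat_lit 4) (nat_lit 211) (nat_lit 211)))) (n (nat_lit 237) (b (b (n (nat_lit 238) (b (b (b (n (nat_lit 239) (b (b (n (nat_lit 240)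 (b (n (nat_lit 215) (b (l (nat_lit 1) (nat_lit 211) (nat_lit 214)) (l (nat_lit 1) (nat_lit 212) (nat_lit 216)))) (n (nat_lit 265) (b (l (nat_lit 0) (nat_lit 237) (nat_lit 266)) (l (nat_lit 0) (nat_lit 236) (nat_lit 264)))))) (n (nat_lit 235) (b (n (nat_lit 210) (b (l (nat_lit 3) (nat_lit 210) (nat_lit 211)) (l (nat_lit 3) (nat_lit 209) (nat_lit 209)))) (n (nat_lit 264) (b (l (nat_lit 0) (nat_lit 236) (nat_lit 265)) (l (nat_lit 0) (nat_lit 235) (nat_lit 263))))))) (n (nat_lit 240) (b (n (nat_lit 211) (b (l (nat_lit 3) (nat_lit 211) (nat_lit 212)) (l (nat_lit 3) (nat_lit 210) (nat_lit 210)))) (n (nat_lit 215) (b (l (nat_lit 1) (nat_lit 211) (nat_lit 214)) (l (nat_lit 1) (nat_lit 212) (nat_lit 216)))))))) (n (nat_lit 235) (b (b (n (nat_lit 239) (b (n (nat_lit 210) (b (l (nat_lit 3) (nat_lit 210) (nat_lit 211)) (l (nat_lit 3) (nat_lit 209) (nat_lit 209)))) (n (nat_lit 214) (b (l (nat_lit 1) (nat_lit 211) (nat_lit 215)) (l (nat_lit 1) (nat_lit 210) (nat_lit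 213)))))) (n (nat_lit 234) (b (n (nat_lit 259) (b (l (nat_lit 2) (nat_lit 233) (nat_lit 258)) (l (nat_lit 2) (nat_lit 234) (nat_lit 260)))) (n (nat_lit 213) (b (l (nat_lit 1) (nat_lit 210) (nat_lit 214)) (l (nat_lit 1) (nat_lit 209) (nat_lit 212))))))) (n (nat_lit 234) (b (n (nat_lit 209) (b (l (nat_lit 3) (nat_lit 209) (nat_lit 210)) (l (nat_lit 3) (nat_lit 208) (nat_lit 208)))) (n (nat_lit 259) (b (l (nat_lit 2) (nat_lit 233) (nat_lit 258)) (l (nat_lit 2) (nat_lit 234) (nat_lit 260))))))))) (b (n (nat_lit 263) (b (n (nat_lit 264) (b (n (nat_lit 265) (b (l (nat_lit 0) (nat_lit 236) (nat_lit 239)) (l (nat_lit 2) (nat_lit 262) (nat_lit 266)))) (l (nat_lit 0) (nat_lit 235) (nat_lit 235)))) (l (nat_lit 6) (nat_lit 212) (nat_lit 213)))) (n (nat_lit 239) (b (b (n (nat_lit 240) (b (n (nat_lit 215) (b (l (nat_lit 1) (nat_lit 211) (nat_lit 214)) (l (nat_lit 1) (nat_lit 212) (nat_lit 216)))) (n (nat_lit 265) (b (l (nat_lit 0) (nat_lit 237) (nat_lit 266))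 (l (nat_lit 0) (nat_lit 236) (nat_lit 264)))))) (n (nat_lit 263) (b (n (nat_lit 313) (b (l (nat_lit 5) (nat_lit 213) (nat_lit 214)) (l (nat_lit 7) (nat_lit 212) (nat_lit 212)))) (l (nat_lit 6) (nat_lit 212) (nat_lit 213))))) (n (nat_lit 240) (b (n (nat_lit 211) (b (l (nat_lit 3) (nat_lit 211) (nat_lit 212)) (l (nat_lit 3) (nat_lit 210) (nat_lit 210)))) (n (nat_lit 265) (b (l (nat_lit 0) (nat_lit 237) (nat_lit 266)) (l (nat_lit 0) (nat_lit 236) (nat_lit 264)))))))))) (n (nat_lit 213) (b (n (nat_lit 214) (b (n (nat_lit 215) (b (l (nat_lit 2) (nat_lit 211) (nat_lit 212)) (l (nat_lit 2) (nat_lit 212) (nat_lit 216)))) (l (nat_lit 1) (nat_lit 210) (nat_lit 235)))) (l (nat_lit 6) (nat_lit 212) (nat_lit 263)))))) (n (nat_lit 262) (b (l (nat_lit 7) (nat_lit 211) (nat_lit 211)) (l (nat_lit 6) (nat_lit 211) (nat_lit 212))))) (b (n (nat_lit 262) (b (r (nat_lit 7)) (l (nat_lit 7) (nat_lit 211) (nat_lit 211)))) (n (nat_lit 262) (b (r (nat_lit 7)) (l (nat_lit 6)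 (nat_lit 211) (nat_lit 212)))))))) (n (nat_lit 237) (b (b (n (nat_lit 262) (b (r (nat_lit 7)) (l (nat_lit 6) (nat_lit 211) (nat_lit 212)))) (n (nat_lit 310) (b (n (nat_lit 261) (b (n (nat_lit 238) (b (n (nat_lit 213) (b (l (nat_lit 6) (nat_lit 212) (nat_lit 263)) (l (nat_lit 5) (nat_lit 212) (nat_lit 262)))) (n (nat_lit 235) (b (n (nat_lit 260) (b (l (nat_lit 2) (nat_lit 235) (nat_lit 239)) (l (nat_lit 2) (nat_lit 234) (nat_lit 259)))) (l (nat_lit 7) (nat_lit 210) (nat_lit 210)))))) (l (nat_lit 6) (nat_lit 235) (nat_lit 335)))) (l (nat_lit 1) (nat_lit 284) (nat_lit 309))))) (n (nat_lit 261) (b (n (nat_lit 310) (b (l (nat_lit 6) (nat_lit 235) (nat_lit 335)) (l (nat_lit 1) (nat_lit 284) (nat_lit 309)))) (l (nat_lit 5) (nat_lit 211) (nat_lit 212)))))))) (n (nat_lit 289) (b (l (nat_lit 2) (nat_lit 286) (nat_lit 290)) (l (nat_lit 2) (nat_lit 285) (nat_lit 310))))) (n (nat_lit 289) (b (n (nat_lit 261) (b (n (nat_lit 236) (b (n (nat_lit 237) (b (n (nat_lit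 264) (b (n (nat_lit 235) (b (n (nat_lit 263) (b (l (nat_lit 3) (nat_lit 235) (nat_lit 262)) (l (nat_lit 0) (nat_lit 235) (nat_lit 238)))) (l (nat_lit 7) (nat_lit 210) (nat_lit 210)))) (l (nat_lit 1) (nat_lit 261) (nat_lit 265)))) (l (nat_lit 5) (nat_lit 211) (nat_lit 212)))) (l (nat_lit 4) (nat_lit 211) (nat_lit 211)))) (l (nat_lit 3) (nat_lit 260) (nat_lit 260)))) (l (nat_lit 2) (nat_lit 286) (nat_lit 290))))))))) (n (nat_lit 285) (b (b (b (n (nat_lit 288) (b (b (n (nat_lit 289) (b (n (nat_lit 311) (b (l (nat_lit 2) (nat_lit 285) (nat_lit 310)) (l (nat_lit 2) (nat_lit 286) (nat_lit 290)))) (n (nat_lit 264) (b (l (nat_lit 1) (nat_lit 261) (nat_lit 265)) (l (nat_lit 1) (nat_lit 260) (nat_lit 263)))))) (n (nat_lit 289) (b (n (nat_lit 264) (b (l (nat_lit 1) (nat_lit 261) (nat_lit 265)) (l (nat_lit 1) (nat_lit 260) (nat_lit 263)))) (n (nat_lit 260) (b (l (nat_lit 3) (nat_lit 260) (nat_lit 261)) (l (nat_lit 3) (nat_lit 259) (nat_lit 259))))))) (n (nat_lit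 310) (b (n (nat_lit 260) (b (n (nat_lit 335) (b (b (n (nat_lit 360) (b (n (nat_lit 359) (b (l (nat_lit 6) (nat_lit 259) (nat_lit 334)) (l (nat_lit 6) (nat_lit 284) (nat_lit 384)))) (n (nat_lit 361) (b (l (nat_lit 4) (nat_lit 285) (nat_lit 386)) (l (nat_lit 4) (nat_lit 260) (nat_lit 336)))))) (n (nat_lit 235) (b (n (nat_lit 236) (b (l (nat_lit 5) (nat_lit 210) (nat_lit 211)) (l (nat_lit 5) (nat_lit 235) (nat_lit 261)))) (n (nat_lit 311) (b (l (nat_lit 4) (nat_lit 235) (nat_lit 336)) (l (nat_lit 4) (nat_lit 210) (nat_lit 210))))))) (n (nat_lit 261) (b (l (nat_lit 5) (nat_lit 260) (nat_lit 360)) (l (nat_lit 5) (nat_lit 235) (nat_lit 236)))))) (l (nat_lit 3) (nat_lit 259) (nat_lit 259)))) (l (nat_lit 2) (nat_lit 284) (nat_lit 309)))))) (n (nat_lit 284) (b (b (n (nat_lit 288) (b (n (nat_lit 309) (b (l (nat_lit 2) (nat_lit 283) (nat_lit 308)) (l (nat_lit 2) (nat_lit 284) (nat_lit 310)))) (n (nat_lit 263) (b (l (nat_lit 1) (nat_lit 259) (nat_lit 262)) (l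 (nat_lit 1) (nat_lit 260) (nat_lit 264)))))) (n (nat_lit 283) (b (n (nat_lit 308) (b (l (nat_lit 2) (nat_lit 283) (nat_lit 309)) (l (nat_lit 2) (nat_lit 282) (nat_lit 307)))) (l (nat_lit 0) (nat_lit 283) (nat_lit 311))))) (n (nat_lit 283) (b (n (nat_lit 262) (b (l (nat_lit 1) (nat_lit 259) (nat_lit 263)) (l (nat_lit 1) (nat_lit 258) (nat_lit 261)))) (l (nat_lit 0) (nat_lit 283) (nat_lit 311))))))) (b (n (nat_lit 284) (b (b (n (nat_lit 288) (b (n (nat_lit 259) (b (l (nat_lit 3) (nat_lit 258) (nat_lit 258)) (l (nat_lit 3) (nat_lit 259) (nat_lit 260)))) (n (nat_lit 263) (b (l (nat_lit 1) (nat_lit 259) (nat_lit 262)) (l (nat_lit 1) (nat_lit 260) (nat_lit 264)))))) (n (nat_lit 283) (b (n (nat_lit 262) (b (l (nat_lit 1) (nat_lit 259) (nat_lit 263)) (l (nat_lit 1) (nat_lit 258) (nat_lit 261)))) (l (nat_lit 0) (nat_lit 283) (nat_lit 311))))) (n (nat_lit 283) (b (n (nat_lit 258) (b (l (nat_lit 3) (nat_lit 257) (nat_lit 257)) (l (nat_lit 3) (nat_lit 258) (nat_lit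 259)))) (l (nat_lit 0) (nat_lit 283) (nat_lit 311)))))) (n (nat_lit 284) (b (b (n (nat_lit 288) (b (n (nat_lit 309) (b (l (nat_lit 2) (nat_lit 283) (nat_lit 308)) (l (nat_lit 2) (nat_lit 284) (nat_lit 310)))) (n (nat_lit 263) (b (l (nat_lit 1) (nat_lit 259) (nat_lit 262)) (l (nat_lit 1) (nat_lit 260) (nat_lit 264)))))) (n (nat_lit 283) (b (n (nat_lit 308) (b (l (nat_lit 2) (nat_lit 283) (nat_lit 309)) (l (nat_lit 2) (nat_lit 282) (nat_lit 307)))) (n (nat_lit 258) (b (l (nat_lit 3) (nat_lit 257) (nat_lit 257)) (l (nat_lit 3) (nat_lit 258) (nat_lit 259))))))) (n (nat_lit 288) (b (n (nat_lit 259) (b (l (nat_lit 3) (nat_lit 258) (nat_lit 258)) (l (nat_lit 3) (nat_lit 259) (nat_lit 260)))) (n (nat_lit 263) (b (l (nat_lit 1) (nat_lit 259) (nat_lit 262)) (l (nat_lit 1) (nat_lit 260) (nat_lit 264)))))))))) (r (nat_lit 8))))))))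
    (envOK_cons p2751 (envOK_cons p2769 (envOK_cons p2755 (envOK_cons p2812 (envOK_cons p2924 (envOK_cons p282 (envOK_cons p3006 (envOK_cons p3026 (envOK_cons p3063 envOK_nil))))))))) (by decide +kernel)

theorem p3101 : Fam (nat_lit 11) (nat_lit 8343699607727673214248874617415937021077234590683750281279490000787534250410375654793883418624) (nat_lit 23485426930112763276169231541594047768890810545133321785866017482694348192097268745732576261765553546221060096) (nat_lit 23485426930112763276169231541594047768890810545133321785866017482694348192097268745732576261765553546221060096) :=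
  chk_sound (Env.cons (nat_lit 7) (nat_lit 8343699607727680624942585805652444129620275146709852890558508601783632775695752161234180374528) (nat_lit 559936210575549875822616428754285134168389703466671269474916070454878252582069695245572624670384979968) (Env.cons (nat_lit 7) (nat_lit 8343699607727680624942585805652444129620275146709852890558508601783632775695752161234180374528) (nat_lit 822406338225048899253791587252888190313528646617389556250889496546990968238903283451643850242637430784) Env.nil))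
    (n (nat_lit 262) (b (b (b (r (nat_lit 0)) (r (nat_lit 1))) (b (n (nat_lit 237) (b (b (n (nat_lit 337) (b (n (nat_lit 236) (b (l (nat_lit 7) (nat_lit 211) (nat_lit 211)) (l (nat_lit 7) (nat_lit 236) (nat_lit 261)))) (n (nat_lit 238) (b (l (nat_lit 5) (nat_lit 237) (nat_lit 263)) (l (nat_lit 5) (nat_lit 212) (nat_lit 213)))))) (n (nat_lit 212) (b (n (nat_lit 311) (b (l (nat_lit 6) (nat_lit 236) (nat_lit 336)) (l (nat_lit 6) (nat_lit 211) (nat_lit 286)))) (n (nat_lit 213) (b (l (nat_lit 5) (nat_lit 187) (nat_lit 188)) (l (nat_lit 5) (nat_lit 212) (nat_lit 238))))))) (n (nat_lit 212) (b (n (nat_lit 311) (b (l (nat_lit 6) (nat_lit 236) (nat_lit 336)) (l (nat_lit 6) (nat_lit 211) (nat_lit 286)))) (n (nat_lit 211) (b (l (nat_lit 7) (nat_lit 211) (nat_lit 236)) (l (nat_lit 7) (nat_lit 186) (nat_lit 186)))))))) (n (nat_lit 237) (b (b (n (nat_lit 337) (b (n (nat_lit 336) (b (l (nat_lit 6) (nat_lit 261) (nat_lit 361)) (l (nat_lit 6) (nat_lit 236) (nat_lit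 311)))) (n (nat_lit 236) (b (l (nat_lit 7) (nat_lit 211) (nat_lit 211)) (l (nat_lit 7) (nat_lit 236) (nat_lit 261)))))) (n (nat_lit 212) (b (n (nat_lit 311) (b (l (nat_lit 6) (nat_lit 236) (nat_lit 336)) (l (nat_lit 6) (nat_lit 211) (nat_lit 286)))) (n (nat_lit 313) (b (l (nat_lit 4) (nat_lit 212) (nat_lit 288)) (l (nat_lit 4) (nat_lit 237) (nat_lit 338))))))) (n (nat_lit 212) (b (n (nat_lit 211) (b (l (nat_lit 7) (nat_lit 211) (nat_lit 236)) (l (nat_lit 7) (nat_lit 186) (nat_lit 186)))) (n (nat_lit 313) (b (l (nat_lit 4) (nat_lit 212) (nat_lit 288)) (l (nat_lit 4) (nat_lit 237) (nat_lit 338)))))))))) (n (nat_lit 261) (b (b (n (nat_lit 260) (b (b (n (nat_lit 263) (b (n (nat_lit 238) (b (l (nat_lit 5) (nat_lit 237) (nat_lit 337)) (l (nat_lit 1) (nat_lit 235) (nat_lit 239)))) (n (nat_lit 264) (b (n (nat_lit 285) (b (l (nat_lit 2) (nat_lit 259) (nat_lit 284)) (l (nat_lit 2) (nat_lit 260) (nat_lit 286)))) (n (nat_lit 289) (b (l (nat_lit 0) (nat_lit 261)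 (nat_lit 290)) (l (nat_lit 0) (nat_lit 260) (nat_lit 288)))))))) (n (nat_lit 288) (b (n (nat_lit 289) (b (l (nat_lit 3) (nat_lit 260) (nat_lit 286)) (l (nat_lit 3) (nat_lit 261) (nat_lit 290)))) (l (nat_lit 0) (nat_lit 259) (nat_lit 259))))) (n (nat_lit 263) (b (n (nat_lit 259) (b (n (nat_lit 234) (b (l (nat_lit 3) (nat_lit 234) (nat_lit 235)) (l (nat_lit 3) (nat_lit 233) (nat_lit 233)))) (n (nat_lit 284) (b (l (nat_lit 2) (nat_lit 258) (nat_lit 283)) (l (nat_lit 2) (nat_lit 259) (nat_lit 285)))))) (n (nat_lit 238) (b (l (nat_lit 5) (nat_lit 237) (nat_lit 337)) (l (nat_lit 1) (nat_lit 235) (nat_lit 239)))))))) (n (nat_lit 260) (b (b (n (nat_lit 263) (b (b (n (nat_lit 238) (b (n (nat_lit 213) (b (l (nat_lit 6) (nat_lit 212) (nat_lit 288)) (l (nat_lit 6) (nat_lit 187) (nat_lit 188)))) (l (nat_lit 1) (nat_lit 235) (nat_lit 239)))) (n (nat_lit 264) (b (n (nat_lit 239) (b (l (nat_lit 1) (nat_lit 235) (nat_lit 238)) (l (nat_lit 1) (nat_lit 236) (nat_lit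 240)))) (n (nat_lit 235) (b (l (nat_lit 3) (nat_lit 234) (nat_lit 234)) (l (nat_lit 3) (nat_lit 235) (nat_lit 236))))))) (n (nat_lit 264) (b (n (nat_lit 289) (b (l (nat_lit 0) (nat_lit 261) (nat_lit 290)) (l (nat_lit 0) (nat_lit 260) (nat_lit 288)))) (n (nat_lit 235) (b (l (nat_lit 3) (nat_lit 234) (nat_lit 234)) (l (nat_lit 3) (nat_lit 235) (nat_lit 236)))))))) (n (nat_lit 288) (b (n (nat_lit 289) (b (l (nat_lit 3) (nat_lit 260) (nat_lit 286)) (l (nat_lit 3) (nat_lit 261) (nat_lit 290)))) (l (nat_lit 0) (nat_lit 259) (nat_lit 259))))) (n (nat_lit 263) (b (b (n (nat_lit 264) (b (n (nat_lit 285) (b (l (nat_lit 2) (nat_lit 259) (nat_lit 284)) (l (nat_lit 2) (nat_lit 260) (nat_lit 286)))) (n (nat_lit 239) (b (l (nat_lit 1) (nat_lit 235) (nat_lit 238)) (l (nat_lit 1) (nat_lit 236) (nat_lit 240)))))) (n (nat_lit 259) (b (n (nat_lit 234) (b (l (nat_lit 3) (nat_lit 234) (nat_lit 235)) (l (nat_lit 3) (nat_lit 233) (nat_lit 233)))) (n (nat_lit 284) (b (l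 (nat_lit 2) (nat_lit 258) (nat_lit 283)) (l (nat_lit 2) (nat_lit 259) (nat_lit 285))))))) (n (nat_lit 264) (b (n (nat_lit 239) (b (l (nat_lit 1) (nat_lit 235) (nat_lit 238)) (l (nat_lit 1) (nat_lit 236) (nat_lit 240)))) (n (nat_lit 235) (b (l (nat_lit 3) (nat_lit 234) (nat_lit 234)) (l (nat_lit 3) (nat_lit 235) (nat_lit 236))))))))))) (b (n (nat_lit 236) (b (n (nat_lit 211) (b (l (nat_lit 4) (nat_lit 211) (nat_lit 286)) (l (nat_lit 4) (nat_lit 186) (nat_lit 186)))) (l (nat_lit 7) (nat_lit 236) (nat_lit 337)))) (n (nat_lit 337) (b (n (nat_lit 336) (b (n (nat_lit 263) (b (n (nat_lit 260) (b (n (nat_lit 288) (b (l (nat_lit 0) (nat_lit 260) (nat_lit 289)) (l (nat_lit 0) (nat_lit 259) (nat_lit 259)))) (n (nat_lit 338) (b (n (nat_lit 310) (b (n (nat_lit 235) (b (n (nat_lit 285) (b (l (nat_lit 4) (nat_lit 235) (nat_lit 311)) (l (nat_lit 2) (nat_lit 259) (nat_lit 284)))) (l (nat_lit 3) (nat_lit 234) (nat_lit 234)))) (n (nat_lit 335) (b (n (nat_lit 313) (b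 (l (nat_lit 1) (nat_lit 309) (nat_lit 334)) (l (nat_lit 1) (nat_lit 310) (nat_lit 314)))) (l (nat_lit 3) (nat_lit 309) (nat_lit 309)))))) (l (nat_lit 4) (nat_lit 262) (nat_lit 363)))))) (l (nat_lit 5) (nat_lit 237) (nat_lit 238)))) (l (nat_lit 6) (nat_lit 261) (nat_lit 361)))) (l (nat_lit 7) (nat_lit 236) (nat_lit 236)))))))))
    (envOK_cons p2707 (envOK_cons p2594 envOK_nil)) (by decide +kernel)

theorem p3112 : Fam (nat_lit 8) (nat_lit 279968101115925134047353499319930152181142708231565782546248918899963984685054368582985341452834308096) (nat_lit 26442248818822826576062117811921911190817179048448386271205348798347394978830107369185504133500399955499275650069989355945984) (nat_lit 26442248818822826576062117811921911190817179048448386271205348798347394978830107369185504133500399955499275650069989355945984) :=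
  chk_sound Env.nil
    (n (nat_lit 362) (b (b (n (nat_lit 387) (b (n (nat_lit 288) (b (l (nat_lit 5) (nat_lit 262) (nat_lit 263)) (l (nat_lit 5) (nat_lit 287) (nat_lit 313)))) (n (nat_lit 386) (b (l (nat_lit 6) (nat_lit 311) (nat_lit 411)) (l (nat_lit 6) (nat_lit 286) (nat_lit 361)))))) (n (nat_lit 387) (b (n (nat_lit 288) (b (l (nat_lit 5) (nat_lit 262) (nat_lit 263)) (l (nat_lit 5) (nat_lit 287) (nat_lit 313)))) (n (nat_lit 388) (b (l (nat_lit 4) (nat_lit 312) (nat_lit 413)) (l (nat_lit 4) (nat_lit 287) (nat_lit 363))))))) (n (nat_lit 361) (b (n (nat_lit 363) (b (n (nat_lit 364) (b (b (n (nat_lit 336) (b (l (nat_lit 3) (nat_lit 336) (nat_lit 365)) (l (nat_lit 3) (nat_lit 335) (nat_lit 335)))) (n (nat_lit 360) (b (n (nat_lit 359) (b (n (nat_lit 384) (b (l (nat_lit 2) (nat_lit 359) (nat_lit 385)) (l (nat_lit 2) (nat_lit 358) (nat_lit 383)))) (l (nat_lit 1) (nat_lit 334) (nat_lit 338)))) (n (nat_lit 335) (b (l (nat_lit 3) (nat_lit 334) (nat_lit 334))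 (l (nat_lit 3) (nat_lit 335) (nat_lit 336))))))) (n (nat_lit 365) (b (n (nat_lit 366) (b (n (nat_lit 341) (b (l (nat_lit 1) (nat_lit 337) (nat_lit 340)) (l (nat_lit 1) (nat_lit 338) (nat_lit 342)))) (l (nat_lit 3) (nat_lit 337) (nat_lit 338)))) (n (nat_lit 390) (b (l (nat_lit 0) (nat_lit 362) (nat_lit 391)) (l (nat_lit 0) (nat_lit 361) (nat_lit 389)))))))) (l (nat_lit 4) (nat_lit 287) (nat_lit 388)))) (l (nat_lit 6) (nat_lit 286) (nat_lit 386))))))
    envOK_nil (by decide +kernel)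

theorem p3134 : Fam (nat_lit 5) (nat_lit 2085925274924345610902200270890670365384938723013050668330660580544866232472216673098502504448) (nat_lit 6610559963716537584179792246784722185258742564139743884321200277833391615765956395126232875782203456935809163056215756898304) (nat_lit 6610559963716537584179792246784722185258742564139743884321200277833391615765956395126232875782203456935809163056215756898304) :=
  chk_sound Env.nil
    (n (nat_lit 335) (b (b (n (nat_lit 360) (b (n (nat_lit 385) (b (n (nat_lit 384) (b (l (nat_lit 6) (nat_lit 284) (nat_lit 359)) (l (nat_lit 6) (nat_lit 309) (nat_lit 409)))) (n (nat_lit 386) (b (l (nat_lit 4) (nat_lit 310) (nat_lit 411)) (l (nat_lit 4) (nat_lit 285) (nat_lit 361)))))) (l (nat_lit 5) (nat_lit 260) (nat_lit 261)))) (n (nat_lit 260) (b (n (nat_lit 259) (b (l (nat_lit 7) (nat_lit 234) (nat_lit 234)) (l (nat_lit 3) (nat_lit 259) (nat_lit 288)))) (n (nat_lit 235) (b (n (nat_lit 236) (b (l (nat_lit 5) (nat_lit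 210) (nat_lit 211)) (l (nat_lit 5) (nat_lit 235) (nat_lit 261)))) (n (nat_lit 311) (b (l (nat_lit 4) (nat_lit 235) (nat_lit 336)) (l (nat_lit 4) (nat_lit 210) (nat_lit 210))))))))) (n (nat_lit 260) (b (n (nat_lit 360) (b (n (nat_lit 359) (b (l (nat_lit 6) (nat_lit 259) (nat_lit 334)) (l (nat_lit 6) (nat_lit 284) (nat_lit 384)))) (n (nat_lit 361) (b (l (nat_lit 4) (nat_lit 285) (nat_lit 386)) (l (nat_lit 4) (nat_lit 260) (nat_lit 336)))))) (n (nat_lit 259) (b (l (nat_lit 7) (nat_lit 234) (nat_lit 234)) (l (nat_lit 3) (nat_lit 259) (nat_lit 288))))))))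
    envOK_nil (by decide +kernel)

theorem p3161 : Fam (nat_lit 8) (nat_lit 279968103201850035979271802882148806535126963500874430217186489219836484881937931185579255151305162752) (nat_lit 177450869678515989890550487773450740274025335978268477399008854683647682350014134494786015227253369040075562885543725185152879427584) (nat_lit 177450869678515989890550487773450740274025335978268477399008854683647682350014134494786015227253369040075562885543725185152879427584) :=
  chk_sound Env.nil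
    (n (nat_lit 311) (b (b (n (nat_lit 288) (b (n (nat_lit 289) (b (l (nat_lit 1) (nat_lit 285) (nat_lit 313)) (l (nat_lit 2) (nat_lit 286) (nat_lit 290)))) (l (nat_lit 1) (nat_lit 284) (nat_lit 309)))) (n (nat_lit 336) (b (n (nat_lit 361) (b (n (nat_lit 260) (b (l (nat_lit 4) (nat_lit 260) (nat_lit 335)) (l (nat_lit 4) (nat_lit 235) (nat_lit 235)))) (l (nat_lit 7) (nat_lit 285) (nat_lit 386)))) (n (nat_lit 309) (b (l (nat_lit 0) (nat_lit 308) (nat_lit 308)) (l (nat_lit 0) (nat_lit 309) (nat_lit 338))))))) (n (nat_lit 260) (b (b (n (nat_lit 235) (b (n (nat_lit 210) (b (n (nat_lit 211) (b (l (nat_lit 5) (nat_lit 210) (nat_lit 236)) (l (nat_lit 5) (nat_lit 185) (nat_lit 186)))) (n (nat_lit 209) (b (l (nat_lit 7) (nat_lit 184) (nat_lit 184)) (l (nat_lit 7) (nat_lit 209) (nat_lit 234)))))) (l (nat_lit 4) (nat_lit 235) (nat_lit 336)))) (n (nat_lit 335) (b (n (nat_lit 235) (b (n (nat_lit 234) (b (l (nat_lit 7) (nat_lit 234) (nat_lit 259)) (l (nat_lit 7)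 (nat_lit 209) (nat_lit 209)))) (n (nat_lit 236) (b (l (nat_lit 5) (nat_lit 210) (nat_lit 211)) (l (nat_lit 5) (nat_lit 235) (nat_lit 261)))))) (n (nat_lit 334) (b (l (nat_lit 2) (nat_lit 309) (nat_lit 313)) (l (nat_lit 6) (nat_lit 259) (nat_lit 359))))))) (n (nat_lit 335) (b (b (n (nat_lit 313) (b (n (nat_lit 336) (b (l (nat_lit 2) (nat_lit 310) (nat_lit 314)) (l (nat_lit 4) (nat_lit 260) (nat_lit 361)))) (l (nat_lit 2) (nat_lit 309) (nat_lit 334)))) (n (nat_lit 334) (b (l (nat_lit 2) (nat_lit 309) (nat_lit 313)) (l (nat_lit 6) (nat_lit 259) (nat_lit 359))))) (n (nat_lit 360) (b (b (n (nat_lit 361) (b (l (nat_lit 4) (nat_lit 285) (nat_lit 386)) (l (nat_lit 4) (nat_lit 260) (nat_lit 336)))) (n (nat_lit 385) (b (n (nat_lit 410) (b (n (nat_lit 411) (b (l (nat_lit 4) (nat_lit 335) (nat_lit 436)) (l (nat_lit 4) (nat_lit 310) (nat_lit 386)))) (l (nat_lit 5) (nat_lit 310) (nat_lit 336)))) (n (nat_lit 384) (b (l (nat_lit 6) (nat_lit 284) (nat_lit 359)) (l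 (nat_lit 6) (nat_lit 309) (nat_lit 409))))))) (b (n (nat_lit 385) (b (n (nat_lit 384) (b (l (nat_lit 6) (nat_lit 284) (nat_lit 359)) (l (nat_lit 6) (nat_lit 309) (nat_lit 409)))) (n (nat_lit 386) (b (l (nat_lit 4) (nat_lit 310) (nat_lit 411)) (l (nat_lit 4) (nat_lit 285) (nat_lit 361)))))) (n (nat_lit 336) (b (n (nat_lit 359) (b (l (nat_lit 2) (nat_lit 334) (nat_lit 338)) (l (nat_lit 6) (nat_lit 284) (nat_lit 384)))) (l (nat_lit 4) (nat_lit 260) (nat_lit 361)))))))))))))
    envOK_nil (by decide +kernel)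

theorem p3219 : Fam (nat_lit 11) (nat_lit 279968103201850035979271802882148806535126963500874430217186489219836484881937931185579255151305162752) (nat_lit 44362724360716876630786606934442738412628044517013760710753655546467327175309266553724549872186371075875302883124460706626524938240) (nat_lit 44362724360716876630786606934442738412628044517013760710753655546467327175309266553724549872186371075875302883124460706626524938240) :=
  chk_sound Env.nil
    (n (nat_lit 309) (b (n (nat_lit 260) (b (b (n (nat_lit 334) (b (n (nat_lit 359) (b (l (nat_lit 5) (nat_lit 284) (nat_lit 384)) (l (nat_lit 5) (nat_lit 259) (nat_lit 284)))) (l (nat_lit 6) (nat_lit 234) (nat_lit 235)))) (n (nat_lit 235) (b (b (n (nat_lit 335) (b (n (nat_lit 234) (b (l (nat_lit 7) (nat_lit 234) (nat_lit 259)) (l (nat_lit 7) (nat_lit 209) (nat_lit 209)))) (n (nat_lit 236) (b (l (nat_lit 5) (nat_lit 210) (nat_lit 211)) (l (nat_lit 5) (nat_lit 235) (nat_lit 261)))))) (n (nat_lit 210) (b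 (n (nat_lit 209) (b (l (nat_lit 7) (nat_lit 184) (nat_lit 184)) (l (nat_lit 7) (nat_lit 209) (nat_lit 234)))) (l (nat_lit 6) (nat_lit 209) (nat_lit 284))))) (n (nat_lit 210) (b (n (nat_lit 211) (b (l (nat_lit 5) (nat_lit 210) (nat_lit 236)) (l (nat_lit 5) (nat_lit 185) (nat_lit 186)))) (l (nat_lit 6) (nat_lit 209) (nat_lit 284))))))) (b (n (nat_lit 334) (b (n (nat_lit 359) (b (l (nat_lit 5) (nat_lit 284) (nat_lit 384)) (l (nat_lit 6) (nat_lit 259) (nat_lit 335)))) (l (nat_lit 6) (nat_lit 234) (nat_lit 235)))) (n (nat_lit 335) (b (b (n (nat_lit 259) (b (n (nat_lit 284) (b (n (nat_lit 258) (b (b (n (nat_lit 233) (b (n (nat_lit 261) (b (l (nat_lit 3) (nat_lit 232) (nat_lit 232)) (l (nat_lit 5) (nat_lit 235) (nat_lit 236)))) (l (nat_lit 7) (nat_lit 233) (nat_lit 334)))) (n (nat_lit 233) (b (n (nat_lit 208) (b (l (nat_lit 4) (nat_lit 208) (nat_lit 283)) (l (nat_lit 4) (nat_lit 183) (nat_lit 183)))) (l (nat_lit 7) (nat_lit 233) (nat_lit 334))))) (n (nat_lit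 282) (b (n (nat_lit 257) (b (l (nat_lit 2) (nat_lit 256) (nat_lit 281)) (l (nat_lit 0) (nat_lit 256) (nat_lit 256)))) (n (nat_lit 261) (b (l (nat_lit 1) (nat_lit 257) (nat_lit 283)) (l (nat_lit 5) (nat_lit 235) (nat_lit 236)))))))) (l (nat_lit 7) (nat_lit 259) (nat_lit 360)))) (l (nat_lit 7) (nat_lit 234) (nat_lit 234)))) (n (nat_lit 360) (b (b (n (nat_lit 359) (b (l (nat_lit 6) (nat_lit 259) (nat_lit 334)) (l (nat_lit 6) (nat_lit 284) (nat_lit 384)))) (n (nat_lit 385) (b (n (nat_lit 410) (b (n (nat_lit 409) (b (l (nat_lit 6) (nat_lit 334) (nat_lit 434)) (l (nat_lit 6) (nat_lit 309) (nat_lit 384)))) (l (nat_lit 7) (nat_lit 309) (nat_lit 334)))) (n (nat_lit 386) (b (l (nat_lit 4) (nat_lit 310) (nat_lit 411)) (l (nat_lit 4) (nat_lit 285) (nat_lit 361))))))) (b (n (nat_lit 385) (b (n (nat_lit 386) (b (l (nat_lit 4) (nat_lit 310) (nat_lit 411)) (l (nat_lit 4) (nat_lit 285) (nat_lit 361)))) (n (nat_lit 334) (b (l (nat_lit 6) (nat_lit 259) (nat_lit 359))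 (l (nat_lit 7) (nat_lit 309) (nat_lit 410)))))) (n (nat_lit 385) (b (n (nat_lit 384) (b (l (nat_lit 6) (nat_lit 284) (nat_lit 359)) (l (nat_lit 6) (nat_lit 309) (nat_lit 409)))) (n (nat_lit 386) (b (l (nat_lit 4) (nat_lit 310) (nat_lit 411)) (l (nat_lit 4) (nat_lit 285) (nat_lit 361)))))))))) (b (n (nat_lit 360) (b (n (nat_lit 385) (b (n (nat_lit 384) (b (l (nat_lit 6) (nat_lit 284) (nat_lit 359)) (l (nat_lit 6) (nat_lit 309) (nat_lit 409)))) (n (nat_lit 386) (b (l (nat_lit 4) (nat_lit 310) (nat_lit 411)) (l (nat_lit 4) (nat_lit 285) (nat_lit 361)))))) (n (nat_lit 259) (b (l (nat_lit 7) (nat_lit 259) (nat_lit 284)) (l (nat_lit 7) (nat_lit 234) (nat_lit 234)))))) (n (nat_lit 334) (b (n (nat_lit 259) (b (n (nat_lit 261) (b (n (nat_lit 258) (b (b (n (nat_lit 233) (b (l (nat_lit 7) (nat_lit 233) (nat_lit 284)) (l (nat_lit 3) (nat_lit 232) (nat_lit 232)))) (n (nat_lit 233) (b (n (nat_lit 283) (b (l (nat_lit 4) (nat_lit 233) (nat_lit 308)) (l (nat_lit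 2) (nat_lit 257) (nat_lit 282)))) (l (nat_lit 3) (nat_lit 232) (nat_lit 232))))) (b (n (nat_lit 257) (b (n (nat_lit 256) (b (n (nat_lit 231) (b (l (nat_lit 3) (nat_lit 231) (nat_lit 232)) (l (nat_lit 3) (nat_lit 230) (nat_lit 230)))) (l (nat_lit 0) (nat_lit 256) (nat_lit 284)))) (n (nat_lit 282) (b (l (nat_lit 2) (nat_lit 256) (nat_lit 281)) (l (nat_lit 2) (nat_lit 257) (nat_lit 283)))))) (n (nat_lit 233) (b (n (nat_lit 283) (b (l (nat_lit 4) (nat_lit 233) (nat_lit 308)) (l (nat_lit 2) (nat_lit 257) (nat_lit 282)))) (l (nat_lit 7) (nat_lit 233) (nat_lit 284))))))) (l (nat_lit 5) (nat_lit 235) (nat_lit 236)))) (l (nat_lit 7) (nat_lit 234) (nat_lit 234)))) (l (nat_lit 6) (nat_lit 259) (nat_lit 359)))))))))) (n (nat_lit 311) (b (l (nat_lit 0) (nat_lit 309) (nat_lit 338)) (l (nat_lit 1) (nat_lit 284) (nat_lit 288))))))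
    envOK_nil (by decide +kernel)

theorem p3292 : Fam (nat_lit 9) (nat_lit 2085924901931920156235646451413111032405068786677463222639627150445908193923938040308545093632) (nat_lit 39402009719208458361065757443869893497066257920364817350485466085192091021632730893198953814072338695419274507321344) (nat_lit 39402009719208458361065757443869893497066257920364817350485466085192091021632730893198953814072338695419274507321344) :=
  chk_sound Env.nil
    (n (nat_lit 236) (b (b (n (nat_lit 235) (b (n (nat_lit 234) (b (n (nat_lit 259) (b (n (nat_lit 258) (b (l (nat_lit 2) (nat_lit 233) (nat_lit 237)) (l (nat_lit 1) (nat_lit 232) (nat_lit 257)))) (l (nat_lit 7) (nat_lit 234) (nat_lit 335)))) (l (nat_lit 7) (nat_lit 209) (nat_lit 209)))) (l (nat_lit 5) (nat_lit 210) (nat_lit 211)))) (n (nat_lit 335) (b (n (nat_lit 360) (b (n (nat_lit 259) (b (l (nat_lit 7) (nat_lit 259) (nat_lit 284)) (l (nat_lit 7) (nat_lit 234) (nat_lit 234)))) (n (nat_lit 359) (b (l (nat_lit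 6) (nat_lit 259) (nat_lit 334)) (l (nat_lit 6) (nat_lit 284) (nat_lit 384)))))) (l (nat_lit 5) (nat_lit 235) (nat_lit 261))))) (b (n (nat_lit 211) (b (n (nat_lit 261) (b (l (nat_lit 5) (nat_lit 235) (nat_lit 335)) (l (nat_lit 6) (nat_lit 185) (nat_lit 186)))) (l (nat_lit 5) (nat_lit 210) (nat_lit 235)))) (n (nat_lit 235) (b (n (nat_lit 234) (b (n (nat_lit 233) (b (b (n (nat_lit 258) (b (n (nat_lit 208) (b (n (nat_lit 259) (b (n (nat_lit 183) (b (l (nat_lit 4) (nat_lit 183) (nat_lit 284)) (l (nat_lit 4) (nat_lit 158) (nat_lit 158)))) (l (nat_lit 2) (nat_lit 233) (nat_lit 237)))) (l (nat_lit 3) (nat_lit 207) (nat_lit 207)))) (l (nat_lit 2) (nat_lit 232) (nat_lit 257)))) (n (nat_lit 232) (b (n (nat_lit 207) (b (l (nat_lit 3) (nat_lit 206) (nat_lit 206)) (l (nat_lit 3) (nat_lit 207) (nat_lit 208)))) (l (nat_lit 0) (nat_lit 232) (nat_lit 261))))) (n (nat_lit 232) (b (n (nat_lit 257) (b (l (nat_lit 2) (nat_lit 232) (nat_lit 258)) (l (nat_lit 2) (nat_lit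 231) (nat_lit 256)))) (l (nat_lit 0) (nat_lit 232) (nat_lit 261)))))) (l (nat_lit 7) (nat_lit 209) (nat_lit 209)))) (l (nat_lit 5) (nat_lit 210) (nat_lit 211)))))))
    envOK_nil (by decide +kernel)

theorem p3349 : Fam (nat_lit 13) (nat_lit 279968101115925196212758050543260421603923726584170795103267768568428664743051480227922468019506249728) (nat_lit 221813584784449027643805701855385773187564090208882033837525285128665935374648338091660679170507840146063634001093094511133306388480) (nat_lit 221813584784449027643805701855385773187564090208882033837525285128665935374648338091660679170507840146063634001093094511133306388480) :=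
  chk_sound (Env.cons (nat_lit 8) (nat_lit 279968103201850035979271802882148806535126963500874430217186489219836484881937931185579255151305162752) (nat_lit 177450869678515989890550487773450740274025335978268477399008854683647682350014134494786015227253369040075562885543725185152879427584) (Env.cons (nat_lit 11) (nat_lit 279968103201850035979271802882148806535126963500874430217186489219836484881937931185579255151305162752) (nat_lit 44362724360716876630786606934442738412628044517013760710753655546467327175309266553724549872186371075875302883124460706626524938240) (Env.cons (nat_lit 9) (nat_lit 2085924901931920156235646451413111032405068786677463222639627150445908193923938040308545093632) (nat_lit 39402009719208458361065757443869893497066257920364817350485466085192091021632730893198953814072338695419274507321344) Env.nil)))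
    (n (nat_lit 310) (b (b (b (r (nat_lit 0)) (r (nat_lit 1))) (b (n (nat_lit 335) (b (b (b (n (nat_lit 260) (b (n (nat_lit 235) (b (n (nat_lit 234) (b (l (nat_lit 7) (nat_lit 234) (nat_lit 259)) (l (nat_lit 7) (nat_lit 209) (nat_lit 209)))) (n (nat_lit 236) (b (l (nat_lit 5) (nat_lit 210) (nat_lit 211)) (l (nat_lit 5) (nat_lit 235) (nat_lit 261)))))) (n (nat_lit 334) (b (n (nat_lit 336) (b (l (nat_lit 4) (nat_lit 260) (nat_lit 361)) (l (nat_lit 1) (nat_lit 309) (nat_lit 313)))) (l (nat_lit 6) (nat_lit 259) (nat_lit 359)))))) (n (nat_lit 360) (b (b (n (nat_lit 385) (b (n (nat_lit 386) (b (l (nat_lit 4) (nat_lit 310) (nat_lit 411)) (l (nat_lit 4) (nat_lit 285) (nat_lit 361)))) (n (nat_lit 284) (b (l (nat_lit 7) (nat_lit 284) (nat_lit 309)) (l (nat_lit 7) (nat_lit 259) (nat_lit 259)))))) (n (nat_lit 385) (b (n (nat_lit 384) (b (l (nat_lit 6) (nat_lit 284) (nat_lit 359)) (l (nat_lit 6) (nat_lit 309) (nat_lit 409)))) (n (nat_lit 284) (b (l (nat_lit 7)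 (nat_lit 284) (nat_lit 309)) (l (nat_lit 7) (nat_lit 259) (nat_lit 259))))))) (n (nat_lit 336) (b (n (nat_lit 361) (b (l (nat_lit 4) (nat_lit 285) (nat_lit 386)) (l (nat_lit 4) (nat_lit 260) (nat_lit 260)))) (n (nat_lit 359) (b (l (nat_lit 2) (nat_lit 334) (nat_lit 338)) (l (nat_lit 6) (nat_lit 284) (nat_lit 384))))))))) (b (n (nat_lit 260) (b (b (n (nat_lit 360) (b (n (nat_lit 259) (b (l (nat_lit 7) (nat_lit 259) (nat_lit 284)) (l (nat_lit 7) (nat_lit 234) (nat_lit 234)))) (n (nat_lit 359) (b (l (nat_lit 6) (nat_lit 259) (nat_lit 334)) (l (nat_lit 6) (nat_lit 284) (nat_lit 384)))))) (n (nat_lit 235) (b (n (nat_lit 334) (b (l (nat_lit 6) (nat_lit 259) (nat_lit 359)) (l (nat_lit 6) (nat_lit 234) (nat_lit 309)))) (n (nat_lit 236) (b (l (nat_lit 5) (nat_lit 210) (nat_lit 211)) (l (nat_lit 5) (nat_lit 235) (nat_lit 261))))))) (n (nat_lit 235) (b (n (nat_lit 234) (b (l (nat_lit 7) (nat_lit 234) (nat_lit 259)) (l (nat_lit 7) (nat_lit 209) (nat_lit 209))))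 (n (nat_lit 236) (b (l (nat_lit 5) (nat_lit 210) (nat_lit 211)) (l (nat_lit 5) (nat_lit 235) (nat_lit 261)))))))) (n (nat_lit 336) (b (n (nat_lit 313) (b (n (nat_lit 314) (b (l (nat_lit 1) (nat_lit 310) (nat_lit 338)) (l (nat_lit 2) (nat_lit 311) (nat_lit 315)))) (l (nat_lit 1) (nat_lit 309) (nat_lit 334)))) (n (nat_lit 361) (b (n (nat_lit 386) (b (l (nat_lit 4) (nat_lit 285) (nat_lit 360)) (l (nat_lit 5) (nat_lit 311) (nat_lit 411)))) (l (nat_lit 4) (nat_lit 260) (nat_lit 260)))))))) (n (nat_lit 336) (b (b (n (nat_lit 313) (b (n (nat_lit 314) (b (l (nat_lit 1) (nat_lit 310) (nat_lit 338)) (l (nat_lit 2) (nat_lit 311) (nat_lit 315)))) (l (nat_lit 1) (nat_lit 309) (nat_lit 334)))) (n (nat_lit 360) (b (n (nat_lit 309) (b (n (nat_lit 284) (b (l (nat_lit 7) (nat_lit 284) (nat_lit 385)) (l (nat_lit 7) (nat_lit 259) (nat_lit 259)))) (l (nat_lit 3) (nat_lit 309) (nat_lit 338)))) (n (nat_lit 359) (b (n (nat_lit 361) (b (l (nat_lit 4) (nat_lit 285) (nat_lit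 386)) (l (nat_lit 1) (nat_lit 333) (nat_lit 358)))) (l (nat_lit 6) (nat_lit 284) (nat_lit 384))))))) (n (nat_lit 334) (b (n (nat_lit 359) (b (n (nat_lit 384) (b (l (nat_lit 5) (nat_lit 284) (nat_lit 309)) (l (nat_lit 6) (nat_lit 284) (nat_lit 360)))) (l (nat_lit 2) (nat_lit 333) (nat_lit 358)))) (l (nat_lit 1) (nat_lit 309) (nat_lit 313)))))))) (n (nat_lit 311) (b (b (n (nat_lit 309) (b (n (nat_lit 284) (b (l (nat_lit 3) (nat_lit 283) (nat_lit 283)) (l (nat_lit 3) (nat_lit 284) (nat_lit 313)))) (l (nat_lit 1) (nat_lit 284) (nat_lit 288)))) (n (nat_lit 309) (b (n (nat_lit 284) (b (l (nat_lit 3) (nat_lit 283) (nat_lit 283)) (l (nat_lit 3) (nat_lit 284) (nat_lit 313)))) (l (nat_lit 0) (nat_lit 309) (nat_lit 338))))) (b (n (nat_lit 309) (b (l (nat_lit 0) (nat_lit 309) (nat_lit 338)) (l (nat_lit 1) (nat_lit 284) (nat_lit 288)))) (n (nat_lit 313) (b (n (nat_lit 314) (b (b (n (nat_lit 289) (b (l (nat_lit 1) (nat_lit 286) (nat_lit 290)) (l (nat_lit 1) (nat_lit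 285) (nat_lit 288)))) (n (nat_lit 315) (b (n (nat_lit 316) (b (l (nat_lit 2) (nat_lit 312) (nat_lit 338)) (l (nat_lit 3) (nat_lit 287) (nat_lit 288)))) (l (nat_lit 2) (nat_lit 311) (nat_lit 336))))) (n (nat_lit 315) (b (n (nat_lit 290) (b (l (nat_lit 1) (nat_lit 286) (nat_lit 289)) (l (nat_lit 1) (nat_lit 287) (nat_lit 291)))) (l (nat_lit 2) (nat_lit 311) (nat_lit 336)))))) (l (nat_lit 3) (nat_lit 284) (nat_lit 284))))))))) (n (nat_lit 260) (b (b (b (r (nat_lit 2)) (n (nat_lit 236) (b (b (n (nat_lit 335) (b (n (nat_lit 334) (b (n (nat_lit 336) (b (l (nat_lit 4) (nat_lit 260) (nat_lit 361)) (l (nat_lit 1) (nat_lit 309) (nat_lit 313)))) (l (nat_lit 6) (nat_lit 259) (nat_lit 359)))) (l (nat_lit 5) (nat_lit 235) (nat_lit 261)))) (n (nat_lit 336) (b (n (nat_lit 235) (b (l (nat_lit 4) (nat_lit 235) (nat_lit 311)) (l (nat_lit 5) (nat_lit 210) (nat_lit 211)))) (n (nat_lit 335) (b (n (nat_lit 334) (b (l (nat_lit 1) (nat_lit 309) (nat_lit 313)) (l (nat_lit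 6) (nat_lit 259) (nat_lit 359)))) (l (nat_lit 4) (nat_lit 260) (nat_lit 361))))))) (b (n (nat_lit 211) (b (n (nat_lit 261) (b (l (nat_lit 5) (nat_lit 235) (nat_lit 335)) (l (nat_lit 6) (nat_lit 185) (nat_lit 186)))) (l (nat_lit 5) (nat_lit 210) (nat_lit 235)))) (n (nat_lit 235) (b (n (nat_lit 311) (b (n (nat_lit 313) (b (n (nat_lit 238) (b (n (nat_lit 288) (b (l (nat_lit 1) (nat_lit 285) (nat_lit 289)) (l (nat_lit 6) (nat_lit 237) (nat_lit 263)))) (n (nat_lit 237) (b (n (nat_lit 239) (b (n (nat_lit 214) (b (l (nat_lit 1) (nat_lit 211) (nat_lit 215)) (l (nat_lit 1) (nat_lit 210) (nat_lit 213)))) (l (nat_lit 2) (nat_lit 235) (nat_lit 261)))) (l (nat_lit 2) (nat_lit 234) (nat_lit 259)))))) (l (nat_lit 3) (nat_lit 284) (nat_lit 284)))) (l (nat_lit 4) (nat_lit 235) (nat_lit 336)))) (l (nat_lit 5) (nat_lit 210) (nat_lit 211)))))))) (b (n (nat_lit 336) (b (n (nat_lit 235) (b (n (nat_lit 210) (b (n (nat_lit 211) (b (l (nat_lit 5) (nat_lit 210) (nat_lit 236))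 (l (nat_lit 5) (nat_lit 185) (nat_lit 186)))) (n (nat_lit 209) (b (l (nat_lit 7) (nat_lit 184) (nat_lit 184)) (l (nat_lit 7) (nat_lit 209) (nat_lit 234)))))) (l (nat_lit 4) (nat_lit 235) (nat_lit 311)))) (n (nat_lit 335) (b (n (nat_lit 334) (b (l (nat_lit 1) (nat_lit 309) (nat_lit 313)) (l (nat_lit 6) (nat_lit 259) (nat_lit 359)))) (l (nat_lit 4) (nat_lit 260) (nat_lit 361)))))) (n (nat_lit 335) (b (b (n (nat_lit 334) (b (n (nat_lit 336) (b (l (nat_lit 4) (nat_lit 260) (nat_lit 361)) (l (nat_lit 1) (nat_lit 309) (nat_lit 313)))) (l (nat_lit 6) (nat_lit 259) (nat_lit 359)))) (n (nat_lit 360) (b (n (nat_lit 361) (b (l (nat_lit 4) (nat_lit 285) (nat_lit 386)) (l (nat_lit 4) (nat_lit 260) (nat_lit 336)))) (n (nat_lit 259) (b (l (nat_lit 7) (nat_lit 259) (nat_lit 284)) (l (nat_lit 7) (nat_lit 234) (nat_lit 234))))))) (n (nat_lit 360) (b (n (nat_lit 259) (b (l (nat_lit 7) (nat_lit 259) (nat_lit 284)) (l (nat_lit 7) (nat_lit 234) (nat_lit 234)))) (n (nat_lit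 359) (b (l (nat_lit 6) (nat_lit 259) (nat_lit 334)) (l (nat_lit 6) (nat_lit 284) (nat_lit 384)))))))))) (n (nat_lit 235) (b (b (n (nat_lit 311) (b (n (nat_lit 313) (b (n (nat_lit 236) (b (n (nat_lit 238) (b (n (nat_lit 288) (b (l (nat_lit 1) (nat_lit 285) (nat_lit 289)) (l (nat_lit 6) (nat_lit 237) (nat_lit 263)))) (n (nat_lit 237) (b (n (nat_lit 239) (b (n (nat_lit 214) (b (l (nat_lit 1) (nat_lit 211) (nat_lit 215)) (l (nat_lit 1) (nat_lit 210) (nat_lit 213)))) (l (nat_lit 2) (nat_lit 235) (nat_lit 261)))) (l (nat_lit 2) (nat_lit 234) (nat_lit 259)))))) (l (nat_lit 5) (nat_lit 210) (nat_lit 211)))) (l (nat_lit 3) (nat_lit 284) (nat_lit 284)))) (l (nat_lit 4) (nat_lit 235) (nat_lit 336)))) (n (nat_lit 209) (b (n (nat_lit 210) (b (n (nat_lit 311) (b (n (nat_lit 185) (b (n (nat_lit 284) (b (l (nat_lit 3) (nat_lit 284) (nat_lit 313)) (l (nat_lit 6) (nat_lit 184) (nat_lit 259)))) (n (nat_lit 186) (b (l (nat_lit 5) (nat_lit 185) (nat_lit 211)) (l (nat_lit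 5) (nat_lit 160) (nat_lit 161)))))) (l (nat_lit 4) (nat_lit 235) (nat_lit 336)))) (l (nat_lit 7) (nat_lit 184) (nat_lit 184)))) (l (nat_lit 7) (nat_lit 209) (nat_lit 234))))) (b (n (nat_lit 210) (b (n (nat_lit 211) (b (l (nat_lit 5) (nat_lit 210) (nat_lit 236)) (l (nat_lit 5) (nat_lit 185) (nat_lit 186)))) (n (nat_lit 209) (b (l (nat_lit 7) (nat_lit 184) (nat_lit 184)) (l (nat_lit 7) (nat_lit 209) (nat_lit 234)))))) (n (nat_lit 311) (b (n (nat_lit 284) (b (n (nat_lit 210) (b (b (n (nat_lit 185) (b (n (nat_lit 160) (b (n (nat_lit 161) (b (l (nat_lit 5) (nat_lit 160) (nat_lit 186)) (l (nat_lit 5) (nat_lit 135) (nat_lit 136)))) (n (nat_lit 159) (b (l (nat_lit 7) (nat_lit 134) (nat_lit 134)) (l (nat_lit 7) (nat_lit 159) (nat_lit 184)))))) (l (nat_lit 6) (nat_lit 184) (nat_lit 259)))) (n (nat_lit 209) (b (l (nat_lit 7) (nat_lit 184) (nat_lit 184)) (l (nat_lit 7) (nat_lit 209) (nat_lit 234))))) (n (nat_lit 259) (b (n (nat_lit 234) (b (n (nat_lit 233) (b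 (n (nat_lit 232) (b (l (nat_lit 0) (nat_lit 231) (nat_lit 231)) (l (nat_lit 0) (nat_lit 232) (nat_lit 261)))) (n (nat_lit 258) (b (n (nat_lit 236) (b (n (nat_lit 208) (b (l (nat_lit 4) (nat_lit 183) (nat_lit 183)) (l (nat_lit 3) (nat_lit 207) (nat_lit 207)))) (l (nat_lit 2) (nat_lit 233) (nat_lit 237)))) (n (nat_lit 257) (b (n (nat_lit 282) (b (l (nat_lit 2) (nat_lit 256) (nat_lit 281)) (l (nat_lit 0) (nat_lit 282) (nat_lit 283)))) (l (nat_lit 1) (nat_lit 231) (nat_lit 256)))))))) (l (nat_lit 7) (nat_lit 209) (nat_lit 209)))) (l (nat_lit 6) (nat_lit 184) (nat_lit 185)))))) (l (nat_lit 3) (nat_lit 284) (nat_lit 313)))) (l (nat_lit 4) (nat_lit 235) (nat_lit 336)))))))))))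
    (envOK_cons p3161 (envOK_cons p3219 (envOK_cons p3292 envOK_nil))) (by decide +kernel)

theorem p3406 : Fam (nat_lit 11) (nat_lit 279968103201850035979271802882148806535126963500874430217186489219836484881937931185579255151305162752) (nat_lit 66544082574739398774418968692082611878713351244898479637513469415057656783225868195767423469555691288209112639082699342342961233920) (nat_lit 66544082574739398774418968692082611878713351244898479637513469415057656783225868195767423469555691288209112639082699342342961233920) :=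
  chk_sound Env.nil
    (n (nat_lit 309) (b (b (n (nat_lit 286) (b (n (nat_lit 335) (b (b (n (nat_lit 360) (b (n (nat_lit 385) (b (n (nat_lit 384) (b (l (nat_lit 6) (nat_lit 284) (nat_lit 359)) (l (nat_lit 6) (nat_lit 309) (nat_lit 409)))) (n (nat_lit 386) (b (l (nat_lit 4) (nat_lit 310) (nat_lit 411)) (l (nat_lit 4) (nat_lit 285) (nat_lit 361)))))) (l (nat_lit 5) (nat_lit 260) (nat_lit 261)))) (n (nat_lit 260) (b (n (nat_lit 259) (b (n (nat_lit 261) (b (l (nat_lit 5) (nat_lit 235) (nat_lit 236)) (l (nat_lit 0) (nat_lit 258) (nat_lit 258)))) (l (nat_lit 7) (nat_lit 234) (nat_lit 234)))) (n (nat_lit 334) (b (l (nat_lit 6) (nat_lit 234) (nat_lit 235)) (l (nat_lit 6) (nat_lit 259) (nat_lit 359))))))) (b (n (nat_lit 261) (b (n (nat_lit 236) (b (l (nat_lit 6) (nat_lit 210) (nat_lit 211)) (l (nat_lit 5) (nat_lit 235) (nat_lit 260)))) (l (nat_lit 5) (nat_lit 260) (nat_lit 360)))) (n (nat_lit 360) (b (b (b (n (nat_lit 385) (b (b (n (nat_lit 384) (b (l (nat_lit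 6) (nat_lit 284) (nat_lit 359)) (l (nat_lit 6) (nat_lit 309) (nat_lit 409)))) (n (nat_lit 334) (b (n (nat_lit 260) (b (l (nat_lit 6) (nat_lit 259) (nat_lit 359)) (l (nat_lit 6) (nat_lit 234) (nat_lit 235)))) (l (nat_lit 7) (nat_lit 309) (nat_lit 410))))) (n (nat_lit 410) (b (n (nat_lit 409) (b (l (nat_lit 6) (nat_lit 334) (nat_lit 434)) (l (nat_lit 6) (nat_lit 309) (nat_lit 384)))) (l (nat_lit 7) (nat_lit 309) (nat_lit 334)))))) (n (nat_lit 334) (b (n (nat_lit 385) (b (n (nat_lit 386) (b (l (nat_lit 4) (nat_lit 310) (nat_lit 411)) (l (nat_lit 4) (nat_lit 285) (nat_lit 361)))) (l (nat_lit 7) (nat_lit 309) (nat_lit 410)))) (n (nat_lit 260) (b (l (nat_lit 6) (nat_lit 259) (nat_lit 359)) (l (nat_lit 6) (nat_lit 234) (nat_lit 235))))))) (b (n (nat_lit 385) (b (n (nat_lit 410) (b (n (nat_lit 409) (b (l (nat_lit 6) (nat_lit 334) (nat_lit 434)) (l (nat_lit 6) (nat_lit 309) (nat_lit 384)))) (l (nat_lit 7) (nat_lit 309) (nat_lit 334)))) (n (nat_lit 386) (b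 (l (nat_lit 4) (nat_lit 310) (nat_lit 411)) (l (nat_lit 4) (nat_lit 285) (nat_lit 361)))))) (n (nat_lit 385) (b (n (nat_lit 384) (b (l (nat_lit 6) (nat_lit 284) (nat_lit 359)) (l (nat_lit 6) (nat_lit 309) (nat_lit 409)))) (n (nat_lit 386) (b (l (nat_lit 4) (nat_lit 310) (nat_lit 411)) (l (nat_lit 4) (nat_lit 285) (nat_lit 361)))))))) (n (nat_lit 359) (b (n (nat_lit 334) (b (n (nat_lit 361) (b (n (nat_lit 358) (b (b (n (nat_lit 383) (b (n (nat_lit 408) (b (l (nat_lit 5) (nat_lit 333) (nat_lit 433)) (l (nat_lit 5) (nat_lit 308) (nat_lit 333)))) (l (nat_lit 2) (nat_lit 357) (nat_lit 382)))) (n (nat_lit 357) (b (n (nat_lit 382) (b (l (nat_lit 2) (nat_lit 357) (nat_lit 383)) (l (nat_lit 2) (nat_lit 356) (nat_lit 381)))) (l (nat_lit 1) (nat_lit 331) (nat_lit 356))))) (n (nat_lit 332) (b (n (nat_lit 357) (b (l (nat_lit 1) (nat_lit 331) (nat_lit 356)) (l (nat_lit 3) (nat_lit 331) (nat_lit 331)))) (l (nat_lit 3) (nat_lit 332) (nat_lit 333)))))) (l (nat_lit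 4) (nat_lit 285) (nat_lit 386)))) (l (nat_lit 6) (nat_lit 259) (nat_lit 260)))) (l (nat_lit 6) (nat_lit 284) (nat_lit 384))))))))) (l (nat_lit 2) (nat_lit 284) (nat_lit 288)))) (n (nat_lit 311) (b (l (nat_lit 0) (nat_lit 309) (nat_lit 338)) (l (nat_lit 1) (nat_lit 284) (nat_lit 288))))) (n (nat_lit 334) (b (n (nat_lit 260) (b (n (nat_lit 359) (b (l (nat_lit 5) (nat_lit 284) (nat_lit 384)) (l (nat_lit 6) (nat_lit 259) (nat_lit 335)))) (l (nat_lit 6) (nat_lit 234) (nat_lit 235)))) (n (nat_lit 311) (b (l (nat_lit 2) (nat_lit 308) (nat_lit 333)) (l (nat_lit 0) (nat_lit 309) (nat_lit 338))))))))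
    envOK_nil (by decide +kernel)

theorem p3437 : Fam (nat_lit 12) (nat_lit 279968101115925196212758050543260421603923726584170795103267768568428664743051480227922468019506249728) (nat_lit 66544082574739398774418968692222595925881685881250829551324246047873584413789694478706773994434802440617612162690895727721361440768) (nat_lit 66544082574739398774418968692222595925881685881250829551324246047873584413789694478706773994434802440617612162690895727721361440768) :=
  chk_sound (Env.cons (nat_lit 11) (nat_lit 279968103201850035979271802882148806535126963500874430217186489219836484881937931185579255151305162752) (nat_lit 66544082574739398774418968692082611878713351244898479637513469415057656783225868195767423469555691288209112639082699342342961233920) (Env.cons (nat_lit 11) (nat_lit 279968103201850035979271802882148806535126963500874430217186489219836484881937931185579255151305162752) (nat_lit 44362724360716876630786606934442738412628044517013760710753655546467327175309266553724549872186371075875302883124460706626524938240)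 Env.nil))
    (n (nat_lit 310) (b (b (b (n (nat_lit 260) (b (b (n (nat_lit 335) (b (b (n (nat_lit 360) (b (n (nat_lit 359) (b (l (nat_lit 6) (nat_lit 259) (nat_lit 334)) (l (nat_lit 6) (nat_lit 284) (nat_lit 384)))) (n (nat_lit 361) (b (l (nat_lit 4) (nat_lit 285) (nat_lit 386)) (l (nat_lit 4) (nat_lit 260) (nat_lit 336)))))) (n (nat_lit 235) (b (n (nat_lit 234) (b (l (nat_lit 7) (nat_lit 234) (nat_lit 259)) (l (nat_lit 7) (nat_lit 209) (nat_lit 209)))) (n (nat_lit 336) (b (l (nat_lit 4) (nat_lit 235) (nat_lit 311)) (l (nat_lit 4) (nat_lit 260) (nat_lit 361))))))) (n (nat_lit 360) (b (n (nat_lit 259) (b (l (nat_lit 7) (nat_lit 259) (nat_lit 284)) (l (nat_lit 7) (nat_lit 234) (nat_lit 234)))) (n (nat_lit 359) (b (l (nat_lit 6) (nat_lit 259) (nat_lit 334)) (l (nat_lit 6) (nat_lit 284) (nat_lit 384)))))))) (n (nat_lit 335) (b (b (n (nat_lit 235) (b (n (nat_lit 336) (b (l (nat_lit 4) (nat_lit 235) (nat_lit 311)) (l (nat_lit 4) (nat_lit 260) (nat_lit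 361)))) (n (nat_lit 236) (b (l (nat_lit 5) (nat_lit 210) (nat_lit 211)) (l (nat_lit 5) (nat_lit 235) (nat_lit 261)))))) (n (nat_lit 360) (b (n (nat_lit 359) (b (l (nat_lit 6) (nat_lit 259) (nat_lit 334)) (l (nat_lit 6) (nat_lit 284) (nat_lit 384)))) (n (nat_lit 361) (b (l (nat_lit 4) (nat_lit 285) (nat_lit 386)) (l (nat_lit 4) (nat_lit 260) (nat_lit 336))))))) (n (nat_lit 360) (b (n (nat_lit 261) (b (l (nat_lit 5) (nat_lit 235) (nat_lit 236)) (l (nat_lit 5) (nat_lit 260) (nat_lit 286)))) (n (nat_lit 359) (b (l (nat_lit 6) (nat_lit 259) (nat_lit 334)) (l (nat_lit 6) (nat_lit 284) (nat_lit 384))))))))) (b (n (nat_lit 259) (b (n (nat_lit 234) (b (n (nat_lit 209) (b (l (nat_lit 4) (nat_lit 209) (nat_lit 284)) (l (nat_lit 4) (nat_lit 184) (nat_lit 184)))) (l (nat_lit 7) (nat_lit 234) (nat_lit 335)))) (n (nat_lit 286) (b (n (nat_lit 258) (b (l (nat_lit 0) (nat_lit 258) (nat_lit 261)) (l (nat_lit 0) (nat_lit 257) (nat_lit 257)))) (l (nat_lit 3) (nat_lit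 259) (nat_lit 288)))))) (n (nat_lit 286) (b (n (nat_lit 259) (b (n (nat_lit 258) (b (l (nat_lit 0) (nat_lit 257) (nat_lit 257)) (l (nat_lit 3) (nat_lit 258) (nat_lit 284)))) (l (nat_lit 3) (nat_lit 259) (nat_lit 288)))) (n (nat_lit 235) (b (b (n (nat_lit 210) (b (n (nat_lit 211) (b (l (nat_lit 5) (nat_lit 210) (nat_lit 236)) (l (nat_lit 5) (nat_lit 185) (nat_lit 186)))) (n (nat_lit 209) (b (l (nat_lit 7) (nat_lit 184) (nat_lit 184)) (l (nat_lit 7) (nat_lit 209) (nat_lit 234)))))) (n (nat_lit 311) (b (l (nat_lit 4) (nat_lit 235) (nat_lit 336)) (l (nat_lit 4) (nat_lit 210) (nat_lit 210))))) (n (nat_lit 311) (b (n (nat_lit 236) (b (l (nat_lit 5) (nat_lit 210) (nat_lit 211)) (l (nat_lit 4) (nat_lit 236) (nat_lit 261)))) (l (nat_lit 4) (nat_lit 235) (nat_lit 336))))))))))) (r (nat_lit 0))) (b (r (nat_lit 1)) (n (nat_lit 309) (b (b (n (nat_lit 335) (b (b (n (nat_lit 260) (b (b (n (nat_lit 235) (b (n (nat_lit 234) (b (l (nat_lit 7) (nat_lit 234) (nat_lit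 259)) (l (nat_lit 7) (nat_lit 209) (nat_lit 209)))) (n (nat_lit 236) (b (l (nat_lit 5) (nat_lit 210) (nat_lit 211)) (l (nat_lit 5) (nat_lit 235) (nat_lit 261)))))) (n (nat_lit 334) (b (l (nat_lit 6) (nat_lit 234) (nat_lit 235)) (l (nat_lit 6) (nat_lit 259) (nat_lit 359))))) (n (nat_lit 360) (b (n (nat_lit 259) (b (l (nat_lit 7) (nat_lit 259) (nat_lit 284)) (l (nat_lit 7) (nat_lit 234) (nat_lit 234)))) (n (nat_lit 359) (b (l (nat_lit 6) (nat_lit 259) (nat_lit 334)) (l (nat_lit 6) (nat_lit 284) (nat_lit 384)))))))) (n (nat_lit 336) (b (n (nat_lit 308) (b (l (nat_lit 0) (nat_lit 307) (nat_lit 307)) (l (nat_lit 3) (nat_lit 308) (nat_lit 334)))) (l (nat_lit 3) (nat_lit 309) (nat_lit 338))))) (n (nat_lit 336) (b (n (nat_lit 361) (b (n (nat_lit 386) (b (l (nat_lit 4) (nat_lit 285) (nat_lit 360)) (l (nat_lit 5) (nat_lit 311) (nat_lit 411)))) (l (nat_lit 4) (nat_lit 260) (nat_lit 260)))) (l (nat_lit 3) (nat_lit 309) (nat_lit 338)))))) (n (nat_lit 286) (b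 (n (nat_lit 335) (b (n (nat_lit 308) (b (n (nat_lit 336) (b (l (nat_lit 3) (nat_lit 309) (nat_lit 338)) (l (nat_lit 3) (nat_lit 308) (nat_lit 334)))) (l (nat_lit 1) (nat_lit 282) (nat_lit 307)))) (n (nat_lit 261) (b (n (nat_lit 236) (b (l (nat_lit 6) (nat_lit 210) (nat_lit 211)) (l (nat_lit 5) (nat_lit 235) (nat_lit 260)))) (l (nat_lit 5) (nat_lit 260) (nat_lit 360)))))) (l (nat_lit 2) (nat_lit 284) (nat_lit 288))))) (b (n (nat_lit 335) (b (n (nat_lit 360) (b (n (nat_lit 284) (b (l (nat_lit 7) (nat_lit 284) (nat_lit 385)) (l (nat_lit 7) (nat_lit 259) (nat_lit 259)))) (n (nat_lit 286) (b (l (nat_lit 5) (nat_lit 260) (nat_lit 261)) (l (nat_lit 2) (nat_lit 284) (nat_lit 288)))))) (n (nat_lit 260) (b (n (nat_lit 334) (b (l (nat_lit 6) (nat_lit 234) (nat_lit 235)) (l (nat_lit 6) (nat_lit 259) (nat_lit 359)))) (n (nat_lit 336) (b (l (nat_lit 4) (nat_lit 260) (nat_lit 361)) (l (nat_lit 3) (nat_lit 309) (nat_lit 338)))))))) (n (nat_lit 286) (b (n (nat_lit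 308) (b (l (nat_lit 2) (nat_lit 283) (nat_lit 284)) (l (nat_lit 1) (nat_lit 282) (nat_lit 307)))) (l (nat_lit 2) (nat_lit 284) (nat_lit 288))))))))) (b (n (nat_lit 309) (b (b (n (nat_lit 286) (b (n (nat_lit 308) (b (l (nat_lit 2) (nat_lit 283) (nat_lit 284)) (l (nat_lit 1) (nat_lit 282) (nat_lit 307)))) (l (nat_lit 2) (nat_lit 284) (nat_lit 288)))) (n (nat_lit 311) (b (l (nat_lit 0) (nat_lit 309) (nat_lit 338)) (l (nat_lit 1) (nat_lit 284) (nat_lit 288))))) (n (nat_lit 308) (b (n (nat_lit 286) (b (l (nat_lit 2) (nat_lit 283) (nat_lit 284)) (l (nat_lit 1) (nat_lit 282) (nat_lit 307)))) (n (nat_lit 311) (b (l (nat_lit 0) (nat_lit 309) (nat_lit 338)) (l (nat_lit 0) (nat_lit 308) (nat_lit 336)))))))) (n (nat_lit 311) (b (b (n (nat_lit 336) (b (n (nat_lit 361) (b (n (nat_lit 260) (b (l (nat_lit 4) (nat_lit 260) (nat_lit 335)) (l (nat_lit 4) (nat_lit 235) (nat_lit 235)))) (l (nat_lit 7) (nat_lit 285) (nat_lit 386)))) (n (nat_lit 309) (b (l (nat_lit 0)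 (nat_lit 308) (nat_lit 308)) (l (nat_lit 0) (nat_lit 309) (nat_lit 338)))))) (n (nat_lit 260) (b (b (n (nat_lit 235) (b (n (nat_lit 210) (b (n (nat_lit 211) (b (l (nat_lit 5) (nat_lit 210) (nat_lit 236)) (l (nat_lit 5) (nat_lit 185) (nat_lit 186)))) (n (nat_lit 209) (b (l (nat_lit 7) (nat_lit 184) (nat_lit 184)) (l (nat_lit 7) (nat_lit 209) (nat_lit 234)))))) (l (nat_lit 4) (nat_lit 235) (nat_lit 336)))) (n (nat_lit 336) (b (n (nat_lit 361) (b (l (nat_lit 4) (nat_lit 260) (nat_lit 335)) (l (nat_lit 5) (nat_lit 286) (nat_lit 386)))) (l (nat_lit 4) (nat_lit 235) (nat_lit 235))))) (b (n (nat_lit 335) (b (b (n (nat_lit 334) (b (n (nat_lit 333) (b (l (nat_lit 1) (nat_lit 308) (nat_lit 336)) (l (nat_lit 1) (nat_lit 307) (nat_lit 332)))) (l (nat_lit 6) (nat_lit 259) (nat_lit 359)))) (n (nat_lit 360) (b (n (nat_lit 259) (b (l (nat_lit 7) (nat_lit 259) (nat_lit 284)) (l (nat_lit 7) (nat_lit 234) (nat_lit 234)))) (n (nat_lit 359) (b (l (nat_lit 6) (nat_lit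 259) (nat_lit 334)) (l (nat_lit 6) (nat_lit 284) (nat_lit 384))))))) (n (nat_lit 360) (b (n (nat_lit 361) (b (l (nat_lit 4) (nat_lit 285) (nat_lit 386)) (l (nat_lit 4) (nat_lit 260) (nat_lit 336)))) (n (nat_lit 259) (b (l (nat_lit 7) (nat_lit 259) (nat_lit 284)) (l (nat_lit 7) (nat_lit 234) (nat_lit 234)))))))) (n (nat_lit 335) (b (b (n (nat_lit 360) (b (n (nat_lit 261) (b (l (nat_lit 5) (nat_lit 235) (nat_lit 236)) (l (nat_lit 5) (nat_lit 260) (nat_lit 286)))) (n (nat_lit 359) (b (l (nat_lit 6) (nat_lit 259) (nat_lit 334)) (l (nat_lit 6) (nat_lit 284) (nat_lit 384)))))) (n (nat_lit 360) (b (n (nat_lit 259) (b (l (nat_lit 7) (nat_lit 259) (nat_lit 284)) (l (nat_lit 7) (nat_lit 234) (nat_lit 234)))) (n (nat_lit 359) (b (l (nat_lit 6) (nat_lit 259) (nat_lit 334)) (l (nat_lit 6) (nat_lit 284) (nat_lit 384))))))) (n (nat_lit 235) (b (n (nat_lit 234) (b (l (nat_lit 7) (nat_lit 234) (nat_lit 259)) (l (nat_lit 7) (nat_lit 209) (nat_lit 209)))) (n (nat_lit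 236) (b (l (nat_lit 5) (nat_lit 210) (nat_lit 211)) (l (nat_lit 5) (nat_lit 235) (nat_lit 261)))))))))))) (n (nat_lit 309) (b (n (nat_lit 308) (b (n (nat_lit 333) (b (l (nat_lit 2) (nat_lit 307) (nat_lit 332)) (l (nat_lit 2) (nat_lit 308) (nat_lit 334)))) (l (nat_lit 1) (nat_lit 283) (nat_lit 286)))) (l (nat_lit 0) (nat_lit 309) (nat_lit 338)))))))))
    (envOK_cons p3406 (envOK_cons p3219 envOK_nil)) (by decide +kernel)

theorem p3528 : Fam (nat_lit 12) (nat_lit 279968101115925196212758050543260421603923726584170795103267768568428664743051480227922468019506249728) (nat_lit 243994942998471549787437476477379953195863905776559213510886717646305556161846237456293416801436726885507853213454827189461464383488) (nat_lit 243994942998471549787437476477379953195863905776559213510886717646305556161846237456293416801436726885507853213454827189461464383488) :=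
  chk_sound (Env.cons (nat_lit 11) (nat_lit 279968103201850035979271802882148806535126963500874430217186489219836484881937931185579255151305162752) (nat_lit 66544082574739398774418968692082611878713351244898479637513469415057656783225868195767423469555691288209112639082699342342961233920) (Env.cons (nat_lit 8) (nat_lit 279968103201850035979271802882148806535126963500874430217186489219836484881937931185579255151305162752) (nat_lit 177450869678515989890550487773450740274025335978268477399008854683647682350014134494786015227253369040075562885543725185152879427584) Env.nil))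
    (n (nat_lit 310) (b (b (b (n (nat_lit 335) (b (b (b (n (nat_lit 360) (b (b (n (nat_lit 260) (b (n (nat_lit 361) (b (l (nat_lit 4) (nat_lit 285) (nat_lit 386)) (l (nat_lit 4) (nat_lit 260) (nat_lit 336)))) (n (nat_lit 261) (b (l (nat_lit 5) (nat_lit 235) (nat_lit 236)) (l (nat_lit 5) (nat_lit 260) (nat_lit 286)))))) (n (nat_lit 385) (b (n (nat_lit 384) (b (l (nat_lit 6) (nat_lit 284) (nat_lit 359)) (l (nat_lit 6) (nat_lit 309) (nat_lit 409)))) (n (nat_lit 386) (b (l (nat_lit 4) (nat_lit 310) (nat_lit 411)) (l (nat_lit 4) (nat_lit 285) (nat_lit 361))))))) (n (nat_lit 385) (b (n (nat_lit 286) (b (l (nat_lit 5) (nat_lit 285) (nat_lit 311)) (l (nat_lit 5) (nat_lit 260) (nat_lit 261)))) (n (nat_lit 384) (b (l (nat_lit 6) (nat_lit 284) (nat_lit 359)) (l (nat_lit 6) (nat_lit 309) (nat_lit 409)))))))) (n (nat_lit 360) (b (b (n (nat_lit 260) (b (n (nat_lit 359) (b (l (nat_lit 6) (nat_lit 259) (nat_lit 334)) (l (nat_lit 6) (nat_lit 284) (nat_lit 384))))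 (n (nat_lit 261) (b (l (nat_lit 5) (nat_lit 235) (nat_lit 236)) (l (nat_lit 5) (nat_lit 260) (nat_lit 286)))))) (n (nat_lit 385) (b (n (nat_lit 384) (b (l (nat_lit 6) (nat_lit 284) (nat_lit 359)) (l (nat_lit 6) (nat_lit 309) (nat_lit 409)))) (n (nat_lit 386) (b (l (nat_lit 4) (nat_lit 310) (nat_lit 411)) (l (nat_lit 4) (nat_lit 285) (nat_lit 361))))))) (n (nat_lit 385) (b (n (nat_lit 386) (b (l (nat_lit 4) (nat_lit 310) (nat_lit 411)) (l (nat_lit 4) (nat_lit 285) (nat_lit 361)))) (n (nat_lit 286) (b (l (nat_lit 5) (nat_lit 285) (nat_lit 311)) (l (nat_lit 5) (nat_lit 260) (nat_lit 261))))))))) (b (n (nat_lit 260) (b (n (nat_lit 235) (b (n (nat_lit 234) (b (l (nat_lit 7) (nat_lit 234) (nat_lit 259)) (l (nat_lit 7) (nat_lit 209) (nat_lit 209)))) (n (nat_lit 236) (b (l (nat_lit 5) (nat_lit 210) (nat_lit 211)) (l (nat_lit 5) (nat_lit 235) (nat_lit 261)))))) (n (nat_lit 334) (b (n (nat_lit 336) (b (l (nat_lit 4) (nat_lit 260) (nat_lit 361)) (l (nat_lit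 1) (nat_lit 309) (nat_lit 313)))) (l (nat_lit 6) (nat_lit 259) (nat_lit 359)))))) (n (nat_lit 336) (b (n (nat_lit 313) (b (n (nat_lit 314) (b (l (nat_lit 1) (nat_lit 310) (nat_lit 338)) (l (nat_lit 2) (nat_lit 311) (nat_lit 315)))) (l (nat_lit 1) (nat_lit 309) (nat_lit 334)))) (n (nat_lit 361) (b (n (nat_lit 386) (b (l (nat_lit 4) (nat_lit 285) (nat_lit 360)) (l (nat_lit 5) (nat_lit 311) (nat_lit 411)))) (l (nat_lit 4) (nat_lit 260) (nat_lit 260)))))))) (n (nat_lit 311) (b (n (nat_lit 334) (b (n (nat_lit 333) (b (l (nat_lit 1) (nat_lit 308) (nat_lit 336)) (l (nat_lit 1) (nat_lit 307) (nat_lit 332)))) (l (nat_lit 2) (nat_lit 309) (nat_lit 313)))) (n (nat_lit 286) (b (n (nat_lit 309) (b (l (nat_lit 1) (nat_lit 283) (nat_lit 308)) (l (nat_lit 0) (nat_lit 309) (nat_lit 338)))) (n (nat_lit 261) (b (l (nat_lit 4) (nat_lit 236) (nat_lit 236)) (l (nat_lit 5) (nat_lit 260) (nat_lit 360)))))))))) (r (nat_lit 0))) (b (r (nat_lit 1)) (n (nat_lit 311) (b (b (n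 (nat_lit 309) (b (n (nat_lit 308) (b (l (nat_lit 1) (nat_lit 283) (nat_lit 286)) (l (nat_lit 0) (nat_lit 308) (nat_lit 336)))) (l (nat_lit 0) (nat_lit 309) (nat_lit 338)))) (n (nat_lit 288) (b (n (nat_lit 289) (b (l (nat_lit 1) (nat_lit 285) (nat_lit 313)) (l (nat_lit 2) (nat_lit 286) (nat_lit 290)))) (l (nat_lit 1) (nat_lit 284) (nat_lit 309))))) (n (nat_lit 313) (b (b (n (nat_lit 335) (b (n (nat_lit 336) (b (n (nat_lit 360) (b (n (nat_lit 385) (b (l (nat_lit 5) (nat_lit 285) (nat_lit 286)) (l (nat_lit 5) (nat_lit 310) (nat_lit 410)))) (n (nat_lit 359) (b (l (nat_lit 2) (nat_lit 334) (nat_lit 338)) (l (nat_lit 6) (nat_lit 284) (nat_lit 384)))))) (n (nat_lit 260) (b (l (nat_lit 4) (nat_lit 260) (nat_lit 361)) (l (nat_lit 4) (nat_lit 235) (nat_lit 235)))))) (l (nat_lit 2) (nat_lit 309) (nat_lit 334)))) (n (nat_lit 314) (b (b (n (nat_lit 289) (b (l (nat_lit 1) (nat_lit 286) (nat_lit 290)) (l (nat_lit 1) (nat_lit 285) (nat_lit 288)))) (n (nat_lit 315)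 (b (n (nat_lit 316) (b (l (nat_lit 2) (nat_lit 312) (nat_lit 338)) (l (nat_lit 3) (nat_lit 287) (nat_lit 288)))) (l (nat_lit 2) (nat_lit 311) (nat_lit 336))))) (n (nat_lit 315) (b (n (nat_lit 290) (b (l (nat_lit 1) (nat_lit 286) (nat_lit 289)) (l (nat_lit 1) (nat_lit 287) (nat_lit 291)))) (l (nat_lit 2) (nat_lit 311) (nat_lit 336))))))) (n (nat_lit 314) (b (n (nat_lit 289) (b (l (nat_lit 1) (nat_lit 286) (nat_lit 290)) (l (nat_lit 1) (nat_lit 285) (nat_lit 288)))) (l (nat_lit 3) (nat_lit 285) (nat_lit 286)))))))))) (b (b (n (nat_lit 311) (b (b (n (nat_lit 309) (b (n (nat_lit 308) (b (l (nat_lit 1) (nat_lit 283) (nat_lit 286)) (l (nat_lit 0) (nat_lit 308) (nat_lit 336)))) (l (nat_lit 0) (nat_lit 309) (nat_lit 338)))) (n (nat_lit 288) (b (n (nat_lit 289) (b (l (nat_lit 1) (nat_lit 285) (nat_lit 313)) (l (nat_lit 2) (nat_lit 286) (nat_lit 290)))) (l (nat_lit 1) (nat_lit 284) (nat_lit 309))))) (n (nat_lit 313) (b (b (n (nat_lit 286) (b (n (nat_lit 335)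 (b (n (nat_lit 261) (b (l (nat_lit 4) (nat_lit 236) (nat_lit 236)) (l (nat_lit 5) (nat_lit 260) (nat_lit 360)))) (l (nat_lit 2) (nat_lit 309) (nat_lit 334)))) (l (nat_lit 3) (nat_lit 285) (nat_lit 314)))) (n (nat_lit 314) (b (b (n (nat_lit 289) (b (l (nat_lit 1) (nat_lit 286) (nat_lit 290)) (l (nat_lit 1) (nat_lit 285) (nat_lit 288)))) (n (nat_lit 315) (b (n (nat_lit 316) (b (l (nat_lit 2) (nat_lit 312) (nat_lit 338)) (l (nat_lit 3) (nat_lit 287) (nat_lit 288)))) (l (nat_lit 2) (nat_lit 311) (nat_lit 336))))) (n (nat_lit 315) (b (n (nat_lit 290) (b (l (nat_lit 1) (nat_lit 286) (nat_lit 289)) (l (nat_lit 1) (nat_lit 287) (nat_lit 291)))) (l (nat_lit 2) (nat_lit 311) (nat_lit 336))))))) (n (nat_lit 286) (b (n (nat_lit 335) (b (n (nat_lit 360) (b (l (nat_lit 5) (nat_lit 285) (nat_lit 385)) (l (nat_lit 5) (nat_lit 260) (nat_lit 261)))) (l (nat_lit 2) (nat_lit 309) (nat_lit 334)))) (n (nat_lit 288) (b (n (nat_lit 263) (b (l (nat_lit 6) (nat_lit 237) (nat_lit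 238)) (l (nat_lit 1) (nat_lit 260) (nat_lit 264)))) (l (nat_lit 2) (nat_lit 285) (nat_lit 289)))))))))) (n (nat_lit 288) (b (b (n (nat_lit 309) (b (l (nat_lit 1) (nat_lit 284) (nat_lit 311)) (l (nat_lit 2) (nat_lit 284) (nat_lit 286)))) (n (nat_lit 311) (b (n (nat_lit 289) (b (l (nat_lit 1) (nat_lit 285) (nat_lit 313)) (l (nat_lit 2) (nat_lit 286) (nat_lit 290)))) (l (nat_lit 1) (nat_lit 284) (nat_lit 309))))) (b (n (nat_lit 286) (b (n (nat_lit 289) (b (n (nat_lit 260) (b (l (nat_lit 3) (nat_lit 260) (nat_lit 261)) (l (nat_lit 3) (nat_lit 259) (nat_lit 259)))) (l (nat_lit 2) (nat_lit 285) (nat_lit 311)))) (n (nat_lit 313) (b (n (nat_lit 263) (b (l (nat_lit 6) (nat_lit 237) (nat_lit 238)) (l (nat_lit 1) (nat_lit 260) (nat_lit 264)))) (l (nat_lit 0) (nat_lit 285) (nat_lit 314)))))) (n (nat_lit 263) (b (n (nat_lit 238) (b (l (nat_lit 6) (nat_lit 237) (nat_lit 313)) (l (nat_lit 6) (nat_lit 212) (nat_lit 213)))) (n (nat_lit 286) (b (l (nat_lit 1) (nat_lit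 260) (nat_lit 264)) (l (nat_lit 2) (nat_lit 284) (nat_lit 309)))))))))) (b (n (nat_lit 335) (b (b (b (n (nat_lit 336) (b (b (n (nat_lit 334) (b (n (nat_lit 359) (b (n (nat_lit 384) (b (l (nat_lit 5) (nat_lit 284) (nat_lit 309)) (l (nat_lit 6) (nat_lit 284) (nat_lit 360)))) (l (nat_lit 2) (nat_lit 333) (nat_lit 358)))) (l (nat_lit 1) (nat_lit 309) (nat_lit 313)))) (n (nat_lit 313) (b (n (nat_lit 314) (b (l (nat_lit 1) (nat_lit 310) (nat_lit 338)) (l (nat_lit 2) (nat_lit 311) (nat_lit 315)))) (l (nat_lit 1) (nat_lit 309) (nat_lit 334))))) (n (nat_lit 360) (b (n (nat_lit 286) (b (n (nat_lit 309) (b (l (nat_lit 2) (nat_lit 284) (nat_lit 288)) (l (nat_lit 3) (nat_lit 309) (nat_lit 338)))) (l (nat_lit 5) (nat_lit 260) (nat_lit 261)))) (n (nat_lit 359) (b (n (nat_lit 361) (b (l (nat_lit 4) (nat_lit 285) (nat_lit 386)) (l (nat_lit 1) (nat_lit 333) (nat_lit 358)))) (l (nat_lit 6) (nat_lit 284) (nat_lit 384)))))))) (n (nat_lit 260) (b (b (n (nat_lit 235) (b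 (n (nat_lit 334) (b (l (nat_lit 6) (nat_lit 259) (nat_lit 359)) (l (nat_lit 6) (nat_lit 234) (nat_lit 309)))) (n (nat_lit 234) (b (l (nat_lit 7) (nat_lit 234) (nat_lit 259)) (l (nat_lit 7) (nat_lit 209) (nat_lit 209)))))) (n (nat_lit 286) (b (n (nat_lit 288) (b (l (nat_lit 3) (nat_lit 259) (nat_lit 259)) (l (nat_lit 2) (nat_lit 284) (nat_lit 309)))) (n (nat_lit 261) (b (l (nat_lit 5) (nat_lit 260) (nat_lit 360)) (l (nat_lit 5) (nat_lit 235) (nat_lit 236))))))) (n (nat_lit 360) (b (n (nat_lit 261) (b (l (nat_lit 5) (nat_lit 235) (nat_lit 236)) (l (nat_lit 5) (nat_lit 260) (nat_lit 286)))) (n (nat_lit 359) (b (l (nat_lit 6) (nat_lit 259) (nat_lit 334)) (l (nat_lit 6) (nat_lit 284) (nat_lit 384))))))))) (b (n (nat_lit 260) (b (n (nat_lit 235) (b (n (nat_lit 234) (b (l (nat_lit 7) (nat_lit 234) (nat_lit 259)) (l (nat_lit 7) (nat_lit 209) (nat_lit 209)))) (n (nat_lit 236) (b (l (nat_lit 5) (nat_lit 210) (nat_lit 211)) (l (nat_lit 5) (nat_lit 235) (nat_lit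 261)))))) (n (nat_lit 334) (b (n (nat_lit 336) (b (l (nat_lit 4) (nat_lit 260) (nat_lit 361)) (l (nat_lit 1) (nat_lit 309) (nat_lit 313)))) (l (nat_lit 6) (nat_lit 259) (nat_lit 359)))))) (n (nat_lit 336) (b (n (nat_lit 313) (b (n (nat_lit 314) (b (l (nat_lit 1) (nat_lit 310) (nat_lit 338)) (l (nat_lit 2) (nat_lit 311) (nat_lit 315)))) (l (nat_lit 1) (nat_lit 309) (nat_lit 334)))) (n (nat_lit 361) (b (n (nat_lit 386) (b (l (nat_lit 4) (nat_lit 285) (nat_lit 360)) (l (nat_lit 5) (nat_lit 311) (nat_lit 411)))) (l (nat_lit 4) (nat_lit 260) (nat_lit 260)))))))) (n (nat_lit 286) (b (n (nat_lit 261) (b (n (nat_lit 236) (b (l (nat_lit 6) (nat_lit 210) (nat_lit 211)) (l (nat_lit 5) (nat_lit 235) (nat_lit 260)))) (l (nat_lit 5) (nat_lit 260) (nat_lit 360)))) (n (nat_lit 288) (b (n (nat_lit 313) (b (n (nat_lit 263) (b (l (nat_lit 6) (nat_lit 237) (nat_lit 238)) (l (nat_lit 1) (nat_lit 260) (nat_lit 264)))) (l (nat_lit 0) (nat_lit 285) (nat_lit 314)))) (l (nat_lit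 2) (nat_lit 284) (nat_lit 309)))))))) (n (nat_lit 335) (b (b (b (n (nat_lit 286) (b (n (nat_lit 313) (b (n (nat_lit 334) (b (l (nat_lit 1) (nat_lit 309) (nat_lit 336)) (l (nat_lit 2) (nat_lit 309) (nat_lit 311)))) (n (nat_lit 314) (b (l (nat_lit 0) (nat_lit 285) (nat_lit 288)) (l (nat_lit 3) (nat_lit 286) (nat_lit 315)))))) (n (nat_lit 261) (b (n (nat_lit 236) (b (l (nat_lit 6) (nat_lit 210) (nat_lit 211)) (l (nat_lit 5) (nat_lit 235) (nat_lit 260)))) (l (nat_lit 5) (nat_lit 260) (nat_lit 360)))))) (n (nat_lit 360) (b (b (n (nat_lit 260) (b (n (nat_lit 361) (b (l (nat_lit 4) (nat_lit 285) (nat_lit 386)) (l (nat_lit 4) (nat_lit 260) (nat_lit 336)))) (n (nat_lit 261) (b (l (nat_lit 5) (nat_lit 235) (nat_lit 236)) (l (nat_lit 5) (nat_lit 260) (nat_lit 286)))))) (n (nat_lit 385) (b (n (nat_lit 384) (b (l (nat_lit 6) (nat_lit 284) (nat_lit 359)) (l (nat_lit 6) (nat_lit 309) (nat_lit 409)))) (n (nat_lit 386) (b (l (nat_lit 4) (nat_lit 310) (nat_lit 411))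 (l (nat_lit 4) (nat_lit 285) (nat_lit 361))))))) (n (nat_lit 385) (b (n (nat_lit 286) (b (l (nat_lit 5) (nat_lit 285) (nat_lit 311)) (l (nat_lit 5) (nat_lit 260) (nat_lit 261)))) (n (nat_lit 384) (b (l (nat_lit 6) (nat_lit 284) (nat_lit 359)) (l (nat_lit 6) (nat_lit 309) (nat_lit 409))))))))) (b (n (nat_lit 360) (b (b (n (nat_lit 260) (b (n (nat_lit 359) (b (l (nat_lit 6) (nat_lit 259) (nat_lit 334)) (l (nat_lit 6) (nat_lit 284) (nat_lit 384)))) (n (nat_lit 261) (b (l (nat_lit 5) (nat_lit 235) (nat_lit 236)) (l (nat_lit 5) (nat_lit 260) (nat_lit 286)))))) (n (nat_lit 385) (b (n (nat_lit 384) (b (l (nat_lit 6) (nat_lit 284) (nat_lit 359)) (l (nat_lit 6) (nat_lit 309) (nat_lit 409)))) (n (nat_lit 386) (b (l (nat_lit 4) (nat_lit 310) (nat_lit 411)) (l (nat_lit 4) (nat_lit 285) (nat_lit 361))))))) (n (nat_lit 385) (b (n (nat_lit 386) (b (l (nat_lit 4) (nat_lit 310) (nat_lit 411)) (l (nat_lit 4) (nat_lit 285) (nat_lit 361)))) (n (nat_lit 286) (b (l (nat_lit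 5) (nat_lit 285) (nat_lit 311)) (l (nat_lit 5) (nat_lit 260) (nat_lit 261)))))))) (n (nat_lit 260) (b (n (nat_lit 235) (b (n (nat_lit 234) (b (l (nat_lit 7) (nat_lit 234) (nat_lit 259)) (l (nat_lit 7) (nat_lit 209) (nat_lit 209)))) (n (nat_lit 236) (b (l (nat_lit 5) (nat_lit 210) (nat_lit 211)) (l (nat_lit 5) (nat_lit 235) (nat_lit 261)))))) (n (nat_lit 334) (b (n (nat_lit 336) (b (l (nat_lit 4) (nat_lit 260) (nat_lit 361)) (l (nat_lit 1) (nat_lit 309) (nat_lit 313)))) (l (nat_lit 6) (nat_lit 259) (nat_lit 359)))))))) (b (n (nat_lit 336) (b (n (nat_lit 313) (b (n (nat_lit 314) (b (l (nat_lit 1) (nat_lit 310) (nat_lit 338)) (l (nat_lit 2) (nat_lit 311) (nat_lit 315)))) (l (nat_lit 1) (nat_lit 309) (nat_lit 334)))) (n (nat_lit 361) (b (n (nat_lit 386) (b (l (nat_lit 4) (nat_lit 285) (nat_lit 360)) (l (nat_lit 5) (nat_lit 311) (nat_lit 411)))) (l (nat_lit 4) (nat_lit 260) (nat_lit 260)))))) (n (nat_lit 286) (b (n (nat_lit 313) (b (n (nat_lit 334) (b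 (l (nat_lit 1) (nat_lit 309) (nat_lit 336)) (l (nat_lit 2) (nat_lit 309) (nat_lit 311)))) (n (nat_lit 314) (b (l (nat_lit 0) (nat_lit 285) (nat_lit 288)) (l (nat_lit 3) (nat_lit 286) (nat_lit 315)))))) (n (nat_lit 360) (b (n (nat_lit 385) (b (n (nat_lit 384) (b (l (nat_lit 6) (nat_lit 284) (nat_lit 359)) (l (nat_lit 6) (nat_lit 309) (nat_lit 409)))) (n (nat_lit 386) (b (l (nat_lit 4) (nat_lit 310) (nat_lit 411)) (l (nat_lit 4) (nat_lit 285) (nat_lit 361)))))) (l (nat_lit 5) (nat_lit 260) (nat_lit 261)))))))))))))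
    (envOK_cons p3406 (envOK_cons p3161 envOK_nil)) (by decide +kernel)

theorem p3619 : Fam (nat_lit 7) (nat_lit 279968101115925196212758050543260421603923726584170795103267768568428664743051480227922468019506249728) (nat_lit 5288448026136040386276819033063526125581616796950283262696270303705402249973006773912699933108652035058140839710615685562368) (nat_lit 5288448026136040386276819033063526125581616796950283262696270303705402249973006773912699933108652035058140839710615685562368) :=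
  chk_sound Env.nil
    (n (nat_lit 284) (b (b (b (n (nat_lit 286) (b (b (n (nat_lit 309) (b (n (nat_lit 310) (b (n (nat_lit 334) (b (n (nat_lit 359) (b (l (nat_lit 5) (nat_lit 284) (nat_lit 384)) (l (nat_lit 5) (nat_lit 259) (nat_lit 260)))) (n (nat_lit 311) (b (l (nat_lit 2) (nat_lit 308) (nat_lit 333)) (l (nat_lit 0) (nat_lit 309) (nat_lit 338)))))) (n (nat_lit 335) (b (n (nat_lit 360) (b (l (nat_lit 5) (nat_lit 260) (nat_lit 261)) (l (nat_lit 7) (nat_lit 284) (nat_lit 385)))) (n (nat_lit 259) (b (l (nat_lit 4) (nat_lit 234) (nat_lit 234)) (l (nat_lit 3) (nat_lit 258) (nat_lit 258)))))))) (l (nat_lit 2) (nat_lit 283) (nat_lit 308)))) (n (nat_lit 283) (b (n (nat_lit 258) (b (l (nat_lit 3) (nat_lit 257) (nat_lit 257)) (l (nat_lit 3) (nat_lit 258) (nat_lit 259)))) (l (nat_lit 0) (nat_lit 283) (nat_lit 311))))) (b (n (nat_lit 283) (b (n (nat_lit 308) (b (l (nat_lit 2) (nat_lit 283) (nat_lit 309)) (l (nat_lit 2) (nat_lit 282) (nat_lit 307)))) (n (nat_lit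 258) (b (l (nat_lit 3) (nat_lit 257) (nat_lit 257)) (l (nat_lit 3) (nat_lit 258) (nat_lit 259)))))) (n (nat_lit 283) (b (n (nat_lit 308) (b (l (nat_lit 2) (nat_lit 283) (nat_lit 309)) (l (nat_lit 2) (nat_lit 282) (nat_lit 307)))) (l (nat_lit 0) (nat_lit 283) (nat_lit 311))))))) (n (nat_lit 286) (b (n (nat_lit 309) (b (n (nat_lit 310) (b (n (nat_lit 334) (b (n (nat_lit 359) (b (l (nat_lit 5) (nat_lit 284) (nat_lit 384)) (l (nat_lit 5) (nat_lit 259) (nat_lit 260)))) (n (nat_lit 311) (b (l (nat_lit 2) (nat_lit 308) (nat_lit 333)) (l (nat_lit 0) (nat_lit 309) (nat_lit 338)))))) (n (nat_lit 335) (b (n (nat_lit 360) (b (l (nat_lit 5) (nat_lit 260) (nat_lit 261)) (l (nat_lit 7) (nat_lit 284) (nat_lit 385)))) (n (nat_lit 259) (b (l (nat_lit 4) (nat_lit 234) (nat_lit 234)) (l (nat_lit 3) (nat_lit 258) (nat_lit 258)))))))) (l (nat_lit 2) (nat_lit 283) (nat_lit 308)))) (l (nat_lit 0) (nat_lit 284) (nat_lit 313))))) (b (n (nat_lit 286) (b (n (nat_lit 283) (b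 (n (nat_lit 258) (b (l (nat_lit 3) (nat_lit 257) (nat_lit 257)) (l (nat_lit 3) (nat_lit 258) (nat_lit 259)))) (l (nat_lit 0) (nat_lit 283) (nat_lit 311)))) (l (nat_lit 0) (nat_lit 284) (nat_lit 313)))) (n (nat_lit 286) (b (n (nat_lit 283) (b (n (nat_lit 308) (b (l (nat_lit 2) (nat_lit 283) (nat_lit 309)) (l (nat_lit 2) (nat_lit 282) (nat_lit 307)))) (n (nat_lit 258) (b (l (nat_lit 3) (nat_lit 257) (nat_lit 257)) (l (nat_lit 3) (nat_lit 258) (nat_lit 259)))))) (l (nat_lit 0) (nat_lit 284) (nat_lit 313)))))) (b (n (nat_lit 286) (b (n (nat_lit 283) (b (n (nat_lit 308) (b (l (nat_lit 2) (nat_lit 283) (nat_lit 309)) (l (nat_lit 2) (nat_lit 282) (nat_lit 307)))) (l (nat_lit 0) (nat_lit 283) (nat_lit 311)))) (l (nat_lit 0) (nat_lit 284) (nat_lit 313)))) (n (nat_lit 310) (b (b (n (nat_lit 335) (b (b (n (nat_lit 336) (b (n (nat_lit 338) (b (n (nat_lit 313) (b (l (nat_lit 1) (nat_lit 309) (nat_lit 334)) (l (nat_lit 1) (nat_lit 310) (nat_lit 314)))) (l (nat_lit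 3) (nat_lit 309) (nat_lit 309)))) (n (nat_lit 361) (b (n (nat_lit 386) (b (l (nat_lit 4) (nat_lit 285) (nat_lit 360)) (l (nat_lit 5) (nat_lit 311) (nat_lit 411)))) (l (nat_lit 4) (nat_lit 260) (nat_lit 260)))))) (n (nat_lit 260) (b (n (nat_lit 235) (b (n (nat_lit 234) (b (l (nat_lit 7) (nat_lit 234) (nat_lit 259)) (l (nat_lit 7) (nat_lit 209) (nat_lit 209)))) (n (nat_lit 236) (b (l (nat_lit 5) (nat_lit 210) (nat_lit 211)) (l (nat_lit 5) (nat_lit 235) (nat_lit 261)))))) (n (nat_lit 334) (b (n (nat_lit 336) (b (l (nat_lit 4) (nat_lit 260) (nat_lit 361)) (l (nat_lit 1) (nat_lit 309) (nat_lit 313)))) (l (nat_lit 6) (nat_lit 259) (nat_lit 359))))))) (n (nat_lit 259) (b (n (nat_lit 234) (b (l (nat_lit 4) (nat_lit 234) (nat_lit 309)) (l (nat_lit 4) (nat_lit 209) (nat_lit 209)))) (l (nat_lit 7) (nat_lit 259) (nat_lit 360)))))) (n (nat_lit 335) (b (b (n (nat_lit 336) (b (b (n (nat_lit 313) (b (l (nat_lit 1) (nat_lit 309) (nat_lit 334)) (l (nat_lit 3) (nat_lit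 284) (nat_lit 311)))) (n (nat_lit 361) (b (n (nat_lit 386) (b (l (nat_lit 7) (nat_lit 285) (nat_lit 311)) (l (nat_lit 5) (nat_lit 311) (nat_lit 411)))) (l (nat_lit 4) (nat_lit 260) (nat_lit 260))))) (n (nat_lit 260) (b (n (nat_lit 334) (b (l (nat_lit 1) (nat_lit 309) (nat_lit 313)) (l (nat_lit 6) (nat_lit 259) (nat_lit 359)))) (l (nat_lit 4) (nat_lit 260) (nat_lit 361)))))) (n (nat_lit 259) (b (n (nat_lit 234) (b (l (nat_lit 4) (nat_lit 209) (nat_lit 209)) (l (nat_lit 7) (nat_lit 234) (nat_lit 260)))) (l (nat_lit 7) (nat_lit 259) (nat_lit 360))))) (n (nat_lit 360) (b (n (nat_lit 336) (b (n (nat_lit 313) (b (l (nat_lit 1) (nat_lit 309) (nat_lit 334)) (l (nat_lit 3) (nat_lit 284) (nat_lit 311)))) (n (nat_lit 359) (b (l (nat_lit 2) (nat_lit 334) (nat_lit 338)) (l (nat_lit 6) (nat_lit 284) (nat_lit 384)))))) (l (nat_lit 7) (nat_lit 259) (nat_lit 259))))))) (b (n (nat_lit 311) (b (n (nat_lit 283) (b (l (nat_lit 0) (nat_lit 282) (nat_lit 282)) (l (nat_lit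 3) (nat_lit 283) (nat_lit 309)))) (l (nat_lit 3) (nat_lit 284) (nat_lit 313)))) (n (nat_lit 309) (b (b (n (nat_lit 335) (b (n (nat_lit 260) (b (n (nat_lit 235) (b (l (nat_lit 6) (nat_lit 209) (nat_lit 210)) (l (nat_lit 6) (nat_lit 234) (nat_lit 334)))) (n (nat_lit 336) (b (l (nat_lit 4) (nat_lit 260) (nat_lit 361)) (l (nat_lit 3) (nat_lit 309) (nat_lit 338)))))) (n (nat_lit 360) (b (l (nat_lit 7) (nat_lit 259) (nat_lit 259)) (l (nat_lit 7) (nat_lit 284) (nat_lit 385)))))) (n (nat_lit 311) (b (l (nat_lit 0) (nat_lit 309) (nat_lit 338)) (l (nat_lit 3) (nat_lit 283) (nat_lit 283))))) (n (nat_lit 334) (b (n (nat_lit 359) (b (l (nat_lit 5) (nat_lit 284) (nat_lit 384)) (l (nat_lit 5) (nat_lit 259) (nat_lit 260)))) (n (nat_lit 311) (b (l (nat_lit 2) (nat_lit 308) (nat_lit 333)) (l (nat_lit 3) (nat_lit 283) (nat_lit 283))))))))))))))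
    envOK_nil (by decide +kernel)

theorem p3621 : Fam (nat_lit 15) (nat_lit 8343699607727673214248874617415937021077234590683750281279490000787534250410375654793883418624) (nat_lit 243994964152272322773220568065456623962376051935373049626861005847399898296767527573208937493225811421629131878896558739768481939456) (nat_lit 243994964152272322773220568065456623962376051935373049626861005847399898296767527573208937493225811421629131878896558739768481939456) :=
  chk_sound (Env.cons (nat_lit 8) (nat_lit 279968101115925134047353499319930152181142708231565782546248918899963984685054368582985341452834308096) (nat_lit 26442248818822826576062117811921911190817179048448386271205348798347394978830107369185504133500399955499275650069989355945984) (Env.cons (nat_lit 7) (nat_lit 279968101115925134047353499319930152181142708231565782546248918899963984685054368582985341452834308096) (nat_lit 21153791946936132062440064205970120287742487845944192886646460133128521936410191556105872260394605276550439324225085286383616)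 (Env.cons (nat_lit 8) (nat_lit 279968101115925134047353499319930152181142708231565782546248918899963984685054368582985341452834308096) (nat_lit 26442239973072285765896169614189774047111550910874397981352903103177800885002786974364083949460431157228585913071602356977664) (Env.cons (nat_lit 5) (nat_lit 2085925274924345610902200270890670365384938723013050668330660580544866232472216673098502504448) (nat_lit 6610559963716537584179792246784722185258742564139743884321200277833391615765956395126232875782203456935809163056215756898304) (Env.cons (nat_lit 13) (nat_lit 279968101115925196212758050543260421603923726584170795103267768568428664743051480227922468019506249728) (nat_lit 221813584784449027643805701855385773187564090208882033837525285128665935374648338091660679170507840146063634001093094511133306388480) (Env.cons (nat_lit 12) (nat_lit 279968101115925196212758050543260421603923726584170795103267768568428664743051480227922468019506249728) (nat_lit 66544082574739398774418968692222595925881685881250829551324246047873584413789694478706773994434802440617612162690895727721361440768)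 (Env.cons (nat_lit 12) (nat_lit 279968101115925196212758050543260421603923726584170795103267768568428664743051480227922468019506249728) (nat_lit 243994942998471549787437476477379953195863905776559213510886717646305556161846237456293416801436726885507853213454827189461464383488) (Env.cons (nat_lit 7) (nat_lit 279968101115925196212758050543260421603923726584170795103267768568428664743051480227922468019506249728) (nat_lit 5288448026136040386276819033063526125581616796950283262696270303705402249973006773912699933108652035058140839710615685562368) Env.nil))))))))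
    (n (nat_lit 337) (b (b (r (nat_lit 0)) (r (nat_lit 1))) (b (r (nat_lit 2)) (n (nat_lit 285) (b (b (b (b (n (nat_lit 286) (b (b (n (nat_lit 288) (b (b (n (nat_lit 289) (b (n (nat_lit 264) (b (l (nat_lit 1) (nat_lit 261) (nat_lit 265)) (l (nat_lit 1) (nat_lit 260) (nat_lit 263)))) (n (nat_lit 260) (b (l (nat_lit 3) (nat_lit 260) (nat_lit 261)) (l (nat_lit 3) (nat_lit 259) (nat_lit 259)))))) (n (nat_lit 313) (b (n (nat_lit 263) (b (l (nat_lit 6) (nat_lit 237) (nat_lit 238)) (l (nat_lit 1) (nat_lit 260) (nat_lit 264)))) (l (nat_lit 0) (nat_lit 285) (nat_lit 314))))) (n (nat_lit 289) (b (n (nat_lit 260) (b (l (nat_lit 3) (nat_lit 260) (nat_lit 261)) (l (nat_lit 3) (nat_lit 259) (nat_lit 259)))) (n (nat_lit 314) (b (l (nat_lit 0) (nat_lit 286) (nat_lit 315)) (l (nat_lit 0) (nat_lit 285) (nat_lit 313)))))))) (n (nat_lit 284) (b (n (nat_lit 283) (b (n (nat_lit 308) (b (l (nat_lit 2) (nat_lit 283) (nat_lit 309)) (l (nat_lit 2) (nat_lit 282) (nat_lit 307))))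 (l (nat_lit 0) (nat_lit 283) (nat_lit 311)))) (l (nat_lit 0) (nat_lit 284) (nat_lit 313))))) (n (nat_lit 310) (b (b (n (nat_lit 309) (b (n (nat_lit 308) (b (l (nat_lit 1) (nat_lit 283) (nat_lit 311)) (l (nat_lit 1) (nat_lit 282) (nat_lit 307)))) (l (nat_lit 2) (nat_lit 284) (nat_lit 288)))) (n (nat_lit 288) (b (n (nat_lit 289) (b (n (nat_lit 264) (b (l (nat_lit 1) (nat_lit 261) (nat_lit 265)) (l (nat_lit 1) (nat_lit 260) (nat_lit 263)))) (n (nat_lit 260) (b (l (nat_lit 3) (nat_lit 260) (nat_lit 261)) (l (nat_lit 3) (nat_lit 259) (nat_lit 259)))))) (l (nat_lit 2) (nat_lit 284) (nat_lit 309))))) (b (n (nat_lit 335) (b (n (nat_lit 309) (b (n (nat_lit 338) (b (l (nat_lit 0) (nat_lit 309) (nat_lit 311)) (l (nat_lit 3) (nat_lit 309) (nat_lit 336)))) (n (nat_lit 308) (b (l (nat_lit 2) (nat_lit 283) (nat_lit 284)) (l (nat_lit 1) (nat_lit 282) (nat_lit 307)))))) (n (nat_lit 261) (b (n (nat_lit 236) (b (l (nat_lit 6) (nat_lit 210) (nat_lit 211)) (l (nat_lit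 5) (nat_lit 235) (nat_lit 260)))) (l (nat_lit 5) (nat_lit 260) (nat_lit 360)))))) (r (nat_lit 3))))))) (r (nat_lit 4))) (b (r (nat_lit 5)) (n (nat_lit 286) (b (b (n (nat_lit 288) (b (b (n (nat_lit 289) (b (n (nat_lit 264) (b (l (nat_lit 1) (nat_lit 261) (nat_lit 265)) (l (nat_lit 1) (nat_lit 260) (nat_lit 263)))) (n (nat_lit 260) (b (l (nat_lit 3) (nat_lit 260) (nat_lit 261)) (l (nat_lit 3) (nat_lit 259) (nat_lit 259)))))) (n (nat_lit 313) (b (n (nat_lit 263) (b (l (nat_lit 6) (nat_lit 237) (nat_lit 238)) (l (nat_lit 1) (nat_lit 260) (nat_lit 264)))) (l (nat_lit 0) (nat_lit 285) (nat_lit 314))))) (n (nat_lit 289) (b (n (nat_lit 260) (b (l (nat_lit 3) (nat_lit 260) (nat_lit 261)) (l (nat_lit 3) (nat_lit 259) (nat_lit 259)))) (n (nat_lit 314) (b (l (nat_lit 0) (nat_lit 286) (nat_lit 315)) (l (nat_lit 0) (nat_lit 285) (nat_lit 313)))))))) (n (nat_lit 284) (b (n (nat_lit 283) (b (n (nat_lit 308) (b (l (nat_lit 2) (nat_lit 283) (nat_lit 309)) (l (nat_lit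 2) (nat_lit 282) (nat_lit 307)))) (n (nat_lit 258) (b (l (nat_lit 3) (nat_lit 257) (nat_lit 257)) (l (nat_lit 3) (nat_lit 258) (nat_lit 259)))))) (l (nat_lit 0) (nat_lit 284) (nat_lit 313))))) (b (n (nat_lit 313) (b (n (nat_lit 314) (b (l (nat_lit 0) (nat_lit 285) (nat_lit 288)) (l (nat_lit 3) (nat_lit 286) (nat_lit 315)))) (l (nat_lit 0) (nat_lit 284) (nat_lit 284)))) (n (nat_lit 284) (b (b (n (nat_lit 283) (b (b (n (nat_lit 282) (b (n (nat_lit 307) (b (l (nat_lit 2) (nat_lit 281) (nat_lit 306)) (l (nat_lit 2) (nat_lit 282) (nat_lit 308)))) (n (nat_lit 260) (b (n (nat_lit 259) (b (l (nat_lit 3) (nat_lit 259) (nat_lit 288)) (l (nat_lit 1) (nat_lit 256) (nat_lit 281)))) (l (nat_lit 1) (nat_lit 257) (nat_lit 261)))))) (n (nat_lit 258) (b (l (nat_lit 3) (nat_lit 257) (nat_lit 257)) (l (nat_lit 3) (nat_lit 258) (nat_lit 259))))) (n (nat_lit 282) (b (n (nat_lit 307) (b (l (nat_lit 2) (nat_lit 281) (nat_lit 306)) (l (nat_lit 2) (nat_lit 282) (nat_lit 308))))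 (n (nat_lit 257) (b (l (nat_lit 3) (nat_lit 256) (nat_lit 256)) (l (nat_lit 3) (nat_lit 257) (nat_lit 258)))))))) (n (nat_lit 283) (b (n (nat_lit 308) (b (l (nat_lit 2) (nat_lit 283) (nat_lit 309)) (l (nat_lit 2) (nat_lit 282) (nat_lit 307)))) (n (nat_lit 258) (b (l (nat_lit 3) (nat_lit 257) (nat_lit 257)) (l (nat_lit 3) (nat_lit 258) (nat_lit 259))))))) (b (n (nat_lit 309) (b (n (nat_lit 310) (b (n (nat_lit 335) (b (n (nat_lit 260) (b (n (nat_lit 235) (b (l (nat_lit 6) (nat_lit 209) (nat_lit 210)) (l (nat_lit 6) (nat_lit 234) (nat_lit 334)))) (n (nat_lit 336) (b (l (nat_lit 4) (nat_lit 260) (nat_lit 361)) (l (nat_lit 3) (nat_lit 309) (nat_lit 338)))))) (n (nat_lit 360) (b (l (nat_lit 5) (nat_lit 260) (nat_lit 261)) (l (nat_lit 7) (nat_lit 284) (nat_lit 385)))))) (l (nat_lit 2) (nat_lit 284) (nat_lit 288)))) (l (nat_lit 2) (nat_lit 283) (nat_lit 308)))) (n (nat_lit 259) (b (n (nat_lit 310) (b (b (n (nat_lit 288) (b (l (nat_lit 2) (nat_lit 284) (nat_lit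 309)) (l (nat_lit 3) (nat_lit 259) (nat_lit 260)))) (n (nat_lit 335) (b (n (nat_lit 234) (b (l (nat_lit 4) (nat_lit 209) (nat_lit 209)) (l (nat_lit 7) (nat_lit 234) (nat_lit 260)))) (l (nat_lit 7) (nat_lit 259) (nat_lit 360))))) (n (nat_lit 234) (b (n (nat_lit 309) (b (l (nat_lit 4) (nat_lit 234) (nat_lit 335)) (l (nat_lit 2) (nat_lit 284) (nat_lit 288)))) (l (nat_lit 4) (nat_lit 209) (nat_lit 209)))))) (l (nat_lit 3) (nat_lit 258) (nat_lit 258)))))))))))) (b (b (n (nat_lit 286) (b (b (n (nat_lit 284) (b (n (nat_lit 283) (b (n (nat_lit 258) (b (l (nat_lit 3) (nat_lit 257) (nat_lit 257)) (l (nat_lit 3) (nat_lit 258) (nat_lit 259)))) (l (nat_lit 0) (nat_lit 283) (nat_lit 311)))) (l (nat_lit 0) (nat_lit 284) (nat_lit 313)))) (n (nat_lit 288) (b (b (n (nat_lit 263) (b (n (nat_lit 238) (b (l (nat_lit 6) (nat_lit 237) (nat_lit 313)) (l (nat_lit 6) (nat_lit 212) (nat_lit 213)))) (l (nat_lit 1) (nat_lit 260) (nat_lit 264)))) (n (nat_lit 289) (b (n (nat_lit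 310) (b (l (nat_lit 2) (nat_lit 284) (nat_lit 309)) (l (nat_lit 2) (nat_lit 285) (nat_lit 311)))) (n (nat_lit 264) (b (l (nat_lit 1) (nat_lit 261) (nat_lit 265)) (l (nat_lit 1) (nat_lit 260) (nat_lit 263))))))) (n (nat_lit 289) (b (n (nat_lit 310) (b (l (nat_lit 2) (nat_lit 284) (nat_lit 309)) (l (nat_lit 2) (nat_lit 285) (nat_lit 311)))) (n (nat_lit 314) (b (l (nat_lit 0) (nat_lit 286) (nat_lit 315)) (l (nat_lit 0) (nat_lit 285) (nat_lit 313))))))))) (b (n (nat_lit 284) (b (n (nat_lit 283) (b (n (nat_lit 308) (b (l (nat_lit 2) (nat_lit 283) (nat_lit 309)) (l (nat_lit 2) (nat_lit 282) (nat_lit 307)))) (n (nat_lit 258) (b (l (nat_lit 3) (nat_lit 257) (nat_lit 257)) (l (nat_lit 3) (nat_lit 258) (nat_lit 259)))))) (l (nat_lit 0) (nat_lit 284) (nat_lit 313)))) (n (nat_lit 284) (b (b (n (nat_lit 283) (b (n (nat_lit 258) (b (l (nat_lit 3) (nat_lit 257) (nat_lit 257)) (l (nat_lit 3) (nat_lit 258) (nat_lit 259)))) (l (nat_lit 0) (nat_lit 283) (nat_lit 311))))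 (n (nat_lit 283) (b (n (nat_lit 308) (b (l (nat_lit 2) (nat_lit 283) (nat_lit 309)) (l (nat_lit 2) (nat_lit 282) (nat_lit 307)))) (l (nat_lit 0) (nat_lit 283) (nat_lit 311))))) (n (nat_lit 309) (b (n (nat_lit 259) (b (n (nat_lit 310) (b (n (nat_lit 234) (b (l (nat_lit 4) (nat_lit 234) (nat_lit 335)) (l (nat_lit 4) (nat_lit 209) (nat_lit 209)))) (l (nat_lit 2) (nat_lit 284) (nat_lit 288)))) (l (nat_lit 3) (nat_lit 258) (nat_lit 258)))) (l (nat_lit 2) (nat_lit 283) (nat_lit 308))))))))) (r (nat_lit 6))) (b (n (nat_lit 286) (b (b (n (nat_lit 284) (b (n (nat_lit 283) (b (n (nat_lit 258) (b (l (nat_lit 3) (nat_lit 257) (nat_lit 257)) (l (nat_lit 3) (nat_lit 258) (nat_lit 259)))) (l (nat_lit 0) (nat_lit 283) (nat_lit 311)))) (l (nat_lit 0) (nat_lit 284) (nat_lit 313)))) (n (nat_lit 288) (b (b (n (nat_lit 263) (b (n (nat_lit 238) (b (l (nat_lit 6) (nat_lit 237) (nat_lit 313)) (l (nat_lit 6) (nat_lit 212) (nat_lit 213)))) (l (nat_lit 1) (nat_lit 260) (nat_lit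 264)))) (n (nat_lit 289) (b (n (nat_lit 264) (b (l (nat_lit 1) (nat_lit 261) (nat_lit 265)) (l (nat_lit 1) (nat_lit 260) (nat_lit 263)))) (n (nat_lit 260) (b (l (nat_lit 3) (nat_lit 260) (nat_lit 261)) (l (nat_lit 3) (nat_lit 259) (nat_lit 259))))))) (n (nat_lit 289) (b (n (nat_lit 260) (b (l (nat_lit 3) (nat_lit 260) (nat_lit 261)) (l (nat_lit 3) (nat_lit 259) (nat_lit 259)))) (n (nat_lit 314) (b (l (nat_lit 0) (nat_lit 286) (nat_lit 315)) (l (nat_lit 0) (nat_lit 285) (nat_lit 313))))))))) (b (n (nat_lit 313) (b (n (nat_lit 314) (b (l (nat_lit 0) (nat_lit 285) (nat_lit 288)) (l (nat_lit 3) (nat_lit 286) (nat_lit 315)))) (l (nat_lit 0) (nat_lit 284) (nat_lit 284)))) (n (nat_lit 284) (b (b (n (nat_lit 311) (b (n (nat_lit 261) (b (n (nat_lit 260) (b (n (nat_lit 336) (b (l (nat_lit 7) (nat_lit 235) (nat_lit 235)) (l (nat_lit 7) (nat_lit 260) (nat_lit 361)))) (n (nat_lit 288) (b (l (nat_lit 3) (nat_lit 260) (nat_lit 289)) (l (nat_lit 3) (nat_lit 259)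 (nat_lit 259)))))) (l (nat_lit 4) (nat_lit 236) (nat_lit 236)))) (l (nat_lit 0) (nat_lit 283) (nat_lit 283)))) (n (nat_lit 288) (b (n (nat_lit 289) (b (n (nat_lit 311) (b (l (nat_lit 2) (nat_lit 285) (nat_lit 310)) (l (nat_lit 2) (nat_lit 286) (nat_lit 290)))) (n (nat_lit 264) (b (l (nat_lit 1) (nat_lit 261) (nat_lit 265)) (l (nat_lit 1) (nat_lit 260) (nat_lit 263)))))) (n (nat_lit 259) (b (l (nat_lit 3) (nat_lit 258) (nat_lit 258)) (l (nat_lit 3) (nat_lit 259) (nat_lit 260))))))) (b (n (nat_lit 283) (b (n (nat_lit 282) (b (n (nat_lit 307) (b (l (nat_lit 2) (nat_lit 281) (nat_lit 306)) (l (nat_lit 2) (nat_lit 282) (nat_lit 308)))) (n (nat_lit 257) (b (l (nat_lit 3) (nat_lit 256) (nat_lit 256)) (l (nat_lit 3) (nat_lit 257) (nat_lit 258)))))) (l (nat_lit 0) (nat_lit 283) (nat_lit 311)))) (n (nat_lit 283) (b (b (n (nat_lit 282) (b (n (nat_lit 307) (b (l (nat_lit 2) (nat_lit 281) (nat_lit 306)) (l (nat_lit 2) (nat_lit 282) (nat_lit 308)))) (n (nat_lit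 260) (b (n (nat_lit 259) (b (l (nat_lit 3) (nat_lit 259) (nat_lit 288)) (l (nat_lit 1) (nat_lit 256) (nat_lit 281)))) (l (nat_lit 1) (nat_lit 257) (nat_lit 261)))))) (n (nat_lit 258) (b (l (nat_lit 3) (nat_lit 257) (nat_lit 257)) (l (nat_lit 3) (nat_lit 258) (nat_lit 259))))) (n (nat_lit 282) (b (n (nat_lit 307) (b (l (nat_lit 2) (nat_lit 281) (nat_lit 306)) (l (nat_lit 2) (nat_lit 282) (nat_lit 308)))) (n (nat_lit 257) (b (l (nat_lit 3) (nat_lit 256) (nat_lit 256)) (l (nat_lit 3) (nat_lit 257) (nat_lit 258)))))))))))))) (n (nat_lit 286) (b (b (n (nat_lit 284) (b (n (nat_lit 283) (b (n (nat_lit 308) (b (l (nat_lit 2) (nat_lit 283) (nat_lit 309)) (l (nat_lit 2) (nat_lit 282) (nat_lit 307)))) (l (nat_lit 0) (nat_lit 283) (nat_lit 311)))) (l (nat_lit 0) (nat_lit 284) (nat_lit 313)))) (n (nat_lit 288) (b (b (n (nat_lit 263) (b (n (nat_lit 238) (b (l (nat_lit 6) (nat_lit 237) (nat_lit 313)) (l (nat_lit 6) (nat_lit 212) (nat_lit 213)))) (l (nat_lit 1)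 (nat_lit 260) (nat_lit 264)))) (n (nat_lit 289) (b (n (nat_lit 264) (b (l (nat_lit 1) (nat_lit 261) (nat_lit 265)) (l (nat_lit 1) (nat_lit 260) (nat_lit 263)))) (n (nat_lit 260) (b (l (nat_lit 3) (nat_lit 260) (nat_lit 261)) (l (nat_lit 3) (nat_lit 259) (nat_lit 259))))))) (n (nat_lit 289) (b (n (nat_lit 260) (b (l (nat_lit 3) (nat_lit 260) (nat_lit 261)) (l (nat_lit 3) (nat_lit 259) (nat_lit 259)))) (n (nat_lit 314) (b (l (nat_lit 0) (nat_lit 286) (nat_lit 315)) (l (nat_lit 0) (nat_lit 285) (nat_lit 313))))))))) (n (nat_lit 284) (b (b (n (nat_lit 311) (b (n (nat_lit 261) (b (n (nat_lit 260) (b (n (nat_lit 336) (b (l (nat_lit 7) (nat_lit 235) (nat_lit 235)) (l (nat_lit 7) (nat_lit 260) (nat_lit 361)))) (n (nat_lit 288) (b (l (nat_lit 3) (nat_lit 260) (nat_lit 289)) (l (nat_lit 3) (nat_lit 259) (nat_lit 259)))))) (l (nat_lit 4) (nat_lit 236) (nat_lit 236)))) (l (nat_lit 0) (nat_lit 283) (nat_lit 283)))) (n (nat_lit 283) (b (n (nat_lit 282) (b (n (nat_lit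 307) (b (l (nat_lit 2) (nat_lit 281) (nat_lit 306)) (l (nat_lit 2) (nat_lit 282) (nat_lit 308)))) (n (nat_lit 257) (b (l (nat_lit 3) (nat_lit 256) (nat_lit 256)) (l (nat_lit 3) (nat_lit 257) (nat_lit 258)))))) (l (nat_lit 0) (nat_lit 283) (nat_lit 311))))) (n (nat_lit 259) (b (n (nat_lit 260) (b (n (nat_lit 309) (b (n (nat_lit 235) (b (l (nat_lit 5) (nat_lit 234) (nat_lit 334)) (l (nat_lit 6) (nat_lit 209) (nat_lit 210)))) (l (nat_lit 2) (nat_lit 283) (nat_lit 308)))) (l (nat_lit 3) (nat_lit 259) (nat_lit 288)))) (l (nat_lit 3) (nat_lit 258) (nat_lit 258))))))))))) (b (b (n (nat_lit 286) (b (b (n (nat_lit 261) (b (b (n (nat_lit 236) (b (l (nat_lit 4) (nat_lit 236) (nat_lit 311)) (l (nat_lit 4) (nat_lit 211) (nat_lit 211)))) (n (nat_lit 310) (b (n (nat_lit 335) (b (n (nat_lit 236) (b (l (nat_lit 6) (nat_lit 210) (nat_lit 211)) (l (nat_lit 5) (nat_lit 235) (nat_lit 260)))) (l (nat_lit 5) (nat_lit 260) (nat_lit 360)))) (n (nat_lit 309) (b (n (nat_lit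 308) (b (l (nat_lit 2) (nat_lit 283) (nat_lit 284)) (l (nat_lit 1) (nat_lit 282) (nat_lit 307)))) (l (nat_lit 2) (nat_lit 284) (nat_lit 288))))))) (n (nat_lit 309) (b (b (n (nat_lit 308) (b (n (nat_lit 310) (b (l (nat_lit 1) (nat_lit 282) (nat_lit 307)) (l (nat_lit 2) (nat_lit 284) (nat_lit 288)))) (l (nat_lit 2) (nat_lit 283) (nat_lit 284)))) (n (nat_lit 310) (b (n (nat_lit 338) (b (n (nat_lit 335) (b (l (nat_lit 3) (nat_lit 309) (nat_lit 336)) (l (nat_lit 5) (nat_lit 260) (nat_lit 360)))) (l (nat_lit 0) (nat_lit 309) (nat_lit 311)))) (l (nat_lit 2) (nat_lit 284) (nat_lit 288))))) (n (nat_lit 284) (b (n (nat_lit 283) (b (n (nat_lit 282) (b (n (nat_lit 257) (b (l (nat_lit 3) (nat_lit 256) (nat_lit 256)) (l (nat_lit 3) (nat_lit 257) (nat_lit 258)))) (l (nat_lit 1) (nat_lit 257) (nat_lit 260)))) (l (nat_lit 0) (nat_lit 283) (nat_lit 311)))) (l (nat_lit 2) (nat_lit 283) (nat_lit 308)))))))) (n (nat_lit 284) (b (n (nat_lit 283) (b (n (nat_lit 308) (b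 (l (nat_lit 2) (nat_lit 283) (nat_lit 309)) (l (nat_lit 2) (nat_lit 282) (nat_lit 307)))) (l (nat_lit 0) (nat_lit 283) (nat_lit 311)))) (l (nat_lit 0) (nat_lit 284) (nat_lit 313))))) (b (n (nat_lit 288) (b (b (n (nat_lit 263) (b (n (nat_lit 238) (b (l (nat_lit 6) (nat_lit 237) (nat_lit 313)) (l (nat_lit 6) (nat_lit 212) (nat_lit 213)))) (l (nat_lit 1) (nat_lit 260) (nat_lit 264)))) (n (nat_lit 289) (b (n (nat_lit 310) (b (l (nat_lit 2) (nat_lit 284) (nat_lit 309)) (l (nat_lit 2) (nat_lit 285) (nat_lit 311)))) (n (nat_lit 264) (b (l (nat_lit 1) (nat_lit 261) (nat_lit 265)) (l (nat_lit 1) (nat_lit 260) (nat_lit 263))))))) (n (nat_lit 289) (b (n (nat_lit 310) (b (l (nat_lit 2) (nat_lit 284) (nat_lit 309)) (l (nat_lit 2) (nat_lit 285) (nat_lit 311)))) (n (nat_lit 314) (b (l (nat_lit 0) (nat_lit 286) (nat_lit 315)) (l (nat_lit 0) (nat_lit 285) (nat_lit 313)))))))) (n (nat_lit 313) (b (n (nat_lit 314) (b (l (nat_lit 0) (nat_lit 285) (nat_lit 288)) (l (nat_lit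 3) (nat_lit 286) (nat_lit 315)))) (l (nat_lit 0) (nat_lit 284) (nat_lit 284))))))) (n (nat_lit 286) (b (b (n (nat_lit 288) (b (b (n (nat_lit 289) (b (n (nat_lit 264) (b (l (nat_lit 1) (nat_lit 261) (nat_lit 265)) (l (nat_lit 1) (nat_lit 260) (nat_lit 263)))) (n (nat_lit 260) (b (l (nat_lit 3) (nat_lit 260) (nat_lit 261)) (l (nat_lit 3) (nat_lit 259) (nat_lit 259)))))) (n (nat_lit 313) (b (n (nat_lit 263) (b (l (nat_lit 6) (nat_lit 237) (nat_lit 238)) (l (nat_lit 1) (nat_lit 260) (nat_lit 264)))) (l (nat_lit 0) (nat_lit 285) (nat_lit 314))))) (n (nat_lit 289) (b (n (nat_lit 260) (b (l (nat_lit 3) (nat_lit 260) (nat_lit 261)) (l (nat_lit 3) (nat_lit 259) (nat_lit 259)))) (n (nat_lit 314) (b (l (nat_lit 0) (nat_lit 286) (nat_lit 315)) (l (nat_lit 0) (nat_lit 285) (nat_lit 313)))))))) (n (nat_lit 284) (b (n (nat_lit 283) (b (n (nat_lit 258) (b (l (nat_lit 3) (nat_lit 257) (nat_lit 257)) (l (nat_lit 3) (nat_lit 258) (nat_lit 259)))) (l (nat_lit 0) (nat_lit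 283) (nat_lit 311)))) (l (nat_lit 0) (nat_lit 284) (nat_lit 313))))) (b (n (nat_lit 288) (b (b (n (nat_lit 263) (b (n (nat_lit 238) (b (l (nat_lit 6) (nat_lit 237) (nat_lit 313)) (l (nat_lit 6) (nat_lit 212) (nat_lit 213)))) (l (nat_lit 1) (nat_lit 260) (nat_lit 264)))) (n (nat_lit 289) (b (n (nat_lit 310) (b (l (nat_lit 2) (nat_lit 284) (nat_lit 309)) (l (nat_lit 2) (nat_lit 285) (nat_lit 311)))) (n (nat_lit 264) (b (l (nat_lit 1) (nat_lit 261) (nat_lit 265)) (l (nat_lit 1) (nat_lit 260) (nat_lit 263))))))) (n (nat_lit 289) (b (n (nat_lit 310) (b (l (nat_lit 2) (nat_lit 284) (nat_lit 309)) (l (nat_lit 2) (nat_lit 285) (nat_lit 311)))) (n (nat_lit 314) (b (l (nat_lit 0) (nat_lit 286) (nat_lit 315)) (l (nat_lit 0) (nat_lit 285) (nat_lit 313)))))))) (n (nat_lit 261) (b (b (n (nat_lit 288) (b (b (n (nat_lit 289) (b (n (nat_lit 310) (b (l (nat_lit 2) (nat_lit 284) (nat_lit 309)) (l (nat_lit 2) (nat_lit 285) (nat_lit 311)))) (n (nat_lit 264) (b (l (nat_lit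 1) (nat_lit 261) (nat_lit 265)) (l (nat_lit 1) (nat_lit 260) (nat_lit 263)))))) (n (nat_lit 260) (b (l (nat_lit 3) (nat_lit 260) (nat_lit 289)) (l (nat_lit 3) (nat_lit 259) (nat_lit 259))))) (n (nat_lit 310) (b (n (nat_lit 260) (b (n (nat_lit 235) (b (n (nat_lit 210) (b (n (nat_lit 209) (b (l (nat_lit 7) (nat_lit 184) (nat_lit 184)) (l (nat_lit 7) (nat_lit 209) (nat_lit 234)))) (l (nat_lit 4) (nat_lit 185) (nat_lit 185)))) (n (nat_lit 336) (b (n (nat_lit 335) (b (l (nat_lit 4) (nat_lit 260) (nat_lit 361)) (l (nat_lit 5) (nat_lit 260) (nat_lit 360)))) (l (nat_lit 7) (nat_lit 235) (nat_lit 311)))))) (l (nat_lit 3) (nat_lit 259) (nat_lit 259)))) (l (nat_lit 2) (nat_lit 284) (nat_lit 309)))))) (n (nat_lit 236) (b (l (nat_lit 4) (nat_lit 236) (nat_lit 311)) (l (nat_lit 4) (nat_lit 211) (nat_lit 211))))) (n (nat_lit 260) (b (b (n (nat_lit 259) (b (l (nat_lit 0) (nat_lit 258) (nat_lit 258)) (l (nat_lit 3) (nat_lit 259) (nat_lit 288)))) (n (nat_lit 310)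 (b (n (nat_lit 335) (b (l (nat_lit 5) (nat_lit 235) (nat_lit 236)) (l (nat_lit 5) (nat_lit 260) (nat_lit 360)))) (n (nat_lit 288) (b (l (nat_lit 2) (nat_lit 284) (nat_lit 309)) (l (nat_lit 3) (nat_lit 260) (nat_lit 289))))))) (n (nat_lit 310) (b (b (n (nat_lit 335) (b (n (nat_lit 259) (b (l (nat_lit 0) (nat_lit 258) (nat_lit 258)) (l (nat_lit 7) (nat_lit 234) (nat_lit 234)))) (l (nat_lit 5) (nat_lit 260) (nat_lit 360)))) (n (nat_lit 236) (b (l (nat_lit 5) (nat_lit 235) (nat_lit 335)) (l (nat_lit 6) (nat_lit 210) (nat_lit 211))))) (n (nat_lit 236) (b (n (nat_lit 235) (b (n (nat_lit 210) (b (n (nat_lit 309) (b (l (nat_lit 6) (nat_lit 209) (nat_lit 284)) (l (nat_lit 6) (nat_lit 234) (nat_lit 334)))) (l (nat_lit 4) (nat_lit 185) (nat_lit 185)))) (n (nat_lit 258) (b (n (nat_lit 234) (b (n (nat_lit 233) (b (l (nat_lit 2) (nat_lit 232) (nat_lit 257)) (l (nat_lit 0) (nat_lit 232) (nat_lit 232)))) (l (nat_lit 7) (nat_lit 209) (nat_lit 209)))) (l (nat_lit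 0) (nat_lit 258) (nat_lit 259)))))) (l (nat_lit 6) (nat_lit 210) (nat_lit 211)))))))))))))) (r (nat_lit 7))))))))
    (envOK_cons p3112 (envOK_cons p2665 (envOK_cons p2548 (envOK_cons p3134 (envOK_cons p3349 (envOK_cons p3437 (envOK_cons p3528 (envOK_cons p3619 envOK_nil)))))))) (by decide +kernel)

theorem p3635 : Fam (nat_lit 11) (nat_lit 8343699607727673214248874617415937021077234590683750281279490000787534250410375654793883418624) (nat_lit 26442248818822826576062117812026207439876819606590366804920314712163637638859939169883446743491181702028820398498787564191744) (nat_lit 26442248818822826576062117812026207439876819606590366804920314712163637638859939169883446743491181702028820398498787564191744) :=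
  chk_sound (Env.cons (nat_lit 8) (nat_lit 279968101115925134047353499319930152181142708231565782546248918899963984685054368582985341452834308096) (nat_lit 26442248818822826576062117811921911190817179048448386271205348798347394978830107369185504133500399955499275650069989355945984) Env.nil)
    (n (nat_lit 337) (b (b (b (r (nat_lit 0)) (n (nat_lit 262) (b (b (n (nat_lit 362) (b (n (nat_lit 361) (b (l (nat_lit 6) (nat_lit 286) (nat_lit 386)) (l (nat_lit 6) (nat_lit 261) (nat_lit 336)))) (n (nat_lit 363) (b (l (nat_lit 4) (nat_lit 262) (nat_lit 338)) (l (nat_lit 4) (nat_lit 287) (nat_lit 388)))))) (n (nat_lit 237) (b (n (nat_lit 336) (b (l (nat_lit 6) (nat_lit 261) (nat_lit 361)) (l (nat_lit 6) (nat_lit 236) (nat_lit 311)))) (n (nat_lit 236) (b (l (nat_lit 7) (nat_lit 211) (nat_lit 211)) (l (nat_lit 7) (nat_lit 236) (nat_lit 261))))))) (n (nat_lit 237) (b (n (nat_lit 338) (b (l (nat_lit 4) (nat_lit 237) (nat_lit 313)) (l (nat_lit 4) (nat_lit 262) (nat_lit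 363)))) (n (nat_lit 236) (b (l (nat_lit 7) (nat_lit 211) (nat_lit 211)) (l (nat_lit 7) (nat_lit 236) (nat_lit 261))))))))) (b (n (nat_lit 262) (b (b (n (nat_lit 362) (b (n (nat_lit 263) (b (l (nat_lit 5) (nat_lit 237) (nat_lit 238)) (l (nat_lit 5) (nat_lit 262) (nat_lit 288)))) (n (nat_lit 361) (b (l (nat_lit 6) (nat_lit 286) (nat_lit 386)) (l (nat_lit 6) (nat_lit 261) (nat_lit 336)))))) (n (nat_lit 237) (b (n (nat_lit 336) (b (l (nat_lit 6) (nat_lit 261) (nat_lit 361)) (l (nat_lit 6) (nat_lit 236) (nat_lit 311)))) (n (nat_lit 236) (b (l (nat_lit 7) (nat_lit 211) (nat_lit 211)) (l (nat_lit 7) (nat_lit 236) (nat_lit 261))))))) (n (nat_lit 237) (b (n (nat_lit 238) (b (l (nat_lit 5) (nat_lit 237) (nat_lit 263)) (l (nat_lit 5) (nat_lit 212) (nat_lit 213)))) (n (nat_lit 236) (b (l (nat_lit 7) (nat_lit 211) (nat_lit 211)) (l (nat_lit 7) (nat_lit 236) (nat_lit 261)))))))) (n (nat_lit 262) (b (b (n (nat_lit 362) (b (n (nat_lit 363) (b (l (nat_lit 4) (nat_lit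 262) (nat_lit 338)) (l (nat_lit 4) (nat_lit 287) (nat_lit 388)))) (n (nat_lit 263) (b (l (nat_lit 5) (nat_lit 237) (nat_lit 238)) (l (nat_lit 5) (nat_lit 262) (nat_lit 288)))))) (n (nat_lit 237) (b (n (nat_lit 238) (b (l (nat_lit 5) (nat_lit 237) (nat_lit 263)) (l (nat_lit 5) (nat_lit 212) (nat_lit 213)))) (n (nat_lit 236) (b (l (nat_lit 7) (nat_lit 211) (nat_lit 211)) (l (nat_lit 7) (nat_lit 236) (nat_lit 261))))))) (n (nat_lit 237) (b (n (nat_lit 338) (b (l (nat_lit 4) (nat_lit 237) (nat_lit 313)) (l (nat_lit 4) (nat_lit 262) (nat_lit 363)))) (n (nat_lit 236) (b (l (nat_lit 7) (nat_lit 211) (nat_lit 211)) (l (nat_lit 7) (nat_lit 236) (nat_lit 261)))))))))) (n (nat_lit 262) (b (b (n (nat_lit 237) (b (n (nat_lit 338) (b (l (nat_lit 4) (nat_lit 237) (nat_lit 313)) (l (nat_lit 4) (nat_lit 262) (nat_lit 363)))) (n (nat_lit 236) (b (l (nat_lit 7) (nat_lit 211) (nat_lit 211)) (l (nat_lit 7) (nat_lit 236) (nat_lit 261)))))) (n (nat_lit 237) (b (n (nat_lit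 238) (b (l (nat_lit 5) (nat_lit 237) (nat_lit 263)) (l (nat_lit 5) (nat_lit 212) (nat_lit 213)))) (n (nat_lit 336) (b (l (nat_lit 6) (nat_lit 261) (nat_lit 361)) (l (nat_lit 6) (nat_lit 236) (nat_lit 311))))))) (n (nat_lit 263) (b (n (nat_lit 338) (b (n (nat_lit 261) (b (n (nat_lit 260) (b (n (nat_lit 259) (b (n (nat_lit 234) (b (l (nat_lit 3) (nat_lit 234) (nat_lit 235)) (l (nat_lit 3) (nat_lit 233) (nat_lit 233)))) (n (nat_lit 284) (b (l (nat_lit 2) (nat_lit 258) (nat_lit 283)) (l (nat_lit 2) (nat_lit 259) (nat_lit 285)))))) (n (nat_lit 336) (b (n (nat_lit 264) (b (b (n (nat_lit 313) (b (n (nat_lit 314) (b (l (nat_lit 2) (nat_lit 311) (nat_lit 315)) (l (nat_lit 1) (nat_lit 310) (nat_lit 335)))) (n (nat_lit 239) (b (l (nat_lit 5) (nat_lit 238) (nat_lit 288)) (l (nat_lit 1) (nat_lit 236) (nat_lit 240)))))) (n (nat_lit 289) (b (l (nat_lit 0) (nat_lit 261) (nat_lit 290)) (l (nat_lit 0) (nat_lit 260) (nat_lit 288))))) (n (nat_lit 265) (b (n (nat_lit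 240) (b (l (nat_lit 1) (nat_lit 236) (nat_lit 239)) (l (nat_lit 1) (nat_lit 237) (nat_lit 241)))) (n (nat_lit 290) (b (l (nat_lit 0) (nat_lit 262) (nat_lit 291)) (l (nat_lit 0) (nat_lit 261) (nat_lit 289)))))))) (l (nat_lit 6) (nat_lit 261) (nat_lit 361)))))) (l (nat_lit 7) (nat_lit 236) (nat_lit 236)))) (l (nat_lit 4) (nat_lit 262) (nat_lit 363)))) (l (nat_lit 5) (nat_lit 237) (nat_lit 238))))))))
    (envOK_cons p3112 envOK_nil) (by decide +kernel)

theorem p3636 : Fam (nat_lit 16) (nat_lit 8343699359066055009355553539724812947666814540455674882605631280555545803830627148527195652096) (nat_lit 243994964152272322773220568065456624229374439382658718464630451734295846817264127308596930507547105143806576919959510799693056573440) (nat_lit 243994964152272322773220568065456624229374439382658718464630451734295846817264127308596930507547105143806576919959510799693056573440) :=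
  chk_sound (Env.cons (nat_lit 8) (nat_lit 279968101115925134047353499319930152181142708231565782546248918899963984685054368582985341452834308096) (nat_lit 26442239973072285765896169614189774047111550910874397981352903103177800885002786974364083949460431157228585913071602356977664) (Env.cons (nat_lit 8) (nat_lit 279968101115925134047353499319930152181142708231565782546248918899963984685054368582985341452834308096) (nat_lit 4697085585499818129667221753367991976496897257348985149771200590089821782393710374179689000545711714832744448) (Env.cons (nat_lit 14) (nat_lit 8343699607727673214248874617415937021077234590683750281279490000787534250410375654793883418624) (nat_lit 788040160917438605052694587428846034412474492223883536523619015501465128590280709630857921155444019960537073491902464) (Env.cons (nat_lit 9) (nat_lit 8343699607727673214248874617415937021077234590683750281279490000787534250410375654793883418624) (nat_lit 157608038876834515866546525011883609538910682783805342682125030020082333445685278656154040252887033847954808391073792)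 (Env.cons (nat_lit 8) (nat_lit 419952147502037897207193641855457919563745551808731378477498237710200976633814427669290184782309752832) (nat_lit 630432159910852099043897942330224473160453751245915274151215756980439117266728452798139748776688890428714715248066560) (Env.cons (nat_lit 7) (nat_lit 419952147502037897207193641855457919563745551808731378477498237710200976633814427669290184782309752832) (nat_lit 7932672492327184973727123561631891187988205753135238860380011646137725275471490896859551576674454436737701967968816490086400) (Env.cons (nat_lit 7) (nat_lit 279968101115925134047353499319930152181142708231565782546248918899963984685054368582985341452834308096) (nat_lit 21153791946936132062440064205970120287742487845944192886646460133128521936410191556105872260394605276550439324225085286383616) (Env.cons (nat_lit 7) (nat_lit 279968101115925134047353499319930152181142708231565782546248918899963984685054368582985341452834308096) (nat_lit 5288448223146077239604849622835766793253829057822408124134235581244037852044228805080653185219582599395272237332770611789824)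 (Env.cons (nat_lit 7) (nat_lit 8343699607727680624942585805652444129620275146709852890558508601783632775695752161234180374528) (nat_lit 822406338225048899253791587252888190313528646617389556250889496546990968238903283451643850242637430784) (Env.cons (nat_lit 8) (nat_lit 279968101115925134047360910013641340417649816774606338572351528178982585681152893868361847893131264000) (nat_lit 27595376432469032897784281774130500930128102784827589947095653927086412356701750311282465328010993730970451968) (Env.cons (nat_lit 12) (nat_lit 8343699607727673214248874617415937021077234590683750281279490000787534250410375654793883418624) (nat_lit 29086463848233280455271706187188129386583134095327495019548823211605010328128853021688417590112723955527730570926139576942592) (Env.cons (nat_lit 7) (nat_lit 8343699607727680624942585805652444129620275146709852890558508601783632775695752161234180374528) (nat_lit 630432127324823500586750036659929096647110469566350847614798607207788905765891013470442394282825892000639621091295232)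 (Env.cons (nat_lit 7) (nat_lit 8343699607727680624942585805652444129620275146709852890558508601783632775695752161234180374528) (nat_lit 559936210575549875822616428754285134168389703466671269474916070454878252582069695245572624670384979968) (Env.cons (nat_lit 9) (nat_lit 8343699607727673214248874617415937021077234590683750281279490000787534250410375654793883418624) (nat_lit 788040156807486722967599898194564443598596227258920406738482436452541559721632784601913283660268318871901524757315584) (Env.cons (nat_lit 10) (nat_lit 8343699607727673214248874617415937021077234590683750281279490000787534250410375654793883418624) (nat_lit 26442239854866153859533008152385838971574840391199097319933390819844924184160506225373927169602660480327764003575201966063616) (Env.cons (nat_lit 13) (nat_lit 8343699607727673214248874617415937021077234590683750281279490000787534250410375654793883418624) (nat_lit 2482326464939080024598593665370904766707029613053909846497412398587708736376150017228477840431961126916326867427393536)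 (Env.cons (nat_lit 11) (nat_lit 8343699607727673214248874617415937021077234590683750281279490000787534250410375654793883418624) (nat_lit 23485426930112763276169231541594047768890810545133321785866017482694348192097268745732576261765553546221060096) (Env.cons (nat_lit 15) (nat_lit 8343699607727673214248874617415937021077234590683750281279490000787534250410375654793883418624) (nat_lit 243994964152272322773220568065456623962376051935373049626861005847399898296767527573208937493225811421629131878896558739768481939456) (Env.cons (nat_lit 11) (nat_lit 8343699607727673214248874617415937021077234590683750281279490000787534250410375654793883418624) (nat_lit 26442248818822826576062117812026207439876819606590366804920314712163637638859939169883446743491181702028820398498787564191744) Env.nil)))))))))))))))))))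
    (n (nat_lit 287) (b (b (b (b (b (n (nat_lit 337) (b (b (b (r (nat_lit 0)) (n (nat_lit 362) (b (b (n (nat_lit 387) (b (n (nat_lit 286) (b (l (nat_lit 7) (nat_lit 261) (nat_lit 261)) (l (nat_lit 7) (nat_lit 286) (nat_lit 311)))) (n (nat_lit 388) (b (l (nat_lit 4) (nat_lit 312) (nat_lit 413)) (l (nat_lit 4) (nat_lit 287) (nat_lit 363)))))) (n (nat_lit 262) (b (n (nat_lit 263) (b (l (nat_lit 5) (nat_lit 237) (nat_lit 238)) (l (nat_lit 5) (nat_lit 262) (nat_lit 288)))) (n (nat_lit 363) (b (l (nat_lit 4) (nat_lit 262) (nat_lit 338)) (l (nat_lit 4) (nat_lit 287) (nat_lit 388))))))) (n (nat_lit 262) (b (n (nat_lit 261) (b (l (nat_lit 7) (nat_lit 261) (nat_lit 286)) (l (nat_lit 7) (nat_lit 236) (nat_lit 236)))) (n (nat_lit 263) (b (l (nat_lit 5) (nat_lit 237) (nat_lit 238)) (l (nat_lit 5) (nat_lit 262) (nat_lit 288))))))))) (b (n (nat_lit 262) (b (n (nat_lit 237) (b (n (nat_lit 238) (b (l (nat_lit 5) (nat_lit 237) (nat_lit 263)) (l (nat_lit 5) (nat_lit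 212) (nat_lit 213)))) (n (nat_lit 236) (b (l (nat_lit 7) (nat_lit 211) (nat_lit 211)) (l (nat_lit 7) (nat_lit 236) (nat_lit 261)))))) (n (nat_lit 362) (b (n (nat_lit 361) (b (l (nat_lit 6) (nat_lit 286) (nat_lit 386)) (l (nat_lit 6) (nat_lit 261) (nat_lit 336)))) (n (nat_lit 363) (b (l (nat_lit 4) (nat_lit 262) (nat_lit 338)) (l (nat_lit 4) (nat_lit 287) (nat_lit 388)))))))) (n (nat_lit 262) (b (b (n (nat_lit 237) (b (n (nat_lit 238) (b (l (nat_lit 5) (nat_lit 237) (nat_lit 263)) (l (nat_lit 5) (nat_lit 212) (nat_lit 213)))) (n (nat_lit 336) (b (l (nat_lit 6) (nat_lit 261) (nat_lit 361)) (l (nat_lit 6) (nat_lit 236) (nat_lit 311)))))) (n (nat_lit 362) (b (n (nat_lit 361) (b (l (nat_lit 6) (nat_lit 286) (nat_lit 386)) (l (nat_lit 6) (nat_lit 261) (nat_lit 336)))) (n (nat_lit 363) (b (l (nat_lit 4) (nat_lit 262) (nat_lit 338)) (l (nat_lit 4) (nat_lit 287) (nat_lit 388))))))) (n (nat_lit 362) (b (n (nat_lit 363) (b (l (nat_lit 4) (nat_lit 262) (nat_lit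 338)) (l (nat_lit 4) (nat_lit 287) (nat_lit 388)))) (n (nat_lit 263) (b (l (nat_lit 5) (nat_lit 237) (nat_lit 238)) (l (nat_lit 5) (nat_lit 262) (nat_lit 288)))))))))) (r (nat_lit 1)))) (r (nat_lit 2))) (b (r (nat_lit 3)) (n (nat_lit 337) (b (b (b (r (nat_lit 0)) (n (nat_lit 362) (b (b (n (nat_lit 262) (b (n (nat_lit 361) (b (l (nat_lit 6) (nat_lit 286) (nat_lit 386)) (l (nat_lit 6) (nat_lit 261) (nat_lit 336)))) (n (nat_lit 363) (b (l (nat_lit 4) (nat_lit 262) (nat_lit 338)) (l (nat_lit 4) (nat_lit 287) (nat_lit 388)))))) (n (nat_lit 387) (b (n (nat_lit 288) (b (l (nat_lit 5) (nat_lit 262) (nat_lit 263)) (l (nat_lit 5) (nat_lit 287) (nat_lit 313)))) (n (nat_lit 388) (b (l (nat_lit 4) (nat_lit 312) (nat_lit 413)) (l (nat_lit 4) (nat_lit 287) (nat_lit 363))))))) (n (nat_lit 387) (b (n (nat_lit 288) (b (l (nat_lit 5) (nat_lit 262) (nat_lit 263)) (l (nat_lit 5) (nat_lit 287) (nat_lit 313)))) (n (nat_lit 386) (b (l (nat_lit 6) (nat_lit 311) (nat_lit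 411)) (l (nat_lit 6) (nat_lit 286) (nat_lit 361))))))))) (b (n (nat_lit 362) (b (b (n (nat_lit 387) (b (n (nat_lit 288) (b (l (nat_lit 5) (nat_lit 262) (nat_lit 263)) (l (nat_lit 5) (nat_lit 287) (nat_lit 313)))) (n (nat_lit 386) (b (l (nat_lit 6) (nat_lit 311) (nat_lit 411)) (l (nat_lit 6) (nat_lit 286) (nat_lit 361)))))) (n (nat_lit 262) (b (n (nat_lit 261) (b (l (nat_lit 7) (nat_lit 261) (nat_lit 286)) (l (nat_lit 7) (nat_lit 236) (nat_lit 236)))) (n (nat_lit 361) (b (l (nat_lit 6) (nat_lit 286) (nat_lit 386)) (l (nat_lit 6) (nat_lit 261) (nat_lit 336))))))) (n (nat_lit 387) (b (n (nat_lit 286) (b (l (nat_lit 7) (nat_lit 261) (nat_lit 261)) (l (nat_lit 7) (nat_lit 286) (nat_lit 311)))) (n (nat_lit 288) (b (l (nat_lit 5) (nat_lit 262) (nat_lit 263)) (l (nat_lit 5) (nat_lit 287) (nat_lit 313)))))))) (n (nat_lit 362) (b (b (n (nat_lit 387) (b (n (nat_lit 288) (b (l (nat_lit 5) (nat_lit 262) (nat_lit 263)) (l (nat_lit 5) (nat_lit 287) (nat_lit 313))))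 (n (nat_lit 388) (b (l (nat_lit 4) (nat_lit 312) (nat_lit 413)) (l (nat_lit 4) (nat_lit 287) (nat_lit 363)))))) (n (nat_lit 262) (b (n (nat_lit 261) (b (l (nat_lit 7) (nat_lit 261) (nat_lit 286)) (l (nat_lit 7) (nat_lit 236) (nat_lit 236)))) (n (nat_lit 363) (b (l (nat_lit 4) (nat_lit 262) (nat_lit 338)) (l (nat_lit 4) (nat_lit 287) (nat_lit 388))))))) (n (nat_lit 387) (b (n (nat_lit 286) (b (l (nat_lit 7) (nat_lit 261) (nat_lit 261)) (l (nat_lit 7) (nat_lit 286) (nat_lit 311)))) (n (nat_lit 288) (b (l (nat_lit 5) (nat_lit 262) (nat_lit 263)) (l (nat_lit 5) (nat_lit 287) (nat_lit 313)))))))))) (n (nat_lit 336) (b (b (r (nat_lit 4)) (r (nat_lit 5))) (b (n (nat_lit 262) (b (n (nat_lit 237) (b (n (nat_lit 338) (b (l (nat_lit 4) (nat_lit 237) (nat_lit 313)) (l (nat_lit 4) (nat_lit 262) (nat_lit 363)))) (n (nat_lit 236) (b (l (nat_lit 7) (nat_lit 211) (nat_lit 211)) (l (nat_lit 7) (nat_lit 236) (nat_lit 261)))))) (l (nat_lit 6) (nat_lit 261) (nat_lit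 361)))) (n (nat_lit 262) (b (n (nat_lit 237) (b (n (nat_lit 236) (b (l (nat_lit 7) (nat_lit 211) (nat_lit 211)) (l (nat_lit 7) (nat_lit 236) (nat_lit 261)))) (l (nat_lit 6) (nat_lit 236) (nat_lit 311)))) (l (nat_lit 6) (nat_lit 261) (nat_lit 361))))))))))) (b (b (n (nat_lit 337) (b (b (b (r (nat_lit 6)) (r (nat_lit 7))) (b (r (nat_lit 0)) (n (nat_lit 362) (b (b (n (nat_lit 262) (b (n (nat_lit 361) (b (l (nat_lit 6) (nat_lit 286) (nat_lit 386)) (l (nat_lit 6) (nat_lit 261) (nat_lit 336)))) (n (nat_lit 363) (b (l (nat_lit 4) (nat_lit 262) (nat_lit 338)) (l (nat_lit 4) (nat_lit 287) (nat_lit 388)))))) (n (nat_lit 387) (b (n (nat_lit 288) (b (l (nat_lit 5) (nat_lit 262) (nat_lit 263)) (l (nat_lit 5) (nat_lit 287) (nat_lit 313)))) (n (nat_lit 388) (b (l (nat_lit 4) (nat_lit 312) (nat_lit 413)) (l (nat_lit 4) (nat_lit 287) (nat_lit 363))))))) (n (nat_lit 387) (b (n (nat_lit 288) (b (l (nat_lit 5) (nat_lit 262) (nat_lit 263)) (l (nat_lit 5) (nat_lit 287)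 (nat_lit 313)))) (n (nat_lit 386) (b (l (nat_lit 6) (nat_lit 311) (nat_lit 411)) (l (nat_lit 6) (nat_lit 286) (nat_lit 361)))))))))) (n (nat_lit 336) (b (b (r (nat_lit 4)) (r (nat_lit 5))) (b (n (nat_lit 361) (b (n (nat_lit 386) (b (l (nat_lit 5) (nat_lit 286) (nat_lit 311)) (l (nat_lit 5) (nat_lit 311) (nat_lit 411)))) (l (nat_lit 6) (nat_lit 261) (nat_lit 262)))) (n (nat_lit 262) (b (n (nat_lit 261) (b (n (nat_lit 263) (b (n (nat_lit 264) (b (b (n (nat_lit 265) (b (n (nat_lit 240) (b (l (nat_lit 1) (nat_lit 236) (nat_lit 239)) (l (nat_lit 1) (nat_lit 237) (nat_lit 241)))) (n (nat_lit 290) (b (l (nat_lit 0) (nat_lit 262) (nat_lit 291)) (l (nat_lit 0) (nat_lit 261) (nat_lit 289)))))) (n (nat_lit 286) (b (l (nat_lit 2) (nat_lit 260) (nat_lit 285)) (l (nat_lit 2) (nat_lit 261) (nat_lit 265))))) (n (nat_lit 260) (b (n (nat_lit 285) (b (l (nat_lit 2) (nat_lit 259) (nat_lit 284)) (l (nat_lit 2) (nat_lit 260) (nat_lit 286)))) (n (nat_lit 288) (b (l (nat_lit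 0) (nat_lit 260) (nat_lit 289)) (l (nat_lit 0) (nat_lit 259) (nat_lit 259)))))))) (l (nat_lit 5) (nat_lit 237) (nat_lit 238)))) (l (nat_lit 7) (nat_lit 236) (nat_lit 236)))) (l (nat_lit 6) (nat_lit 261) (nat_lit 361))))))))) (n (nat_lit 262) (b (b (r (nat_lit 8)) (n (nat_lit 237) (b (b (n (nat_lit 337) (b (n (nat_lit 336) (b (l (nat_lit 6) (nat_lit 261) (nat_lit 361)) (l (nat_lit 6) (nat_lit 236) (nat_lit 311)))) (n (nat_lit 236) (b (l (nat_lit 7) (nat_lit 211) (nat_lit 211)) (l (nat_lit 7) (nat_lit 236) (nat_lit 261)))))) (n (nat_lit 212) (b (n (nat_lit 311) (b (l (nat_lit 6) (nat_lit 236) (nat_lit 336)) (l (nat_lit 6) (nat_lit 211) (nat_lit 286)))) (n (nat_lit 213) (b (l (nat_lit 5) (nat_lit 187) (nat_lit 188)) (l (nat_lit 5) (nat_lit 212) (nat_lit 238))))))) (n (nat_lit 212) (b (n (nat_lit 213) (b (l (nat_lit 5) (nat_lit 187) (nat_lit 188)) (l (nat_lit 5) (nat_lit 212) (nat_lit 238)))) (n (nat_lit 211) (b (l (nat_lit 7) (nat_lit 211) (nat_lit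 236)) (l (nat_lit 7) (nat_lit 186) (nat_lit 186))))))))) (b (n (nat_lit 237) (b (b (n (nat_lit 337) (b (n (nat_lit 236) (b (l (nat_lit 7) (nat_lit 211) (nat_lit 211)) (l (nat_lit 7) (nat_lit 236) (nat_lit 261)))) (n (nat_lit 338) (b (l (nat_lit 4) (nat_lit 237) (nat_lit 313)) (l (nat_lit 4) (nat_lit 262) (nat_lit 363)))))) (n (nat_lit 212) (b (n (nat_lit 313) (b (l (nat_lit 4) (nat_lit 212) (nat_lit 288)) (l (nat_lit 4) (nat_lit 237) (nat_lit 338)))) (n (nat_lit 213) (b (l (nat_lit 5) (nat_lit 187) (nat_lit 188)) (l (nat_lit 5) (nat_lit 212) (nat_lit 238))))))) (n (nat_lit 212) (b (n (nat_lit 213) (b (l (nat_lit 5) (nat_lit 187) (nat_lit 188)) (l (nat_lit 5) (nat_lit 212) (nat_lit 238)))) (n (nat_lit 211) (b (l (nat_lit 7) (nat_lit 211) (nat_lit 236)) (l (nat_lit 7) (nat_lit 186) (nat_lit 186)))))))) (n (nat_lit 337) (b (b (n (nat_lit 362) (b (n (nat_lit 261) (b (l (nat_lit 7) (nat_lit 261) (nat_lit 286)) (l (nat_lit 7) (nat_lit 236) (nat_lit 236))))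 (n (nat_lit 361) (b (l (nat_lit 6) (nat_lit 286) (nat_lit 386)) (l (nat_lit 6) (nat_lit 261) (nat_lit 336)))))) (n (nat_lit 362) (b (n (nat_lit 261) (b (l (nat_lit 7) (nat_lit 261) (nat_lit 286)) (l (nat_lit 7) (nat_lit 236) (nat_lit 236)))) (n (nat_lit 363) (b (l (nat_lit 4) (nat_lit 262) (nat_lit 338)) (l (nat_lit 4) (nat_lit 287) (nat_lit 388))))))) (b (n (nat_lit 362) (b (n (nat_lit 361) (b (l (nat_lit 6) (nat_lit 286) (nat_lit 386)) (l (nat_lit 6) (nat_lit 261) (nat_lit 336)))) (n (nat_lit 363) (b (l (nat_lit 4) (nat_lit 262) (nat_lit 338)) (l (nat_lit 4) (nat_lit 287) (nat_lit 388)))))) (r (nat_lit 9))))))))) (b (r (nat_lit 10)) (n (nat_lit 337) (b (b (r (nat_lit 6)) (r (nat_lit 1))) (b (n (nat_lit 362) (b (b (n (nat_lit 387) (b (n (nat_lit 388) (b (l (nat_lit 4) (nat_lit 312) (nat_lit 413)) (l (nat_lit 4) (nat_lit 287) (nat_lit 363)))) (n (nat_lit 386) (b (l (nat_lit 6) (nat_lit 311) (nat_lit 411)) (l (nat_lit 6) (nat_lit 286) (nat_lit 361))))))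 (n (nat_lit 262) (b (n (nat_lit 261) (b (l (nat_lit 7) (nat_lit 261) (nat_lit 286)) (l (nat_lit 7) (nat_lit 236) (nat_lit 236)))) (n (nat_lit 361) (b (l (nat_lit 6) (nat_lit 286) (nat_lit 386)) (l (nat_lit 6) (nat_lit 261) (nat_lit 336))))))) (n (nat_lit 387) (b (n (nat_lit 286) (b (l (nat_lit 7) (nat_lit 261) (nat_lit 261)) (l (nat_lit 7) (nat_lit 286) (nat_lit 311)))) (n (nat_lit 388) (b (l (nat_lit 4) (nat_lit 312) (nat_lit 413)) (l (nat_lit 4) (nat_lit 287) (nat_lit 363)))))))) (n (nat_lit 362) (b (b (n (nat_lit 262) (b (n (nat_lit 263) (b (l (nat_lit 5) (nat_lit 237) (nat_lit 238)) (l (nat_lit 5) (nat_lit 262) (nat_lit 288)))) (n (nat_lit 361) (b (l (nat_lit 6) (nat_lit 286) (nat_lit 386)) (l (nat_lit 6) (nat_lit 261) (nat_lit 336)))))) (n (nat_lit 387) (b (n (nat_lit 388) (b (l (nat_lit 4) (nat_lit 312) (nat_lit 413)) (l (nat_lit 4) (nat_lit 287) (nat_lit 363)))) (n (nat_lit 386) (b (l (nat_lit 6) (nat_lit 311) (nat_lit 411)) (l (nat_lit 6)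 (nat_lit 286) (nat_lit 361))))))) (n (nat_lit 387) (b (n (nat_lit 288) (b (l (nat_lit 5) (nat_lit 262) (nat_lit 263)) (l (nat_lit 5) (nat_lit 287) (nat_lit 313)))) (n (nat_lit 388) (b (l (nat_lit 4) (nat_lit 312) (nat_lit 413)) (l (nat_lit 4) (nat_lit 287) (nat_lit 363)))))))))))))) (b (b (b (n (nat_lit 262) (b (b (b (r (nat_lit 8)) (n (nat_lit 237) (b (b (n (nat_lit 337) (b (n (nat_lit 236) (b (l (nat_lit 7) (nat_lit 211) (nat_lit 211)) (l (nat_lit 7) (nat_lit 236) (nat_lit 261)))) (n (nat_lit 238) (b (l (nat_lit 5) (nat_lit 237) (nat_lit 263)) (l (nat_lit 5) (nat_lit 212) (nat_lit 213)))))) (n (nat_lit 212) (b (n (nat_lit 311) (b (l (nat_lit 6) (nat_lit 236) (nat_lit 336)) (l (nat_lit 6) (nat_lit 211) (nat_lit 286)))) (n (nat_lit 213) (b (l (nat_lit 5) (nat_lit 187) (nat_lit 188)) (l (nat_lit 5) (nat_lit 212) (nat_lit 238))))))) (n (nat_lit 212) (b (n (nat_lit 311) (b (l (nat_lit 6) (nat_lit 236) (nat_lit 336)) (l (nat_lit 6) (nat_lit 211) (nat_lit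 286)))) (n (nat_lit 211) (b (l (nat_lit 7) (nat_lit 211) (nat_lit 236)) (l (nat_lit 7) (nat_lit 186) (nat_lit 186))))))))) (b (n (nat_lit 237) (b (b (n (nat_lit 337) (b (n (nat_lit 236) (b (l (nat_lit 7) (nat_lit 211) (nat_lit 211)) (l (nat_lit 7) (nat_lit 236) (nat_lit 261)))) (n (nat_lit 238) (b (l (nat_lit 5) (nat_lit 237) (nat_lit 263)) (l (nat_lit 5) (nat_lit 212) (nat_lit 213)))))) (n (nat_lit 212) (b (n (nat_lit 313) (b (l (nat_lit 4) (nat_lit 212) (nat_lit 288)) (l (nat_lit 4) (nat_lit 237) (nat_lit 338)))) (n (nat_lit 213) (b (l (nat_lit 5) (nat_lit 187) (nat_lit 188)) (l (nat_lit 5) (nat_lit 212) (nat_lit 238))))))) (n (nat_lit 212) (b (n (nat_lit 211) (b (l (nat_lit 7) (nat_lit 211) (nat_lit 236)) (l (nat_lit 7) (nat_lit 186) (nat_lit 186)))) (n (nat_lit 313) (b (l (nat_lit 4) (nat_lit 212) (nat_lit 288)) (l (nat_lit 4) (nat_lit 237) (nat_lit 338)))))))) (n (nat_lit 237) (b (b (n (nat_lit 337) (b (n (nat_lit 236) (b (l (nat_lit 7) (nat_lit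 211) (nat_lit 211)) (l (nat_lit 7) (nat_lit 236) (nat_lit 261)))) (n (nat_lit 338) (b (l (nat_lit 4) (nat_lit 237) (nat_lit 313)) (l (nat_lit 4) (nat_lit 262) (nat_lit 363)))))) (n (nat_lit 212) (b (n (nat_lit 311) (b (l (nat_lit 6) (nat_lit 236) (nat_lit 336)) (l (nat_lit 6) (nat_lit 211) (nat_lit 286)))) (n (nat_lit 313) (b (l (nat_lit 4) (nat_lit 212) (nat_lit 288)) (l (nat_lit 4) (nat_lit 237) (nat_lit 338))))))) (n (nat_lit 212) (b (n (nat_lit 311) (b (l (nat_lit 6) (nat_lit 236) (nat_lit 336)) (l (nat_lit 6) (nat_lit 211) (nat_lit 286)))) (n (nat_lit 211) (b (l (nat_lit 7) (nat_lit 211) (nat_lit 236)) (l (nat_lit 7) (nat_lit 186) (nat_lit 186)))))))))) (r (nat_lit 11)))) (n (nat_lit 337) (b (b (b (r (nat_lit 0)) (n (nat_lit 262) (b (b (n (nat_lit 237) (b (n (nat_lit 238) (b (l (nat_lit 5) (nat_lit 237) (nat_lit 263)) (l (nat_lit 5) (nat_lit 212) (nat_lit 213)))) (n (nat_lit 336) (b (l (nat_lit 6) (nat_lit 261) (nat_lit 361)) (l (nat_lit 6)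 (nat_lit 236) (nat_lit 311)))))) (n (nat_lit 362) (b (n (nat_lit 361) (b (l (nat_lit 6) (nat_lit 286) (nat_lit 386)) (l (nat_lit 6) (nat_lit 261) (nat_lit 336)))) (n (nat_lit 363) (b (l (nat_lit 4) (nat_lit 262) (nat_lit 338)) (l (nat_lit 4) (nat_lit 287) (nat_lit 388))))))) (n (nat_lit 237) (b (n (nat_lit 338) (b (l (nat_lit 4) (nat_lit 237) (nat_lit 313)) (l (nat_lit 4) (nat_lit 262) (nat_lit 363)))) (n (nat_lit 238) (b (l (nat_lit 5) (nat_lit 237) (nat_lit 263)) (l (nat_lit 5) (nat_lit 212) (nat_lit 213))))))))) (b (n (nat_lit 262) (b (b (n (nat_lit 362) (b (n (nat_lit 261) (b (l (nat_lit 7) (nat_lit 261) (nat_lit 286)) (l (nat_lit 7) (nat_lit 236) (nat_lit 236)))) (n (nat_lit 363) (b (l (nat_lit 4) (nat_lit 262) (nat_lit 338)) (l (nat_lit 4) (nat_lit 287) (nat_lit 388)))))) (n (nat_lit 237) (b (n (nat_lit 338) (b (l (nat_lit 4) (nat_lit 237) (nat_lit 313)) (l (nat_lit 4) (nat_lit 262) (nat_lit 363)))) (n (nat_lit 238) (b (l (nat_lit 5) (nat_lit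 237) (nat_lit 263)) (l (nat_lit 5) (nat_lit 212) (nat_lit 213))))))) (n (nat_lit 237) (b (n (nat_lit 238) (b (l (nat_lit 5) (nat_lit 237) (nat_lit 263)) (l (nat_lit 5) (nat_lit 212) (nat_lit 213)))) (n (nat_lit 236) (b (l (nat_lit 7) (nat_lit 211) (nat_lit 211)) (l (nat_lit 7) (nat_lit 236) (nat_lit 261)))))))) (n (nat_lit 262) (b (b (n (nat_lit 362) (b (n (nat_lit 261) (b (l (nat_lit 7) (nat_lit 261) (nat_lit 286)) (l (nat_lit 7) (nat_lit 236) (nat_lit 236)))) (n (nat_lit 361) (b (l (nat_lit 6) (nat_lit 286) (nat_lit 386)) (l (nat_lit 6) (nat_lit 261) (nat_lit 336)))))) (n (nat_lit 237) (b (n (nat_lit 238) (b (l (nat_lit 5) (nat_lit 237) (nat_lit 263)) (l (nat_lit 5) (nat_lit 212) (nat_lit 213)))) (n (nat_lit 336) (b (l (nat_lit 6) (nat_lit 261) (nat_lit 361)) (l (nat_lit 6) (nat_lit 236) (nat_lit 311))))))) (n (nat_lit 237) (b (n (nat_lit 238) (b (l (nat_lit 5) (nat_lit 237) (nat_lit 263)) (l (nat_lit 5) (nat_lit 212) (nat_lit 213)))) (n (nat_lit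 236) (b (l (nat_lit 7) (nat_lit 211) (nat_lit 211)) (l (nat_lit 7) (nat_lit 236) (nat_lit 261)))))))))) (n (nat_lit 262) (b (b (r (nat_lit 9)) (n (nat_lit 237) (b (n (nat_lit 338) (b (l (nat_lit 4) (nat_lit 237) (nat_lit 313)) (l (nat_lit 4) (nat_lit 262) (nat_lit 363)))) (n (nat_lit 236) (b (l (nat_lit 7) (nat_lit 211) (nat_lit 211)) (l (nat_lit 7) (nat_lit 236) (nat_lit 261))))))) (n (nat_lit 237) (b (n (nat_lit 238) (b (l (nat_lit 5) (nat_lit 237) (nat_lit 263)) (l (nat_lit 5) (nat_lit 212) (nat_lit 213)))) (n (nat_lit 336) (b (l (nat_lit 6) (nat_lit 261) (nat_lit 361)) (l (nat_lit 6) (nat_lit 236) (nat_lit 311))))))))))) (b (n (nat_lit 262) (b (b (b (r (nat_lit 11)) (n (nat_lit 337) (b (b (n (nat_lit 362) (b (n (nat_lit 263) (b (l (nat_lit 5) (nat_lit 237) (nat_lit 238)) (l (nat_lit 5) (nat_lit 262) (nat_lit 288)))) (n (nat_lit 361) (b (l (nat_lit 6) (nat_lit 286) (nat_lit 386)) (l (nat_lit 6) (nat_lit 261) (nat_lit 336)))))) (n (nat_lit 362)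 (b (n (nat_lit 261) (b (l (nat_lit 7) (nat_lit 261) (nat_lit 286)) (l (nat_lit 7) (nat_lit 236) (nat_lit 236)))) (n (nat_lit 361) (b (l (nat_lit 6) (nat_lit 286) (nat_lit 386)) (l (nat_lit 6) (nat_lit 261) (nat_lit 336))))))) (n (nat_lit 237) (b (n (nat_lit 238) (b (l (nat_lit 5) (nat_lit 237) (nat_lit 263)) (l (nat_lit 5) (nat_lit 212) (nat_lit 213)))) (n (nat_lit 236) (b (l (nat_lit 7) (nat_lit 211) (nat_lit 211)) (l (nat_lit 7) (nat_lit 236) (nat_lit 261))))))))) (b (n (nat_lit 337) (b (b (n (nat_lit 362) (b (n (nat_lit 361) (b (l (nat_lit 6) (nat_lit 286) (nat_lit 386)) (l (nat_lit 6) (nat_lit 261) (nat_lit 336)))) (n (nat_lit 363) (b (l (nat_lit 4) (nat_lit 262) (nat_lit 338)) (l (nat_lit 4) (nat_lit 287) (nat_lit 388)))))) (n (nat_lit 237) (b (n (nat_lit 338) (b (l (nat_lit 4) (nat_lit 237) (nat_lit 313)) (l (nat_lit 4) (nat_lit 262) (nat_lit 363)))) (n (nat_lit 236) (b (l (nat_lit 7) (nat_lit 211) (nat_lit 211)) (l (nat_lit 7) (nat_lit 236)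 (nat_lit 261))))))) (n (nat_lit 362) (b (n (nat_lit 261) (b (l (nat_lit 7) (nat_lit 261) (nat_lit 286)) (l (nat_lit 7) (nat_lit 236) (nat_lit 236)))) (n (nat_lit 361) (b (l (nat_lit 6) (nat_lit 286) (nat_lit 386)) (l (nat_lit 6) (nat_lit 261) (nat_lit 336)))))))) (n (nat_lit 337) (b (b (n (nat_lit 237) (b (n (nat_lit 338) (b (l (nat_lit 4) (nat_lit 237) (nat_lit 313)) (l (nat_lit 4) (nat_lit 262) (nat_lit 363)))) (n (nat_lit 238) (b (l (nat_lit 5) (nat_lit 237) (nat_lit 263)) (l (nat_lit 5) (nat_lit 212) (nat_lit 213)))))) (n (nat_lit 362) (b (n (nat_lit 361) (b (l (nat_lit 6) (nat_lit 286) (nat_lit 386)) (l (nat_lit 6) (nat_lit 261) (nat_lit 336)))) (n (nat_lit 363) (b (l (nat_lit 4) (nat_lit 262) (nat_lit 338)) (l (nat_lit 4) (nat_lit 287) (nat_lit 388))))))) (n (nat_lit 362) (b (n (nat_lit 263) (b (l (nat_lit 5) (nat_lit 237) (nat_lit 238)) (l (nat_lit 5) (nat_lit 262) (nat_lit 288)))) (n (nat_lit 361) (b (l (nat_lit 6) (nat_lit 286) (nat_lit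 386)) (l (nat_lit 6) (nat_lit 261) (nat_lit 336)))))))))) (r (nat_lit 12)))) (r (nat_lit 13)))) (b (b (r (nat_lit 14)) (r (nat_lit 15))) (b (r (nat_lit 16)) (r (nat_lit 17)))))) (r (nat_lit 18))))
    (envOK_cons p2548 (envOK_cons p2558 (envOK_cons p2595 (envOK_cons p2598 (envOK_cons p2632 (envOK_cons p2659 (envOK_cons p2665 (envOK_cons p2666 (envOK_cons p2594 (envOK_cons p2680 (envOK_cons p2694 (envOK_cons p2696 (envOK_cons p2707 (envOK_cons p2721 (envOK_cons p2842 (envOK_cons p3065 (envOK_cons p3101 (envOK_cons p3621 (envOK_cons p3635 envOK_nil))))))))))))))))))) (by decide +kernel)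

theorem p3650 : Fam (nat_lit 9) (nat_lit 279968101115924885385735294426609074490018634821145732318173520226105264453065922003236835186146541568) (nat_lit 26442248680915654581948321435033119637061087270201092190206871374023935116092361473575675877995766953277608925291765267693568) (nat_lit 26442248680915654581948321435033119637061087270201092190206871374023935116092361473575675877995766953277608925291765267693568) :=
  chk_sound Env.nil
    (n (nat_lit 287) (b (b (b (n (nat_lit 262) (b (b (n (nat_lit 362) (b (n (nat_lit 261) (b (l (nat_lit 7) (nat_lit 261) (nat_lit 286)) (l (nat_lit 7) (nat_lit 236) (nat_lit 236)))) (n (nat_lit 361) (b (l (nat_lit 6) (nat_lit 286) (nat_lit 386)) (l (nat_lit 6) (nat_lit 261) (nat_lit 336)))))) (n (nat_lit 237) (b (n (nat_lit 238) (b (l (nat_lit 5) (nat_lit 237) (nat_lit 263)) (l (nat_lit 5) (nat_lit 212) (nat_lit 213)))) (n (nat_lit 336) (b (l (nat_lit 6) (nat_lit 261) (nat_lit 361)) (l (nat_lit 6) (nat_lit 236) (nat_lit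 311))))))) (n (nat_lit 237) (b (n (nat_lit 238) (b (l (nat_lit 5) (nat_lit 237) (nat_lit 263)) (l (nat_lit 5) (nat_lit 212) (nat_lit 213)))) (n (nat_lit 236) (b (l (nat_lit 7) (nat_lit 211) (nat_lit 211)) (l (nat_lit 7) (nat_lit 236) (nat_lit 261)))))))) (n (nat_lit 262) (b (b (n (nat_lit 237) (b (n (nat_lit 238) (b (l (nat_lit 5) (nat_lit 237) (nat_lit 263)) (l (nat_lit 5) (nat_lit 212) (nat_lit 213)))) (n (nat_lit 336) (b (l (nat_lit 6) (nat_lit 261) (nat_lit 361)) (l (nat_lit 6) (nat_lit 236) (nat_lit 311)))))) (n (nat_lit 362) (b (n (nat_lit 361) (b (l (nat_lit 6) (nat_lit 286) (nat_lit 386)) (l (nat_lit 6) (nat_lit 261) (nat_lit 336)))) (n (nat_lit 363) (b (l (nat_lit 4) (nat_lit 262) (nat_lit 338)) (l (nat_lit 4) (nat_lit 287) (nat_lit 388))))))) (n (nat_lit 237) (b (n (nat_lit 338) (b (l (nat_lit 4) (nat_lit 237) (nat_lit 313)) (l (nat_lit 4) (nat_lit 262) (nat_lit 363)))) (n (nat_lit 238) (b (l (nat_lit 5) (nat_lit 237) (nat_lit 263)) (l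 (nat_lit 5) (nat_lit 212) (nat_lit 213))))))))) (b (n (nat_lit 262) (b (b (n (nat_lit 362) (b (n (nat_lit 261) (b (l (nat_lit 7) (nat_lit 261) (nat_lit 286)) (l (nat_lit 7) (nat_lit 236) (nat_lit 236)))) (n (nat_lit 363) (b (l (nat_lit 4) (nat_lit 262) (nat_lit 338)) (l (nat_lit 4) (nat_lit 287) (nat_lit 388)))))) (n (nat_lit 237) (b (n (nat_lit 338) (b (l (nat_lit 4) (nat_lit 237) (nat_lit 313)) (l (nat_lit 4) (nat_lit 262) (nat_lit 363)))) (n (nat_lit 238) (b (l (nat_lit 5) (nat_lit 237) (nat_lit 263)) (l (nat_lit 5) (nat_lit 212) (nat_lit 213))))))) (n (nat_lit 237) (b (n (nat_lit 238) (b (l (nat_lit 5) (nat_lit 237) (nat_lit 263)) (l (nat_lit 5) (nat_lit 212) (nat_lit 213)))) (n (nat_lit 236) (b (l (nat_lit 7) (nat_lit 211) (nat_lit 211)) (l (nat_lit 7) (nat_lit 236) (nat_lit 261)))))))) (n (nat_lit 262) (b (b (n (nat_lit 237) (b (n (nat_lit 338) (b (l (nat_lit 4) (nat_lit 237) (nat_lit 313)) (l (nat_lit 4) (nat_lit 262) (nat_lit 363)))) (n (nat_lit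 236) (b (l (nat_lit 7) (nat_lit 211) (nat_lit 211)) (l (nat_lit 7) (nat_lit 236) (nat_lit 261)))))) (n (nat_lit 237) (b (n (nat_lit 238) (b (l (nat_lit 5) (nat_lit 237) (nat_lit 263)) (l (nat_lit 5) (nat_lit 212) (nat_lit 213)))) (n (nat_lit 336) (b (l (nat_lit 6) (nat_lit 261) (nat_lit 361)) (l (nat_lit 6) (nat_lit 236) (nat_lit 311))))))) (n (nat_lit 336) (b (n (nat_lit 261) (b (n (nat_lit 338) (b (n (nat_lit 311) (b (n (nat_lit 335) (b (n (nat_lit 334) (b (l (nat_lit 1) (nat_lit 308) (nat_lit 333)) (l (nat_lit 1) (nat_lit 309) (nat_lit 313)))) (n (nat_lit 360) (b (l (nat_lit 6) (nat_lit 260) (nat_lit 286)) (l (nat_lit 2) (nat_lit 334) (nat_lit 359)))))) (n (nat_lit 339) (b (l (nat_lit 3) (nat_lit 311) (nat_lit 340)) (l (nat_lit 3) (nat_lit 310) (nat_lit 310)))))) (l (nat_lit 4) (nat_lit 262) (nat_lit 363)))) (l (nat_lit 7) (nat_lit 236) (nat_lit 236)))) (l (nat_lit 6) (nat_lit 261) (nat_lit 361)))))))) (n (nat_lit 362) (b (b (n (nat_lit 363) (b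 (n (nat_lit 361) (b (n (nat_lit 364) (b (b (n (nat_lit 365) (b (n (nat_lit 340) (b (l (nat_lit 1) (nat_lit 336) (nat_lit 339)) (l (nat_lit 1) (nat_lit 337) (nat_lit 341)))) (n (nat_lit 390) (b (l (nat_lit 0) (nat_lit 362) (nat_lit 391)) (l (nat_lit 0) (nat_lit 361) (nat_lit 389)))))) (n (nat_lit 336) (b (l (nat_lit 3) (nat_lit 336) (nat_lit 365)) (l (nat_lit 3) (nat_lit 335) (nat_lit 335))))) (n (nat_lit 360) (b (n (nat_lit 335) (b (l (nat_lit 3) (nat_lit 334) (nat_lit 334)) (l (nat_lit 3) (nat_lit 335) (nat_lit 336)))) (n (nat_lit 338) (b (l (nat_lit 1) (nat_lit 334) (nat_lit 359)) (l (nat_lit 1) (nat_lit 335) (nat_lit 339)))))))) (l (nat_lit 6) (nat_lit 286) (nat_lit 386)))) (l (nat_lit 4) (nat_lit 287) (nat_lit 388)))) (n (nat_lit 387) (b (n (nat_lit 286) (b (l (nat_lit 7) (nat_lit 261) (nat_lit 261)) (l (nat_lit 7) (nat_lit 286) (nat_lit 311)))) (n (nat_lit 388) (b (l (nat_lit 4) (nat_lit 312) (nat_lit 413)) (l (nat_lit 4) (nat_lit 287) (nat_lit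 363))))))) (n (nat_lit 387) (b (n (nat_lit 286) (b (l (nat_lit 7) (nat_lit 261) (nat_lit 261)) (l (nat_lit 7) (nat_lit 286) (nat_lit 311)))) (n (nat_lit 386) (b (l (nat_lit 6) (nat_lit 311) (nat_lit 411)) (l (nat_lit 6) (nat_lit 286) (nat_lit 361))))))))))
    envOK_nil (by decide +kernel)

theorem p3651 : Fam (nat_lit 7) (nat_lit 9394170611063434027482807772892642536111804685651914303974896204302356326563698226920717996775909998274281472) (nat_lit 9614089661052715857917461213805443162864876996456948041397343042460079352422993578757434000821560378920660101475860480) (nat_lit 9614089661052715857917461213805443162864876996456948041397343042460079352422993578757434000821560378920660101475860480) :=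
  chk_sound Env.nil
    (n (nat_lit 287) (b (b (n (nat_lit 363) (b (n (nat_lit 361) (b (n (nat_lit 364) (b (b (n (nat_lit 365) (b (n (nat_lit 340) (b (l (nat_lit 1) (nat_lit 336) (nat_lit 339)) (l (nat_lit 1) (nat_lit 337) (nat_lit 341)))) (n (nat_lit 390) (b (l (nat_lit 0) (nat_lit 362) (nat_lit 391)) (l (nat_lit 0) (nat_lit 361) (nat_lit 389)))))) (n (nat_lit 336) (b (l (nat_lit 3) (nat_lit 336) (nat_lit 365)) (l (nat_lit 3) (nat_lit 335) (nat_lit 335))))) (n (nat_lit 360) (b (n (nat_lit 335) (b (l (nat_lit 3) (nat_lit 334) (nat_lit 334)) (l (nat_lit 3) (nat_lit 335) (nat_lit 336)))) (n (nat_lit 338) (b (l (nat_lit 1) (nat_lit 334) (nat_lit 359)) (l (nat_lit 1) (nat_lit 335) (nat_lit 339)))))))) (l (nat_lit 6) (nat_lit 286) (nat_lit 386)))) (l (nat_lit 4) (nat_lit 287) (nat_lit 388)))) (n (nat_lit 262) (b (n (nat_lit 261) (b (l (nat_lit 7) (nat_lit 261) (nat_lit 286)) (l (nat_lit 7) (nat_lit 236) (nat_lit 236)))) (n (nat_lit 361) (b (l (nat_lit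 6) (nat_lit 286) (nat_lit 386)) (l (nat_lit 6) (nat_lit 261) (nat_lit 336))))))) (n (nat_lit 262) (b (n (nat_lit 261) (b (l (nat_lit 7) (nat_lit 261) (nat_lit 286)) (l (nat_lit 7) (nat_lit 236) (nat_lit 236)))) (n (nat_lit 363) (b (l (nat_lit 4) (nat_lit 262) (nat_lit 338)) (l (nat_lit 4) (nat_lit 287) (nat_lit 388))))))))
    envOK_nil (by decide +kernel)

theorem p3684 : Fam (nat_lit 7) (nat_lit 9394170611063434027482807772892642536111804685651914303974896204302356326563698226920717996775909998274281472) (nat_lit 887254635290874029405472791970105561094260339804745845943232203275236581066380778576656114003162522029847917359369651566527471681536) (nat_lit 887254635290874029405472791970105561094260339804745845943232203275236581066380778576656114003162522029847917359369651566527471681536) :=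
  chk_sound Env.nil
    (n (nat_lit 387) (b (b (n (nat_lit 412) (b (n (nat_lit 313) (b (l (nat_lit 5) (nat_lit 287) (nat_lit 288)) (l (nat_lit 5) (nat_lit 312) (nat_lit 338)))) (n (nat_lit 411) (b (l (nat_lit 6) (nat_lit 336) (nat_lit 436)) (l (nat_lit 6) (nat_lit 311) (nat_lit 386)))))) (n (nat_lit 412) (b (n (nat_lit 313) (b (l (nat_lit 5) (nat_lit 287) (nat_lit 288)) (l (nat_lit 5) (nat_lit 312) (nat_lit 338)))) (n (nat_lit 413) (b (l (nat_lit 4) (nat_lit 337) (nat_lit 438)) (l (nat_lit 4) (nat_lit 312) (nat_lit 388))))))) (n (nat_lit 386) (b (n (nat_lit 388) (b (n (nat_lit 389) (b (b (n (nat_lit 390) (b (n (nat_lit 415) (b (l (nat_lit 0) (nat_lit 386) (nat_lit 414)) (l (nat_lit 0) (nat_lit 387) (nat_lit 416)))) (n (nat_lit 365) (b (l (nat_lit 1) (nat_lit 362) (nat_lit 366)) (l (nat_lit 1) (nat_lit 361) (nat_lit 364)))))) (n (nat_lit 361) (b (l (nat_lit 3) (nat_lit 360) (nat_lit 360)) (l (nat_lit 3) (nat_lit 361) (nat_lit 390))))) (n (nat_lit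 385) (b (n (nat_lit 360) (b (l (nat_lit 3) (nat_lit 359) (nat_lit 359)) (l (nat_lit 3) (nat_lit 360) (nat_lit 361)))) (n (nat_lit 363) (b (l (nat_lit 1) (nat_lit 360) (nat_lit 364)) (l (nat_lit 1) (nat_lit 359) (nat_lit 384)))))))) (l (nat_lit 4) (nat_lit 312) (nat_lit 413)))) (l (nat_lit 6) (nat_lit 311) (nat_lit 411))))))
    envOK_nil (by decide +kernel)

theorem p3690 : Fam (nat_lit 7) (nat_lit 9394170611063434027482807772892642536111804685651914303974896204302356326563698226920717996775909998274281472) (nat_lit 887254635290874029405472791969685608942586452103674815694252308046964867004033429902836740624812576052820335806495173554348220219392) (nat_lit 887254635290874029405472791969685608942586452103674815694252308046964867004033429902836740624812576052820335806495173554348220219392) :=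
  chk_sound Env.nil
    (n (nat_lit 387) (b (b (n (nat_lit 386) (b (n (nat_lit 388) (b (n (nat_lit 389) (b (b (n (nat_lit 390) (b (n (nat_lit 415) (b (l (nat_lit 0) (nat_lit 386) (nat_lit 414)) (l (nat_lit 0) (nat_lit 387) (nat_lit 416)))) (n (nat_lit 365) (b (l (nat_lit 1) (nat_lit 362) (nat_lit 366)) (l (nat_lit 1) (nat_lit 361) (nat_lit 364)))))) (n (nat_lit 361) (b (l (nat_lit 3) (nat_lit 360) (nat_lit 360)) (l (nat_lit 3) (nat_lit 361) (nat_lit 390))))) (n (nat_lit 385) (b (n (nat_lit 360) (b (l (nat_lit 3) (nat_lit 359) (nat_lit 359)) (l (nat_lit 3) (nat_lit 360) (nat_lit 361)))) (n (nat_lit 363) (b (l (nat_lit 1) (nat_lit 360) (nat_lit 364)) (l (nat_lit 1) (nat_lit 359) (nat_lit 384)))))))) (l (nat_lit 4) (nat_lit 312) (nat_lit 413)))) (l (nat_lit 6) (nat_lit 311) (nat_lit 411)))) (n (nat_lit 412) (b (n (nat_lit 311) (b (l (nat_lit 7) (nat_lit 286) (nat_lit 286)) (l (nat_lit 7) (nat_lit 311) (nat_lit 336)))) (n (nat_lit 411) (b (l (nat_lit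 6) (nat_lit 336) (nat_lit 436)) (l (nat_lit 6) (nat_lit 311) (nat_lit 386))))))) (n (nat_lit 412) (b (n (nat_lit 311) (b (l (nat_lit 7) (nat_lit 286) (nat_lit 286)) (l (nat_lit 7) (nat_lit 311) (nat_lit 336)))) (n (nat_lit 413) (b (l (nat_lit 4) (nat_lit 337) (nat_lit 438)) (l (nat_lit 4) (nat_lit 312) (nat_lit 388))))))))
    envOK_nil (by decide +kernel)

end Crest.Agent.R35
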