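import Crest.Agent.R35.C1

/-! Generated strategy certificate for Snaky (part 2). -/

set_option autoImplicit false
set_option maxRecDepth 100000

namespace Crest.Agent.R35

local notation "l" => T.leaf
local notation "n" => T.node
local notation "b" => T.both
local notation "r" => T.ref

theorem p3701 : Fam (nat_lit 8) (nat_lit 9394170611063434027482807772892642536111804685651914303974896204302356326563698226920717996775909998274281472) (nat_lit 157608038876833833444285974952307057751910737232703022477007565758528798889448551978106930349959046626958714953793536) (nat_lit 157608038876833833444285974952307057751910737232703022477007565758528798889448551978106930349959046626958714953793536) :=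
  chk_sound Env.nil
    (n (nat_lit 287) (b (b (n (nat_lit 262) (b (n (nat_lit 261) (b (l (nat_lit 7) (nat_lit 261) (nat_lit 286)) (l (nat_lit 7) (nat_lit 236) (nat_lit 236)))) (n (nat_lit 361) (b (l (nat_lit 6) (nat_lit 286) (nat_lit 386)) (l (nat_lit 6) (nat_lit 261) (nat_lit 336)))))) (n (nat_lit 262) (b (n (nat_lit 263) (b (l (nat_lit 5) (nat_lit 237) (nat_lit 238)) (l (nat_lit 5) (nat_lit 262) (nat_lit 288)))) (n (nat_lit 361) (b (l (nat_lit 6) (nat_lit 286) (nat_lit 386)) (l (nat_lit 6) (nat_lit 261) (nat_lit 336))))))) (b (n (nat_lit 262) (b (n (nat_lit 261) (b (l (nat_lit 7) (nat_lit 261) (nat_lit 286)) (l (nat_lit 7) (nat_lit 236) (nat_lit 236)))) (n (nat_lit 263) (b (l (nat_lit 5) (nat_lit 237) (nat_lit 238)) (l (nat_lit 5) (nat_lit 262) (nat_lit 288)))))) (n (nat_lit 286) (b (n (nat_lit 361) (b (n (nat_lit 288) (b (n (nat_lit 311) (b (n (nat_lit 285) (b (n (nat_lit 284) (b (l (nat_lit 0) (nat_lit 283) (nat_lit 283)) (l (nat_lit 0) (nat_lit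 284) (nat_lit 313)))) (n (nat_lit 260) (b (l (nat_lit 3) (nat_lit 259) (nat_lit 259)) (l (nat_lit 7) (nat_lit 260) (nat_lit 336)))))) (n (nat_lit 289) (b (l (nat_lit 2) (nat_lit 286) (nat_lit 290)) (l (nat_lit 2) (nat_lit 285) (nat_lit 310)))))) (l (nat_lit 5) (nat_lit 262) (nat_lit 263)))) (l (nat_lit 6) (nat_lit 286) (nat_lit 386)))) (l (nat_lit 7) (nat_lit 261) (nat_lit 261)))))))
    envOK_nil (by decide +kernel)

theorem p3714 : Fam (nat_lit 8) (nat_lit 279968101115925134047353499319930152181142708231565782546248918899963984685054368582985341452834308096) (nat_lit 136215474140387796475961858990833114774482267523186594939176056439208361560445227675694276682254869737859186688) (nat_lit 136215474140387796475961858990833114774482267523186594939176056439208361560445227675694276682254869737859186688) :=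
  chk_sound Env.nil
    (n (nat_lit 262) (b (b (n (nat_lit 237) (b (n (nat_lit 336) (b (l (nat_lit 6) (nat_lit 261) (nat_lit 361)) (l (nat_lit 6) (nat_lit 236) (nat_lit 311)))) (n (nat_lit 338) (b (l (nat_lit 4) (nat_lit 237) (nat_lit 313)) (l (nat_lit 4) (nat_lit 262) (nat_lit 363)))))) (n (nat_lit 237) (b (n (nat_lit 338) (b (l (nat_lit 4) (nat_lit 237) (nat_lit 313)) (l (nat_lit 4) (nat_lit 262) (nat_lit 363)))) (n (nat_lit 238) (b (l (nat_lit 5) (nat_lit 237) (nat_lit 263)) (l (nat_lit 5) (nat_lit 212) (nat_lit 213))))))) (b (n (nat_lit 237) (b (n (nat_lit 238) (b (l (nat_lit 5) (nat_lit 237) (nat_lit 263)) (l (nat_lit 5) (nat_lit 212) (nat_lit 213)))) (n (nat_lit 336) (b (l (nat_lit 6) (nat_lit 261) (nat_lit 361)) (l (nat_lit 6) (nat_lit 236) (nat_lit 311)))))) (n (nat_lit 338) (b (n (nat_lit 263) (b (n (nat_lit 336) (b (n (nat_lit 288) (b (n (nat_lit 261) (b (n (nat_lit 289) (b (l (nat_lit 3) (nat_lit 261) (nat_lit 290)) (l (nat_lit 0) (nat_lit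 260) (nat_lit 260)))) (l (nat_lit 7) (nat_lit 236) (nat_lit 236)))) (n (nat_lit 339) (b (n (nat_lit 364) (b (l (nat_lit 0) (nat_lit 336) (nat_lit 365)) (l (nat_lit 4) (nat_lit 263) (nat_lit 313)))) (n (nat_lit 311) (b (l (nat_lit 3) (nat_lit 311) (nat_lit 340)) (l (nat_lit 3) (nat_lit 310) (nat_lit 310)))))))) (l (nat_lit 6) (nat_lit 261) (nat_lit 361)))) (l (nat_lit 5) (nat_lit 237) (nat_lit 238)))) (l (nat_lit 4) (nat_lit 262) (nat_lit 363)))))))
    envOK_nil (by decide +kernel)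

theorem p3722 : Fam (nat_lit 9) (nat_lit 279968101115924885385735294426609074490018634821145732318173520226105264453065922003236835186146541568) (nat_lit 5288448223146208757993544494740037040365101383127429187269137480665693977338153755216483658726718853428453633271929491161088) (nat_lit 5288448223146208757993544494740037040365101383127429187269137480665693977338153755216483658726718853428453633271929491161088) :=
  chk_sound (Env.cons (nat_lit 8) (nat_lit 279968101115925134047353499319930152181142708231565782546248918899963984685054368582985341452834308096) (nat_lit 136215474140387796475961858990833114774482267523186594939176056439208361560445227675694276682254869737859186688) Env.nil)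
    (n (nat_lit 287) (b (b (b (r (nat_lit 0)) (n (nat_lit 262) (b (b (n (nat_lit 362) (b (n (nat_lit 261) (b (l (nat_lit 7) (nat_lit 261) (nat_lit 286)) (l (nat_lit 7) (nat_lit 236) (nat_lit 236)))) (n (nat_lit 361) (b (l (nat_lit 6) (nat_lit 286) (nat_lit 386)) (l (nat_lit 6) (nat_lit 261) (nat_lit 336)))))) (n (nat_lit 237) (b (n (nat_lit 336) (b (l (nat_lit 6) (nat_lit 261) (nat_lit 361)) (l (nat_lit 6) (nat_lit 236) (nat_lit 311)))) (n (nat_lit 338) (b (l (nat_lit 4) (nat_lit 237) (nat_lit 313)) (l (nat_lit 4) (nat_lit 262) (nat_lit 363))))))) (n (nat_lit 237) (b (n (nat_lit 338) (b (l (nat_lit 4) (nat_lit 237) (nat_lit 313)) (l (nat_lit 4) (nat_lit 262) (nat_lit 363)))) (n (nat_lit 236) (b (l (nat_lit 7) (nat_lit 211) (nat_lit 211)) (l (nat_lit 7) (nat_lit 236) (nat_lit 261))))))))) (b (n (nat_lit 262) (b (b (n (nat_lit 237) (b (n (nat_lit 336) (b (l (nat_lit 6) (nat_lit 261) (nat_lit 361)) (l (nat_lit 6) (nat_lit 236) (nat_lit 311)))) (n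 (nat_lit 338) (b (l (nat_lit 4) (nat_lit 237) (nat_lit 313)) (l (nat_lit 4) (nat_lit 262) (nat_lit 363)))))) (n (nat_lit 362) (b (n (nat_lit 263) (b (l (nat_lit 5) (nat_lit 237) (nat_lit 238)) (l (nat_lit 5) (nat_lit 262) (nat_lit 288)))) (n (nat_lit 361) (b (l (nat_lit 6) (nat_lit 286) (nat_lit 386)) (l (nat_lit 6) (nat_lit 261) (nat_lit 336))))))) (n (nat_lit 237) (b (n (nat_lit 338) (b (l (nat_lit 4) (nat_lit 237) (nat_lit 313)) (l (nat_lit 4) (nat_lit 262) (nat_lit 363)))) (n (nat_lit 238) (b (l (nat_lit 5) (nat_lit 237) (nat_lit 263)) (l (nat_lit 5) (nat_lit 212) (nat_lit 213)))))))) (n (nat_lit 262) (b (b (n (nat_lit 362) (b (n (nat_lit 263) (b (l (nat_lit 5) (nat_lit 237) (nat_lit 238)) (l (nat_lit 5) (nat_lit 262) (nat_lit 288)))) (n (nat_lit 261) (b (l (nat_lit 7) (nat_lit 261) (nat_lit 286)) (l (nat_lit 7) (nat_lit 236) (nat_lit 236)))))) (n (nat_lit 237) (b (n (nat_lit 338) (b (l (nat_lit 4) (nat_lit 237) (nat_lit 313)) (l (nat_lit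 4) (nat_lit 262) (nat_lit 363)))) (n (nat_lit 238) (b (l (nat_lit 5) (nat_lit 237) (nat_lit 263)) (l (nat_lit 5) (nat_lit 212) (nat_lit 213))))))) (n (nat_lit 237) (b (n (nat_lit 338) (b (l (nat_lit 4) (nat_lit 237) (nat_lit 313)) (l (nat_lit 4) (nat_lit 262) (nat_lit 363)))) (n (nat_lit 236) (b (l (nat_lit 7) (nat_lit 211) (nat_lit 211)) (l (nat_lit 7) (nat_lit 236) (nat_lit 261)))))))))) (b (n (nat_lit 262) (b (b (n (nat_lit 362) (b (n (nat_lit 263) (b (l (nat_lit 5) (nat_lit 237) (nat_lit 238)) (l (nat_lit 5) (nat_lit 262) (nat_lit 288)))) (n (nat_lit 261) (b (l (nat_lit 7) (nat_lit 261) (nat_lit 286)) (l (nat_lit 7) (nat_lit 236) (nat_lit 236)))))) (n (nat_lit 237) (b (n (nat_lit 238) (b (l (nat_lit 5) (nat_lit 237) (nat_lit 263)) (l (nat_lit 5) (nat_lit 212) (nat_lit 213)))) (n (nat_lit 336) (b (l (nat_lit 6) (nat_lit 261) (nat_lit 361)) (l (nat_lit 6) (nat_lit 236) (nat_lit 311))))))) (n (nat_lit 237) (b (n (nat_lit 336) (b (l (nat_lit 6)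 (nat_lit 261) (nat_lit 361)) (l (nat_lit 6) (nat_lit 236) (nat_lit 311)))) (n (nat_lit 236) (b (l (nat_lit 7) (nat_lit 211) (nat_lit 211)) (l (nat_lit 7) (nat_lit 236) (nat_lit 261)))))))) (n (nat_lit 362) (b (b (n (nat_lit 286) (b (n (nat_lit 361) (b (n (nat_lit 288) (b (n (nat_lit 311) (b (n (nat_lit 285) (b (n (nat_lit 284) (b (l (nat_lit 0) (nat_lit 283) (nat_lit 283)) (l (nat_lit 0) (nat_lit 284) (nat_lit 313)))) (n (nat_lit 260) (b (l (nat_lit 3) (nat_lit 259) (nat_lit 259)) (l (nat_lit 7) (nat_lit 260) (nat_lit 336)))))) (n (nat_lit 289) (b (l (nat_lit 2) (nat_lit 286) (nat_lit 290)) (l (nat_lit 2) (nat_lit 285) (nat_lit 310)))))) (l (nat_lit 5) (nat_lit 262) (nat_lit 263)))) (l (nat_lit 6) (nat_lit 286) (nat_lit 386)))) (l (nat_lit 7) (nat_lit 261) (nat_lit 261)))) (n (nat_lit 387) (b (n (nat_lit 288) (b (l (nat_lit 5) (nat_lit 262) (nat_lit 263)) (l (nat_lit 5) (nat_lit 287) (nat_lit 313)))) (n (nat_lit 386) (b (l (nat_lit 6) (nat_lit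 311) (nat_lit 411)) (l (nat_lit 6) (nat_lit 286) (nat_lit 361))))))) (b (n (nat_lit 387) (b (n (nat_lit 286) (b (l (nat_lit 7) (nat_lit 261) (nat_lit 261)) (l (nat_lit 7) (nat_lit 286) (nat_lit 311)))) (n (nat_lit 386) (b (l (nat_lit 6) (nat_lit 311) (nat_lit 411)) (l (nat_lit 6) (nat_lit 286) (nat_lit 361)))))) (n (nat_lit 387) (b (n (nat_lit 286) (b (l (nat_lit 7) (nat_lit 261) (nat_lit 261)) (l (nat_lit 7) (nat_lit 286) (nat_lit 311)))) (n (nat_lit 288) (b (l (nat_lit 5) (nat_lit 262) (nat_lit 263)) (l (nat_lit 5) (nat_lit 287) (nat_lit 313))))))))))))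
    (envOK_cons p3714 envOK_nil) (by decide +kernel)

theorem p3723 : Fam (nat_lit 7) (nat_lit 9394170611063434027482807772892642536111804685651914303974896204302356326563698226920717996775909998274281472) (nat_lit 9614089661052715857917461213805816155303300377336630757490063034447857015079302729791069073616196731255980324695310336) (nat_lit 9614089661052715857917461213805816155303300377336630757490063034447857015079302729791069073616196731255980324695310336) :=
  chk_sound Env.nil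
    (n (nat_lit 287) (b (b (n (nat_lit 363) (b (n (nat_lit 361) (b (n (nat_lit 364) (b (b (n (nat_lit 365) (b (n (nat_lit 340) (b (l (nat_lit 1) (nat_lit 336) (nat_lit 339)) (l (nat_lit 1) (nat_lit 337) (nat_lit 341)))) (n (nat_lit 390) (b (l (nat_lit 0) (nat_lit 362) (nat_lit 391)) (l (nat_lit 0) (nat_lit 361) (nat_lit 389)))))) (n (nat_lit 336) (b (l (nat_lit 3) (nat_lit 336) (nat_lit 365)) (l (nat_lit 3) (nat_lit 335) (nat_lit 335))))) (n (nat_lit 360) (b (n (nat_lit 335) (b (l (nat_lit 3) (nat_lit 334) (nat_lit 334)) (l (nat_lit 3) (nat_lit 335) (nat_lit 336)))) (n (nat_lit 338) (b (l (nat_lit 1) (nat_lit 334) (nat_lit 359)) (l (nat_lit 1) (nat_lit 335) (nat_lit 339)))))))) (l (nat_lit 6) (nat_lit 286) (nat_lit 386)))) (l (nat_lit 4) (nat_lit 287) (nat_lit 388)))) (n (nat_lit 262) (b (n (nat_lit 263) (b (l (nat_lit 5) (nat_lit 237) (nat_lit 238)) (l (nat_lit 5) (nat_lit 262) (nat_lit 288)))) (n (nat_lit 361) (b (l (nat_lit 6) (nat_lit 286)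 (nat_lit 386)) (l (nat_lit 6) (nat_lit 261) (nat_lit 336))))))) (n (nat_lit 262) (b (n (nat_lit 263) (b (l (nat_lit 5) (nat_lit 237) (nat_lit 238)) (l (nat_lit 5) (nat_lit 262) (nat_lit 288)))) (n (nat_lit 363) (b (l (nat_lit 4) (nat_lit 262) (nat_lit 338)) (l (nat_lit 4) (nat_lit 287) (nat_lit 388))))))))
    envOK_nil (by decide +kernel)

theorem p3741 : Fam (nat_lit 9) (nat_lit 279968101115924885385735294426609074490018634821145732318173520226105264453065922003236835186146541568) (nat_lit 887254635290874029405472791973465178213784823996813511252914444953416437441543657861300444304520510424323962931988291854193070702592) (nat_lit 887254635290874029405472791973465178213784823996813511252914444953416437441543657861300444304520510424323962931988291854193070702592) :=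
  chk_sound (Env.cons (nat_lit 7) (nat_lit 9394170611063434027482807772892642536111804685651914303974896204302356326563698226920717996775909998274281472) (nat_lit 887254635290874029405472791970105561094260339804745845943232203275236581066380778576656114003162522029847917359369651566527471681536) Env.nil)
    (n (nat_lit 362) (b (b (b (r (nat_lit 0)) (n (nat_lit 287) (b (b (n (nat_lit 387) (b (n (nat_lit 388) (b (l (nat_lit 4) (nat_lit 312) (nat_lit 413)) (l (nat_lit 4) (nat_lit 287) (nat_lit 363)))) (n (nat_lit 386) (b (l (nat_lit 6) (nat_lit 311) (nat_lit 411)) (l (nat_lit 6) (nat_lit 286) (nat_lit 361)))))) (n (nat_lit 262) (b (n (nat_lit 261) (b (l (nat_lit 7) (nat_lit 261) (nat_lit 286)) (l (nat_lit 7) (nat_lit 236) (nat_lit 236)))) (n (nat_lit 363) (b (l (nat_lit 4) (nat_lit 262) (nat_lit 338)) (l (nat_lit 4) (nat_lit 287) (nat_lit 388))))))) (n (nat_lit 387) (b (n (nat_lit 286) (b (l (nat_lit 7) (nat_lit 261) (nat_lit 261)) (l (nat_lit 7)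 (nat_lit 286) (nat_lit 311)))) (n (nat_lit 386) (b (l (nat_lit 6) (nat_lit 311) (nat_lit 411)) (l (nat_lit 6) (nat_lit 286) (nat_lit 361))))))))) (b (n (nat_lit 287) (b (b (n (nat_lit 387) (b (n (nat_lit 288) (b (l (nat_lit 5) (nat_lit 262) (nat_lit 263)) (l (nat_lit 5) (nat_lit 287) (nat_lit 313)))) (n (nat_lit 386) (b (l (nat_lit 6) (nat_lit 311) (nat_lit 411)) (l (nat_lit 6) (nat_lit 286) (nat_lit 361)))))) (n (nat_lit 262) (b (n (nat_lit 261) (b (l (nat_lit 7) (nat_lit 261) (nat_lit 286)) (l (nat_lit 7) (nat_lit 236) (nat_lit 236)))) (n (nat_lit 263) (b (l (nat_lit 5) (nat_lit 237) (nat_lit 238)) (l (nat_lit 5) (nat_lit 262) (nat_lit 288))))))) (n (nat_lit 387) (b (n (nat_lit 286) (b (l (nat_lit 7) (nat_lit 261) (nat_lit 261)) (l (nat_lit 7) (nat_lit 286) (nat_lit 311)))) (n (nat_lit 386) (b (l (nat_lit 6) (nat_lit 311) (nat_lit 411)) (l (nat_lit 6) (nat_lit 286) (nat_lit 361)))))))) (n (nat_lit 287) (b (b (n (nat_lit 387) (b (n (nat_lit 286)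 (b (l (nat_lit 7) (nat_lit 261) (nat_lit 261)) (l (nat_lit 7) (nat_lit 286) (nat_lit 311)))) (n (nat_lit 288) (b (l (nat_lit 5) (nat_lit 262) (nat_lit 263)) (l (nat_lit 5) (nat_lit 287) (nat_lit 313)))))) (n (nat_lit 262) (b (n (nat_lit 263) (b (l (nat_lit 5) (nat_lit 237) (nat_lit 238)) (l (nat_lit 5) (nat_lit 262) (nat_lit 288)))) (n (nat_lit 363) (b (l (nat_lit 4) (nat_lit 262) (nat_lit 338)) (l (nat_lit 4) (nat_lit 287) (nat_lit 388))))))) (n (nat_lit 262) (b (n (nat_lit 261) (b (l (nat_lit 7) (nat_lit 261) (nat_lit 286)) (l (nat_lit 7) (nat_lit 236) (nat_lit 236)))) (n (nat_lit 363) (b (l (nat_lit 4) (nat_lit 262) (nat_lit 338)) (l (nat_lit 4) (nat_lit 287) (nat_lit 388)))))))))) (n (nat_lit 287) (b (b (n (nat_lit 262) (b (n (nat_lit 261) (b (l (nat_lit 7) (nat_lit 261) (nat_lit 286)) (l (nat_lit 7) (nat_lit 236) (nat_lit 236)))) (n (nat_lit 363) (b (l (nat_lit 4) (nat_lit 262) (nat_lit 338)) (l (nat_lit 4) (nat_lit 287) (nat_lit 388))))))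 (n (nat_lit 262) (b (n (nat_lit 263) (b (l (nat_lit 5) (nat_lit 237) (nat_lit 238)) (l (nat_lit 5) (nat_lit 262) (nat_lit 288)))) (n (nat_lit 363) (b (l (nat_lit 4) (nat_lit 262) (nat_lit 338)) (l (nat_lit 4) (nat_lit 287) (nat_lit 388))))))) (b (n (nat_lit 262) (b (n (nat_lit 261) (b (l (nat_lit 7) (nat_lit 261) (nat_lit 286)) (l (nat_lit 7) (nat_lit 236) (nat_lit 236)))) (n (nat_lit 263) (b (l (nat_lit 5) (nat_lit 237) (nat_lit 238)) (l (nat_lit 5) (nat_lit 262) (nat_lit 288)))))) (n (nat_lit 288) (b (n (nat_lit 363) (b (n (nat_lit 286) (b (n (nat_lit 338) (b (n (nat_lit 361) (b (n (nat_lit 339) (b (l (nat_lit 2) (nat_lit 336) (nat_lit 340)) (l (nat_lit 1) (nat_lit 335) (nat_lit 360)))) (l (nat_lit 6) (nat_lit 286) (nat_lit 386)))) (n (nat_lit 289) (b (n (nat_lit 264) (b (l (nat_lit 1) (nat_lit 261) (nat_lit 265)) (l (nat_lit 5) (nat_lit 263) (nat_lit 313)))) (n (nat_lit 311) (b (l (nat_lit 2) (nat_lit 285) (nat_lit 310)) (l (nat_lit 2) (nat_lit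 286) (nat_lit 290)))))))) (l (nat_lit 7) (nat_lit 261) (nat_lit 261)))) (l (nat_lit 4) (nat_lit 287) (nat_lit 388)))) (l (nat_lit 5) (nat_lit 262) (nat_lit 263)))))))))
    (envOK_cons p3684 envOK_nil) (by decide +kernel)

theorem p3754 : Fam (nat_lit 9) (nat_lit 9394170611063434027482807772892642536111804685651914303974896204302356326563698226920717996775909998274281472) (nat_lit 177450876289075874803075679167399207492604272754915878295546906033302496070753703190981268038418312308892017005445936189842508480512) (nat_lit 177450876289075874803075679167399207492604272754915878295546906033302496070753703190981268038418312308892017005445936189842508480512) :=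
  chk_sound Env.nil
    (n (nat_lit 387) (b (b (n (nat_lit 311) (b (n (nat_lit 386) (b (n (nat_lit 310) (b (b (n (nat_lit 313) (b (n (nat_lit 285) (b (n (nat_lit 335) (b (n (nat_lit 361) (b (l (nat_lit 4) (nat_lit 285) (nat_lit 360)) (l (nat_lit 7) (nat_lit 285) (nat_lit 336)))) (l (nat_lit 2) (nat_lit 309) (nat_lit 334)))) (l (nat_lit 3) (nat_lit 284) (nat_lit 284)))) (l (nat_lit 5) (nat_lit 287) (nat_lit 288)))) (n (nat_lit 313) (b (n (nat_lit 338) (b (l (nat_lit 0) (nat_lit 310) (nat_lit 339)) (l (nat_lit 0) (nat_lit 309) (nat_lit 309)))) (l (nat_lit 5) (nat_lit 287) (nat_lit 288))))) (n (nat_lit 338) (b (n (nat_lit 339) (b (l (nat_lit 3) (nat_lit 310) (nat_lit 336)) (l (nat_lit 3) (nat_lit 311) (nat_lit 340)))) (l (nat_lit 0) (nat_lit 309) (nat_lit 309)))))) (l (nat_lit 6) (nat_lit 311) (nat_lit 411)))) (l (nat_lit 7) (nat_lit 286) (nat_lit 286)))) (n (nat_lit 412) (b (n (nat_lit 311) (b (l (nat_lit 7) (nat_lit 286) (nat_lit 286)) (l (nat_lit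 7) (nat_lit 311) (nat_lit 336)))) (n (nat_lit 411) (b (l (nat_lit 6) (nat_lit 336) (nat_lit 436)) (l (nat_lit 6) (nat_lit 311) (nat_lit 386))))))) (b (n (nat_lit 412) (b (n (nat_lit 313) (b (l (nat_lit 5) (nat_lit 287) (nat_lit 288)) (l (nat_lit 5) (nat_lit 312) (nat_lit 338)))) (n (nat_lit 411) (b (l (nat_lit 6) (nat_lit 336) (nat_lit 436)) (l (nat_lit 6) (nat_lit 311) (nat_lit 386)))))) (n (nat_lit 412) (b (n (nat_lit 313) (b (l (nat_lit 5) (nat_lit 287) (nat_lit 288)) (l (nat_lit 5) (nat_lit 312) (nat_lit 338)))) (n (nat_lit 311) (b (l (nat_lit 7) (nat_lit 286) (nat_lit 286)) (l (nat_lit 7) (nat_lit 311) (nat_lit 336)))))))))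
    envOK_nil (by decide +kernel)

theorem p3775 : Fam (nat_lit 9) (nat_lit 279968101115924885385735294426609074490018634821145732318173520226105264453065922003236835186146541568) (nat_lit 9614089661052715857917953231334591727525884362711905526981891175193011693872630564289285651716101926589300042362781696) (nat_lit 9614089661052715857917953231334591727525884362711905526981891175193011693872630564289285651716101926589300042362781696) :=
  chk_sound (Env.cons (nat_lit 8) (nat_lit 279968101115925134047353499319930152181142708231565782546248918899963984685054368582985341452834308096) (nat_lit 136215474140387796475961858990833114774482267523186594939176056439208361560445227675694276682254869737859186688) Env.nil)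
    (n (nat_lit 287) (b (b (b (r (nat_lit 0)) (n (nat_lit 262) (b (b (n (nat_lit 362) (b (n (nat_lit 261) (b (l (nat_lit 7) (nat_lit 261) (nat_lit 286)) (l (nat_lit 7) (nat_lit 236) (nat_lit 236)))) (n (nat_lit 361) (b (l (nat_lit 6) (nat_lit 286) (nat_lit 386)) (l (nat_lit 6) (nat_lit 261) (nat_lit 336)))))) (n (nat_lit 237) (b (n (nat_lit 336) (b (l (nat_lit 6) (nat_lit 261) (nat_lit 361)) (l (nat_lit 6) (nat_lit 236) (nat_lit 311)))) (n (nat_lit 338) (b (l (nat_lit 4) (nat_lit 237) (nat_lit 313)) (l (nat_lit 4) (nat_lit 262) (nat_lit 363))))))) (n (nat_lit 237) (b (n (nat_lit 338) (b (l (nat_lit 4) (nat_lit 237) (nat_lit 313)) (l (nat_lit 4) (nat_lit 262) (nat_lit 363)))) (n (nat_lit 236) (b (l (nat_lit 7) (nat_lit 211) (nat_lit 211)) (l (nat_lit 7) (nat_lit 236) (nat_lit 261))))))))) (b (n (nat_lit 262) (b (b (n (nat_lit 237) (b (n (nat_lit 336) (b (l (nat_lit 6) (nat_lit 261) (nat_lit 361)) (l (nat_lit 6) (nat_lit 236) (nat_lit 311)))) (n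 (nat_lit 338) (b (l (nat_lit 4) (nat_lit 237) (nat_lit 313)) (l (nat_lit 4) (nat_lit 262) (nat_lit 363)))))) (n (nat_lit 362) (b (n (nat_lit 263) (b (l (nat_lit 5) (nat_lit 237) (nat_lit 238)) (l (nat_lit 5) (nat_lit 262) (nat_lit 288)))) (n (nat_lit 361) (b (l (nat_lit 6) (nat_lit 286) (nat_lit 386)) (l (nat_lit 6) (nat_lit 261) (nat_lit 336))))))) (n (nat_lit 237) (b (n (nat_lit 338) (b (l (nat_lit 4) (nat_lit 237) (nat_lit 313)) (l (nat_lit 4) (nat_lit 262) (nat_lit 363)))) (n (nat_lit 238) (b (l (nat_lit 5) (nat_lit 237) (nat_lit 263)) (l (nat_lit 5) (nat_lit 212) (nat_lit 213)))))))) (n (nat_lit 262) (b (b (n (nat_lit 362) (b (n (nat_lit 263) (b (l (nat_lit 5) (nat_lit 237) (nat_lit 238)) (l (nat_lit 5) (nat_lit 262) (nat_lit 288)))) (n (nat_lit 261) (b (l (nat_lit 7) (nat_lit 261) (nat_lit 286)) (l (nat_lit 7) (nat_lit 236) (nat_lit 236)))))) (n (nat_lit 237) (b (n (nat_lit 338) (b (l (nat_lit 4) (nat_lit 237) (nat_lit 313)) (l (nat_lit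 4) (nat_lit 262) (nat_lit 363)))) (n (nat_lit 238) (b (l (nat_lit 5) (nat_lit 237) (nat_lit 263)) (l (nat_lit 5) (nat_lit 212) (nat_lit 213))))))) (n (nat_lit 237) (b (n (nat_lit 338) (b (l (nat_lit 4) (nat_lit 237) (nat_lit 313)) (l (nat_lit 4) (nat_lit 262) (nat_lit 363)))) (n (nat_lit 236) (b (l (nat_lit 7) (nat_lit 211) (nat_lit 211)) (l (nat_lit 7) (nat_lit 236) (nat_lit 261)))))))))) (b (n (nat_lit 262) (b (b (n (nat_lit 362) (b (n (nat_lit 263) (b (l (nat_lit 5) (nat_lit 237) (nat_lit 238)) (l (nat_lit 5) (nat_lit 262) (nat_lit 288)))) (n (nat_lit 261) (b (l (nat_lit 7) (nat_lit 261) (nat_lit 286)) (l (nat_lit 7) (nat_lit 236) (nat_lit 236)))))) (n (nat_lit 237) (b (n (nat_lit 238) (b (l (nat_lit 5) (nat_lit 237) (nat_lit 263)) (l (nat_lit 5) (nat_lit 212) (nat_lit 213)))) (n (nat_lit 336) (b (l (nat_lit 6) (nat_lit 261) (nat_lit 361)) (l (nat_lit 6) (nat_lit 236) (nat_lit 311))))))) (n (nat_lit 237) (b (n (nat_lit 336) (b (l (nat_lit 6)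 (nat_lit 261) (nat_lit 361)) (l (nat_lit 6) (nat_lit 236) (nat_lit 311)))) (n (nat_lit 236) (b (l (nat_lit 7) (nat_lit 211) (nat_lit 211)) (l (nat_lit 7) (nat_lit 236) (nat_lit 261)))))))) (n (nat_lit 286) (b (b (n (nat_lit 362) (b (n (nat_lit 363) (b (n (nat_lit 361) (b (n (nat_lit 364) (b (b (n (nat_lit 365) (b (n (nat_lit 340) (b (l (nat_lit 1) (nat_lit 336) (nat_lit 339)) (l (nat_lit 1) (nat_lit 337) (nat_lit 341)))) (n (nat_lit 390) (b (l (nat_lit 0) (nat_lit 362) (nat_lit 391)) (l (nat_lit 0) (nat_lit 361) (nat_lit 389)))))) (n (nat_lit 336) (b (l (nat_lit 3) (nat_lit 336) (nat_lit 365)) (l (nat_lit 3) (nat_lit 335) (nat_lit 335))))) (n (nat_lit 360) (b (n (nat_lit 335) (b (l (nat_lit 3) (nat_lit 334) (nat_lit 334)) (l (nat_lit 3) (nat_lit 335) (nat_lit 336)))) (n (nat_lit 338) (b (l (nat_lit 1) (nat_lit 334) (nat_lit 359)) (l (nat_lit 1) (nat_lit 335) (nat_lit 339)))))))) (l (nat_lit 6) (nat_lit 286) (nat_lit 386)))) (l (nat_lit 4) (nat_lit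 287) (nat_lit 388)))) (l (nat_lit 7) (nat_lit 261) (nat_lit 261)))) (n (nat_lit 285) (b (b (n (nat_lit 288) (b (b (n (nat_lit 284) (b (n (nat_lit 259) (b (l (nat_lit 3) (nat_lit 258) (nat_lit 258)) (l (nat_lit 3) (nat_lit 259) (nat_lit 260)))) (n (nat_lit 309) (b (l (nat_lit 2) (nat_lit 283) (nat_lit 308)) (l (nat_lit 2) (nat_lit 284) (nat_lit 310)))))) (n (nat_lit 289) (b (n (nat_lit 264) (b (l (nat_lit 1) (nat_lit 261) (nat_lit 265)) (l (nat_lit 1) (nat_lit 260) (nat_lit 263)))) (n (nat_lit 260) (b (l (nat_lit 3) (nat_lit 260) (nat_lit 261)) (l (nat_lit 3) (nat_lit 259) (nat_lit 259))))))) (n (nat_lit 289) (b (n (nat_lit 311) (b (l (nat_lit 2) (nat_lit 285) (nat_lit 310)) (l (nat_lit 2) (nat_lit 286) (nat_lit 290)))) (n (nat_lit 264) (b (l (nat_lit 1) (nat_lit 261) (nat_lit 265)) (l (nat_lit 1) (nat_lit 260) (nat_lit 263)))))))) (n (nat_lit 288) (b (n (nat_lit 289) (b (n (nat_lit 311) (b (l (nat_lit 2) (nat_lit 285) (nat_lit 310)) (l (nat_lit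 2) (nat_lit 286) (nat_lit 290)))) (n (nat_lit 260) (b (l (nat_lit 3) (nat_lit 260) (nat_lit 261)) (l (nat_lit 3) (nat_lit 259) (nat_lit 259)))))) (n (nat_lit 263) (b (n (nat_lit 238) (b (l (nat_lit 6) (nat_lit 237) (nat_lit 313)) (l (nat_lit 6) (nat_lit 212) (nat_lit 213)))) (l (nat_lit 1) (nat_lit 260) (nat_lit 264))))))) (b (n (nat_lit 284) (b (n (nat_lit 283) (b (n (nat_lit 308) (b (l (nat_lit 2) (nat_lit 283) (nat_lit 309)) (l (nat_lit 2) (nat_lit 282) (nat_lit 307)))) (l (nat_lit 0) (nat_lit 283) (nat_lit 311)))) (l (nat_lit 0) (nat_lit 284) (nat_lit 313)))) (n (nat_lit 288) (b (n (nat_lit 284) (b (n (nat_lit 309) (b (l (nat_lit 2) (nat_lit 283) (nat_lit 308)) (l (nat_lit 2) (nat_lit 284) (nat_lit 310)))) (l (nat_lit 0) (nat_lit 284) (nat_lit 313)))) (n (nat_lit 289) (b (n (nat_lit 264) (b (l (nat_lit 1) (nat_lit 261) (nat_lit 265)) (l (nat_lit 1) (nat_lit 260) (nat_lit 263)))) (n (nat_lit 260) (b (l (nat_lit 3) (nat_lit 260) (nat_lit 261))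 (l (nat_lit 3) (nat_lit 259) (nat_lit 259)))))))))))) (n (nat_lit 288) (b (b (n (nat_lit 263) (b (n (nat_lit 264) (b (n (nat_lit 265) (b (l (nat_lit 1) (nat_lit 261) (nat_lit 289)) (l (nat_lit 2) (nat_lit 262) (nat_lit 266)))) (l (nat_lit 1) (nat_lit 260) (nat_lit 285)))) (l (nat_lit 5) (nat_lit 262) (nat_lit 362)))) (n (nat_lit 263) (b (n (nat_lit 238) (b (l (nat_lit 6) (nat_lit 237) (nat_lit 313)) (l (nat_lit 6) (nat_lit 212) (nat_lit 213)))) (l (nat_lit 5) (nat_lit 262) (nat_lit 362))))) (n (nat_lit 289) (b (b (n (nat_lit 311) (b (l (nat_lit 2) (nat_lit 285) (nat_lit 310)) (l (nat_lit 2) (nat_lit 286) (nat_lit 290)))) (n (nat_lit 285) (b (n (nat_lit 284) (b (n (nat_lit 259) (b (l (nat_lit 3) (nat_lit 258) (nat_lit 258)) (l (nat_lit 3) (nat_lit 259) (nat_lit 260)))) (l (nat_lit 0) (nat_lit 284) (nat_lit 313)))) (n (nat_lit 310) (b (l (nat_lit 2) (nat_lit 284) (nat_lit 309)) (l (nat_lit 2) (nat_lit 285) (nat_lit 311))))))) (n (nat_lit 290) (b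 (n (nat_lit 291) (b (n (nat_lit 316) (b (l (nat_lit 0) (nat_lit 288) (nat_lit 317)) (l (nat_lit 0) (nat_lit 287) (nat_lit 315)))) (l (nat_lit 2) (nat_lit 287) (nat_lit 313)))) (n (nat_lit 265) (b (l (nat_lit 1) (nat_lit 261) (nat_lit 264)) (l (nat_lit 1) (nat_lit 262) (nat_lit 266)))))))))))))))
    (envOK_cons p3714 envOK_nil) (by decide +kernel)

theorem p3787 : Fam (nat_lit 7) (nat_lit 9394170611063434027483056434510847429432882376775987714394946432377755000422418458909164576524416264962048000) (nat_lit 9394170611063925262790498876190867655625693455532718695137268609613877031990016646109779270768584784277929984) (nat_lit 9394170611063925262790498876190867655625693455532718695137268609613877031990016646109779270768584784277929984) :=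
  chk_sound Env.nil
    (n (nat_lit 286) (b (n (nat_lit 288) (b (n (nat_lit 289) (b (b (n (nat_lit 311) (b (l (nat_lit 2) (nat_lit 285) (nat_lit 310)) (l (nat_lit 2) (nat_lit 286) (nat_lit 290)))) (n (nat_lit 285) (b (n (nat_lit 284) (b (n (nat_lit 259) (b (l (nat_lit 3) (nat_lit 258) (nat_lit 258)) (l (nat_lit 3) (nat_lit 259) (nat_lit 260)))) (l (nat_lit 0) (nat_lit 284) (nat_lit 313)))) (n (nat_lit 310) (b (l (nat_lit 2) (nat_lit 284) (nat_lit 309)) (l (nat_lit 2) (nat_lit 285) (nat_lit 311))))))) (n (nat_lit 290) (b (n (nat_lit 291) (b (n (nat_lit 316) (b (l (nat_lit 0) (nat_lit 288) (nat_lit 317)) (l (nat_lit 0) (nat_lit 287) (nat_lit 315)))) (l (nat_lit 2) (nat_lit 287) (nat_lit 313)))) (n (nat_lit 265) (b (l (nat_lit 1) (nat_lit 261) (nat_lit 264)) (l (nat_lit 1) (nat_lit 262) (nat_lit 266)))))))) (l (nat_lit 5) (nat_lit 262) (nat_lit 263)))) (l (nat_lit 7) (nat_lit 261) (nat_lit 261))))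
    envOK_nil (by decide +kernel)

theorem p3789 : Fam (nat_lit 9) (nat_lit 279968101115924885385735294426609074490018634821145732318173520226105264453065922003236835186146541568) (nat_lit 21153791946936140282343285938138804316280820676683155330556648520586363560061618117347341312791745190411085605286943305760768) (nat_lit 21153791946936140282343285938138804316280820676683155330556648520586363560061618117347341312791745190411085605286943305760768) :=
  chk_sound (Env.cons (nat_lit 7) (nat_lit 9394170611063434027483056434510847429432882376775987714394946432377755000422418458909164576524416264962048000) (nat_lit 9394170611063925262790498876190867655625693455532718695137268609613877031990016646109779270768584784277929984) Env.nil)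
    (n (nat_lit 287) (b (b (b (n (nat_lit 262) (b (b (n (nat_lit 362) (b (n (nat_lit 263) (b (l (nat_lit 5) (nat_lit 237) (nat_lit 238)) (l (nat_lit 5) (nat_lit 262) (nat_lit 288)))) (n (nat_lit 261) (b (l (nat_lit 7) (nat_lit 261) (nat_lit 286)) (l (nat_lit 7) (nat_lit 236) (nat_lit 236)))))) (n (nat_lit 237) (b (n (nat_lit 338) (b (l (nat_lit 4) (nat_lit 237) (nat_lit 313)) (l (nat_lit 4) (nat_lit 262) (nat_lit 363)))) (n (nat_lit 238) (b (l (nat_lit 5) (nat_lit 237) (nat_lit 263)) (l (nat_lit 5) (nat_lit 212) (nat_lit 213))))))) (n (nat_lit 237) (b (n (nat_lit 338) (b (l (nat_lit 4) (nat_lit 237) (nat_lit 313)) (l (nat_lit 4) (nat_lit 262) (nat_lit 363)))) (n (nat_lit 236) (b (l (nat_lit 7) (nat_lit 211) (nat_lit 211)) (l (nat_lit 7) (nat_lit 236) (nat_lit 261)))))))) (n (nat_lit 262) (b (b (n (nat_lit 362) (b (n (nat_lit 263) (b (l (nat_lit 5) (nat_lit 237) (nat_lit 238)) (l (nat_lit 5) (nat_lit 262) (nat_lit 288)))) (n (nat_lit 261) (b (l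 (nat_lit 7) (nat_lit 261) (nat_lit 286)) (l (nat_lit 7) (nat_lit 236) (nat_lit 236)))))) (n (nat_lit 237) (b (n (nat_lit 238) (b (l (nat_lit 5) (nat_lit 237) (nat_lit 263)) (l (nat_lit 5) (nat_lit 212) (nat_lit 213)))) (n (nat_lit 336) (b (l (nat_lit 6) (nat_lit 261) (nat_lit 361)) (l (nat_lit 6) (nat_lit 236) (nat_lit 311))))))) (n (nat_lit 237) (b (n (nat_lit 336) (b (l (nat_lit 6) (nat_lit 261) (nat_lit 361)) (l (nat_lit 6) (nat_lit 236) (nat_lit 311)))) (n (nat_lit 236) (b (l (nat_lit 7) (nat_lit 211) (nat_lit 211)) (l (nat_lit 7) (nat_lit 236) (nat_lit 261))))))))) (b (n (nat_lit 262) (b (b (n (nat_lit 237) (b (n (nat_lit 238) (b (l (nat_lit 5) (nat_lit 237) (nat_lit 263)) (l (nat_lit 5) (nat_lit 212) (nat_lit 213)))) (n (nat_lit 336) (b (l (nat_lit 6) (nat_lit 261) (nat_lit 361)) (l (nat_lit 6) (nat_lit 236) (nat_lit 311)))))) (n (nat_lit 362) (b (n (nat_lit 363) (b (l (nat_lit 4) (nat_lit 262) (nat_lit 338)) (l (nat_lit 4) (nat_lit 287)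 (nat_lit 388)))) (n (nat_lit 263) (b (l (nat_lit 5) (nat_lit 237) (nat_lit 238)) (l (nat_lit 5) (nat_lit 262) (nat_lit 288))))))) (n (nat_lit 237) (b (n (nat_lit 336) (b (l (nat_lit 6) (nat_lit 261) (nat_lit 361)) (l (nat_lit 6) (nat_lit 236) (nat_lit 311)))) (n (nat_lit 338) (b (l (nat_lit 4) (nat_lit 237) (nat_lit 313)) (l (nat_lit 4) (nat_lit 262) (nat_lit 363)))))))) (n (nat_lit 262) (b (b (n (nat_lit 336) (b (n (nat_lit 261) (b (n (nat_lit 338) (b (n (nat_lit 311) (b (n (nat_lit 335) (b (n (nat_lit 334) (b (l (nat_lit 1) (nat_lit 308) (nat_lit 333)) (l (nat_lit 1) (nat_lit 309) (nat_lit 313)))) (n (nat_lit 360) (b (l (nat_lit 6) (nat_lit 260) (nat_lit 286)) (l (nat_lit 2) (nat_lit 334) (nat_lit 359)))))) (n (nat_lit 339) (b (l (nat_lit 3) (nat_lit 311) (nat_lit 340)) (l (nat_lit 3) (nat_lit 310) (nat_lit 310)))))) (l (nat_lit 4) (nat_lit 262) (nat_lit 363)))) (l (nat_lit 7) (nat_lit 236) (nat_lit 236)))) (l (nat_lit 6) (nat_lit 261) (nat_lit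 361)))) (n (nat_lit 237) (b (n (nat_lit 338) (b (l (nat_lit 4) (nat_lit 237) (nat_lit 313)) (l (nat_lit 4) (nat_lit 262) (nat_lit 363)))) (n (nat_lit 238) (b (l (nat_lit 5) (nat_lit 237) (nat_lit 263)) (l (nat_lit 5) (nat_lit 212) (nat_lit 213))))))) (n (nat_lit 237) (b (n (nat_lit 238) (b (l (nat_lit 5) (nat_lit 237) (nat_lit 263)) (l (nat_lit 5) (nat_lit 212) (nat_lit 213)))) (n (nat_lit 336) (b (l (nat_lit 6) (nat_lit 261) (nat_lit 361)) (l (nat_lit 6) (nat_lit 236) (nat_lit 311)))))))))) (b (n (nat_lit 262) (b (b (n (nat_lit 362) (b (n (nat_lit 261) (b (l (nat_lit 7) (nat_lit 261) (nat_lit 286)) (l (nat_lit 7) (nat_lit 236) (nat_lit 236)))) (n (nat_lit 363) (b (l (nat_lit 4) (nat_lit 262) (nat_lit 338)) (l (nat_lit 4) (nat_lit 287) (nat_lit 388)))))) (n (nat_lit 237) (b (n (nat_lit 336) (b (l (nat_lit 6) (nat_lit 261) (nat_lit 361)) (l (nat_lit 6) (nat_lit 236) (nat_lit 311)))) (n (nat_lit 338) (b (l (nat_lit 4) (nat_lit 237) (nat_lit 313))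 (l (nat_lit 4) (nat_lit 262) (nat_lit 363))))))) (n (nat_lit 237) (b (n (nat_lit 336) (b (l (nat_lit 6) (nat_lit 261) (nat_lit 361)) (l (nat_lit 6) (nat_lit 236) (nat_lit 311)))) (n (nat_lit 236) (b (l (nat_lit 7) (nat_lit 211) (nat_lit 211)) (l (nat_lit 7) (nat_lit 236) (nat_lit 261)))))))) (n (nat_lit 362) (b (b (r (nat_lit 0)) (n (nat_lit 387) (b (n (nat_lit 288) (b (l (nat_lit 5) (nat_lit 262) (nat_lit 263)) (l (nat_lit 5) (nat_lit 287) (nat_lit 313)))) (n (nat_lit 388) (b (l (nat_lit 4) (nat_lit 312) (nat_lit 413)) (l (nat_lit 4) (nat_lit 287) (nat_lit 363))))))) (n (nat_lit 387) (b (n (nat_lit 286) (b (l (nat_lit 7) (nat_lit 261) (nat_lit 261)) (l (nat_lit 7) (nat_lit 286) (nat_lit 311)))) (n (nat_lit 388) (b (l (nat_lit 4) (nat_lit 312) (nat_lit 413)) (l (nat_lit 4) (nat_lit 287) (nat_lit 363)))))))))))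
    (envOK_cons p3787 envOK_nil) (by decide +kernel)

theorem p3887 : Fam (nat_lit 10) (nat_lit 2348542687761868017474052966669443929021508085860452553581487919969198132792352405033743313113401200138518528) (nat_lit 8187111723186089803909181357460040441685382762431217596641584192295687914636308604552342603564018938570402647287825601917642756364517244928) (nat_lit 8187111723186089803909181357460040441685382762431217596641584192295687914636308604552342603564018938570402647287825601917642756364517244928) :=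
  chk_sound Env.nil
    (n (nat_lit 385) (b (b (n (nat_lit 309) (b (n (nat_lit 284) (b (l (nat_lit 4) (nat_lit 284) (nat_lit 359)) (l (nat_lit 4) (nat_lit 259) (nat_lit 259)))) (l (nat_lit 7) (nat_lit 309) (nat_lit 410)))) (n (nat_lit 410) (b (b (n (nat_lit 310) (b (n (nat_lit 411) (b (l (nat_lit 4) (nat_lit 335) (nat_lit 436)) (l (nat_lit 4) (nat_lit 310) (nat_lit 386)))) (n (nat_lit 409) (b (l (nat_lit 6) (nat_lit 334) (nat_lit 434)) (l (nat_lit 6) (nat_lit 309) (nat_lit 384)))))) (n (nat_lit 435) (b (n (nat_lit 436) (b (l (nat_lit 4) (nat_lit 335) (nat_lit 411)) (l (nat_lit 4) (nat_lit 360) (nat_lit 461)))) (l (nat_lit 7) (nat_lit 334) (nat_lit 359))))) (n (nat_lit 435) (b (n (nat_lit 434) (b (l (nat_lit 6) (nat_lit 334) (nat_lit 409)) (l (nat_lit 6) (nat_lit 359) (nat_lit 459)))) (l (nat_lit 7) (nat_lit 334) (nat_lit 359))))))) (b (n (nat_lit 309) (b (n (nat_lit 284) (b (l (nat_lit 4) (nat_lit 259) (nat_lit 259)) (l (nat_lit 7) (nat_lit 284)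 (nat_lit 310)))) (l (nat_lit 7) (nat_lit 309) (nat_lit 410)))) (n (nat_lit 310) (b (b (n (nat_lit 384) (b (n (nat_lit 359) (b (n (nat_lit 383) (b (b (n (nat_lit 408) (b (n (nat_lit 433) (b (l (nat_lit 5) (nat_lit 358) (nat_lit 458)) (l (nat_lit 5) (nat_lit 333) (nat_lit 358)))) (l (nat_lit 6) (nat_lit 308) (nat_lit 309)))) (n (nat_lit 357) (b (n (nat_lit 382) (b (l (nat_lit 3) (nat_lit 356) (nat_lit 356)) (l (nat_lit 1) (nat_lit 356) (nat_lit 381)))) (n (nat_lit 386) (b (l (nat_lit 0) (nat_lit 357) (nat_lit 358)) (l (nat_lit 4) (nat_lit 310) (nat_lit 411))))))) (n (nat_lit 408) (b (n (nat_lit 386) (b (l (nat_lit 2) (nat_lit 382) (nat_lit 407)) (l (nat_lit 4) (nat_lit 310) (nat_lit 411)))) (l (nat_lit 6) (nat_lit 308) (nat_lit 309)))))) (l (nat_lit 6) (nat_lit 284) (nat_lit 285)))) (l (nat_lit 6) (nat_lit 309) (nat_lit 409)))) (n (nat_lit 285) (b (b (n (nat_lit 284) (b (l (nat_lit 7) (nat_lit 284) (nat_lit 309)) (l (nat_lit 7) (nat_lit 259) (nat_lit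 259)))) (n (nat_lit 260) (b (n (nat_lit 235) (b (n (nat_lit 234) (b (l (nat_lit 7) (nat_lit 234) (nat_lit 259)) (l (nat_lit 7) (nat_lit 209) (nat_lit 209)))) (l (nat_lit 6) (nat_lit 234) (nat_lit 309)))) (n (nat_lit 261) (b (l (nat_lit 5) (nat_lit 235) (nat_lit 236)) (l (nat_lit 5) (nat_lit 260) (nat_lit 286))))))) (b (n (nat_lit 260) (b (n (nat_lit 261) (b (l (nat_lit 5) (nat_lit 235) (nat_lit 236)) (l (nat_lit 5) (nat_lit 260) (nat_lit 286)))) (n (nat_lit 309) (b (l (nat_lit 7) (nat_lit 284) (nat_lit 284)) (l (nat_lit 6) (nat_lit 234) (nat_lit 235)))))) (n (nat_lit 260) (b (n (nat_lit 261) (b (l (nat_lit 5) (nat_lit 235) (nat_lit 236)) (l (nat_lit 5) (nat_lit 260) (nat_lit 286)))) (n (nat_lit 259) (b (l (nat_lit 7) (nat_lit 259) (nat_lit 284)) (l (nat_lit 7) (nat_lit 234) (nat_lit 234)))))))))) (b (n (nat_lit 285) (b (n (nat_lit 260) (b (n (nat_lit 261) (b (l (nat_lit 5) (nat_lit 235) (nat_lit 236)) (l (nat_lit 5) (nat_lit 260) (nat_lit 286))))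 (n (nat_lit 259) (b (l (nat_lit 7) (nat_lit 259) (nat_lit 284)) (l (nat_lit 7) (nat_lit 234) (nat_lit 234)))))) (n (nat_lit 384) (b (l (nat_lit 6) (nat_lit 284) (nat_lit 359)) (l (nat_lit 6) (nat_lit 309) (nat_lit 409)))))) (n (nat_lit 309) (b (n (nat_lit 384) (b (n (nat_lit 386) (b (n (nat_lit 383) (b (b (n (nat_lit 408) (b (l (nat_lit 2) (nat_lit 382) (nat_lit 407)) (l (nat_lit 6) (nat_lit 308) (nat_lit 359)))) (n (nat_lit 408) (b (n (nat_lit 358) (b (l (nat_lit 5) (nat_lit 308) (nat_lit 333)) (l (nat_lit 3) (nat_lit 357) (nat_lit 357)))) (l (nat_lit 2) (nat_lit 382) (nat_lit 407))))) (b (n (nat_lit 382) (b (n (nat_lit 381) (b (n (nat_lit 406) (b (l (nat_lit 2) (nat_lit 380) (nat_lit 405)) (l (nat_lit 2) (nat_lit 381) (nat_lit 407)))) (l (nat_lit 1) (nat_lit 356) (nat_lit 359)))) (n (nat_lit 357) (b (l (nat_lit 3) (nat_lit 356) (nat_lit 356)) (l (nat_lit 3) (nat_lit 357) (nat_lit 358)))))) (n (nat_lit 408) (b (n (nat_lit 358) (b (l (nat_lit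 5) (nat_lit 308) (nat_lit 333)) (l (nat_lit 3) (nat_lit 357) (nat_lit 357)))) (l (nat_lit 6) (nat_lit 308) (nat_lit 359))))))) (l (nat_lit 4) (nat_lit 310) (nat_lit 411)))) (l (nat_lit 6) (nat_lit 309) (nat_lit 409)))) (l (nat_lit 7) (nat_lit 284) (nat_lit 284))))))))))
    envOK_nil (by decide +kernel)

theorem p3907 : Fam (nat_lit 7) (nat_lit 2348543072718003922983510722284845257276408112831220057601417186579707466575360819669709631078868883391643648) (nat_lit 7442828847326029555540178943081663688727987314938820525870310238035095107329171685460822156089810700846227207971500298019634499621427871744) (nat_lit 7442828847326029555540178943081663688727987314938820525870310238035095107329171685460822156089810700846227207971500298019634499621427871744) :=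
  chk_sound Env.nil
    (n (nat_lit 385) (b (b (n (nat_lit 410) (b (n (nat_lit 435) (b (n (nat_lit 434) (b (l (nat_lit 6) (nat_lit 334) (nat_lit 409)) (l (nat_lit 6) (nat_lit 359) (nat_lit 459)))) (n (nat_lit 436) (b (l (nat_lit 4) (nat_lit 335) (nat_lit 411)) (l (nat_lit 4) (nat_lit 360) (nat_lit 461)))))) (l (nat_lit 5) (nat_lit 310) (nat_lit 311)))) (n (nat_lit 310) (b (n (nat_lit 410) (b (n (nat_lit 411) (b (l (nat_lit 4) (nat_lit 335) (nat_lit 436)) (l (nat_lit 4) (nat_lit 310) (nat_lit 386)))) (n (nat_lit 409) (b (l (nat_lit 6) (nat_lit 334) (nat_lit 434)) (l (nat_lit 6) (nat_lit 309) (nat_lit 384)))))) (n (nat_lit 309) (b (l (nat_lit 3) (nat_lit 309) (nat_lit 338)) (l (nat_lit 7) (nat_lit 284) (nat_lit 284))))))) (n (nat_lit 310) (b (b (n (nat_lit 338) (b (n (nat_lit 311) (b (l (nat_lit 3) (nat_lit 310) (nat_lit 339)) (l (nat_lit 5) (nat_lit 285) (nat_lit 286)))) (l (nat_lit 3) (nat_lit 309) (nat_lit 309)))) (n (nat_lit 309) (b (l (nat_lit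 3) (nat_lit 309) (nat_lit 338)) (l (nat_lit 7) (nat_lit 284) (nat_lit 284))))) (n (nat_lit 285) (b (b (n (nat_lit 286) (b (l (nat_lit 5) (nat_lit 285) (nat_lit 311)) (l (nat_lit 5) (nat_lit 260) (nat_lit 261)))) (n (nat_lit 260) (b (n (nat_lit 235) (b (n (nat_lit 236) (b (l (nat_lit 5) (nat_lit 210) (nat_lit 211)) (l (nat_lit 5) (nat_lit 235) (nat_lit 261)))) (l (nat_lit 4) (nat_lit 235) (nat_lit 311)))) (n (nat_lit 259) (b (l (nat_lit 7) (nat_lit 259) (nat_lit 284)) (l (nat_lit 7) (nat_lit 234) (nat_lit 234))))))) (b (n (nat_lit 260) (b (n (nat_lit 261) (b (l (nat_lit 5) (nat_lit 235) (nat_lit 236)) (l (nat_lit 5) (nat_lit 260) (nat_lit 286)))) (n (nat_lit 259) (b (l (nat_lit 7) (nat_lit 259) (nat_lit 284)) (l (nat_lit 7) (nat_lit 234) (nat_lit 234)))))) (n (nat_lit 311) (b (n (nat_lit 284) (b (l (nat_lit 3) (nat_lit 284) (nat_lit 313)) (l (nat_lit 7) (nat_lit 259) (nat_lit 259)))) (l (nat_lit 5) (nat_lit 285) (nat_lit 286)))))))))))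
    envOK_nil (by decide +kernel)

theorem p3996 : Fam (nat_lit 9) (nat_lit 78804014741331611190414501146149404319567773680497133545638246098580380699862851455932950353498372818803623750270976) (nat_lit 24973995101073881590337951760837527945958288994499178218602765637185551878442051393205553586962379203853998022249215698929665451967595818573103104) (nat_lit 24973995101073881590337951760837527945958288994499178218602765637185551878442051393205553586962379203853998022249215698929665451967595818573103104) :=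
  chk_sound Env.nil
    (n (nat_lit 411) (b (b (n (nat_lit 410) (b (n (nat_lit 409) (b (n (nat_lit 384) (b (n (nat_lit 383) (b (l (nat_lit 3) (nat_lit 383) (nat_lit 412)) (l (nat_lit 0) (nat_lit 382) (nat_lit 382)))) (l (nat_lit 6) (nat_lit 309) (nat_lit 310)))) (l (nat_lit 6) (nat_lit 334) (nat_lit 434)))) (l (nat_lit 4) (nat_lit 335) (nat_lit 436)))) (n (nat_lit 310) (b (n (nat_lit 285) (b (n (nat_lit 284) (b (l (nat_lit 7) (nat_lit 284) (nat_lit 309)) (l (nat_lit 7) (nat_lit 259) (nat_lit 259)))) (n (nat_lit 384) (b (l (nat_lit 6) (nat_lit 284) (nat_lit 359)) (l (nat_lit 6) (nat_lit 309) (nat_lit 409)))))) (l (nat_lit 4) (nat_lit 310) (nat_lit 386))))) (b (n (nat_lit 436) (b (n (nat_lit 386) (b (l (nat_lit 7) (nat_lit 360) (nat_lit 461)) (l (nat_lit 4) (nat_lit 310) (nat_lit 310)))) (l (nat_lit 4) (nat_lit 335) (nat_lit 410)))) (n (nat_lit 410) (b (n (nat_lit 409) (b (n (nat_lit 408) (b (b (n (nat_lit 407) (b (n (nat_lit 382) (b (l (nat_lit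 3) (nat_lit 382) (nat_lit 383)) (l (nat_lit 3) (nat_lit 381) (nat_lit 381)))) (l (nat_lit 1) (nat_lit 382) (nat_lit 386)))) (n (nat_lit 383) (b (n (nat_lit 433) (b (n (nat_lit 384) (b (n (nat_lit 458) (b (l (nat_lit 5) (nat_lit 383) (nat_lit 483)) (l (nat_lit 5) (nat_lit 358) (nat_lit 359)))) (l (nat_lit 3) (nat_lit 383) (nat_lit 412)))) (l (nat_lit 2) (nat_lit 407) (nat_lit 432)))) (l (nat_lit 3) (nat_lit 382) (nat_lit 382))))) (n (nat_lit 407) (b (n (nat_lit 432) (b (l (nat_lit 2) (nat_lit 407) (nat_lit 433)) (l (nat_lit 2) (nat_lit 406) (nat_lit 431)))) (l (nat_lit 1) (nat_lit 382) (nat_lit 386)))))) (l (nat_lit 6) (nat_lit 334) (nat_lit 434)))) (l (nat_lit 4) (nat_lit 335) (nat_lit 436)))))))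
    envOK_nil (by decide +kernel)

theorem p4078 : Fam (nat_lit 13) (nat_lit 11742713193837267255372288369681979563487487234560234174682187175834565351678306670384416995160678701306216448) (nat_lit 8379880330823960389401311452470863966403315751025782227209553805950609378586431107170840965740925160735460562833818281873613501565323247662292778866442240) (nat_lit 8379880330823960389401311452470863966403315751025782227209553805950609378586431107170840965740925160735460562833818281873613501565323247662292778866442240) :=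
  chk_sound (Env.cons (nat_lit 10) (nat_lit 2348542687761868017474052966669443929021508085860452553581487919969198132792352405033743313113401200138518528) (nat_lit 8187111723186089803909181357460040441685382762431217596641584192295687914636308604552342603564018938570402647287825601917642756364517244928) (Env.cons (nat_lit 7) (nat_lit 2348543072718003922983510722284845257276408112831220057601417186579707466575360819669709631078868883391643648) (nat_lit 7442828847326029555540178943081663688727987314938820525870310238035095107329171685460822156089810700846227207971500298019634499621427871744) (Env.cons (nat_lit 9) (nat_lit 78804014741331611190414501146149404319567773680497133545638246098580380699862851455932950353498372818803623750270976) (nat_lit 24973995101073881590337951760837527945958288994499178218602765637185551878442051393205553586962379203853998022249215698929665451967595818573103104) Env.nil)))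
    (n (nat_lit 335) (b (b (b (n (nat_lit 334) (b (n (nat_lit 336) (b (l (nat_lit 0) (nat_lit 334) (nat_lit 363)) (l (nat_lit 1) (nat_lit 309) (nat_lit 313)))) (r (nat_lit 0)))) (n (nat_lit 336) (b (b (n (nat_lit 363) (b (n (nat_lit 364) (b (l (nat_lit 0) (nat_lit 335) (nat_lit 338)) (l (nat_lit 3) (nat_lit 336) (nat_lit 365)))) (l (nat_lit 0) (nat_lit 334) (nat_lit 334)))) (n (nat_lit 311) (b (n (nat_lit 385) (b (n (nat_lit 286) (b (l (nat_lit 5) (nat_lit 285) (nat_lit 310)) (l (nat_lit 6) (nat_lit 260) (nat_lit 261)))) (l (nat_lit 5) (nat_lit 310) (nat_lit 410)))) (n (nat_lit 334) (b (l (nat_lit 1) (nat_lit 308) (nat_lit 333)) (l (nat_lit 1) (nat_lit 309) (nat_lit 313))))))) (r (nat_lit 1))))) (b (n (nat_lit 336) (b (b (n (nat_lit 338) (b (n (nat_lit 339) (b (n (nat_lit 364) (b (l (nat_lit 0) (nat_lit 336) (nat_lit 365)) (l (nat_lit 0) (nat_lit 335) (nat_lit 363)))) (n (nat_lit 310) (b (l (nat_lit 3) (nat_lit 309) (nat_lit 309)) (l (nat_lit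 3) (nat_lit 310) (nat_lit 311)))))) (l (nat_lit 2) (nat_lit 334) (nat_lit 359)))) (n (nat_lit 363) (b (n (nat_lit 364) (b (l (nat_lit 0) (nat_lit 335) (nat_lit 338)) (l (nat_lit 3) (nat_lit 336) (nat_lit 365)))) (l (nat_lit 0) (nat_lit 334) (nat_lit 334))))) (b (n (nat_lit 334) (b (n (nat_lit 333) (b (n (nat_lit 358) (b (l (nat_lit 2) (nat_lit 333) (nat_lit 359)) (l (nat_lit 2) (nat_lit 332) (nat_lit 357)))) (l (nat_lit 1) (nat_lit 308) (nat_lit 311)))) (l (nat_lit 0) (nat_lit 334) (nat_lit 363)))) (n (nat_lit 359) (b (n (nat_lit 358) (b (l (nat_lit 1) (nat_lit 332) (nat_lit 357)) (l (nat_lit 2) (nat_lit 333) (nat_lit 334)))) (l (nat_lit 2) (nat_lit 334) (nat_lit 338))))))) (n (nat_lit 310) (b (b (b (n (nat_lit 385) (b (n (nat_lit 410) (b (n (nat_lit 411) (b (l (nat_lit 4) (nat_lit 335) (nat_lit 436)) (l (nat_lit 4) (nat_lit 310) (nat_lit 386)))) (n (nat_lit 409) (b (l (nat_lit 6) (nat_lit 334) (nat_lit 434)) (l (nat_lit 6) (nat_lit 309) (nat_lit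 384)))))) (n (nat_lit 309) (b (n (nat_lit 311) (b (l (nat_lit 0) (nat_lit 309) (nat_lit 338)) (l (nat_lit 5) (nat_lit 285) (nat_lit 286)))) (l (nat_lit 7) (nat_lit 284) (nat_lit 284)))))) (n (nat_lit 311) (b (n (nat_lit 338) (b (n (nat_lit 339) (b (l (nat_lit 0) (nat_lit 310) (nat_lit 313)) (l (nat_lit 3) (nat_lit 311) (nat_lit 340)))) (l (nat_lit 0) (nat_lit 309) (nat_lit 309)))) (n (nat_lit 286) (b (n (nat_lit 261) (b (l (nat_lit 6) (nat_lit 235) (nat_lit 236)) (l (nat_lit 5) (nat_lit 260) (nat_lit 285)))) (l (nat_lit 5) (nat_lit 285) (nat_lit 385))))))) (b (n (nat_lit 285) (b (b (n (nat_lit 260) (b (n (nat_lit 359) (b (l (nat_lit 6) (nat_lit 259) (nat_lit 334)) (l (nat_lit 6) (nat_lit 284) (nat_lit 384)))) (n (nat_lit 259) (b (l (nat_lit 7) (nat_lit 259) (nat_lit 284)) (l (nat_lit 7) (nat_lit 234) (nat_lit 234)))))) (n (nat_lit 311) (b (n (nat_lit 313) (b (l (nat_lit 3) (nat_lit 284) (nat_lit 284)) (l (nat_lit 2) (nat_lit 309) (nat_lit 334))))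 (n (nat_lit 286) (b (l (nat_lit 5) (nat_lit 285) (nat_lit 385)) (l (nat_lit 5) (nat_lit 260) (nat_lit 261))))))) (n (nat_lit 385) (b (n (nat_lit 286) (b (l (nat_lit 5) (nat_lit 285) (nat_lit 311)) (l (nat_lit 5) (nat_lit 260) (nat_lit 261)))) (n (nat_lit 384) (b (l (nat_lit 6) (nat_lit 284) (nat_lit 359)) (l (nat_lit 6) (nat_lit 309) (nat_lit 409)))))))) (n (nat_lit 309) (b (n (nat_lit 311) (b (n (nat_lit 334) (b (l (nat_lit 2) (nat_lit 308) (nat_lit 333)) (l (nat_lit 2) (nat_lit 309) (nat_lit 313)))) (l (nat_lit 0) (nat_lit 309) (nat_lit 338)))) (n (nat_lit 284) (b (n (nat_lit 259) (b (l (nat_lit 4) (nat_lit 234) (nat_lit 234)) (l (nat_lit 7) (nat_lit 259) (nat_lit 285)))) (l (nat_lit 7) (nat_lit 284) (nat_lit 385)))))))) (b (n (nat_lit 285) (b (b (n (nat_lit 385) (b (n (nat_lit 384) (b (l (nat_lit 6) (nat_lit 284) (nat_lit 359)) (l (nat_lit 6) (nat_lit 309) (nat_lit 409)))) (n (nat_lit 284) (b (l (nat_lit 7) (nat_lit 284) (nat_lit 309)) (l (nat_lit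 7) (nat_lit 259) (nat_lit 259)))))) (n (nat_lit 260) (b (n (nat_lit 359) (b (l (nat_lit 6) (nat_lit 259) (nat_lit 334)) (l (nat_lit 6) (nat_lit 284) (nat_lit 384)))) (n (nat_lit 261) (b (l (nat_lit 5) (nat_lit 235) (nat_lit 236)) (l (nat_lit 5) (nat_lit 260) (nat_lit 286))))))) (n (nat_lit 260) (b (n (nat_lit 261) (b (l (nat_lit 5) (nat_lit 235) (nat_lit 236)) (l (nat_lit 5) (nat_lit 260) (nat_lit 286)))) (n (nat_lit 259) (b (l (nat_lit 7) (nat_lit 259) (nat_lit 284)) (l (nat_lit 7) (nat_lit 234) (nat_lit 234)))))))) (n (nat_lit 311) (b (b (n (nat_lit 338) (b (n (nat_lit 339) (b (l (nat_lit 0) (nat_lit 310) (nat_lit 313)) (l (nat_lit 3) (nat_lit 311) (nat_lit 340)))) (l (nat_lit 0) (nat_lit 309) (nat_lit 309)))) (n (nat_lit 285) (b (n (nat_lit 334) (b (n (nat_lit 359) (b (l (nat_lit 6) (nat_lit 259) (nat_lit 260)) (l (nat_lit 6) (nat_lit 284) (nat_lit 384)))) (l (nat_lit 2) (nat_lit 309) (nat_lit 313)))) (n (nat_lit 284) (b (n (nat_lit 286) (b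 (l (nat_lit 5) (nat_lit 260) (nat_lit 261)) (l (nat_lit 0) (nat_lit 283) (nat_lit 283)))) (l (nat_lit 7) (nat_lit 259) (nat_lit 259))))))) (n (nat_lit 309) (b (n (nat_lit 284) (b (n (nat_lit 259) (b (l (nat_lit 4) (nat_lit 234) (nat_lit 234)) (l (nat_lit 7) (nat_lit 259) (nat_lit 285)))) (l (nat_lit 3) (nat_lit 283) (nat_lit 283)))) (l (nat_lit 0) (nat_lit 309) (nat_lit 338))))))))))) (b (n (nat_lit 336) (b (b (n (nat_lit 334) (b (n (nat_lit 359) (b (l (nat_lit 2) (nat_lit 333) (nat_lit 358)) (l (nat_lit 2) (nat_lit 334) (nat_lit 338)))) (l (nat_lit 0) (nat_lit 334) (nat_lit 363)))) (n (nat_lit 334) (b (n (nat_lit 359) (b (l (nat_lit 2) (nat_lit 333) (nat_lit 358)) (l (nat_lit 2) (nat_lit 334) (nat_lit 338)))) (l (nat_lit 1) (nat_lit 309) (nat_lit 313))))) (b (n (nat_lit 334) (b (l (nat_lit 0) (nat_lit 334) (nat_lit 363)) (l (nat_lit 1) (nat_lit 309) (nat_lit 313)))) (n (nat_lit 338) (b (n (nat_lit 339) (b (b (n (nat_lit 340) (b (n (nat_lit 341)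 (b (l (nat_lit 2) (nat_lit 337) (nat_lit 363)) (l (nat_lit 3) (nat_lit 312) (nat_lit 313)))) (l (nat_lit 3) (nat_lit 311) (nat_lit 311)))) (n (nat_lit 364) (b (l (nat_lit 0) (nat_lit 336) (nat_lit 365)) (l (nat_lit 0) (nat_lit 335) (nat_lit 363))))) (n (nat_lit 340) (b (n (nat_lit 365) (b (l (nat_lit 0) (nat_lit 337) (nat_lit 366)) (l (nat_lit 0) (nat_lit 336) (nat_lit 364)))) (l (nat_lit 3) (nat_lit 311) (nat_lit 311)))))) (l (nat_lit 2) (nat_lit 334) (nat_lit 359))))))) (n (nat_lit 336) (b (b (n (nat_lit 385) (b (b (n (nat_lit 410) (b (n (nat_lit 435) (b (n (nat_lit 434) (b (l (nat_lit 6) (nat_lit 334) (nat_lit 409)) (l (nat_lit 6) (nat_lit 359) (nat_lit 459)))) (n (nat_lit 436) (b (l (nat_lit 4) (nat_lit 335) (nat_lit 411)) (l (nat_lit 4) (nat_lit 360) (nat_lit 461)))))) (l (nat_lit 5) (nat_lit 310) (nat_lit 311)))) (n (nat_lit 310) (b (b (n (nat_lit 309) (b (n (nat_lit 308) (b (l (nat_lit 0) (nat_lit 307) (nat_lit 307)) (l (nat_lit 0) (nat_lit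 308) (nat_lit 311)))) (l (nat_lit 7) (nat_lit 284) (nat_lit 284)))) (n (nat_lit 285) (b (n (nat_lit 284) (b (l (nat_lit 7) (nat_lit 284) (nat_lit 309)) (l (nat_lit 7) (nat_lit 259) (nat_lit 259)))) (n (nat_lit 384) (b (l (nat_lit 6) (nat_lit 284) (nat_lit 359)) (l (nat_lit 6) (nat_lit 309) (nat_lit 409))))))) (n (nat_lit 285) (b (n (nat_lit 286) (b (l (nat_lit 5) (nat_lit 285) (nat_lit 311)) (l (nat_lit 5) (nat_lit 260) (nat_lit 261)))) (n (nat_lit 384) (b (l (nat_lit 6) (nat_lit 284) (nat_lit 359)) (l (nat_lit 6) (nat_lit 309) (nat_lit 409))))))))) (b (n (nat_lit 311) (b (n (nat_lit 286) (b (l (nat_lit 5) (nat_lit 285) (nat_lit 310)) (l (nat_lit 6) (nat_lit 260) (nat_lit 261)))) (l (nat_lit 5) (nat_lit 310) (nat_lit 410)))) (r (nat_lit 2))))) (r (nat_lit 1))) (b (n (nat_lit 338) (b (n (nat_lit 339) (b (b (n (nat_lit 340) (b (n (nat_lit 341) (b (l (nat_lit 2) (nat_lit 337) (nat_lit 363)) (l (nat_lit 3) (nat_lit 312) (nat_lit 313)))) (l (nat_lit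 3) (nat_lit 311) (nat_lit 311)))) (n (nat_lit 364) (b (l (nat_lit 0) (nat_lit 336) (nat_lit 365)) (l (nat_lit 0) (nat_lit 335) (nat_lit 363))))) (n (nat_lit 340) (b (n (nat_lit 365) (b (l (nat_lit 0) (nat_lit 337) (nat_lit 366)) (l (nat_lit 0) (nat_lit 336) (nat_lit 364)))) (l (nat_lit 3) (nat_lit 311) (nat_lit 311)))))) (l (nat_lit 2) (nat_lit 334) (nat_lit 359)))) (n (nat_lit 385) (b (b (b (n (nat_lit 338) (b (n (nat_lit 310) (b (n (nat_lit 411) (b (n (nat_lit 413) (b (b (n (nat_lit 410) (b (n (nat_lit 412) (b (n (nat_lit 414) (b (n (nat_lit 439) (b (l (nat_lit 0) (nat_lit 410) (nat_lit 438)) (l (nat_lit 0) (nat_lit 411) (nat_lit 440)))) (n (nat_lit 389) (b (l (nat_lit 1) (nat_lit 386) (nat_lit 390)) (l (nat_lit 1) (nat_lit 385) (nat_lit 388)))))) (l (nat_lit 3) (nat_lit 384) (nat_lit 384)))) (l (nat_lit 4) (nat_lit 335) (nat_lit 436)))) (n (nat_lit 363) (b (l (nat_lit 7) (nat_lit 312) (nat_lit 388)) (l (nat_lit 0) (nat_lit 335) (nat_lit 364)))))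 (n (nat_lit 364) (b (n (nat_lit 410) (b (n (nat_lit 414) (b (b (n (nat_lit 339) (b (n (nat_lit 389) (b (l (nat_lit 6) (nat_lit 338) (nat_lit 438)) (l (nat_lit 7) (nat_lit 313) (nat_lit 313)))) (l (nat_lit 0) (nat_lit 336) (nat_lit 365)))) (n (nat_lit 412) (b (n (nat_lit 439) (b (l (nat_lit 0) (nat_lit 410) (nat_lit 438)) (l (nat_lit 0) (nat_lit 411) (nat_lit 440)))) (l (nat_lit 3) (nat_lit 384) (nat_lit 384))))) (n (nat_lit 389) (b (n (nat_lit 339) (b (l (nat_lit 0) (nat_lit 336) (nat_lit 365)) (l (nat_lit 7) (nat_lit 313) (nat_lit 313)))) (n (nat_lit 412) (b (l (nat_lit 1) (nat_lit 386) (nat_lit 390)) (l (nat_lit 3) (nat_lit 384) (nat_lit 384)))))))) (l (nat_lit 4) (nat_lit 335) (nat_lit 436)))) (l (nat_lit 0) (nat_lit 335) (nat_lit 363)))))) (l (nat_lit 4) (nat_lit 310) (nat_lit 386)))) (l (nat_lit 3) (nat_lit 309) (nat_lit 309)))) (l (nat_lit 2) (nat_lit 334) (nat_lit 359)))) (n (nat_lit 338) (b (n (nat_lit 411) (b (n (nat_lit 310) (b (l (nat_lit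 4) (nat_lit 310) (nat_lit 386)) (l (nat_lit 3) (nat_lit 309) (nat_lit 309)))) (n (nat_lit 410) (b (n (nat_lit 434) (b (n (nat_lit 413) (b (n (nat_lit 435) (b (l (nat_lit 6) (nat_lit 359) (nat_lit 459)) (l (nat_lit 2) (nat_lit 409) (nat_lit 412)))) (n (nat_lit 363) (b (l (nat_lit 7) (nat_lit 312) (nat_lit 388)) (l (nat_lit 0) (nat_lit 335) (nat_lit 364)))))) (l (nat_lit 6) (nat_lit 334) (nat_lit 409)))) (l (nat_lit 4) (nat_lit 335) (nat_lit 436)))))) (l (nat_lit 2) (nat_lit 334) (nat_lit 359))))) (b (n (nat_lit 310) (b (b (n (nat_lit 285) (b (n (nat_lit 284) (b (l (nat_lit 7) (nat_lit 284) (nat_lit 309)) (l (nat_lit 7) (nat_lit 259) (nat_lit 259)))) (n (nat_lit 384) (b (l (nat_lit 6) (nat_lit 284) (nat_lit 359)) (l (nat_lit 6) (nat_lit 309) (nat_lit 409)))))) (n (nat_lit 359) (b (n (nat_lit 384) (b (l (nat_lit 6) (nat_lit 284) (nat_lit 285)) (l (nat_lit 6) (nat_lit 309) (nat_lit 409)))) (l (nat_lit 2) (nat_lit 334) (nat_lit 338))))) (n (nat_lit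 309) (b (l (nat_lit 3) (nat_lit 309) (nat_lit 338)) (l (nat_lit 7) (nat_lit 284) (nat_lit 284)))))) (r (nat_lit 2)))) (b (n (nat_lit 310) (b (n (nat_lit 410) (b (n (nat_lit 411) (b (l (nat_lit 4) (nat_lit 335) (nat_lit 436)) (l (nat_lit 4) (nat_lit 310) (nat_lit 386)))) (n (nat_lit 409) (b (l (nat_lit 6) (nat_lit 334) (nat_lit 434)) (l (nat_lit 6) (nat_lit 309) (nat_lit 384)))))) (n (nat_lit 309) (b (l (nat_lit 3) (nat_lit 309) (nat_lit 338)) (l (nat_lit 7) (nat_lit 284) (nat_lit 284)))))) (n (nat_lit 359) (b (n (nat_lit 410) (b (b (b (n (nat_lit 435) (b (n (nat_lit 460) (b (n (nat_lit 461) (b (l (nat_lit 4) (nat_lit 385) (nat_lit 486)) (l (nat_lit 4) (nat_lit 360) (nat_lit 436)))) (l (nat_lit 7) (nat_lit 359) (nat_lit 384)))) (n (nat_lit 434) (b (l (nat_lit 6) (nat_lit 334) (nat_lit 409)) (l (nat_lit 6) (nat_lit 359) (nat_lit 459)))))) (n (nat_lit 435) (b (b (n (nat_lit 436) (b (l (nat_lit 4) (nat_lit 335) (nat_lit 411)) (l (nat_lit 4) (nat_lit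 360) (nat_lit 461)))) (n (nat_lit 460) (b (n (nat_lit 485) (b (n (nat_lit 411) (b (l (nat_lit 4) (nat_lit 335) (nat_lit 436)) (l (nat_lit 5) (nat_lit 385) (nat_lit 386)))) (n (nat_lit 484) (b (l (nat_lit 6) (nat_lit 409) (nat_lit 509)) (l (nat_lit 6) (nat_lit 384) (nat_lit 459)))))) (l (nat_lit 7) (nat_lit 359) (nat_lit 384))))) (n (nat_lit 460) (b (n (nat_lit 485) (b (n (nat_lit 486) (b (l (nat_lit 4) (nat_lit 385) (nat_lit 461)) (l (nat_lit 4) (nat_lit 410) (nat_lit 511)))) (n (nat_lit 484) (b (l (nat_lit 6) (nat_lit 409) (nat_lit 509)) (l (nat_lit 6) (nat_lit 384) (nat_lit 459)))))) (l (nat_lit 7) (nat_lit 359) (nat_lit 384))))))) (b (n (nat_lit 435) (b (n (nat_lit 434) (b (l (nat_lit 6) (nat_lit 334) (nat_lit 409)) (l (nat_lit 6) (nat_lit 359) (nat_lit 459)))) (n (nat_lit 436) (b (l (nat_lit 4) (nat_lit 335) (nat_lit 411)) (l (nat_lit 4) (nat_lit 360) (nat_lit 461)))))) (n (nat_lit 435) (b (b (n (nat_lit 434) (b (l (nat_lit 6) (nat_lit 334)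 (nat_lit 409)) (l (nat_lit 6) (nat_lit 359) (nat_lit 459)))) (n (nat_lit 460) (b (n (nat_lit 485) (b (n (nat_lit 486) (b (l (nat_lit 4) (nat_lit 385) (nat_lit 461)) (l (nat_lit 4) (nat_lit 410) (nat_lit 511)))) (n (nat_lit 484) (b (l (nat_lit 6) (nat_lit 409) (nat_lit 509)) (l (nat_lit 6) (nat_lit 384) (nat_lit 459)))))) (l (nat_lit 7) (nat_lit 359) (nat_lit 384))))) (n (nat_lit 384) (b (n (nat_lit 409) (b (n (nat_lit 408) (b (n (nat_lit 407) (b (l (nat_lit 1) (nat_lit 381) (nat_lit 406)) (l (nat_lit 1) (nat_lit 382) (nat_lit 386)))) (n (nat_lit 383) (b (n (nat_lit 411) (b (n (nat_lit 433) (b (l (nat_lit 2) (nat_lit 407) (nat_lit 432)) (l (nat_lit 5) (nat_lit 358) (nat_lit 458)))) (l (nat_lit 3) (nat_lit 383) (nat_lit 412)))) (n (nat_lit 382) (b (n (nat_lit 357) (b (l (nat_lit 3) (nat_lit 356) (nat_lit 356)) (l (nat_lit 1) (nat_lit 332) (nat_lit 358)))) (l (nat_lit 1) (nat_lit 356) (nat_lit 381)))))))) (l (nat_lit 6) (nat_lit 334) (nat_lit 434))))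 (l (nat_lit 7) (nat_lit 359) (nat_lit 460)))))))) (n (nat_lit 409) (b (n (nat_lit 411) (b (n (nat_lit 412) (b (b (n (nat_lit 384) (b (l (nat_lit 3) (nat_lit 384) (nat_lit 413)) (l (nat_lit 3) (nat_lit 383) (nat_lit 383)))) (n (nat_lit 408) (b (n (nat_lit 407) (b (n (nat_lit 432) (b (l (nat_lit 2) (nat_lit 407) (nat_lit 433)) (l (nat_lit 2) (nat_lit 406) (nat_lit 431)))) (l (nat_lit 1) (nat_lit 382) (nat_lit 386)))) (n (nat_lit 383) (b (l (nat_lit 3) (nat_lit 382) (nat_lit 382)) (l (nat_lit 3) (nat_lit 383) (nat_lit 384))))))) (n (nat_lit 413) (b (n (nat_lit 414) (b (n (nat_lit 389) (b (l (nat_lit 1) (nat_lit 386) (nat_lit 390)) (l (nat_lit 1) (nat_lit 385) (nat_lit 388)))) (l (nat_lit 3) (nat_lit 385) (nat_lit 386)))) (n (nat_lit 438) (b (l (nat_lit 0) (nat_lit 409) (nat_lit 437)) (l (nat_lit 0) (nat_lit 410) (nat_lit 439)))))))) (l (nat_lit 4) (nat_lit 335) (nat_lit 436)))) (l (nat_lit 6) (nat_lit 334) (nat_lit 434)))))) (l (nat_lit 2) (nat_lit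 334) (nat_lit 338)))))))))))))
    (envOK_cons p3887 (envOK_cons p3907 (envOK_cons p3996 envOK_nil))) (by decide +kernel)

theorem p4101 : Fam (nat_lit 7) (nat_lit 157608041225376276234041527852464952425963219767174394235719422899211550310089638721900066785550823866294092135661568) (nat_lit 10419960262040836370814191997138932260871291962961508957654382524050278383348554574331086131114077815344237872707428225633511752519657717760) (nat_lit 10419960262040836370814191997138932260871291962961508957654382524050278383348554574331086131114077815344237872707428225633511752519657717760) :=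
  chk_sound Env.nil
    (n (nat_lit 385) (b (b (n (nat_lit 384) (b (l (nat_lit 1) (nat_lit 358) (nat_lit 383)) (l (nat_lit 2) (nat_lit 359) (nat_lit 363)))) (n (nat_lit 335) (b (n (nat_lit 310) (b (l (nat_lit 4) (nat_lit 310) (nat_lit 411)) (l (nat_lit 4) (nat_lit 285) (nat_lit 285)))) (n (nat_lit 363) (b (l (nat_lit 3) (nat_lit 334) (nat_lit 334)) (l (nat_lit 2) (nat_lit 360) (nat_lit 364))))))) (n (nat_lit 410) (b (b (n (nat_lit 335) (b (n (nat_lit 310) (b (n (nat_lit 309) (b (l (nat_lit 7) (nat_lit 309) (nat_lit 334)) (l (nat_lit 7) (nat_lit 284) (nat_lit 284)))) (l (nat_lit 4) (nat_lit 285) (nat_lit 285)))) (n (nat_lit 435) (b (n (nat_lit 434) (b (l (nat_lit 6) (nat_lit 334) (nat_lit 409)) (l (nat_lit 6) (nat_lit 359) (nat_lit 459)))) (l (nat_lit 5) (nat_lit 360) (nat_lit 460)))))) (n (nat_lit 436) (b (n (nat_lit 435) (b (l (nat_lit 5) (nat_lit 360) (nat_lit 460)) (l (nat_lit 4) (nat_lit 360) (nat_lit 461)))) (l (nat_lit 5) (nat_lit 336) (nat_lit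 411))))) (n (nat_lit 411) (b (n (nat_lit 383) (b (n (nat_lit 409) (b (n (nat_lit 408) (b (l (nat_lit 3) (nat_lit 382) (nat_lit 382)) (l (nat_lit 1) (nat_lit 382) (nat_lit 407)))) (n (nat_lit 335) (b (l (nat_lit 4) (nat_lit 310) (nat_lit 310)) (l (nat_lit 6) (nat_lit 334) (nat_lit 434)))))) (l (nat_lit 1) (nat_lit 358) (nat_lit 384)))) (l (nat_lit 5) (nat_lit 336) (nat_lit 436))))))))
    envOK_nil (by decide +kernel)

theorem p4181 : Fam (nat_lit 12) (nat_lit 11742713193837267255372288369681979563487487234560234174682187175834565351678306670384416995160678701306216448) (nat_lit 8187111723186089803909181357492920038272917599403569628846466318023160743199892417260341115078262673060919390318526994993447317531617394688) (nat_lit 8187111723186089803909181357492920038272917599403569628846466318023160743199892417260341115078262673060919390318526994993447317531617394688) :=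
  chk_sound (Env.cons (nat_lit 10) (nat_lit 2348542687761868017474052966669443929021508085860452553581487919969198132792352405033743313113401200138518528) (nat_lit 8187111723186089803909181357460040441685382762431217596641584192295687914636308604552342603564018938570402647287825601917642756364517244928) Env.nil)
    (n (nat_lit 335) (b (b (b (n (nat_lit 334) (b (n (nat_lit 336) (b (l (nat_lit 0) (nat_lit 334) (nat_lit 363)) (l (nat_lit 1) (nat_lit 309) (nat_lit 313)))) (r (nat_lit 0)))) (n (nat_lit 385) (b (b (b (n (nat_lit 384) (b (n (nat_lit 361) (b (n (nat_lit 383) (b (l (nat_lit 1) (nat_lit 357) (nat_lit 382)) (l (nat_lit 2) (nat_lit 358) (nat_lit 359)))) (l (nat_lit 2) (nat_lit 359) (nat_lit 363)))) (n (nat_lit 409) (b (n (nat_lit 434) (b (l (nat_lit 5) (nat_lit 359) (nat_lit 459)) (l (nat_lit 6) (nat_lit 334) (nat_lit 410)))) (l (nat_lit 6) (nat_lit 309) (nat_lit 310)))))) (n (nat_lit 310) (b (b (n (nat_lit 410) (b (n (nat_lit 411) (b (l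 (nat_lit 4) (nat_lit 335) (nat_lit 436)) (l (nat_lit 4) (nat_lit 310) (nat_lit 386)))) (n (nat_lit 311) (b (l (nat_lit 5) (nat_lit 310) (nat_lit 336)) (l (nat_lit 5) (nat_lit 285) (nat_lit 286)))))) (n (nat_lit 285) (b (n (nat_lit 286) (b (l (nat_lit 5) (nat_lit 285) (nat_lit 311)) (l (nat_lit 5) (nat_lit 260) (nat_lit 261)))) (n (nat_lit 284) (b (l (nat_lit 7) (nat_lit 284) (nat_lit 309)) (l (nat_lit 7) (nat_lit 259) (nat_lit 259))))))) (n (nat_lit 285) (b (n (nat_lit 386) (b (l (nat_lit 4) (nat_lit 310) (nat_lit 411)) (l (nat_lit 4) (nat_lit 285) (nat_lit 361)))) (n (nat_lit 284) (b (l (nat_lit 7) (nat_lit 284) (nat_lit 309)) (l (nat_lit 7) (nat_lit 259) (nat_lit 259))))))))) (b (n (nat_lit 384) (b (n (nat_lit 409) (b (n (nat_lit 434) (b (l (nat_lit 5) (nat_lit 359) (nat_lit 459)) (l (nat_lit 5) (nat_lit 334) (nat_lit 359)))) (l (nat_lit 6) (nat_lit 309) (nat_lit 310)))) (n (nat_lit 361) (b (n (nat_lit 383) (b (l (nat_lit 1) (nat_lit 358) (nat_lit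 386)) (l (nat_lit 1) (nat_lit 357) (nat_lit 382)))) (l (nat_lit 2) (nat_lit 359) (nat_lit 363)))))) (n (nat_lit 310) (b (b (n (nat_lit 285) (b (n (nat_lit 286) (b (l (nat_lit 5) (nat_lit 285) (nat_lit 311)) (l (nat_lit 5) (nat_lit 260) (nat_lit 261)))) (n (nat_lit 384) (b (l (nat_lit 6) (nat_lit 284) (nat_lit 359)) (l (nat_lit 6) (nat_lit 309) (nat_lit 409)))))) (n (nat_lit 410) (b (n (nat_lit 411) (b (l (nat_lit 4) (nat_lit 335) (nat_lit 436)) (l (nat_lit 4) (nat_lit 310) (nat_lit 386)))) (n (nat_lit 409) (b (l (nat_lit 6) (nat_lit 334) (nat_lit 434)) (l (nat_lit 6) (nat_lit 309) (nat_lit 384))))))) (n (nat_lit 410) (b (n (nat_lit 411) (b (l (nat_lit 4) (nat_lit 335) (nat_lit 436)) (l (nat_lit 4) (nat_lit 310) (nat_lit 386)))) (n (nat_lit 311) (b (l (nat_lit 5) (nat_lit 310) (nat_lit 336)) (l (nat_lit 5) (nat_lit 285) (nat_lit 286)))))))))) (n (nat_lit 361) (b (n (nat_lit 410) (b (b (n (nat_lit 435) (b (n (nat_lit 434) (b (l (nat_lit 6) (nat_lit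 334) (nat_lit 409)) (l (nat_lit 6) (nat_lit 359) (nat_lit 459)))) (n (nat_lit 436) (b (l (nat_lit 4) (nat_lit 335) (nat_lit 411)) (l (nat_lit 4) (nat_lit 360) (nat_lit 461)))))) (n (nat_lit 411) (b (n (nat_lit 336) (b (l (nat_lit 5) (nat_lit 310) (nat_lit 311)) (l (nat_lit 5) (nat_lit 311) (nat_lit 386)))) (l (nat_lit 4) (nat_lit 335) (nat_lit 436))))) (n (nat_lit 336) (b (l (nat_lit 5) (nat_lit 335) (nat_lit 435)) (l (nat_lit 5) (nat_lit 310) (nat_lit 311)))))) (n (nat_lit 384) (b (n (nat_lit 383) (b (l (nat_lit 1) (nat_lit 357) (nat_lit 382)) (l (nat_lit 2) (nat_lit 358) (nat_lit 359)))) (l (nat_lit 2) (nat_lit 359) (nat_lit 363))))))))) (b (n (nat_lit 334) (b (b (n (nat_lit 385) (b (b (n (nat_lit 309) (b (n (nat_lit 284) (b (l (nat_lit 4) (nat_lit 284) (nat_lit 359)) (l (nat_lit 4) (nat_lit 259) (nat_lit 259)))) (l (nat_lit 7) (nat_lit 309) (nat_lit 410)))) (n (nat_lit 410) (b (b (n (nat_lit 310) (b (n (nat_lit 411) (b (l (nat_lit 4) (nat_lit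 335) (nat_lit 436)) (l (nat_lit 4) (nat_lit 310) (nat_lit 386)))) (n (nat_lit 409) (b (l (nat_lit 6) (nat_lit 334) (nat_lit 434)) (l (nat_lit 6) (nat_lit 309) (nat_lit 384)))))) (n (nat_lit 435) (b (n (nat_lit 436) (b (l (nat_lit 4) (nat_lit 335) (nat_lit 411)) (l (nat_lit 4) (nat_lit 360) (nat_lit 461)))) (l (nat_lit 7) (nat_lit 334) (nat_lit 359))))) (n (nat_lit 435) (b (n (nat_lit 434) (b (l (nat_lit 6) (nat_lit 334) (nat_lit 409)) (l (nat_lit 6) (nat_lit 359) (nat_lit 459)))) (l (nat_lit 7) (nat_lit 334) (nat_lit 359))))))) (b (n (nat_lit 309) (b (n (nat_lit 284) (b (l (nat_lit 4) (nat_lit 259) (nat_lit 259)) (l (nat_lit 7) (nat_lit 284) (nat_lit 310)))) (l (nat_lit 7) (nat_lit 309) (nat_lit 410)))) (n (nat_lit 310) (b (n (nat_lit 311) (b (l (nat_lit 5) (nat_lit 285) (nat_lit 286)) (l (nat_lit 2) (nat_lit 309) (nat_lit 313)))) (n (nat_lit 285) (b (n (nat_lit 284) (b (l (nat_lit 7) (nat_lit 284) (nat_lit 309)) (l (nat_lit 7) (nat_lit 259) (nat_lit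 259)))) (n (nat_lit 384) (b (l (nat_lit 6) (nat_lit 284) (nat_lit 359)) (l (nat_lit 6) (nat_lit 309) (nat_lit 409))))))))))) (n (nat_lit 361) (b (n (nat_lit 310) (b (n (nat_lit 311) (b (n (nat_lit 333) (b (l (nat_lit 2) (nat_lit 308) (nat_lit 309)) (l (nat_lit 0) (nat_lit 332) (nat_lit 332)))) (l (nat_lit 2) (nat_lit 309) (nat_lit 313)))) (n (nat_lit 386) (b (n (nat_lit 411) (b (l (nat_lit 4) (nat_lit 310) (nat_lit 385)) (l (nat_lit 5) (nat_lit 336) (nat_lit 436)))) (l (nat_lit 4) (nat_lit 285) (nat_lit 285)))))) (l (nat_lit 3) (nat_lit 334) (nat_lit 363))))) (n (nat_lit 361) (b (n (nat_lit 333) (b (l (nat_lit 0) (nat_lit 332) (nat_lit 332)) (l (nat_lit 3) (nat_lit 333) (nat_lit 359)))) (l (nat_lit 3) (nat_lit 334) (nat_lit 363)))))) (n (nat_lit 334) (b (b (n (nat_lit 363) (b (l (nat_lit 0) (nat_lit 334) (nat_lit 336)) (l (nat_lit 3) (nat_lit 334) (nat_lit 361)))) (n (nat_lit 309) (b (n (nat_lit 385) (b (n (nat_lit 284) (b (l (nat_lit 4) (nat_lit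 259) (nat_lit 259)) (l (nat_lit 7) (nat_lit 284) (nat_lit 310)))) (l (nat_lit 7) (nat_lit 309) (nat_lit 410)))) (n (nat_lit 336) (b (l (nat_lit 3) (nat_lit 308) (nat_lit 308)) (l (nat_lit 1) (nat_lit 309) (nat_lit 313))))))) (n (nat_lit 361) (b (n (nat_lit 310) (b (n (nat_lit 311) (b (n (nat_lit 333) (b (l (nat_lit 2) (nat_lit 308) (nat_lit 309)) (l (nat_lit 0) (nat_lit 332) (nat_lit 332)))) (l (nat_lit 2) (nat_lit 309) (nat_lit 313)))) (n (nat_lit 386) (b (n (nat_lit 411) (b (l (nat_lit 4) (nat_lit 310) (nat_lit 385)) (l (nat_lit 5) (nat_lit 336) (nat_lit 436)))) (l (nat_lit 4) (nat_lit 285) (nat_lit 285)))))) (l (nat_lit 3) (nat_lit 334) (nat_lit 363)))))))) (b (n (nat_lit 334) (b (b (n (nat_lit 361) (b (n (nat_lit 333) (b (l (nat_lit 0) (nat_lit 332) (nat_lit 332)) (l (nat_lit 3) (nat_lit 333) (nat_lit 359)))) (l (nat_lit 3) (nat_lit 334) (nat_lit 363)))) (n (nat_lit 336) (b (l (nat_lit 0) (nat_lit 334) (nat_lit 363)) (l (nat_lit 1) (nat_lit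 309) (nat_lit 313))))) (n (nat_lit 333) (b (n (nat_lit 361) (b (l (nat_lit 3) (nat_lit 333) (nat_lit 359)) (l (nat_lit 0) (nat_lit 332) (nat_lit 332)))) (n (nat_lit 336) (b (l (nat_lit 1) (nat_lit 308) (nat_lit 311)) (l (nat_lit 1) (nat_lit 309) (nat_lit 313)))))))) (n (nat_lit 334) (b (b (r (nat_lit 0)) (n (nat_lit 309) (b (n (nat_lit 385) (b (n (nat_lit 284) (b (l (nat_lit 4) (nat_lit 259) (nat_lit 259)) (l (nat_lit 7) (nat_lit 284) (nat_lit 310)))) (l (nat_lit 7) (nat_lit 309) (nat_lit 410)))) (n (nat_lit 336) (b (l (nat_lit 3) (nat_lit 308) (nat_lit 308)) (l (nat_lit 1) (nat_lit 309) (nat_lit 313))))))) (n (nat_lit 336) (b (n (nat_lit 333) (b (l (nat_lit 0) (nat_lit 333) (nat_lit 361)) (l (nat_lit 1) (nat_lit 308) (nat_lit 311)))) (l (nat_lit 1) (nat_lit 309) (nat_lit 313)))))))))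
    (envOK_cons p3887 envOK_nil) (by decide +kernel)

theorem p4245 : Fam (nat_lit 9) (nat_lit 11742713193837267255372288369681979563487487234560234174682187175834565351678306670384416995160678701306216448) (nat_lit 10419960971844299219538210361862126048548136726951506518631042592750380309143790121292010195847415047630857650935096809227655687943078543360) (nat_lit 10419960971844299219538210361862126048548136726951506518631042592750380309143790121292010195847415047630857650935096809227655687943078543360) :=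
  chk_sound (Env.cons (nat_lit 7) (nat_lit 157608041225376276234041527852464952425963219767174394235719422899211550310089638721900066785550823866294092135661568) (nat_lit 10419960262040836370814191997138932260871291962961508957654382524050278383348554574331086131114077815344237872707428225633511752519657717760) Env.nil)
    (n (nat_lit 361) (b (b (n (nat_lit 310) (b (b (b (n (nat_lit 311) (b (b (n (nat_lit 338) (b (n (nat_lit 339) (b (l (nat_lit 3) (nat_lit 310) (nat_lit 336)) (l (nat_lit 2) (nat_lit 336) (nat_lit 340)))) (l (nat_lit 0) (nat_lit 309) (nat_lit 309)))) (n (nat_lit 313) (b (n (nat_lit 338) (b (n (nat_lit 288) (b (l (nat_lit 1) (nat_lit 285) (nat_lit 289)) (l (nat_lit 6) (nat_lit 262) (nat_lit 263)))) (l (nat_lit 0) (nat_lit 310) (nat_lit 339)))) (n (nat_lit 286) (b (n (nat_lit 261) (b (l (nat_lit 4) (nat_lit 261) (nat_lit 336)) (l (nat_lit 4) (nat_lit 236) (nat_lit 236)))) (n (nat_lit 335) (b (l (nat_lit 5) (nat_lit 285) (nat_lit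 385)) (l (nat_lit 2) (nat_lit 309) (nat_lit 334))))))))) (b (n (nat_lit 335) (b (n (nat_lit 334) (b (n (nat_lit 333) (b (l (nat_lit 1) (nat_lit 307) (nat_lit 332)) (l (nat_lit 2) (nat_lit 308) (nat_lit 309)))) (l (nat_lit 2) (nat_lit 309) (nat_lit 313)))) (n (nat_lit 286) (b (n (nat_lit 261) (b (l (nat_lit 6) (nat_lit 235) (nat_lit 236)) (l (nat_lit 6) (nat_lit 260) (nat_lit 336)))) (l (nat_lit 5) (nat_lit 285) (nat_lit 385)))))) (n (nat_lit 338) (b (n (nat_lit 339) (b (l (nat_lit 0) (nat_lit 310) (nat_lit 313)) (l (nat_lit 2) (nat_lit 336) (nat_lit 340)))) (l (nat_lit 0) (nat_lit 309) (nat_lit 309))))))) (n (nat_lit 386) (b (b (n (nat_lit 335) (b (n (nat_lit 411) (b (l (nat_lit 4) (nat_lit 310) (nat_lit 385)) (l (nat_lit 5) (nat_lit 336) (nat_lit 436)))) (l (nat_lit 4) (nat_lit 285) (nat_lit 285)))) (n (nat_lit 411) (b (l (nat_lit 5) (nat_lit 311) (nat_lit 336)) (l (nat_lit 5) (nat_lit 336) (nat_lit 436))))) (n (nat_lit 285) (b (n (nat_lit 311)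 (b (n (nat_lit 284) (b (n (nat_lit 283) (b (l (nat_lit 0) (nat_lit 283) (nat_lit 286)) (l (nat_lit 0) (nat_lit 282) (nat_lit 282)))) (l (nat_lit 3) (nat_lit 284) (nat_lit 313)))) (l (nat_lit 7) (nat_lit 285) (nat_lit 336)))) (l (nat_lit 4) (nat_lit 285) (nat_lit 335))))))) (b (n (nat_lit 336) (b (b (n (nat_lit 386) (b (n (nat_lit 285) (b (l (nat_lit 7) (nat_lit 285) (nat_lit 311)) (l (nat_lit 4) (nat_lit 285) (nat_lit 335)))) (l (nat_lit 5) (nat_lit 311) (nat_lit 411)))) (n (nat_lit 338) (b (n (nat_lit 309) (b (l (nat_lit 3) (nat_lit 309) (nat_lit 335)) (l (nat_lit 0) (nat_lit 309) (nat_lit 311)))) (l (nat_lit 2) (nat_lit 335) (nat_lit 339))))) (b (n (nat_lit 311) (b (n (nat_lit 386) (b (l (nat_lit 5) (nat_lit 311) (nat_lit 411)) (l (nat_lit 7) (nat_lit 285) (nat_lit 285)))) (n (nat_lit 338) (b (l (nat_lit 2) (nat_lit 335) (nat_lit 339)) (l (nat_lit 0) (nat_lit 309) (nat_lit 309)))))) (n (nat_lit 335) (b (n (nat_lit 338) (b (l (nat_lit 3) (nat_lit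 309) (nat_lit 309)) (l (nat_lit 2) (nat_lit 335) (nat_lit 339)))) (n (nat_lit 285) (b (l (nat_lit 4) (nat_lit 285) (nat_lit 386)) (l (nat_lit 4) (nat_lit 260) (nat_lit 260))))))))) (n (nat_lit 335) (b (n (nat_lit 336) (b (n (nat_lit 334) (b (l (nat_lit 1) (nat_lit 309) (nat_lit 313)) (l (nat_lit 0) (nat_lit 333) (nat_lit 333)))) (n (nat_lit 338) (b (l (nat_lit 3) (nat_lit 309) (nat_lit 309)) (l (nat_lit 2) (nat_lit 335) (nat_lit 339)))))) (n (nat_lit 386) (b (n (nat_lit 411) (b (l (nat_lit 4) (nat_lit 310) (nat_lit 385)) (l (nat_lit 5) (nat_lit 336) (nat_lit 436)))) (l (nat_lit 4) (nat_lit 285) (nat_lit 285)))))))) (b (n (nat_lit 311) (b (n (nat_lit 336) (b (n (nat_lit 286) (b (l (nat_lit 6) (nat_lit 285) (nat_lit 385)) (l (nat_lit 4) (nat_lit 261) (nat_lit 261)))) (n (nat_lit 386) (b (l (nat_lit 5) (nat_lit 311) (nat_lit 411)) (l (nat_lit 7) (nat_lit 285) (nat_lit 285)))))) (n (nat_lit 338) (b (n (nat_lit 339) (b (l (nat_lit 0) (nat_lit 310)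 (nat_lit 313)) (l (nat_lit 2) (nat_lit 336) (nat_lit 340)))) (l (nat_lit 0) (nat_lit 309) (nat_lit 309)))))) (n (nat_lit 335) (b (b (n (nat_lit 385) (b (n (nat_lit 384) (b (n (nat_lit 386) (b (l (nat_lit 1) (nat_lit 358) (nat_lit 383)) (l (nat_lit 4) (nat_lit 310) (nat_lit 411)))) (l (nat_lit 6) (nat_lit 309) (nat_lit 409)))) (n (nat_lit 309) (b (n (nat_lit 311) (b (l (nat_lit 0) (nat_lit 309) (nat_lit 338)) (l (nat_lit 5) (nat_lit 285) (nat_lit 286)))) (l (nat_lit 7) (nat_lit 284) (nat_lit 284)))))) (n (nat_lit 311) (b (n (nat_lit 313) (b (n (nat_lit 338) (b (l (nat_lit 0) (nat_lit 310) (nat_lit 339)) (l (nat_lit 0) (nat_lit 309) (nat_lit 309)))) (l (nat_lit 2) (nat_lit 309) (nat_lit 334)))) (n (nat_lit 286) (b (n (nat_lit 261) (b (l (nat_lit 6) (nat_lit 235) (nat_lit 236)) (l (nat_lit 5) (nat_lit 260) (nat_lit 285)))) (l (nat_lit 5) (nat_lit 285) (nat_lit 385))))))) (b (n (nat_lit 386) (b (n (nat_lit 411) (b (l (nat_lit 4) (nat_lit 310) (nat_lit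 385)) (l (nat_lit 5) (nat_lit 336) (nat_lit 436)))) (l (nat_lit 4) (nat_lit 285) (nat_lit 285)))) (n (nat_lit 311) (b (b (n (nat_lit 285) (b (n (nat_lit 313) (b (l (nat_lit 3) (nat_lit 284) (nat_lit 284)) (l (nat_lit 2) (nat_lit 309) (nat_lit 334)))) (l (nat_lit 4) (nat_lit 285) (nat_lit 386)))) (n (nat_lit 284) (b (n (nat_lit 285) (b (l (nat_lit 4) (nat_lit 285) (nat_lit 386)) (l (nat_lit 7) (nat_lit 259) (nat_lit 259)))) (n (nat_lit 309) (b (l (nat_lit 3) (nat_lit 283) (nat_lit 283)) (l (nat_lit 0) (nat_lit 309) (nat_lit 338))))))) (n (nat_lit 313) (b (n (nat_lit 338) (b (l (nat_lit 0) (nat_lit 310) (nat_lit 339)) (l (nat_lit 0) (nat_lit 309) (nat_lit 309)))) (l (nat_lit 2) (nat_lit 309) (nat_lit 334)))))))))))) (n (nat_lit 363) (b (b (n (nat_lit 364) (b (n (nat_lit 389) (b (l (nat_lit 0) (nat_lit 360) (nat_lit 388)) (l (nat_lit 0) (nat_lit 361) (nat_lit 390)))) (n (nat_lit 335) (b (l (nat_lit 3) (nat_lit 334) (nat_lit 334)) (l (nat_lit 3) (nat_lit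 335) (nat_lit 336)))))) (n (nat_lit 338) (b (n (nat_lit 388) (b (l (nat_lit 0) (nat_lit 360) (nat_lit 389)) (l (nat_lit 7) (nat_lit 312) (nat_lit 413)))) (l (nat_lit 1) (nat_lit 335) (nat_lit 339))))) (n (nat_lit 364) (b (n (nat_lit 335) (b (l (nat_lit 3) (nat_lit 334) (nat_lit 334)) (l (nat_lit 3) (nat_lit 335) (nat_lit 336)))) (n (nat_lit 339) (b (l (nat_lit 1) (nat_lit 336) (nat_lit 340)) (l (nat_lit 1) (nat_lit 335) (nat_lit 338))))))))) (b (n (nat_lit 363) (b (b (n (nat_lit 388) (b (n (nat_lit 413) (b (l (nat_lit 7) (nat_lit 337) (nat_lit 438)) (l (nat_lit 7) (nat_lit 312) (nat_lit 338)))) (l (nat_lit 0) (nat_lit 360) (nat_lit 389)))) (n (nat_lit 364) (b (n (nat_lit 389) (b (l (nat_lit 0) (nat_lit 360) (nat_lit 388)) (l (nat_lit 0) (nat_lit 361) (nat_lit 390)))) (n (nat_lit 385) (b (l (nat_lit 2) (nat_lit 360) (nat_lit 386)) (l (nat_lit 2) (nat_lit 359) (nat_lit 384))))))) (n (nat_lit 364) (b (n (nat_lit 339) (b (l (nat_lit 1) (nat_lit 336)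 (nat_lit 340)) (l (nat_lit 1) (nat_lit 335) (nat_lit 338)))) (n (nat_lit 385) (b (l (nat_lit 2) (nat_lit 360) (nat_lit 386)) (l (nat_lit 2) (nat_lit 359) (nat_lit 384)))))))) (n (nat_lit 386) (b (b (n (nat_lit 385) (b (b (n (nat_lit 335) (b (n (nat_lit 310) (b (n (nat_lit 384) (b (l (nat_lit 6) (nat_lit 309) (nat_lit 409)) (l (nat_lit 1) (nat_lit 358) (nat_lit 383)))) (l (nat_lit 4) (nat_lit 285) (nat_lit 285)))) (n (nat_lit 336) (b (n (nat_lit 334) (b (l (nat_lit 1) (nat_lit 309) (nat_lit 313)) (l (nat_lit 0) (nat_lit 333) (nat_lit 333)))) (n (nat_lit 410) (b (l (nat_lit 5) (nat_lit 310) (nat_lit 311)) (l (nat_lit 5) (nat_lit 335) (nat_lit 435)))))))) (n (nat_lit 363) (b (l (nat_lit 2) (nat_lit 359) (nat_lit 384)) (l (nat_lit 2) (nat_lit 360) (nat_lit 364))))) (n (nat_lit 363) (b (n (nat_lit 335) (b (n (nat_lit 410) (b (n (nat_lit 435) (b (n (nat_lit 434) (b (l (nat_lit 6) (nat_lit 334) (nat_lit 409)) (l (nat_lit 6) (nat_lit 359) (nat_lit 459))))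 (l (nat_lit 5) (nat_lit 360) (nat_lit 460)))) (n (nat_lit 311) (b (n (nat_lit 310) (b (l (nat_lit 5) (nat_lit 285) (nat_lit 286)) (l (nat_lit 4) (nat_lit 285) (nat_lit 285)))) (l (nat_lit 6) (nat_lit 310) (nat_lit 336)))))) (l (nat_lit 3) (nat_lit 334) (nat_lit 334)))) (l (nat_lit 2) (nat_lit 360) (nat_lit 364)))))) (n (nat_lit 411) (b (l (nat_lit 5) (nat_lit 311) (nat_lit 336)) (l (nat_lit 5) (nat_lit 336) (nat_lit 436))))) (r (nat_lit 0)))))))
    (envOK_cons p4101 envOK_nil) (by decide +kernel)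

theorem p4358 : Fam (nat_lit 7) (nat_lit 11742713193837267255372288369681979563487487234560234174682187175834565351678306670384416995160678701306216448) (nat_lit 221813584784449057195320036890545243605071918007199059195281595557492077818565865897066047348598960506049992601735695225943790452736) (nat_lit 221813584784449057195320036890545243605071918007199059195281595557492077818565865897066047348598960506049992601735695225943790452736) :=
  chk_sound Env.nil
    (n (nat_lit 359) (b (b (b (n (nat_lit 361) (b (b (n (nat_lit 334) (b (n (nat_lit 335) (b (n (nat_lit 309) (b (n (nat_lit 284) (b (l (nat_lit 4) (nat_lit 284) (nat_lit 385)) (l (nat_lit 4) (nat_lit 259) (nat_lit 259)))) (n (nat_lit 336) (b (l (nat_lit 3) (nat_lit 308) (nat_lit 308)) (l (nat_lit 1) (nat_lit 309) (nat_lit 313)))))) (n (nat_lit 384) (b (n (nat_lit 310) (b (l (nat_lit 5) (nat_lit 309) (nat_lit 409)) (l (nat_lit 6) (nat_lit 284) (nat_lit 285)))) (l (nat_lit 2) (nat_lit 358)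 (nat_lit 383)))))) (l (nat_lit 3) (nat_lit 333) (nat_lit 333)))) (n (nat_lit 358) (b (n (nat_lit 333) (b (l (nat_lit 3) (nat_lit 332) (nat_lit 332)) (l (nat_lit 3) (nat_lit 333) (nat_lit 334)))) (l (nat_lit 1) (nat_lit 333) (nat_lit 336))))) (b (n (nat_lit 358) (b (n (nat_lit 383) (b (l (nat_lit 2) (nat_lit 358) (nat_lit 384)) (l (nat_lit 2) (nat_lit 357) (nat_lit 382)))) (n (nat_lit 333) (b (l (nat_lit 3) (nat_lit 332) (nat_lit 332)) (l (nat_lit 3) (nat_lit 333) (nat_lit 334)))))) (n (nat_lit 358) (b (n (nat_lit 383) (b (l (nat_lit 2) (nat_lit 358) (nat_lit 384)) (l (nat_lit 2) (nat_lit 357) (nat_lit 382)))) (l (nat_lit 1) (nat_lit 333) (nat_lit 336))))))) (n (nat_lit 361) (b (n (nat_lit 334) (b (n (nat_lit 335) (b (n (nat_lit 309) (b (n (nat_lit 284) (b (l (nat_lit 4) (nat_lit 284) (nat_lit 385)) (l (nat_lit 4) (nat_lit 259) (nat_lit 259)))) (n (nat_lit 336) (b (l (nat_lit 3) (nat_lit 308) (nat_lit 308)) (l (nat_lit 1) (nat_lit 309) (nat_lit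 313)))))) (n (nat_lit 384) (b (n (nat_lit 310) (b (l (nat_lit 5) (nat_lit 309) (nat_lit 409)) (l (nat_lit 6) (nat_lit 284) (nat_lit 285)))) (l (nat_lit 2) (nat_lit 358) (nat_lit 383)))))) (l (nat_lit 3) (nat_lit 333) (nat_lit 333)))) (l (nat_lit 1) (nat_lit 334) (nat_lit 338))))) (b (n (nat_lit 361) (b (n (nat_lit 358) (b (n (nat_lit 333) (b (l (nat_lit 3) (nat_lit 332) (nat_lit 332)) (l (nat_lit 3) (nat_lit 333) (nat_lit 334)))) (l (nat_lit 1) (nat_lit 333) (nat_lit 336)))) (l (nat_lit 1) (nat_lit 334) (nat_lit 338)))) (n (nat_lit 361) (b (n (nat_lit 358) (b (n (nat_lit 383) (b (l (nat_lit 2) (nat_lit 358) (nat_lit 384)) (l (nat_lit 2) (nat_lit 357) (nat_lit 382)))) (n (nat_lit 333) (b (l (nat_lit 3) (nat_lit 332) (nat_lit 332)) (l (nat_lit 3) (nat_lit 333) (nat_lit 334)))))) (l (nat_lit 1) (nat_lit 334) (nat_lit 338)))))) (b (n (nat_lit 361) (b (n (nat_lit 358) (b (n (nat_lit 383) (b (l (nat_lit 2) (nat_lit 358) (nat_lit 384)) (l (nat_lit 2)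 (nat_lit 357) (nat_lit 382)))) (l (nat_lit 1) (nat_lit 333) (nat_lit 336)))) (l (nat_lit 1) (nat_lit 334) (nat_lit 338)))) (n (nat_lit 335) (b (b (n (nat_lit 310) (b (b (n (nat_lit 311) (b (n (nat_lit 313) (b (n (nat_lit 338) (b (l (nat_lit 0) (nat_lit 310) (nat_lit 339)) (l (nat_lit 0) (nat_lit 309) (nat_lit 309)))) (l (nat_lit 2) (nat_lit 309) (nat_lit 334)))) (n (nat_lit 286) (b (n (nat_lit 261) (b (l (nat_lit 6) (nat_lit 235) (nat_lit 236)) (l (nat_lit 5) (nat_lit 260) (nat_lit 285)))) (l (nat_lit 5) (nat_lit 285) (nat_lit 385)))))) (n (nat_lit 385) (b (n (nat_lit 410) (b (n (nat_lit 411) (b (l (nat_lit 4) (nat_lit 335) (nat_lit 436)) (l (nat_lit 4) (nat_lit 310) (nat_lit 386)))) (n (nat_lit 409) (b (l (nat_lit 6) (nat_lit 334) (nat_lit 434)) (l (nat_lit 6) (nat_lit 309) (nat_lit 384)))))) (n (nat_lit 309) (b (n (nat_lit 311) (b (l (nat_lit 0) (nat_lit 309) (nat_lit 338)) (l (nat_lit 5) (nat_lit 285) (nat_lit 286)))) (l (nat_lit 7) (nat_lit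 284) (nat_lit 284))))))) (n (nat_lit 384) (b (n (nat_lit 409) (b (l (nat_lit 5) (nat_lit 334) (nat_lit 434)) (l (nat_lit 5) (nat_lit 309) (nat_lit 334)))) (l (nat_lit 6) (nat_lit 284) (nat_lit 285)))))) (n (nat_lit 336) (b (n (nat_lit 358) (b (l (nat_lit 1) (nat_lit 332) (nat_lit 357)) (l (nat_lit 2) (nat_lit 333) (nat_lit 334)))) (l (nat_lit 2) (nat_lit 334) (nat_lit 338))))) (b (n (nat_lit 310) (b (b (n (nat_lit 311) (b (b (n (nat_lit 338) (b (l (nat_lit 0) (nat_lit 309) (nat_lit 309)) (l (nat_lit 2) (nat_lit 334) (nat_lit 336)))) (n (nat_lit 286) (b (n (nat_lit 261) (b (l (nat_lit 6) (nat_lit 235) (nat_lit 236)) (l (nat_lit 6) (nat_lit 260) (nat_lit 336)))) (l (nat_lit 5) (nat_lit 285) (nat_lit 385))))) (n (nat_lit 385) (b (n (nat_lit 309) (b (l (nat_lit 0) (nat_lit 309) (nat_lit 338)) (l (nat_lit 7) (nat_lit 284) (nat_lit 284)))) (l (nat_lit 5) (nat_lit 285) (nat_lit 286)))))) (n (nat_lit 384) (b (n (nat_lit 409) (b (l (nat_lit 5) (nat_lit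 334) (nat_lit 434)) (l (nat_lit 6) (nat_lit 309) (nat_lit 385)))) (l (nat_lit 6) (nat_lit 284) (nat_lit 285))))) (n (nat_lit 285) (b (n (nat_lit 311) (b (n (nat_lit 338) (b (l (nat_lit 0) (nat_lit 309) (nat_lit 309)) (l (nat_lit 2) (nat_lit 334) (nat_lit 336)))) (n (nat_lit 284) (b (l (nat_lit 3) (nat_lit 284) (nat_lit 313)) (l (nat_lit 7) (nat_lit 259) (nat_lit 259)))))) (l (nat_lit 6) (nat_lit 284) (nat_lit 384)))))) (n (nat_lit 334) (b (b (n (nat_lit 310) (b (n (nat_lit 385) (b (n (nat_lit 311) (b (l (nat_lit 5) (nat_lit 285) (nat_lit 286)) (l (nat_lit 2) (nat_lit 309) (nat_lit 313)))) (n (nat_lit 309) (b (l (nat_lit 7) (nat_lit 309) (nat_lit 410)) (l (nat_lit 4) (nat_lit 284) (nat_lit 284)))))) (n (nat_lit 285) (b (l (nat_lit 6) (nat_lit 284) (nat_lit 384)) (l (nat_lit 6) (nat_lit 259) (nat_lit 260)))))) (n (nat_lit 336) (b (l (nat_lit 2) (nat_lit 333) (nat_lit 358)) (l (nat_lit 1) (nat_lit 309) (nat_lit 313))))) (n (nat_lit 309) (b (n (nat_lit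 284) (b (l (nat_lit 4) (nat_lit 284) (nat_lit 385)) (l (nat_lit 4) (nat_lit 259) (nat_lit 259)))) (n (nat_lit 336) (b (l (nat_lit 3) (nat_lit 308) (nat_lit 308)) (l (nat_lit 2) (nat_lit 333) (nat_lit 358))))))))))))))
    envOK_nil (by decide +kernel)

theorem p4359 : Fam (nat_lit 14) (nat_lit 9394170611063434027482807772892642536111804685651914303974896204302356326563698226920717996775909998274281472) (nat_lit 8379880330823960389401311452470863966403315755722867405880724610429141858800201343250009818064560614126391866369239860248819337322503618970132201141698560) (nat_lit 8379880330823960389401311452470863966403315755722867405880724610429141858800201343250009818064560614126391866369239860248819337322503618970132201141698560) :=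
  chk_sound (Env.cons (nat_lit 13) (nat_lit 11742713193837267255372288369681979563487487234560234174682187175834565351678306670384416995160678701306216448) (nat_lit 8379880330823960389401311452470863966403315751025782227209553805950609378586431107170840965740925160735460562833818281873613501565323247662292778866442240) (Env.cons (nat_lit 7) (nat_lit 157608041225376276234041527852464952425963219767174394235719422899211550310089638721900066785550823866294092135661568) (nat_lit 10419960262040836370814191997138932260871291962961508957654382524050278383348554574331086131114077815344237872707428225633511752519657717760) (Env.cons (nat_lit 12) (nat_lit 11742713193837267255372288369681979563487487234560234174682187175834565351678306670384416995160678701306216448) (nat_lit 8187111723186089803909181357492920038272917599403569628846466318023160743199892417260341115078262673060919390318526994993447317531617394688) (Env.cons (nat_lit 9) (nat_lit 11742713193837267255372288369681979563487487234560234174682187175834565351678306670384416995160678701306216448)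 (nat_lit 10419960971844299219538210361862126048548136726951506518631042592750380309143790121292010195847415047630857650935096809227655687943078543360) (Env.cons (nat_lit 7) (nat_lit 11742713193837267255372288369681979563487487234560234174682187175834565351678306670384416995160678701306216448) (nat_lit 221813584784449057195320036890545243605071918007199059195281595557492077818565865897066047348598960506049992601735695225943790452736) Env.nil)))))
    (n (nat_lit 360) (b (b (b (b (n (nat_lit 361) (b (b (n (nat_lit 363) (b (b (n (nat_lit 364) (b (n (nat_lit 389) (b (l (nat_lit 0) (nat_lit 360) (nat_lit 388)) (l (nat_lit 0) (nat_lit 361) (nat_lit 390)))) (n (nat_lit 335) (b (l (nat_lit 3) (nat_lit 334) (nat_lit 334)) (l (nat_lit 3) (nat_lit 335) (nat_lit 336)))))) (n (nat_lit 338) (b (n (nat_lit 388) (b (l (nat_lit 0) (nat_lit 360) (nat_lit 389)) (l (nat_lit 7) (nat_lit 312) (nat_lit 413)))) (l (nat_lit 1) (nat_lit 335) (nat_lit 339))))) (n (nat_lit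 364) (b (n (nat_lit 335) (b (l (nat_lit 3) (nat_lit 334) (nat_lit 334)) (l (nat_lit 3) (nat_lit 335) (nat_lit 336)))) (n (nat_lit 339) (b (l (nat_lit 1) (nat_lit 336) (nat_lit 340)) (l (nat_lit 1) (nat_lit 335) (nat_lit 338)))))))) (n (nat_lit 338) (b (n (nat_lit 339) (b (l (nat_lit 1) (nat_lit 335) (nat_lit 363)) (l (nat_lit 2) (nat_lit 336) (nat_lit 340)))) (l (nat_lit 1) (nat_lit 334) (nat_lit 359))))) (b (n (nat_lit 338) (b (n (nat_lit 339) (b (l (nat_lit 2) (nat_lit 335) (nat_lit 336)) (l (nat_lit 2) (nat_lit 336) (nat_lit 340)))) (l (nat_lit 1) (nat_lit 334) (nat_lit 359)))) (n (nat_lit 386) (b (b (n (nat_lit 335) (b (n (nat_lit 310) (b (n (nat_lit 411) (b (l (nat_lit 4) (nat_lit 310) (nat_lit 385)) (l (nat_lit 7) (nat_lit 335) (nat_lit 436)))) (l (nat_lit 4) (nat_lit 285) (nat_lit 285)))) (n (nat_lit 334) (b (n (nat_lit 333) (b (l (nat_lit 0) (nat_lit 332) (nat_lit 332)) (l (nat_lit 3) (nat_lit 333) (nat_lit 359)))) (l (nat_lit 3) (nat_lit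 334) (nat_lit 363)))))) (n (nat_lit 411) (b (l (nat_lit 5) (nat_lit 311) (nat_lit 336)) (l (nat_lit 5) (nat_lit 336) (nat_lit 436))))) (n (nat_lit 359) (b (b (n (nat_lit 363) (b (n (nat_lit 385) (b (l (nat_lit 2) (nat_lit 359) (nat_lit 384)) (l (nat_lit 2) (nat_lit 360) (nat_lit 364)))) (n (nat_lit 334) (b (l (nat_lit 3) (nat_lit 333) (nat_lit 333)) (l (nat_lit 3) (nat_lit 334) (nat_lit 335)))))) (n (nat_lit 358) (b (n (nat_lit 333) (b (l (nat_lit 3) (nat_lit 332) (nat_lit 332)) (l (nat_lit 3) (nat_lit 333) (nat_lit 334)))) (l (nat_lit 1) (nat_lit 333) (nat_lit 336))))) (n (nat_lit 385) (b (n (nat_lit 363) (b (l (nat_lit 2) (nat_lit 359) (nat_lit 384)) (l (nat_lit 2) (nat_lit 360) (nat_lit 364)))) (n (nat_lit 358) (b (l (nat_lit 0) (nat_lit 357) (nat_lit 357)) (l (nat_lit 1) (nat_lit 333) (nat_lit 336))))))))))))) (r (nat_lit 0))) (b (n (nat_lit 361) (b (b (n (nat_lit 338) (b (n (nat_lit 339) (b (l (nat_lit 1) (nat_lit 335) (nat_lit 363)) (l (nat_lit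 2) (nat_lit 336) (nat_lit 340)))) (l (nat_lit 1) (nat_lit 334) (nat_lit 359)))) (n (nat_lit 359) (b (n (nat_lit 358) (b (n (nat_lit 383) (b (l (nat_lit 2) (nat_lit 358) (nat_lit 384)) (l (nat_lit 2) (nat_lit 357) (nat_lit 382)))) (l (nat_lit 1) (nat_lit 333) (nat_lit 336)))) (l (nat_lit 1) (nat_lit 334) (nat_lit 338))))) (n (nat_lit 386) (b (b (r (nat_lit 1)) (n (nat_lit 411) (b (l (nat_lit 5) (nat_lit 311) (nat_lit 336)) (l (nat_lit 5) (nat_lit 336) (nat_lit 436))))) (n (nat_lit 385) (b (b (n (nat_lit 363) (b (n (nat_lit 335) (b (n (nat_lit 410) (b (n (nat_lit 435) (b (n (nat_lit 434) (b (l (nat_lit 6) (nat_lit 334) (nat_lit 409)) (l (nat_lit 6) (nat_lit 359) (nat_lit 459)))) (l (nat_lit 5) (nat_lit 360) (nat_lit 460)))) (n (nat_lit 311) (b (n (nat_lit 310) (b (l (nat_lit 5) (nat_lit 285) (nat_lit 286)) (l (nat_lit 4) (nat_lit 285) (nat_lit 285)))) (l (nat_lit 6) (nat_lit 310) (nat_lit 336)))))) (l (nat_lit 3) (nat_lit 334) (nat_lit 334)))) (l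 (nat_lit 2) (nat_lit 360) (nat_lit 364)))) (n (nat_lit 384) (b (l (nat_lit 1) (nat_lit 358) (nat_lit 383)) (l (nat_lit 2) (nat_lit 359) (nat_lit 363))))) (n (nat_lit 384) (b (n (nat_lit 335) (b (b (n (nat_lit 310) (b (l (nat_lit 4) (nat_lit 285) (nat_lit 285)) (l (nat_lit 6) (nat_lit 309) (nat_lit 409)))) (n (nat_lit 336) (b (n (nat_lit 309) (b (n (nat_lit 310) (b (l (nat_lit 4) (nat_lit 285) (nat_lit 285)) (l (nat_lit 7) (nat_lit 284) (nat_lit 284)))) (n (nat_lit 334) (b (l (nat_lit 3) (nat_lit 308) (nat_lit 308)) (l (nat_lit 1) (nat_lit 309) (nat_lit 313)))))) (n (nat_lit 311) (b (l (nat_lit 6) (nat_lit 285) (nat_lit 286)) (l (nat_lit 5) (nat_lit 310) (nat_lit 410))))))) (n (nat_lit 410) (b (n (nat_lit 435) (b (n (nat_lit 434) (b (l (nat_lit 6) (nat_lit 334) (nat_lit 409)) (l (nat_lit 6) (nat_lit 359) (nat_lit 459)))) (l (nat_lit 5) (nat_lit 360) (nat_lit 460)))) (n (nat_lit 336) (b (n (nat_lit 334) (b (l (nat_lit 1) (nat_lit 309) (nat_lit 313))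 (l (nat_lit 7) (nat_lit 309) (nat_lit 309)))) (l (nat_lit 6) (nat_lit 310) (nat_lit 311)))))))) (l (nat_lit 1) (nat_lit 358) (nat_lit 383)))))))))) (r (nat_lit 2)))) (b (b (r (nat_lit 3)) (n (nat_lit 361) (b (b (n (nat_lit 363) (b (b (n (nat_lit 364) (b (n (nat_lit 389) (b (l (nat_lit 0) (nat_lit 360) (nat_lit 388)) (l (nat_lit 0) (nat_lit 361) (nat_lit 390)))) (n (nat_lit 335) (b (l (nat_lit 3) (nat_lit 334) (nat_lit 334)) (l (nat_lit 3) (nat_lit 335) (nat_lit 336)))))) (n (nat_lit 338) (b (n (nat_lit 388) (b (l (nat_lit 0) (nat_lit 360) (nat_lit 389)) (l (nat_lit 7) (nat_lit 312) (nat_lit 413)))) (l (nat_lit 1) (nat_lit 335) (nat_lit 339))))) (n (nat_lit 364) (b (n (nat_lit 335) (b (l (nat_lit 3) (nat_lit 334) (nat_lit 334)) (l (nat_lit 3) (nat_lit 335) (nat_lit 336)))) (n (nat_lit 339) (b (l (nat_lit 1) (nat_lit 336) (nat_lit 340)) (l (nat_lit 1) (nat_lit 335) (nat_lit 338)))))))) (n (nat_lit 338) (b (n (nat_lit 339) (b (l (nat_lit 1) (nat_lit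 335) (nat_lit 363)) (l (nat_lit 2) (nat_lit 336) (nat_lit 340)))) (l (nat_lit 1) (nat_lit 334) (nat_lit 359))))) (b (n (nat_lit 359) (b (n (nat_lit 358) (b (n (nat_lit 383) (b (l (nat_lit 2) (nat_lit 358) (nat_lit 384)) (l (nat_lit 2) (nat_lit 357) (nat_lit 382)))) (n (nat_lit 333) (b (l (nat_lit 3) (nat_lit 332) (nat_lit 332)) (l (nat_lit 3) (nat_lit 333) (nat_lit 334)))))) (l (nat_lit 1) (nat_lit 334) (nat_lit 338)))) (n (nat_lit 359) (b (b (n (nat_lit 358) (b (n (nat_lit 333) (b (l (nat_lit 3) (nat_lit 332) (nat_lit 332)) (l (nat_lit 3) (nat_lit 333) (nat_lit 334)))) (l (nat_lit 1) (nat_lit 333) (nat_lit 336)))) (n (nat_lit 358) (b (n (nat_lit 383) (b (l (nat_lit 2) (nat_lit 358) (nat_lit 384)) (l (nat_lit 2) (nat_lit 357) (nat_lit 382)))) (n (nat_lit 333) (b (l (nat_lit 3) (nat_lit 332) (nat_lit 332)) (l (nat_lit 3) (nat_lit 333) (nat_lit 334))))))) (b (n (nat_lit 358) (b (n (nat_lit 383) (b (l (nat_lit 2) (nat_lit 358) (nat_lit 384)) (l (nat_lit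 2) (nat_lit 357) (nat_lit 382)))) (l (nat_lit 1) (nat_lit 333) (nat_lit 336)))) (n (nat_lit 334) (b (n (nat_lit 335) (b (n (nat_lit 310) (b (n (nat_lit 285) (b (l (nat_lit 4) (nat_lit 285) (nat_lit 386)) (l (nat_lit 6) (nat_lit 284) (nat_lit 384)))) (n (nat_lit 313) (b (l (nat_lit 2) (nat_lit 309) (nat_lit 311)) (l (nat_lit 1) (nat_lit 309) (nat_lit 336)))))) (l (nat_lit 3) (nat_lit 334) (nat_lit 363)))) (l (nat_lit 3) (nat_lit 333) (nat_lit 333))))))))))) (b (n (nat_lit 361) (b (b (n (nat_lit 338) (b (n (nat_lit 339) (b (l (nat_lit 1) (nat_lit 335) (nat_lit 363)) (l (nat_lit 2) (nat_lit 336) (nat_lit 340)))) (l (nat_lit 1) (nat_lit 334) (nat_lit 359)))) (n (nat_lit 359) (b (n (nat_lit 358) (b (n (nat_lit 383) (b (l (nat_lit 2) (nat_lit 358) (nat_lit 384)) (l (nat_lit 2) (nat_lit 357) (nat_lit 382)))) (n (nat_lit 333) (b (l (nat_lit 3) (nat_lit 332) (nat_lit 332)) (l (nat_lit 3) (nat_lit 333) (nat_lit 334)))))) (l (nat_lit 1) (nat_lit 334) (nat_lit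 338))))) (b (n (nat_lit 363) (b (b (n (nat_lit 388) (b (n (nat_lit 413) (b (l (nat_lit 7) (nat_lit 337) (nat_lit 438)) (l (nat_lit 7) (nat_lit 312) (nat_lit 338)))) (l (nat_lit 0) (nat_lit 360) (nat_lit 389)))) (n (nat_lit 364) (b (n (nat_lit 389) (b (l (nat_lit 0) (nat_lit 360) (nat_lit 388)) (l (nat_lit 0) (nat_lit 361) (nat_lit 390)))) (n (nat_lit 385) (b (l (nat_lit 2) (nat_lit 360) (nat_lit 386)) (l (nat_lit 2) (nat_lit 359) (nat_lit 384))))))) (n (nat_lit 364) (b (n (nat_lit 339) (b (l (nat_lit 1) (nat_lit 336) (nat_lit 340)) (l (nat_lit 1) (nat_lit 335) (nat_lit 338)))) (n (nat_lit 385) (b (l (nat_lit 2) (nat_lit 360) (nat_lit 386)) (l (nat_lit 2) (nat_lit 359) (nat_lit 384)))))))) (n (nat_lit 384) (b (b (n (nat_lit 385) (b (n (nat_lit 383) (b (l (nat_lit 1) (nat_lit 358) (nat_lit 386)) (l (nat_lit 1) (nat_lit 357) (nat_lit 382)))) (l (nat_lit 2) (nat_lit 359) (nat_lit 363)))) (n (nat_lit 359) (b (n (nat_lit 334) (b (n (nat_lit 335) (b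 (n (nat_lit 310) (b (l (nat_lit 5) (nat_lit 309) (nat_lit 409)) (l (nat_lit 6) (nat_lit 284) (nat_lit 285)))) (l (nat_lit 3) (nat_lit 334) (nat_lit 363)))) (l (nat_lit 3) (nat_lit 333) (nat_lit 333)))) (l (nat_lit 2) (nat_lit 358) (nat_lit 383))))) (b (n (nat_lit 334) (b (b (n (nat_lit 333) (b (n (nat_lit 335) (b (l (nat_lit 0) (nat_lit 332) (nat_lit 332)) (l (nat_lit 3) (nat_lit 334) (nat_lit 363)))) (l (nat_lit 3) (nat_lit 333) (nat_lit 359)))) (n (nat_lit 359) (b (n (nat_lit 385) (b (n (nat_lit 309) (b (l (nat_lit 4) (nat_lit 309) (nat_lit 410)) (l (nat_lit 4) (nat_lit 284) (nat_lit 284)))) (l (nat_lit 2) (nat_lit 359) (nat_lit 363)))) (l (nat_lit 3) (nat_lit 333) (nat_lit 333))))) (b (n (nat_lit 363) (b (l (nat_lit 3) (nat_lit 334) (nat_lit 335)) (l (nat_lit 2) (nat_lit 359) (nat_lit 385)))) (n (nat_lit 359) (b (n (nat_lit 309) (b (b (n (nat_lit 284) (b (n (nat_lit 283) (b (l (nat_lit 7) (nat_lit 283) (nat_lit 308)) (l (nat_lit 7) (nat_lit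 258) (nat_lit 258)))) (n (nat_lit 285) (b (l (nat_lit 5) (nat_lit 259) (nat_lit 260)) (l (nat_lit 5) (nat_lit 284) (nat_lit 310)))))) (n (nat_lit 385) (b (l (nat_lit 4) (nat_lit 284) (nat_lit 284)) (l (nat_lit 4) (nat_lit 309) (nat_lit 410))))) (n (nat_lit 409) (b (n (nat_lit 310) (b (l (nat_lit 5) (nat_lit 284) (nat_lit 285)) (l (nat_lit 5) (nat_lit 309) (nat_lit 335)))) (n (nat_lit 410) (b (l (nat_lit 4) (nat_lit 334) (nat_lit 435)) (l (nat_lit 4) (nat_lit 309) (nat_lit 385)))))))) (l (nat_lit 3) (nat_lit 333) (nat_lit 333))))))) (n (nat_lit 383) (b (n (nat_lit 385) (b (l (nat_lit 1) (nat_lit 358) (nat_lit 386)) (l (nat_lit 1) (nat_lit 357) (nat_lit 382)))) (l (nat_lit 2) (nat_lit 358) (nat_lit 359)))))))))) (n (nat_lit 361) (b (b (n (nat_lit 338) (b (n (nat_lit 339) (b (l (nat_lit 1) (nat_lit 335) (nat_lit 363)) (l (nat_lit 2) (nat_lit 336) (nat_lit 340)))) (l (nat_lit 1) (nat_lit 334) (nat_lit 359)))) (n (nat_lit 359) (b (n (nat_lit 358) (b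 (n (nat_lit 383) (b (l (nat_lit 2) (nat_lit 358) (nat_lit 384)) (l (nat_lit 2) (nat_lit 357) (nat_lit 382)))) (l (nat_lit 1) (nat_lit 333) (nat_lit 336)))) (l (nat_lit 1) (nat_lit 334) (nat_lit 338))))) (b (n (nat_lit 363) (b (b (n (nat_lit 388) (b (n (nat_lit 413) (b (l (nat_lit 7) (nat_lit 337) (nat_lit 438)) (l (nat_lit 7) (nat_lit 312) (nat_lit 338)))) (l (nat_lit 0) (nat_lit 360) (nat_lit 389)))) (n (nat_lit 364) (b (n (nat_lit 389) (b (l (nat_lit 0) (nat_lit 360) (nat_lit 388)) (l (nat_lit 0) (nat_lit 361) (nat_lit 390)))) (n (nat_lit 385) (b (l (nat_lit 2) (nat_lit 360) (nat_lit 386)) (l (nat_lit 2) (nat_lit 359) (nat_lit 384))))))) (n (nat_lit 364) (b (n (nat_lit 339) (b (l (nat_lit 1) (nat_lit 336) (nat_lit 340)) (l (nat_lit 1) (nat_lit 335) (nat_lit 338)))) (n (nat_lit 385) (b (l (nat_lit 2) (nat_lit 360) (nat_lit 386)) (l (nat_lit 2) (nat_lit 359) (nat_lit 384)))))))) (n (nat_lit 359) (b (b (n (nat_lit 336) (b (n (nat_lit 386) (b (n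 (nat_lit 385) (b (n (nat_lit 410) (b (l (nat_lit 6) (nat_lit 310) (nat_lit 311)) (l (nat_lit 5) (nat_lit 335) (nat_lit 435)))) (n (nat_lit 363) (b (l (nat_lit 2) (nat_lit 359) (nat_lit 384)) (l (nat_lit 2) (nat_lit 360) (nat_lit 364)))))) (l (nat_lit 5) (nat_lit 311) (nat_lit 411)))) (l (nat_lit 1) (nat_lit 333) (nat_lit 358)))) (n (nat_lit 363) (b (n (nat_lit 364) (b (n (nat_lit 336) (b (l (nat_lit 3) (nat_lit 336) (nat_lit 365)) (l (nat_lit 3) (nat_lit 335) (nat_lit 335)))) (n (nat_lit 389) (b (l (nat_lit 0) (nat_lit 360) (nat_lit 388)) (l (nat_lit 0) (nat_lit 361) (nat_lit 390)))))) (n (nat_lit 384) (b (l (nat_lit 2) (nat_lit 359) (nat_lit 385)) (l (nat_lit 2) (nat_lit 358) (nat_lit 383))))))) (b (n (nat_lit 358) (b (n (nat_lit 357) (b (n (nat_lit 382) (b (l (nat_lit 2) (nat_lit 357) (nat_lit 383)) (l (nat_lit 2) (nat_lit 356) (nat_lit 381)))) (n (nat_lit 332) (b (l (nat_lit 3) (nat_lit 331) (nat_lit 331)) (l (nat_lit 3) (nat_lit 332) (nat_lit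 333)))))) (l (nat_lit 1) (nat_lit 333) (nat_lit 336)))) (n (nat_lit 358) (b (b (n (nat_lit 357) (b (n (nat_lit 332) (b (l (nat_lit 3) (nat_lit 331) (nat_lit 331)) (l (nat_lit 3) (nat_lit 332) (nat_lit 333)))) (n (nat_lit 385) (b (n (nat_lit 384) (b (l (nat_lit 2) (nat_lit 359) (nat_lit 363)) (l (nat_lit 0) (nat_lit 356) (nat_lit 356)))) (l (nat_lit 0) (nat_lit 357) (nat_lit 386)))))) (n (nat_lit 383) (b (l (nat_lit 2) (nat_lit 358) (nat_lit 384)) (l (nat_lit 2) (nat_lit 357) (nat_lit 382))))) (n (nat_lit 357) (b (n (nat_lit 382) (b (l (nat_lit 2) (nat_lit 357) (nat_lit 383)) (l (nat_lit 2) (nat_lit 356) (nat_lit 381)))) (n (nat_lit 332) (b (l (nat_lit 3) (nat_lit 331) (nat_lit 331)) (l (nat_lit 3) (nat_lit 332) (nat_lit 333))))))))))))))))) (b (b (n (nat_lit 361) (b (b (n (nat_lit 338) (b (n (nat_lit 339) (b (l (nat_lit 1) (nat_lit 335) (nat_lit 363)) (l (nat_lit 2) (nat_lit 336) (nat_lit 340)))) (l (nat_lit 1) (nat_lit 334) (nat_lit 359)))) (n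 (nat_lit 363) (b (b (n (nat_lit 388) (b (n (nat_lit 413) (b (l (nat_lit 7) (nat_lit 337) (nat_lit 438)) (l (nat_lit 7) (nat_lit 312) (nat_lit 338)))) (l (nat_lit 0) (nat_lit 360) (nat_lit 389)))) (n (nat_lit 364) (b (n (nat_lit 389) (b (l (nat_lit 0) (nat_lit 360) (nat_lit 388)) (l (nat_lit 0) (nat_lit 361) (nat_lit 390)))) (n (nat_lit 335) (b (l (nat_lit 3) (nat_lit 334) (nat_lit 334)) (l (nat_lit 3) (nat_lit 335) (nat_lit 336))))))) (n (nat_lit 364) (b (n (nat_lit 335) (b (l (nat_lit 3) (nat_lit 334) (nat_lit 334)) (l (nat_lit 3) (nat_lit 335) (nat_lit 336)))) (n (nat_lit 339) (b (l (nat_lit 1) (nat_lit 336) (nat_lit 340)) (l (nat_lit 1) (nat_lit 335) (nat_lit 338))))))))) (b (n (nat_lit 338) (b (n (nat_lit 339) (b (l (nat_lit 2) (nat_lit 335) (nat_lit 336)) (l (nat_lit 2) (nat_lit 336) (nat_lit 340)))) (l (nat_lit 1) (nat_lit 334) (nat_lit 359)))) (n (nat_lit 386) (b (b (n (nat_lit 335) (b (n (nat_lit 310) (b (n (nat_lit 411) (b (l (nat_lit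 4) (nat_lit 310) (nat_lit 385)) (l (nat_lit 7) (nat_lit 335) (nat_lit 436)))) (l (nat_lit 4) (nat_lit 285) (nat_lit 285)))) (n (nat_lit 334) (b (n (nat_lit 333) (b (l (nat_lit 0) (nat_lit 332) (nat_lit 332)) (l (nat_lit 3) (nat_lit 333) (nat_lit 359)))) (l (nat_lit 3) (nat_lit 334) (nat_lit 363)))))) (n (nat_lit 411) (b (l (nat_lit 5) (nat_lit 311) (nat_lit 336)) (l (nat_lit 5) (nat_lit 336) (nat_lit 436))))) (n (nat_lit 334) (b (b (n (nat_lit 333) (b (n (nat_lit 335) (b (l (nat_lit 0) (nat_lit 332) (nat_lit 332)) (l (nat_lit 3) (nat_lit 334) (nat_lit 363)))) (l (nat_lit 3) (nat_lit 333) (nat_lit 359)))) (n (nat_lit 335) (b (n (nat_lit 313) (b (n (nat_lit 310) (b (l (nat_lit 4) (nat_lit 285) (nat_lit 285)) (l (nat_lit 2) (nat_lit 309) (nat_lit 311)))) (l (nat_lit 1) (nat_lit 309) (nat_lit 336)))) (l (nat_lit 3) (nat_lit 334) (nat_lit 363))))) (n (nat_lit 359) (b (n (nat_lit 358) (b (n (nat_lit 357) (b (n (nat_lit 382) (b (l (nat_lit 2) (nat_lit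 357) (nat_lit 383)) (l (nat_lit 2) (nat_lit 356) (nat_lit 381)))) (l (nat_lit 0) (nat_lit 357) (nat_lit 385)))) (l (nat_lit 1) (nat_lit 333) (nat_lit 336)))) (l (nat_lit 3) (nat_lit 333) (nat_lit 333))))))))))) (n (nat_lit 361) (b (b (n (nat_lit 338) (b (n (nat_lit 339) (b (l (nat_lit 1) (nat_lit 335) (nat_lit 363)) (l (nat_lit 2) (nat_lit 336) (nat_lit 340)))) (l (nat_lit 1) (nat_lit 334) (nat_lit 359)))) (n (nat_lit 359) (b (n (nat_lit 358) (b (n (nat_lit 383) (b (l (nat_lit 2) (nat_lit 358) (nat_lit 384)) (l (nat_lit 2) (nat_lit 357) (nat_lit 382)))) (n (nat_lit 333) (b (l (nat_lit 3) (nat_lit 332) (nat_lit 332)) (l (nat_lit 3) (nat_lit 333) (nat_lit 334)))))) (l (nat_lit 1) (nat_lit 334) (nat_lit 338))))) (b (n (nat_lit 363) (b (b (n (nat_lit 388) (b (n (nat_lit 413) (b (l (nat_lit 7) (nat_lit 337) (nat_lit 438)) (l (nat_lit 7) (nat_lit 312) (nat_lit 338)))) (l (nat_lit 0) (nat_lit 360) (nat_lit 389)))) (n (nat_lit 364) (b (n (nat_lit 389)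 (b (l (nat_lit 0) (nat_lit 360) (nat_lit 388)) (l (nat_lit 0) (nat_lit 361) (nat_lit 390)))) (n (nat_lit 385) (b (l (nat_lit 2) (nat_lit 360) (nat_lit 386)) (l (nat_lit 2) (nat_lit 359) (nat_lit 384))))))) (n (nat_lit 364) (b (n (nat_lit 339) (b (l (nat_lit 1) (nat_lit 336) (nat_lit 340)) (l (nat_lit 1) (nat_lit 335) (nat_lit 338)))) (n (nat_lit 385) (b (l (nat_lit 2) (nat_lit 360) (nat_lit 386)) (l (nat_lit 2) (nat_lit 359) (nat_lit 384)))))))) (n (nat_lit 359) (b (b (n (nat_lit 336) (b (n (nat_lit 386) (b (n (nat_lit 385) (b (n (nat_lit 410) (b (l (nat_lit 6) (nat_lit 310) (nat_lit 311)) (l (nat_lit 5) (nat_lit 335) (nat_lit 435)))) (n (nat_lit 363) (b (l (nat_lit 2) (nat_lit 359) (nat_lit 384)) (l (nat_lit 2) (nat_lit 360) (nat_lit 364)))))) (l (nat_lit 5) (nat_lit 311) (nat_lit 411)))) (l (nat_lit 1) (nat_lit 333) (nat_lit 358)))) (n (nat_lit 358) (b (n (nat_lit 357) (b (n (nat_lit 382) (b (l (nat_lit 2) (nat_lit 357) (nat_lit 383)) (l (nat_lit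 2) (nat_lit 356) (nat_lit 381)))) (n (nat_lit 332) (b (l (nat_lit 3) (nat_lit 331) (nat_lit 331)) (l (nat_lit 3) (nat_lit 332) (nat_lit 333)))))) (l (nat_lit 1) (nat_lit 333) (nat_lit 336))))) (n (nat_lit 384) (b (n (nat_lit 334) (b (n (nat_lit 385) (b (n (nat_lit 309) (b (l (nat_lit 4) (nat_lit 309) (nat_lit 410)) (l (nat_lit 4) (nat_lit 284) (nat_lit 284)))) (l (nat_lit 2) (nat_lit 359) (nat_lit 363)))) (l (nat_lit 3) (nat_lit 333) (nat_lit 333)))) (l (nat_lit 2) (nat_lit 358) (nat_lit 383)))))))))) (b (n (nat_lit 361) (b (b (n (nat_lit 338) (b (n (nat_lit 339) (b (l (nat_lit 1) (nat_lit 335) (nat_lit 363)) (l (nat_lit 2) (nat_lit 336) (nat_lit 340)))) (l (nat_lit 1) (nat_lit 334) (nat_lit 359)))) (n (nat_lit 359) (b (b (n (nat_lit 363) (b (n (nat_lit 334) (b (l (nat_lit 3) (nat_lit 333) (nat_lit 333)) (l (nat_lit 3) (nat_lit 334) (nat_lit 335)))) (n (nat_lit 384) (b (l (nat_lit 2) (nat_lit 359) (nat_lit 385)) (l (nat_lit 2) (nat_lit 358) (nat_lit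 383)))))) (n (nat_lit 358) (b (n (nat_lit 333) (b (l (nat_lit 3) (nat_lit 332) (nat_lit 332)) (l (nat_lit 3) (nat_lit 333) (nat_lit 334)))) (l (nat_lit 1) (nat_lit 333) (nat_lit 336))))) (n (nat_lit 358) (b (n (nat_lit 383) (b (l (nat_lit 2) (nat_lit 358) (nat_lit 384)) (l (nat_lit 2) (nat_lit 357) (nat_lit 382)))) (l (nat_lit 1) (nat_lit 333) (nat_lit 336))))))) (b (n (nat_lit 359) (b (n (nat_lit 358) (b (n (nat_lit 383) (b (l (nat_lit 2) (nat_lit 358) (nat_lit 384)) (l (nat_lit 2) (nat_lit 357) (nat_lit 382)))) (n (nat_lit 333) (b (l (nat_lit 3) (nat_lit 332) (nat_lit 332)) (l (nat_lit 3) (nat_lit 333) (nat_lit 334)))))) (l (nat_lit 1) (nat_lit 334) (nat_lit 338)))) (n (nat_lit 363) (b (b (n (nat_lit 388) (b (n (nat_lit 413) (b (l (nat_lit 7) (nat_lit 337) (nat_lit 438)) (l (nat_lit 7) (nat_lit 312) (nat_lit 338)))) (l (nat_lit 0) (nat_lit 360) (nat_lit 389)))) (n (nat_lit 364) (b (n (nat_lit 389) (b (l (nat_lit 0) (nat_lit 360) (nat_lit 388))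 (l (nat_lit 0) (nat_lit 361) (nat_lit 390)))) (n (nat_lit 335) (b (l (nat_lit 3) (nat_lit 334) (nat_lit 334)) (l (nat_lit 3) (nat_lit 335) (nat_lit 336))))))) (n (nat_lit 364) (b (n (nat_lit 335) (b (l (nat_lit 3) (nat_lit 334) (nat_lit 334)) (l (nat_lit 3) (nat_lit 335) (nat_lit 336)))) (n (nat_lit 339) (b (l (nat_lit 1) (nat_lit 336) (nat_lit 340)) (l (nat_lit 1) (nat_lit 335) (nat_lit 338))))))))))) (r (nat_lit 4))))))
    (envOK_cons p4078 (envOK_cons p4101 (envOK_cons p4181 (envOK_cons p4245 (envOK_cons p4358 envOK_nil))))) (by decide +kernel)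

theorem p4459 : Fam (nat_lit 10) (nat_lit 9394170611063434027482807772892642536111804685651914303974896204302356326563698226920717996775909998274281472) (nat_lit 887254343104132041522767044181788040624843289268787381672634663505881082486315967330883473132868247680774610648043856967575927783424) (nat_lit 887254343104132041522767044181788040624843289268787381672634663505881082486315967330883473132868247680774610648043856967575927783424) :=
  chk_sound Env.nil
    (n (nat_lit 387) (b (b (n (nat_lit 412) (b (n (nat_lit 311) (b (l (nat_lit 7) (nat_lit 286) (nat_lit 286)) (l (nat_lit 7) (nat_lit 311) (nat_lit 336)))) (n (nat_lit 411) (b (l (nat_lit 6) (nat_lit 336) (nat_lit 436)) (l (nat_lit 6) (nat_lit 311) (nat_lit 386)))))) (n (nat_lit 412) (b (n (nat_lit 313) (b (l (nat_lit 5) (nat_lit 287) (nat_lit 288)) (l (nat_lit 5) (nat_lit 312) (nat_lit 338)))) (n (nat_lit 413) (b (l (nat_lit 4) (nat_lit 337) (nat_lit 438)) (l (nat_lit 4) (nat_lit 312) (nat_lit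 388))))))) (n (nat_lit 386) (b (n (nat_lit 311) (b (n (nat_lit 388) (b (n (nat_lit 385) (b (n (nat_lit 363) (b (l (nat_lit 1) (nat_lit 360) (nat_lit 364)) (l (nat_lit 1) (nat_lit 359) (nat_lit 384)))) (n (nat_lit 313) (b (n (nat_lit 335) (b (n (nat_lit 410) (b (n (nat_lit 360) (b (l (nat_lit 5) (nat_lit 310) (nat_lit 336)) (l (nat_lit 3) (nat_lit 359) (nat_lit 359)))) (l (nat_lit 2) (nat_lit 384) (nat_lit 409)))) (n (nat_lit 310) (b (n (nat_lit 338) (b (l (nat_lit 0) (nat_lit 310) (nat_lit 339)) (l (nat_lit 0) (nat_lit 309) (nat_lit 309)))) (l (nat_lit 2) (nat_lit 309) (nat_lit 334)))))) (l (nat_lit 5) (nat_lit 287) (nat_lit 288)))))) (l (nat_lit 4) (nat_lit 312) (nat_lit 413)))) (l (nat_lit 7) (nat_lit 286) (nat_lit 286)))) (l (nat_lit 6) (nat_lit 311) (nat_lit 411))))))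
    envOK_nil (by decide +kernel)

theorem p4460 : Fam (nat_lit 15) (nat_lit 279968101115924885385735294426609074490018634821145732318173520226105264453065922003236835186146541568) (nat_lit 8379880330824008023503946889956349160283125391972046690038904089664838929003874862976107945382642661841488926484017840757641194824002717468300857841811456) (nat_lit 8379880330824008023503946889956349160283125391972046690038904089664838929003874862976107945382642661841488926484017840757641194824002717468300857841811456) :=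
  chk_sound (Env.cons (nat_lit 14) (nat_lit 9394170611063434027482807772892642536111804685651914303974896204302356326563698226920717996775909998274281472) (nat_lit 8379880330823960389401311452470863966403315755722867405880724610429141858800201343250009818064560614126391866369239860248819337322503618970132201141698560) (Env.cons (nat_lit 9) (nat_lit 9394170611063434027482807772892642536111804685651914303974896204302356326563698226920717996775909998274281472) (nat_lit 177450876289075874803075679167399207492604272754915878295546906033302496070753703190981268038418312308892017005445936189842508480512) (Env.cons (nat_lit 7) (nat_lit 9394170611063434027482807772892642536111804685651914303974896204302356326563698226920717996775909998274281472) (nat_lit 887254635290874029405472791969685608942586452103674815694252308046964867004033429902836740624812576052820335806495173554348220219392) (Env.cons (nat_lit 7) (nat_lit 9394170611063434027482807772892642536111804685651914303974896204302356326563698226920717996775909998274281472)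 (nat_lit 887254635290874029405472791970105561094260339804745845943232203275236581066380778576656114003162522029847917359369651566527471681536) (Env.cons (nat_lit 10) (nat_lit 9394170611063434027482807772892642536111804685651914303974896204302356326563698226920717996775909998274281472) (nat_lit 887254343104132041522767044181788040624843289268787381672634663505881082486315967330883473132868247680774610648043856967575927783424) Env.nil)))))
    (n (nat_lit 362) (b (b (b (r (nat_lit 0)) (n (nat_lit 311) (b (b (n (nat_lit 387) (b (n (nat_lit 386) (b (n (nat_lit 388) (b (n (nat_lit 389) (b (b (n (nat_lit 390) (b (n (nat_lit 415) (b (l (nat_lit 0) (nat_lit 386) (nat_lit 414)) (l (nat_lit 0) (nat_lit 387) (nat_lit 416)))) (n (nat_lit 365) (b (l (nat_lit 1) (nat_lit 362) (nat_lit 366)) (l (nat_lit 1) (nat_lit 361) (nat_lit 364)))))) (n (nat_lit 361) (b (l (nat_lit 3) (nat_lit 360) (nat_lit 360)) (l (nat_lit 3) (nat_lit 361) (nat_lit 390))))) (n (nat_lit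 385) (b (n (nat_lit 360) (b (l (nat_lit 3) (nat_lit 359) (nat_lit 359)) (l (nat_lit 3) (nat_lit 360) (nat_lit 361)))) (n (nat_lit 363) (b (l (nat_lit 1) (nat_lit 360) (nat_lit 364)) (l (nat_lit 1) (nat_lit 359) (nat_lit 384)))))))) (l (nat_lit 4) (nat_lit 312) (nat_lit 413)))) (l (nat_lit 6) (nat_lit 311) (nat_lit 411)))) (l (nat_lit 7) (nat_lit 286) (nat_lit 286)))) (n (nat_lit 310) (b (b (n (nat_lit 309) (b (n (nat_lit 308) (b (n (nat_lit 333) (b (l (nat_lit 2) (nat_lit 307) (nat_lit 332)) (l (nat_lit 2) (nat_lit 308) (nat_lit 334)))) (l (nat_lit 0) (nat_lit 308) (nat_lit 336)))) (l (nat_lit 0) (nat_lit 309) (nat_lit 338)))) (n (nat_lit 309) (b (b (n (nat_lit 313) (b (n (nat_lit 284) (b (l (nat_lit 3) (nat_lit 283) (nat_lit 283)) (l (nat_lit 3) (nat_lit 284) (nat_lit 285)))) (n (nat_lit 334) (b (l (nat_lit 2) (nat_lit 309) (nat_lit 335)) (l (nat_lit 2) (nat_lit 308) (nat_lit 333)))))) (n (nat_lit 308) (b (n (nat_lit 333) (b (l (nat_lit 2) (nat_lit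 307) (nat_lit 332)) (l (nat_lit 2) (nat_lit 308) (nat_lit 334)))) (l (nat_lit 0) (nat_lit 308) (nat_lit 336))))) (n (nat_lit 308) (b (n (nat_lit 283) (b (l (nat_lit 3) (nat_lit 283) (nat_lit 284)) (l (nat_lit 3) (nat_lit 282) (nat_lit 282)))) (l (nat_lit 0) (nat_lit 308) (nat_lit 336))))))) (b (n (nat_lit 338) (b (n (nat_lit 339) (b (l (nat_lit 0) (nat_lit 310) (nat_lit 313)) (l (nat_lit 3) (nat_lit 311) (nat_lit 340)))) (l (nat_lit 0) (nat_lit 309) (nat_lit 309)))) (n (nat_lit 313) (b (b (n (nat_lit 338) (b (n (nat_lit 288) (b (l (nat_lit 1) (nat_lit 285) (nat_lit 289)) (l (nat_lit 6) (nat_lit 262) (nat_lit 263)))) (l (nat_lit 0) (nat_lit 310) (nat_lit 339)))) (n (nat_lit 288) (b (l (nat_lit 1) (nat_lit 285) (nat_lit 289)) (l (nat_lit 5) (nat_lit 287) (nat_lit 387))))) (n (nat_lit 338) (b (n (nat_lit 335) (b (n (nat_lit 360) (b (b (n (nat_lit 386) (b (n (nat_lit 411) (b (l (nat_lit 6) (nat_lit 311) (nat_lit 387)) (l (nat_lit 4) (nat_lit 310)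 (nat_lit 385)))) (n (nat_lit 285) (b (l (nat_lit 4) (nat_lit 285) (nat_lit 361)) (l (nat_lit 3) (nat_lit 284) (nat_lit 284)))))) (n (nat_lit 359) (b (l (nat_lit 2) (nat_lit 334) (nat_lit 336)) (l (nat_lit 1) (nat_lit 334) (nat_lit 361))))) (n (nat_lit 285) (b (n (nat_lit 359) (b (l (nat_lit 6) (nat_lit 284) (nat_lit 384)) (l (nat_lit 2) (nat_lit 334) (nat_lit 336)))) (l (nat_lit 3) (nat_lit 284) (nat_lit 284)))))) (l (nat_lit 2) (nat_lit 309) (nat_lit 334)))) (l (nat_lit 0) (nat_lit 310) (nat_lit 339)))))))))) (b (n (nat_lit 286) (b (n (nat_lit 261) (b (l (nat_lit 4) (nat_lit 261) (nat_lit 336)) (l (nat_lit 4) (nat_lit 236) (nat_lit 236)))) (l (nat_lit 7) (nat_lit 286) (nat_lit 387)))) (n (nat_lit 310) (b (b (n (nat_lit 309) (b (n (nat_lit 308) (b (n (nat_lit 333) (b (l (nat_lit 2) (nat_lit 307) (nat_lit 332)) (l (nat_lit 2) (nat_lit 308) (nat_lit 334)))) (l (nat_lit 0) (nat_lit 308) (nat_lit 336)))) (l (nat_lit 0) (nat_lit 309) (nat_lit 338))))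 (n (nat_lit 309) (b (b (n (nat_lit 313) (b (n (nat_lit 284) (b (l (nat_lit 3) (nat_lit 283) (nat_lit 283)) (l (nat_lit 3) (nat_lit 284) (nat_lit 285)))) (n (nat_lit 334) (b (l (nat_lit 2) (nat_lit 309) (nat_lit 335)) (l (nat_lit 2) (nat_lit 308) (nat_lit 333)))))) (n (nat_lit 308) (b (n (nat_lit 333) (b (l (nat_lit 2) (nat_lit 307) (nat_lit 332)) (l (nat_lit 2) (nat_lit 308) (nat_lit 334)))) (l (nat_lit 0) (nat_lit 308) (nat_lit 336))))) (n (nat_lit 308) (b (n (nat_lit 283) (b (l (nat_lit 3) (nat_lit 283) (nat_lit 284)) (l (nat_lit 3) (nat_lit 282) (nat_lit 282)))) (l (nat_lit 0) (nat_lit 308) (nat_lit 336))))))) (b (n (nat_lit 338) (b (n (nat_lit 339) (b (l (nat_lit 0) (nat_lit 310) (nat_lit 313)) (l (nat_lit 3) (nat_lit 311) (nat_lit 340)))) (l (nat_lit 0) (nat_lit 309) (nat_lit 309)))) (n (nat_lit 338) (b (b (n (nat_lit 339) (b (l (nat_lit 0) (nat_lit 310) (nat_lit 313)) (l (nat_lit 3) (nat_lit 311) (nat_lit 340)))) (n (nat_lit 339) (b (l (nat_lit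 3) (nat_lit 310) (nat_lit 336)) (l (nat_lit 3) (nat_lit 311) (nat_lit 340))))) (n (nat_lit 286) (b (b (n (nat_lit 261) (b (l (nat_lit 4) (nat_lit 261) (nat_lit 336)) (l (nat_lit 4) (nat_lit 236) (nat_lit 236)))) (n (nat_lit 336) (b (b (n (nat_lit 285) (b (n (nat_lit 361) (b (l (nat_lit 7) (nat_lit 260) (nat_lit 260)) (l (nat_lit 7) (nat_lit 285) (nat_lit 386)))) (n (nat_lit 284) (b (l (nat_lit 0) (nat_lit 283) (nat_lit 283)) (l (nat_lit 3) (nat_lit 284) (nat_lit 313)))))) (n (nat_lit 335) (b (n (nat_lit 360) (b (l (nat_lit 5) (nat_lit 285) (nat_lit 385)) (l (nat_lit 2) (nat_lit 334) (nat_lit 359)))) (n (nat_lit 334) (b (l (nat_lit 0) (nat_lit 334) (nat_lit 363)) (l (nat_lit 1) (nat_lit 309) (nat_lit 313))))))) (n (nat_lit 360) (b (b (n (nat_lit 361) (b (l (nat_lit 1) (nat_lit 334) (nat_lit 359)) (l (nat_lit 6) (nat_lit 285) (nat_lit 385)))) (n (nat_lit 385) (b (l (nat_lit 5) (nat_lit 285) (nat_lit 335)) (l (nat_lit 6) (nat_lit 285) (nat_lit 361)))))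 (b (n (nat_lit 335) (b (l (nat_lit 5) (nat_lit 285) (nat_lit 385)) (l (nat_lit 2) (nat_lit 334) (nat_lit 359)))) (n (nat_lit 359) (b (l (nat_lit 1) (nat_lit 334) (nat_lit 361)) (l (nat_lit 2) (nat_lit 334) (nat_lit 335)))))))))) (n (nat_lit 335) (b (n (nat_lit 313) (b (n (nat_lit 288) (b (l (nat_lit 1) (nat_lit 285) (nat_lit 289)) (l (nat_lit 6) (nat_lit 262) (nat_lit 263)))) (l (nat_lit 2) (nat_lit 309) (nat_lit 334)))) (n (nat_lit 360) (b (n (nat_lit 261) (b (l (nat_lit 6) (nat_lit 235) (nat_lit 236)) (l (nat_lit 5) (nat_lit 260) (nat_lit 285)))) (l (nat_lit 5) (nat_lit 285) (nat_lit 385))))))))))))))))) (b (n (nat_lit 387) (b (b (n (nat_lit 412) (b (n (nat_lit 311) (b (l (nat_lit 7) (nat_lit 286) (nat_lit 286)) (l (nat_lit 7) (nat_lit 311) (nat_lit 336)))) (n (nat_lit 411) (b (l (nat_lit 6) (nat_lit 336) (nat_lit 436)) (l (nat_lit 6) (nat_lit 311) (nat_lit 386)))))) (n (nat_lit 412) (b (n (nat_lit 313) (b (l (nat_lit 5) (nat_lit 287) (nat_lit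 288)) (l (nat_lit 5) (nat_lit 312) (nat_lit 338)))) (n (nat_lit 413) (b (l (nat_lit 4) (nat_lit 337) (nat_lit 438)) (l (nat_lit 4) (nat_lit 312) (nat_lit 388))))))) (n (nat_lit 388) (b (n (nat_lit 386) (b (n (nat_lit 313) (b (n (nat_lit 363) (b (n (nat_lit 389) (b (n (nat_lit 414) (b (l (nat_lit 0) (nat_lit 386) (nat_lit 415)) (l (nat_lit 4) (nat_lit 313) (nat_lit 338)))) (n (nat_lit 390) (b (l (nat_lit 3) (nat_lit 362) (nat_lit 391)) (l (nat_lit 3) (nat_lit 361) (nat_lit 361)))))) (n (nat_lit 385) (b (l (nat_lit 1) (nat_lit 360) (nat_lit 364)) (l (nat_lit 1) (nat_lit 359) (nat_lit 384)))))) (l (nat_lit 5) (nat_lit 287) (nat_lit 288)))) (l (nat_lit 6) (nat_lit 311) (nat_lit 411)))) (l (nat_lit 4) (nat_lit 312) (nat_lit 413)))))) (n (nat_lit 387) (b (b (n (nat_lit 412) (b (n (nat_lit 313) (b (l (nat_lit 5) (nat_lit 287) (nat_lit 288)) (l (nat_lit 5) (nat_lit 312) (nat_lit 338)))) (n (nat_lit 413) (b (l (nat_lit 4) (nat_lit 337) (nat_lit 438)) (l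 (nat_lit 4) (nat_lit 312) (nat_lit 388)))))) (n (nat_lit 412) (b (n (nat_lit 313) (b (l (nat_lit 5) (nat_lit 287) (nat_lit 288)) (l (nat_lit 5) (nat_lit 312) (nat_lit 338)))) (n (nat_lit 311) (b (l (nat_lit 7) (nat_lit 286) (nat_lit 286)) (l (nat_lit 7) (nat_lit 311) (nat_lit 336))))))) (b (n (nat_lit 412) (b (n (nat_lit 311) (b (l (nat_lit 7) (nat_lit 286) (nat_lit 286)) (l (nat_lit 7) (nat_lit 311) (nat_lit 336)))) (n (nat_lit 413) (b (l (nat_lit 4) (nat_lit 337) (nat_lit 438)) (l (nat_lit 4) (nat_lit 312) (nat_lit 388)))))) (n (nat_lit 388) (b (n (nat_lit 311) (b (n (nat_lit 338) (b (b (n (nat_lit 313) (b (n (nat_lit 310) (b (n (nat_lit 389) (b (b (n (nat_lit 335) (b (n (nat_lit 363) (b (n (nat_lit 336) (b (n (nat_lit 360) (b (l (nat_lit 0) (nat_lit 360) (nat_lit 361)) (l (nat_lit 2) (nat_lit 334) (nat_lit 359)))) (l (nat_lit 0) (nat_lit 335) (nat_lit 364)))) (l (nat_lit 4) (nat_lit 313) (nat_lit 414)))) (l (nat_lit 2) (nat_lit 309) (nat_lit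 334)))) (n (nat_lit 390) (b (n (nat_lit 391) (b (n (nat_lit 416) (b (l (nat_lit 0) (nat_lit 387) (nat_lit 415)) (l (nat_lit 0) (nat_lit 388) (nat_lit 417)))) (n (nat_lit 366) (b (l (nat_lit 1) (nat_lit 363) (nat_lit 367)) (l (nat_lit 1) (nat_lit 362) (nat_lit 365)))))) (l (nat_lit 3) (nat_lit 361) (nat_lit 361))))) (n (nat_lit 390) (b (b (n (nat_lit 363) (b (l (nat_lit 3) (nat_lit 362) (nat_lit 391)) (l (nat_lit 4) (nat_lit 313) (nat_lit 414)))) (n (nat_lit 391) (b (n (nat_lit 416) (b (l (nat_lit 0) (nat_lit 387) (nat_lit 415)) (l (nat_lit 0) (nat_lit 388) (nat_lit 417)))) (n (nat_lit 366) (b (l (nat_lit 1) (nat_lit 363) (nat_lit 367)) (l (nat_lit 1) (nat_lit 362) (nat_lit 365))))))) (n (nat_lit 365) (b (n (nat_lit 414) (b (n (nat_lit 415) (b (n (nat_lit 439) (b (l (nat_lit 6) (nat_lit 339) (nat_lit 340)) (l (nat_lit 5) (nat_lit 364) (nat_lit 464)))) (l (nat_lit 0) (nat_lit 387) (nat_lit 416)))) (l (nat_lit 4) (nat_lit 313) (nat_lit 363)))) (l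 (nat_lit 1) (nat_lit 362) (nat_lit 366)))))))) (l (nat_lit 0) (nat_lit 309) (nat_lit 309)))) (l (nat_lit 5) (nat_lit 287) (nat_lit 288)))) (n (nat_lit 310) (b (n (nat_lit 313) (b (l (nat_lit 0) (nat_lit 310) (nat_lit 339)) (l (nat_lit 5) (nat_lit 287) (nat_lit 288)))) (l (nat_lit 0) (nat_lit 309) (nat_lit 309))))) (b (n (nat_lit 339) (b (n (nat_lit 310) (b (l (nat_lit 0) (nat_lit 309) (nat_lit 309)) (l (nat_lit 3) (nat_lit 310) (nat_lit 336)))) (l (nat_lit 3) (nat_lit 311) (nat_lit 340)))) (n (nat_lit 313) (b (n (nat_lit 339) (b (n (nat_lit 361) (b (n (nat_lit 389) (b (n (nat_lit 414) (b (l (nat_lit 4) (nat_lit 313) (nat_lit 363)) (l (nat_lit 7) (nat_lit 313) (nat_lit 364)))) (l (nat_lit 3) (nat_lit 361) (nat_lit 390)))) (n (nat_lit 360) (b (l (nat_lit 2) (nat_lit 335) (nat_lit 336)) (l (nat_lit 0) (nat_lit 359) (nat_lit 359)))))) (l (nat_lit 3) (nat_lit 311) (nat_lit 340)))) (l (nat_lit 5) (nat_lit 287) (nat_lit 288))))))) (l (nat_lit 7) (nat_lit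 286) (nat_lit 286)))) (l (nat_lit 4) (nat_lit 312) (nat_lit 413))))))))) (b (b (r (nat_lit 1)) (r (nat_lit 2))) (b (r (nat_lit 3)) (r (nat_lit 4))))))
    (envOK_cons p4359 (envOK_cons p3754 (envOK_cons p3690 (envOK_cons p3684 (envOK_cons p4459 envOK_nil))))) (by decide +kernel)

theorem p4513 : Fam (nat_lit 12) (nat_lit 279968105287774564918762799104385844352425108654553002546010961528920904730838823918550409449744367616) (nat_lit 63461375052768248774008280234790852973345376862261447207358054535214492096258906654372823680781494148700293148442619570814976) (nat_lit 63461375052768248774008280234790852973345376862261447207358054535214492096258906654372823680781494148700293148442619570814976) :=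
  chk_sound Env.nil
    (n (nat_lit 310) (b (b (n (nat_lit 309) (b (n (nat_lit 308) (b (n (nat_lit 283) (b (l (nat_lit 3) (nat_lit 283) (nat_lit 284)) (l (nat_lit 3) (nat_lit 282) (nat_lit 282)))) (l (nat_lit 0) (nat_lit 308) (nat_lit 336)))) (l (nat_lit 0) (nat_lit 309) (nat_lit 338)))) (n (nat_lit 309) (b (b (n (nat_lit 313) (b (n (nat_lit 284) (b (l (nat_lit 3) (nat_lit 283) (nat_lit 283)) (l (nat_lit 3) (nat_lit 284) (nat_lit 285)))) (n (nat_lit 288) (b (l (nat_lit 1) (nat_lit 284) (nat_lit 287)) (l (nat_lit 1) (nat_lit 285) (nat_lit 289)))))) (n (nat_lit 308) (b (n (nat_lit 287) (b (l (nat_lit 1) (nat_lit 283) (nat_lit 286)) (l (nat_lit 1) (nat_lit 284) (nat_lit 288)))) (l (nat_lit 0) (nat_lit 308) (nat_lit 336))))) (n (nat_lit 308) (b (n (nat_lit 283) (b (l (nat_lit 3) (nat_lit 283) (nat_lit 284)) (l (nat_lit 3) (nat_lit 282) (nat_lit 282)))) (l (nat_lit 0) (nat_lit 308) (nat_lit 336))))))) (b (n (nat_lit 338) (b (n (nat_lit 339) (b (l (nat_lit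 0) (nat_lit 310) (nat_lit 313)) (l (nat_lit 3) (nat_lit 311) (nat_lit 340)))) (l (nat_lit 0) (nat_lit 309) (nat_lit 309)))) (n (nat_lit 288) (b (b (b (n (nat_lit 313) (b (n (nat_lit 338) (b (n (nat_lit 263) (b (n (nat_lit 262) (b (n (nat_lit 285) (b (n (nat_lit 264) (b (n (nat_lit 261) (b (n (nat_lit 235) (b (n (nat_lit 260) (b (l (nat_lit 4) (nat_lit 235) (nat_lit 336)) (l (nat_lit 3) (nat_lit 234) (nat_lit 234)))) (l (nat_lit 3) (nat_lit 235) (nat_lit 236)))) (l (nat_lit 2) (nat_lit 260) (nat_lit 286)))) (l (nat_lit 5) (nat_lit 238) (nat_lit 239)))) (l (nat_lit 3) (nat_lit 284) (nat_lit 284)))) (l (nat_lit 7) (nat_lit 237) (nat_lit 237)))) (l (nat_lit 6) (nat_lit 237) (nat_lit 238)))) (l (nat_lit 0) (nat_lit 310) (nat_lit 339)))) (l (nat_lit 1) (nat_lit 285) (nat_lit 289)))) (n (nat_lit 313) (b (n (nat_lit 338) (b (n (nat_lit 363) (b (n (nat_lit 388) (b (n (nat_lit 389) (b (l (nat_lit 4) (nat_lit 288) (nat_lit 364)) (l (nat_lit 4) (nat_lit 313)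 (nat_lit 414)))) (l (nat_lit 7) (nat_lit 312) (nat_lit 413)))) (n (nat_lit 262) (b (n (nat_lit 263) (b (l (nat_lit 7) (nat_lit 237) (nat_lit 237)) (l (nat_lit 6) (nat_lit 237) (nat_lit 238)))) (l (nat_lit 7) (nat_lit 262) (nat_lit 287)))))) (l (nat_lit 0) (nat_lit 310) (nat_lit 339)))) (l (nat_lit 1) (nat_lit 285) (nat_lit 289))))) (b (n (nat_lit 287) (b (n (nat_lit 289) (b (l (nat_lit 2) (nat_lit 285) (nat_lit 286)) (l (nat_lit 2) (nat_lit 286) (nat_lit 290)))) (n (nat_lit 262) (b (n (nat_lit 237) (b (n (nat_lit 238) (b (l (nat_lit 5) (nat_lit 237) (nat_lit 263)) (l (nat_lit 5) (nat_lit 212) (nat_lit 213)))) (n (nat_lit 236) (b (l (nat_lit 7) (nat_lit 211) (nat_lit 211)) (l (nat_lit 7) (nat_lit 236) (nat_lit 261)))))) (n (nat_lit 338) (b (n (nat_lit 336) (b (l (nat_lit 6) (nat_lit 261) (nat_lit 361)) (l (nat_lit 3) (nat_lit 310) (nat_lit 339)))) (l (nat_lit 4) (nat_lit 262) (nat_lit 363)))))))) (n (nat_lit 289) (b (n (nat_lit 287) (b (l (nat_lit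 2) (nat_lit 285) (nat_lit 286)) (l (nat_lit 2) (nat_lit 286) (nat_lit 290)))) (l (nat_lit 1) (nat_lit 285) (nat_lit 313)))))) (n (nat_lit 338) (b (b (n (nat_lit 339) (b (l (nat_lit 0) (nat_lit 310) (nat_lit 313)) (l (nat_lit 3) (nat_lit 311) (nat_lit 340)))) (n (nat_lit 339) (b (l (nat_lit 3) (nat_lit 310) (nat_lit 336)) (l (nat_lit 3) (nat_lit 311) (nat_lit 340))))) (n (nat_lit 285) (b (b (n (nat_lit 287) (b (b (n (nat_lit 262) (b (n (nat_lit 336) (b (l (nat_lit 6) (nat_lit 261) (nat_lit 361)) (l (nat_lit 6) (nat_lit 236) (nat_lit 237)))) (l (nat_lit 4) (nat_lit 262) (nat_lit 363)))) (n (nat_lit 286) (b (n (nat_lit 260) (b (n (nat_lit 235) (b (l (nat_lit 4) (nat_lit 235) (nat_lit 336)) (l (nat_lit 4) (nat_lit 210) (nat_lit 210)))) (l (nat_lit 3) (nat_lit 259) (nat_lit 259)))) (n (nat_lit 263) (b (n (nat_lit 238) (b (l (nat_lit 6) (nat_lit 237) (nat_lit 313)) (l (nat_lit 6) (nat_lit 212) (nat_lit 213)))) (l (nat_lit 1) (nat_lit 260) (nat_lit 264)))))))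 (n (nat_lit 363) (b (n (nat_lit 388) (b (l (nat_lit 7) (nat_lit 287) (nat_lit 313)) (l (nat_lit 7) (nat_lit 312) (nat_lit 413)))) (l (nat_lit 4) (nat_lit 262) (nat_lit 262)))))) (n (nat_lit 313) (b (n (nat_lit 363) (b (n (nat_lit 388) (b (n (nat_lit 389) (b (l (nat_lit 4) (nat_lit 288) (nat_lit 364)) (l (nat_lit 4) (nat_lit 313) (nat_lit 414)))) (l (nat_lit 7) (nat_lit 312) (nat_lit 413)))) (n (nat_lit 262) (b (n (nat_lit 263) (b (l (nat_lit 7) (nat_lit 237) (nat_lit 237)) (l (nat_lit 6) (nat_lit 237) (nat_lit 238)))) (l (nat_lit 7) (nat_lit 262) (nat_lit 287)))))) (l (nat_lit 3) (nat_lit 284) (nat_lit 284))))) (b (n (nat_lit 284) (b (n (nat_lit 283) (b (l (nat_lit 0) (nat_lit 283) (nat_lit 286)) (l (nat_lit 0) (nat_lit 282) (nat_lit 282)))) (l (nat_lit 3) (nat_lit 284) (nat_lit 313)))) (n (nat_lit 260) (b (b (n (nat_lit 286) (b (b (n (nat_lit 261) (b (n (nat_lit 262) (b (n (nat_lit 263) (b (l (nat_lit 2) (nat_lit 259) (nat_lit 284)) (l (nat_lit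 2) (nat_lit 260) (nat_lit 264)))) (n (nat_lit 336) (b (l (nat_lit 5) (nat_lit 236) (nat_lit 237)) (l (nat_lit 7) (nat_lit 260) (nat_lit 361)))))) (l (nat_lit 4) (nat_lit 236) (nat_lit 236)))) (n (nat_lit 287) (b (n (nat_lit 262) (b (n (nat_lit 237) (b (l (nat_lit 6) (nat_lit 236) (nat_lit 336)) (l (nat_lit 6) (nat_lit 211) (nat_lit 212)))) (l (nat_lit 4) (nat_lit 262) (nat_lit 363)))) (l (nat_lit 3) (nat_lit 259) (nat_lit 259))))) (n (nat_lit 259) (b (n (nat_lit 283) (b (n (nat_lit 261) (b (n (nat_lit 258) (b (l (nat_lit 2) (nat_lit 257) (nat_lit 282)) (l (nat_lit 0) (nat_lit 257) (nat_lit 257)))) (l (nat_lit 4) (nat_lit 236) (nat_lit 236)))) (l (nat_lit 0) (nat_lit 283) (nat_lit 284)))) (l (nat_lit 3) (nat_lit 259) (nat_lit 287)))))) (n (nat_lit 235) (b (n (nat_lit 210) (b (n (nat_lit 211) (b (l (nat_lit 5) (nat_lit 210) (nat_lit 236)) (l (nat_lit 5) (nat_lit 185) (nat_lit 186)))) (n (nat_lit 209) (b (l (nat_lit 7) (nat_lit 184) (nat_lit 184))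 (l (nat_lit 7) (nat_lit 209) (nat_lit 234)))))) (l (nat_lit 4) (nat_lit 235) (nat_lit 336))))) (b (n (nat_lit 336) (b (n (nat_lit 361) (b (l (nat_lit 7) (nat_lit 260) (nat_lit 286)) (l (nat_lit 7) (nat_lit 285) (nat_lit 386)))) (l (nat_lit 4) (nat_lit 235) (nat_lit 235)))) (n (nat_lit 286) (b (n (nat_lit 287) (b (n (nat_lit 284) (b (n (nat_lit 262) (b (l (nat_lit 4) (nat_lit 262) (nat_lit 363)) (l (nat_lit 1) (nat_lit 259) (nat_lit 263)))) (l (nat_lit 0) (nat_lit 283) (nat_lit 283)))) (l (nat_lit 3) (nat_lit 259) (nat_lit 259)))) (n (nat_lit 236) (b (n (nat_lit 235) (b (l (nat_lit 4) (nat_lit 210) (nat_lit 210)) (l (nat_lit 5) (nat_lit 210) (nat_lit 211)))) (l (nat_lit 4) (nat_lit 236) (nat_lit 261)))))))))))))))))))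
    envOK_nil (by decide +kernel)

theorem p4546 : Fam (nat_lit 6) (nat_lit 419952151673887328078602941639913611735027952231718598477260280339157896679598883004855252779219812352) (nat_lit 7932671861895029172826714124673597961595346029210377803404757613399083348976490557743996527474955830609768333137305493569536) (nat_lit 7932671861895029172826714124673597961595346029210377803404757613399083348976490557743996527474955830609768333137305493569536) :=
  chk_sound Env.nil
    (n (nat_lit 361) (b (b (n (nat_lit 286) (b (n (nat_lit 262) (b (n (nat_lit 261) (b (l (nat_lit 4) (nat_lit 236) (nat_lit 236)) (l (nat_lit 5) (nat_lit 236) (nat_lit 237)))) (l (nat_lit 6) (nat_lit 261) (nat_lit 287)))) (n (nat_lit 360) (b (n (nat_lit 338) (b (n (nat_lit 359) (b (l (nat_lit 2) (nat_lit 334) (nat_lit 335)) (l (nat_lit 1) (nat_lit 333) (nat_lit 358)))) (l (nat_lit 2) (nat_lit 335) (nat_lit 339)))) (l (nat_lit 6) (nat_lit 285) (nat_lit 385)))))) (n (nat_lit 287)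 (b (l (nat_lit 5) (nat_lit 286) (nat_lit 386)) (l (nat_lit 6) (nat_lit 261) (nat_lit 262))))) (n (nat_lit 360) (b (n (nat_lit 338) (b (n (nat_lit 359) (b (l (nat_lit 2) (nat_lit 334) (nat_lit 335)) (l (nat_lit 1) (nat_lit 333) (nat_lit 358)))) (l (nat_lit 2) (nat_lit 335) (nat_lit 339)))) (n (nat_lit 385) (b (n (nat_lit 386) (b (l (nat_lit 6) (nat_lit 310) (nat_lit 410)) (l (nat_lit 5) (nat_lit 311) (nat_lit 411)))) (l (nat_lit 6) (nat_lit 285) (nat_lit 286))))))))
    envOK_nil (by decide +kernel)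

theorem p4563 : Fam (nat_lit 9) (nat_lit 279968105287774564918762799104385844352425108654553002546010961528920904730838823918550409449744367616) (nat_lit 18509568308187286987911787721318881781766358481262297925922623566120669203820610674908926050900443984355730968707314917310464) (nat_lit 18509568308187286987911787721318881781766358481262297925922623566120669203820610674908926050900443984355730968707314917310464) :=
  chk_sound (Env.cons (nat_lit 6) (nat_lit 419952151673887328078602941639913611735027952231718598477260280339157896679598883004855252779219812352) (nat_lit 78804148021127575604921714079749933393304549335299593897685223491390618059191722744851199678751218371493608038596608) (Env.cons (nat_lit 6) (nat_lit 419952151673887328078602941639913611735027952231718598477260280339157896679598883004855252779219812352) (nat_lit 7932671861895029172826714124673597961595346029210377803404757613399083348976490557743996527474955830609768333137305493569536)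 Env.nil))
    (n (nat_lit 336) (b (b (b (r (nat_lit 0)) (n (nat_lit 338) (b (b (n (nat_lit 335) (b (n (nat_lit 334) (b (n (nat_lit 359) (b (l (nat_lit 2) (nat_lit 333) (nat_lit 358)) (l (nat_lit 2) (nat_lit 334) (nat_lit 360)))) (l (nat_lit 1) (nat_lit 308) (nat_lit 333)))) (n (nat_lit 339) (b (n (nat_lit 364) (b (l (nat_lit 0) (nat_lit 336) (nat_lit 365)) (l (nat_lit 0) (nat_lit 335) (nat_lit 363)))) (l (nat_lit 3) (nat_lit 311) (nat_lit 340)))))) (n (nat_lit 310) (b (l (nat_lit 0) (nat_lit 309) (nat_lit 309)) (l (nat_lit 3) (nat_lit 310) (nat_lit 339))))) (n (nat_lit 335) (b (b (n (nat_lit 334) (b (n (nat_lit 359) (b (l (nat_lit 2) (nat_lit 333) (nat_lit 358)) (l (nat_lit 2) (nat_lit 334) (nat_lit 360)))) (l (nat_lit 1) (nat_lit 308) (nat_lit 333)))) (n (nat_lit 309) (b (n (nat_lit 334) (b (l (nat_lit 3) (nat_lit 308) (nat_lit 308)) (l (nat_lit 1) (nat_lit 308) (nat_lit 333)))) (l (nat_lit 3) (nat_lit 309) (nat_lit 310))))) (n (nat_lit 310)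 (b (n (nat_lit 386) (b (n (nat_lit 360) (b (n (nat_lit 385) (b (l (nat_lit 5) (nat_lit 310) (nat_lit 410)) (l (nat_lit 4) (nat_lit 310) (nat_lit 411)))) (l (nat_lit 2) (nat_lit 334) (nat_lit 359)))) (n (nat_lit 361) (b (l (nat_lit 7) (nat_lit 285) (nat_lit 285)) (l (nat_lit 5) (nat_lit 286) (nat_lit 287)))))) (l (nat_lit 3) (nat_lit 309) (nat_lit 309))))))))) (b (r (nat_lit 1)) (n (nat_lit 361) (b (b (n (nat_lit 286) (b (b (n (nat_lit 261) (b (n (nat_lit 260) (b (l (nat_lit 7) (nat_lit 235) (nat_lit 235)) (l (nat_lit 7) (nat_lit 260) (nat_lit 285)))) (l (nat_lit 4) (nat_lit 236) (nat_lit 236)))) (n (nat_lit 262) (b (n (nat_lit 261) (b (l (nat_lit 4) (nat_lit 236) (nat_lit 236)) (l (nat_lit 5) (nat_lit 236) (nat_lit 237)))) (l (nat_lit 6) (nat_lit 261) (nat_lit 287))))) (n (nat_lit 287) (b (n (nat_lit 309) (b (n (nat_lit 285) (b (n (nat_lit 284) (b (l (nat_lit 2) (nat_lit 283) (nat_lit 308)) (l (nat_lit 0) (nat_lit 283) (nat_lit 283)))) (l (nat_lit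 7) (nat_lit 260) (nat_lit 260)))) (n (nat_lit 310) (b (l (nat_lit 1) (nat_lit 284) (nat_lit 288)) (l (nat_lit 0) (nat_lit 309) (nat_lit 338)))))) (l (nat_lit 6) (nat_lit 261) (nat_lit 262)))))) (n (nat_lit 287) (b (l (nat_lit 5) (nat_lit 286) (nat_lit 386)) (l (nat_lit 6) (nat_lit 261) (nat_lit 262))))) (n (nat_lit 310) (b (n (nat_lit 338) (b (l (nat_lit 3) (nat_lit 310) (nat_lit 339)) (l (nat_lit 0) (nat_lit 309) (nat_lit 309)))) (n (nat_lit 386) (b (l (nat_lit 5) (nat_lit 311) (nat_lit 411)) (l (nat_lit 7) (nat_lit 285) (nat_lit 285)))))))))) (n (nat_lit 361) (b (b (n (nat_lit 386) (b (n (nat_lit 385) (b (n (nat_lit 360) (b (n (nat_lit 387) (b (n (nat_lit 359) (b (l (nat_lit 3) (nat_lit 359) (nat_lit 388)) (l (nat_lit 1) (nat_lit 333) (nat_lit 358)))) (l (nat_lit 4) (nat_lit 311) (nat_lit 412)))) (l (nat_lit 6) (nat_lit 285) (nat_lit 286)))) (l (nat_lit 6) (nat_lit 310) (nat_lit 410)))) (l (nat_lit 5) (nat_lit 311) (nat_lit 411)))) (n (nat_lit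 287) (b (l (nat_lit 5) (nat_lit 286) (nat_lit 386)) (l (nat_lit 6) (nat_lit 261) (nat_lit 262))))) (n (nat_lit 286) (b (b (n (nat_lit 261) (b (n (nat_lit 260) (b (l (nat_lit 7) (nat_lit 235) (nat_lit 235)) (l (nat_lit 7) (nat_lit 260) (nat_lit 285)))) (l (nat_lit 4) (nat_lit 236) (nat_lit 236)))) (n (nat_lit 262) (b (n (nat_lit 261) (b (l (nat_lit 4) (nat_lit 236) (nat_lit 236)) (l (nat_lit 5) (nat_lit 236) (nat_lit 237)))) (l (nat_lit 6) (nat_lit 261) (nat_lit 287))))) (n (nat_lit 287) (b (n (nat_lit 285) (b (n (nat_lit 288) (b (n (nat_lit 289) (b (n (nat_lit 264) (b (l (nat_lit 1) (nat_lit 261) (nat_lit 265)) (l (nat_lit 1) (nat_lit 260) (nat_lit 263)))) (l (nat_lit 2) (nat_lit 286) (nat_lit 290)))) (n (nat_lit 309) (b (n (nat_lit 284) (b (l (nat_lit 2) (nat_lit 283) (nat_lit 308)) (l (nat_lit 0) (nat_lit 283) (nat_lit 283)))) (l (nat_lit 2) (nat_lit 284) (nat_lit 310)))))) (l (nat_lit 7) (nat_lit 260) (nat_lit 260)))) (l (nat_lit 6) (nat_lit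 261) (nat_lit 262))))))))))
    (envOK_cons p1840 (envOK_cons p4546 envOK_nil)) (by decide +kernel)

theorem p4645 : Fam (nat_lit 6) (nat_lit 279968107373699466850682955340032295765536141059621789223474184168548055176747017842488449758289461248) (nat_lit 349960130566756773141023284572886824444960059543214120909649484243096995579282947555400480217209241600) (nat_lit 349960130566756773141023284572886824444960059543214120909649484243096995579282947555400480217209241600) :=
  chk_sound Env.nil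
    (n (nat_lit 261) (b (b (n (nat_lit 259) (b (b (n (nat_lit 335) (b (l (nat_lit 7) (nat_lit 234) (nat_lit 234)) (l (nat_lit 5) (nat_lit 235) (nat_lit 236)))) (n (nat_lit 262) (b (n (nat_lit 287) (b (l (nat_lit 0) (nat_lit 259) (nat_lit 288)) (l (nat_lit 7) (nat_lit 236) (nat_lit 236)))) (n (nat_lit 284) (b (l (nat_lit 2) (nat_lit 259) (nat_lit 263)) (l (nat_lit 2) (nat_lit 258) (nat_lit 283))))))) (n (nat_lit 284) (b (n (nat_lit 262) (b (l (nat_lit 2) (nat_lit 258) (nat_lit 283)) (l (nat_lit 2) (nat_lit 259) (nat_lit 263)))) (n (nat_lit 234) (b (l (nat_lit 4) (nat_lit 209) (nat_lit 209)) (l (nat_lit 7) (nat_lit 234) (nat_lit 335)))))))) (n (nat_lit 284) (b (b (n (nat_lit 262) (b (n (nat_lit 236) (b (l (nat_lit 7) (nat_lit 236) (nat_lit 287)) (l (nat_lit 4) (nat_lit 236) (nat_lit 286)))) (l (nat_lit 2) (nat_lit 259) (nat_lit 263)))) (n (nat_lit 262) (b (n (nat_lit 283) (b (l (nat_lit 2) (nat_lit 258) (nat_lit 259)) (l (nat_lit 1) (nat_lit 257)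 (nat_lit 282)))) (l (nat_lit 2) (nat_lit 259) (nat_lit 263))))) (n (nat_lit 283) (b (l (nat_lit 0) (nat_lit 283) (nat_lit 286)) (l (nat_lit 1) (nat_lit 257) (nat_lit 282))))))) (b (n (nat_lit 236) (b (l (nat_lit 4) (nat_lit 236) (nat_lit 286)) (l (nat_lit 5) (nat_lit 235) (nat_lit 335)))) (n (nat_lit 262) (b (b (n (nat_lit 259) (b (n (nat_lit 287) (b (n (nat_lit 238) (b (l (nat_lit 5) (nat_lit 237) (nat_lit 263)) (l (nat_lit 1) (nat_lit 234) (nat_lit 237)))) (l (nat_lit 0) (nat_lit 259) (nat_lit 288)))) (n (nat_lit 234) (b (l (nat_lit 3) (nat_lit 233) (nat_lit 233)) (l (nat_lit 7) (nat_lit 234) (nat_lit 335)))))) (n (nat_lit 259) (b (n (nat_lit 234) (b (l (nat_lit 3) (nat_lit 233) (nat_lit 233)) (l (nat_lit 7) (nat_lit 234) (nat_lit 335)))) (n (nat_lit 258) (b (n (nat_lit 286) (b (l (nat_lit 0) (nat_lit 258) (nat_lit 287)) (l (nat_lit 0) (nat_lit 257) (nat_lit 257)))) (n (nat_lit 283) (b (l (nat_lit 2) (nat_lit 257) (nat_lit 282)) (l (nat_lit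 2) (nat_lit 258) (nat_lit 284))))))))) (n (nat_lit 284) (b (n (nat_lit 283) (b (l (nat_lit 1) (nat_lit 258) (nat_lit 286)) (l (nat_lit 1) (nat_lit 257) (nat_lit 282)))) (l (nat_lit 2) (nat_lit 259) (nat_lit 263)))))))))
    envOK_nil (by decide +kernel)

theorem p4661 : Fam (nat_lit 6) (nat_lit 279968103201849787317655450662255525903129667226214518995636742865732414898974115927174875494691635200) (nat_lit 349960126394906448641952508974767386442822147841878317438386884253730595628900803758757146569702637568) (nat_lit 349960126394906448641952508974767386442822147841878317438386884253730595628900803758757146569702637568) :=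
  chk_sound Env.nil
    (n (nat_lit 235) (b (b (n (nat_lit 236) (b (n (nat_lit 261) (b (n (nat_lit 262) (b (n (nat_lit 263) (b (l (nat_lit 3) (nat_lit 235) (nat_lit 264)) (l (nat_lit 2) (nat_lit 259) (nat_lit 284)))) (l (nat_lit 7) (nat_lit 236) (nat_lit 287)))) (l (nat_lit 5) (nat_lit 235) (nat_lit 335)))) (l (nat_lit 5) (nat_lit 210) (nat_lit 211)))) (n (nat_lit 210) (b (n (nat_lit 211) (b (l (nat_lit 5) (nat_lit 210) (nat_lit 236)) (l (nat_lit 5) (nat_lit 185) (nat_lit 186)))) (n (nat_lit 209) (b (l (nat_lit 7) (nat_lit 184) (nat_lit 184)) (l (nat_lit 7) (nat_lit 209) (nat_lit 234))))))) (b (n (nat_lit 234) (b (n (nat_lit 261) (b (b (n (nat_lit 335) (b (l (nat_lit 5) (nat_lit 235) (nat_lit 236)) (l (nat_lit 7) (nat_lit 234) (nat_lit 259)))) (n (nat_lit 262) (b (n (nat_lit 233) (b (l (nat_lit 0) (nat_lit 232) (nat_lit 232)) (l (nat_lit 3) (nat_lit 233) (nat_lit 259)))) (l (nat_lit 3) (nat_lit 234) (nat_lit 263))))) (n (nat_lit 262) (b (n (nat_lit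 233) (b (l (nat_lit 0) (nat_lit 233) (nat_lit 236)) (l (nat_lit 0) (nat_lit 232) (nat_lit 232)))) (l (nat_lit 3) (nat_lit 234) (nat_lit 263)))))) (l (nat_lit 7) (nat_lit 209) (nat_lit 209)))) (n (nat_lit 210) (b (b (n (nat_lit 185) (b (n (nat_lit 186) (b (l (nat_lit 5) (nat_lit 185) (nat_lit 211)) (l (nat_lit 5) (nat_lit 160) (nat_lit 161)))) (n (nat_lit 259) (b (n (nat_lit 234) (b (l (nat_lit 7) (nat_lit 234) (nat_lit 335)) (l (nat_lit 6) (nat_lit 159) (nat_lit 160)))) (l (nat_lit 6) (nat_lit 184) (nat_lit 284)))))) (n (nat_lit 209) (b (l (nat_lit 7) (nat_lit 184) (nat_lit 184)) (l (nat_lit 7) (nat_lit 209) (nat_lit 234))))) (n (nat_lit 185) (b (n (nat_lit 186) (b (l (nat_lit 5) (nat_lit 185) (nat_lit 211)) (l (nat_lit 5) (nat_lit 160) (nat_lit 161)))) (n (nat_lit 184) (b (l (nat_lit 7) (nat_lit 159) (nat_lit 159)) (l (nat_lit 7) (nat_lit 184) (nat_lit 209)))))))))))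
    envOK_nil (by decide +kernel)

theorem p4671 : Fam (nat_lit 6) (nat_lit 6257774581464947660913423221275517506238476056905300663942442790723681095839251614572142919680) (nat_lit 118206022111997416785628009493960984943022315921954142526205216249748833835075097947318541918031338568763586434301952) (nat_lit 118206022111997416785628009493960984943022315921954142526205216249748833835075097947318541918031338568763586434301952) :=
  chk_sound Env.nil
    (n (nat_lit 335) (b (b (n (nat_lit 360) (b (n (nat_lit 286) (b (l (nat_lit 5) (nat_lit 285) (nat_lit 385)) (l (nat_lit 5) (nat_lit 260) (nat_lit 261)))) (n (nat_lit 359) (b (l (nat_lit 6) (nat_lit 259) (nat_lit 334)) (l (nat_lit 6) (nat_lit 284) (nat_lit 384)))))) (n (nat_lit 360) (b (n (nat_lit 259) (b (l (nat_lit 7) (nat_lit 259) (nat_lit 284)) (l (nat_lit 7) (nat_lit 234) (nat_lit 234)))) (n (nat_lit 359) (b (l (nat_lit 6) (nat_lit 259) (nat_lit 334)) (l (nat_lit 6) (nat_lit 284) (nat_lit 384)))))))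 (n (nat_lit 235) (b (b (n (nat_lit 234) (b (l (nat_lit 7) (nat_lit 234) (nat_lit 259)) (l (nat_lit 7) (nat_lit 209) (nat_lit 209)))) (n (nat_lit 210) (b (n (nat_lit 185) (b (n (nat_lit 259) (b (l (nat_lit 7) (nat_lit 234) (nat_lit 234)) (l (nat_lit 6) (nat_lit 184) (nat_lit 284)))) (n (nat_lit 186) (b (l (nat_lit 5) (nat_lit 185) (nat_lit 211)) (l (nat_lit 5) (nat_lit 160) (nat_lit 161)))))) (l (nat_lit 4) (nat_lit 210) (nat_lit 286))))) (n (nat_lit 210) (b (n (nat_lit 185) (b (n (nat_lit 186) (b (l (nat_lit 5) (nat_lit 185) (nat_lit 211)) (l (nat_lit 5) (nat_lit 160) (nat_lit 161)))) (n (nat_lit 184) (b (l (nat_lit 7) (nat_lit 159) (nat_lit 159)) (l (nat_lit 7) (nat_lit 184) (nat_lit 209)))))) (l (nat_lit 4) (nat_lit 210) (nat_lit 286))))))))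
    envOK_nil (by decide +kernel)

theorem p4691 : Fam (nat_lit 11) (nat_lit 279968105287774564918762799104385844352425108654553002546010961528920904730838823918550409449744367616) (nat_lit 70071934858876756875524736363702626372244169855500962373299408936161346389913675358950552393886178575926257212429220953718784) (nat_lit 70071934858876756875524736363702626372244169855500962373299408936161346389913675358950552393886178575926257212429220953718784) :=
  chk_sound (Env.cons (nat_lit 6) (nat_lit 279968107373699466850682955340032295765536141059621789223474184168548055176747017842488449758289461248) (nat_lit 349960130566756773141023284572886824444960059543214120909649484243096995579282947555400480217209241600) (Env.cons (nat_lit 6) (nat_lit 279968103201849787317655450662255525903129667226214518995636742865732414898974115927174875494691635200) (nat_lit 349960126394906448641952508974767386442822147841878317438386884253730595628900803758757146569702637568)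 (Env.cons (nat_lit 6) (nat_lit 6257774581464947660913423221275517506238476056905300663942442790723681095839251614572142919680) (nat_lit 118206022111997416785628009493960984943022315921954142526205216249748833835075097947318541918031338568763586434301952) Env.nil)))
    (n (nat_lit 310) (b (b (n (nat_lit 309) (b (n (nat_lit 308) (b (n (nat_lit 333) (b (l (nat_lit 2) (nat_lit 307) (nat_lit 332)) (l (nat_lit 2) (nat_lit 308) (nat_lit 334)))) (n (nat_lit 287) (b (l (nat_lit 1) (nat_lit 283) (nat_lit 286)) (l (nat_lit 1) (nat_lit 284) (nat_lit 288)))))) (l (nat_lit 0) (nat_lit 309) (nat_lit 338)))) (n (nat_lit 309) (b (b (n (nat_lit 313) (b (n (nat_lit 334) (b (l (nat_lit 2) (nat_lit 309) (nat_lit 335)) (l (nat_lit 2) (nat_lit 308) (nat_lit 333)))) (n (nat_lit 288) (b (l (nat_lit 1) (nat_lit 284) (nat_lit 287)) (l (nat_lit 1) (nat_lit 285) (nat_lit 289)))))) (n (nat_lit 308) (b (n (nat_lit 283) (b (l (nat_lit 3) (nat_lit 283) (nat_lit 284)) (l (nat_lit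 3) (nat_lit 282) (nat_lit 282)))) (n (nat_lit 333) (b (l (nat_lit 2) (nat_lit 307) (nat_lit 332)) (l (nat_lit 2) (nat_lit 308) (nat_lit 334))))))) (n (nat_lit 313) (b (n (nat_lit 284) (b (l (nat_lit 3) (nat_lit 283) (nat_lit 283)) (l (nat_lit 3) (nat_lit 284) (nat_lit 285)))) (n (nat_lit 288) (b (l (nat_lit 1) (nat_lit 284) (nat_lit 287)) (l (nat_lit 1) (nat_lit 285) (nat_lit 289))))))))) (b (n (nat_lit 338) (b (n (nat_lit 339) (b (l (nat_lit 0) (nat_lit 310) (nat_lit 313)) (l (nat_lit 3) (nat_lit 311) (nat_lit 340)))) (l (nat_lit 0) (nat_lit 309) (nat_lit 309)))) (n (nat_lit 285) (b (b (n (nat_lit 313) (b (n (nat_lit 338) (b (n (nat_lit 288) (b (n (nat_lit 363) (b (n (nat_lit 388) (b (n (nat_lit 389) (b (l (nat_lit 4) (nat_lit 288) (nat_lit 364)) (l (nat_lit 4) (nat_lit 313) (nat_lit 414)))) (l (nat_lit 7) (nat_lit 312) (nat_lit 413)))) (n (nat_lit 262) (b (n (nat_lit 263) (b (l (nat_lit 7) (nat_lit 237) (nat_lit 237)) (l (nat_lit 6) (nat_lit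 237) (nat_lit 238)))) (l (nat_lit 7) (nat_lit 262) (nat_lit 287)))))) (l (nat_lit 1) (nat_lit 285) (nat_lit 289)))) (l (nat_lit 0) (nat_lit 310) (nat_lit 339)))) (l (nat_lit 3) (nat_lit 284) (nat_lit 284)))) (n (nat_lit 284) (b (n (nat_lit 283) (b (l (nat_lit 0) (nat_lit 283) (nat_lit 286)) (l (nat_lit 0) (nat_lit 282) (nat_lit 282)))) (l (nat_lit 3) (nat_lit 284) (nat_lit 313))))) (b (n (nat_lit 335) (b (b (n (nat_lit 360) (b (n (nat_lit 385) (b (n (nat_lit 384) (b (l (nat_lit 6) (nat_lit 284) (nat_lit 359)) (l (nat_lit 6) (nat_lit 309) (nat_lit 409)))) (n (nat_lit 386) (b (l (nat_lit 4) (nat_lit 310) (nat_lit 411)) (l (nat_lit 4) (nat_lit 285) (nat_lit 361)))))) (n (nat_lit 260) (b (b (n (nat_lit 261) (b (l (nat_lit 5) (nat_lit 235) (nat_lit 236)) (l (nat_lit 5) (nat_lit 260) (nat_lit 286)))) (n (nat_lit 235) (b (n (nat_lit 210) (b (n (nat_lit 211) (b (l (nat_lit 5) (nat_lit 210) (nat_lit 236)) (l (nat_lit 5) (nat_lit 185) (nat_lit 186)))) (l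 (nat_lit 4) (nat_lit 210) (nat_lit 286)))) (n (nat_lit 234) (b (l (nat_lit 7) (nat_lit 234) (nat_lit 259)) (l (nat_lit 7) (nat_lit 209) (nat_lit 209))))))) (b (n (nat_lit 235) (b (n (nat_lit 286) (b (l (nat_lit 5) (nat_lit 260) (nat_lit 261)) (l (nat_lit 4) (nat_lit 210) (nat_lit 210)))) (n (nat_lit 234) (b (l (nat_lit 7) (nat_lit 234) (nat_lit 259)) (l (nat_lit 7) (nat_lit 209) (nat_lit 209)))))) (n (nat_lit 235) (b (n (nat_lit 234) (b (l (nat_lit 7) (nat_lit 234) (nat_lit 259)) (l (nat_lit 7) (nat_lit 209) (nat_lit 209)))) (n (nat_lit 236) (b (l (nat_lit 5) (nat_lit 210) (nat_lit 211)) (l (nat_lit 5) (nat_lit 235) (nat_lit 261))))))))))) (n (nat_lit 260) (b (n (nat_lit 235) (b (n (nat_lit 234) (b (l (nat_lit 7) (nat_lit 234) (nat_lit 259)) (l (nat_lit 7) (nat_lit 209) (nat_lit 209)))) (n (nat_lit 236) (b (l (nat_lit 5) (nat_lit 210) (nat_lit 211)) (l (nat_lit 5) (nat_lit 235) (nat_lit 261)))))) (n (nat_lit 334) (b (l (nat_lit 2) (nat_lit 309)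 (nat_lit 313)) (l (nat_lit 6) (nat_lit 259) (nat_lit 359))))))) (b (n (nat_lit 334) (b (n (nat_lit 359) (b (n (nat_lit 384) (b (l (nat_lit 5) (nat_lit 309) (nat_lit 409)) (l (nat_lit 6) (nat_lit 284) (nat_lit 360)))) (l (nat_lit 6) (nat_lit 259) (nat_lit 260)))) (l (nat_lit 2) (nat_lit 309) (nat_lit 313)))) (n (nat_lit 313) (b (n (nat_lit 338) (b (n (nat_lit 288) (b (n (nat_lit 287) (b (n (nat_lit 286) (b (n (nat_lit 263) (b (l (nat_lit 6) (nat_lit 237) (nat_lit 238)) (l (nat_lit 1) (nat_lit 260) (nat_lit 264)))) (n (nat_lit 261) (b (l (nat_lit 4) (nat_lit 236) (nat_lit 236)) (l (nat_lit 5) (nat_lit 260) (nat_lit 360)))))) (n (nat_lit 363) (b (l (nat_lit 7) (nat_lit 287) (nat_lit 388)) (l (nat_lit 7) (nat_lit 262) (nat_lit 262)))))) (l (nat_lit 1) (nat_lit 285) (nat_lit 289)))) (l (nat_lit 0) (nat_lit 310) (nat_lit 339)))) (l (nat_lit 2) (nat_lit 309) (nat_lit 334))))))) (n (nat_lit 260) (b (b (b (n (nat_lit 235) (b (b (n (nat_lit 286) (b (n (nat_lit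 261) (b (n (nat_lit 287) (b (b (n (nat_lit 263) (b (n (nat_lit 288) (b (l (nat_lit 1) (nat_lit 260) (nat_lit 264)) (l (nat_lit 3) (nat_lit 260) (nat_lit 289)))) (n (nat_lit 262) (b (l (nat_lit 1) (nat_lit 259) (nat_lit 284)) (l (nat_lit 5) (nat_lit 237) (nat_lit 238)))))) (n (nat_lit 259) (b (l (nat_lit 0) (nat_lit 258) (nat_lit 258)) (l (nat_lit 3) (nat_lit 259) (nat_lit 288))))) (n (nat_lit 262) (b (n (nat_lit 259) (b (n (nat_lit 237) (b (l (nat_lit 6) (nat_lit 211) (nat_lit 212)) (l (nat_lit 1) (nat_lit 234) (nat_lit 238)))) (l (nat_lit 0) (nat_lit 258) (nat_lit 258)))) (n (nat_lit 284) (b (l (nat_lit 2) (nat_lit 259) (nat_lit 263)) (l (nat_lit 0) (nat_lit 283) (nat_lit 283)))))))) (l (nat_lit 4) (nat_lit 236) (nat_lit 236)))) (l (nat_lit 4) (nat_lit 210) (nat_lit 210)))) (n (nat_lit 210) (b (n (nat_lit 185) (b (n (nat_lit 186) (b (l (nat_lit 5) (nat_lit 185) (nat_lit 211)) (l (nat_lit 5) (nat_lit 160) (nat_lit 161)))) (n (nat_lit 184) (b (l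 (nat_lit 7) (nat_lit 159) (nat_lit 159)) (l (nat_lit 7) (nat_lit 184) (nat_lit 209)))))) (l (nat_lit 4) (nat_lit 210) (nat_lit 286))))) (b (n (nat_lit 210) (b (n (nat_lit 211) (b (l (nat_lit 5) (nat_lit 210) (nat_lit 236)) (l (nat_lit 5) (nat_lit 185) (nat_lit 186)))) (n (nat_lit 209) (b (l (nat_lit 7) (nat_lit 184) (nat_lit 184)) (l (nat_lit 7) (nat_lit 209) (nat_lit 234)))))) (n (nat_lit 236) (b (n (nat_lit 261) (b (n (nat_lit 262) (b (n (nat_lit 234) (b (l (nat_lit 7) (nat_lit 209) (nat_lit 209)) (l (nat_lit 3) (nat_lit 234) (nat_lit 263)))) (l (nat_lit 7) (nat_lit 236) (nat_lit 287)))) (l (nat_lit 4) (nat_lit 236) (nat_lit 286)))) (l (nat_lit 5) (nat_lit 210) (nat_lit 211))))))) (n (nat_lit 235) (b (b (n (nat_lit 210) (b (n (nat_lit 185) (b (n (nat_lit 186) (b (l (nat_lit 5) (nat_lit 185) (nat_lit 211)) (l (nat_lit 5) (nat_lit 160) (nat_lit 161)))) (n (nat_lit 184) (b (l (nat_lit 7) (nat_lit 159) (nat_lit 159)) (l (nat_lit 7) (nat_lit 184)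 (nat_lit 209)))))) (l (nat_lit 4) (nat_lit 210) (nat_lit 286)))) (n (nat_lit 236) (b (n (nat_lit 261) (b (n (nat_lit 262) (b (n (nat_lit 263) (b (l (nat_lit 3) (nat_lit 235) (nat_lit 264)) (l (nat_lit 2) (nat_lit 259) (nat_lit 284)))) (l (nat_lit 7) (nat_lit 236) (nat_lit 287)))) (l (nat_lit 5) (nat_lit 235) (nat_lit 335)))) (l (nat_lit 5) (nat_lit 210) (nat_lit 211))))) (n (nat_lit 286) (b (n (nat_lit 261) (b (n (nat_lit 287) (b (b (n (nat_lit 263) (b (n (nat_lit 288) (b (l (nat_lit 1) (nat_lit 260) (nat_lit 264)) (l (nat_lit 3) (nat_lit 260) (nat_lit 289)))) (n (nat_lit 262) (b (l (nat_lit 1) (nat_lit 259) (nat_lit 284)) (l (nat_lit 5) (nat_lit 237) (nat_lit 238)))))) (n (nat_lit 259) (b (l (nat_lit 0) (nat_lit 258) (nat_lit 258)) (l (nat_lit 3) (nat_lit 259) (nat_lit 288))))) (n (nat_lit 262) (b (n (nat_lit 259) (b (n (nat_lit 237) (b (l (nat_lit 6) (nat_lit 211) (nat_lit 212)) (l (nat_lit 1) (nat_lit 234) (nat_lit 238)))) (l (nat_lit 0) (nat_lit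 258) (nat_lit 258)))) (n (nat_lit 284) (b (l (nat_lit 2) (nat_lit 259) (nat_lit 263)) (l (nat_lit 0) (nat_lit 283) (nat_lit 283)))))))) (l (nat_lit 4) (nat_lit 236) (nat_lit 236)))) (l (nat_lit 4) (nat_lit 210) (nat_lit 210))))))) (b (r (nat_lit 0)) (r (nat_lit 1)))) (b (b (n (nat_lit 235) (b (b (n (nat_lit 210) (b (n (nat_lit 209) (b (l (nat_lit 7) (nat_lit 184) (nat_lit 184)) (l (nat_lit 7) (nat_lit 209) (nat_lit 234)))) (l (nat_lit 4) (nat_lit 210) (nat_lit 286)))) (n (nat_lit 210) (b (n (nat_lit 211) (b (l (nat_lit 5) (nat_lit 210) (nat_lit 236)) (l (nat_lit 5) (nat_lit 185) (nat_lit 186)))) (l (nat_lit 4) (nat_lit 210) (nat_lit 286))))) (n (nat_lit 234) (b (n (nat_lit 236) (b (n (nat_lit 259) (b (n (nat_lit 258) (b (l (nat_lit 2) (nat_lit 233) (nat_lit 237)) (l (nat_lit 1) (nat_lit 232) (nat_lit 257)))) (l (nat_lit 7) (nat_lit 234) (nat_lit 335)))) (l (nat_lit 5) (nat_lit 210) (nat_lit 211)))) (l (nat_lit 7) (nat_lit 209) (nat_lit 209))))))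 (r (nat_lit 2))) (b (n (nat_lit 235) (b (b (n (nat_lit 236) (b (n (nat_lit 261) (b (l (nat_lit 4) (nat_lit 236) (nat_lit 286)) (l (nat_lit 5) (nat_lit 235) (nat_lit 335)))) (l (nat_lit 5) (nat_lit 210) (nat_lit 211)))) (n (nat_lit 210) (b (n (nat_lit 209) (b (l (nat_lit 7) (nat_lit 184) (nat_lit 184)) (l (nat_lit 7) (nat_lit 209) (nat_lit 234)))) (l (nat_lit 4) (nat_lit 210) (nat_lit 286))))) (n (nat_lit 210) (b (n (nat_lit 211) (b (l (nat_lit 5) (nat_lit 210) (nat_lit 236)) (l (nat_lit 5) (nat_lit 185) (nat_lit 186)))) (n (nat_lit 209) (b (l (nat_lit 7) (nat_lit 184) (nat_lit 184)) (l (nat_lit 7) (nat_lit 209) (nat_lit 234)))))))) (n (nat_lit 236) (b (b (n (nat_lit 211) (b (n (nat_lit 261) (b (l (nat_lit 6) (nat_lit 185) (nat_lit 186)) (l (nat_lit 6) (nat_lit 210) (nat_lit 286)))) (l (nat_lit 5) (nat_lit 210) (nat_lit 235)))) (n (nat_lit 211) (b (n (nat_lit 261) (b (l (nat_lit 5) (nat_lit 235) (nat_lit 335)) (l (nat_lit 6) (nat_lit 185) (nat_lit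 186)))) (l (nat_lit 5) (nat_lit 210) (nat_lit 235))))) (b (n (nat_lit 261) (b (l (nat_lit 4) (nat_lit 236) (nat_lit 286)) (l (nat_lit 5) (nat_lit 235) (nat_lit 335)))) (n (nat_lit 235) (b (n (nat_lit 286) (b (n (nat_lit 259) (b (b (n (nat_lit 335) (b (n (nat_lit 284) (b (l (nat_lit 7) (nat_lit 259) (nat_lit 360)) (l (nat_lit 0) (nat_lit 283) (nat_lit 283)))) (l (nat_lit 7) (nat_lit 234) (nat_lit 234)))) (n (nat_lit 258) (b (n (nat_lit 237) (b (l (nat_lit 2) (nat_lit 234) (nat_lit 238)) (l (nat_lit 2) (nat_lit 233) (nat_lit 234)))) (l (nat_lit 1) (nat_lit 232) (nat_lit 257))))) (n (nat_lit 258) (b (n (nat_lit 287) (b (l (nat_lit 3) (nat_lit 258) (nat_lit 284)) (l (nat_lit 3) (nat_lit 259) (nat_lit 288)))) (l (nat_lit 1) (nat_lit 232) (nat_lit 257)))))) (l (nat_lit 4) (nat_lit 210) (nat_lit 210)))) (l (nat_lit 5) (nat_lit 210) (nat_lit 211)))))))))))))))))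
    (envOK_cons p4645 (envOK_cons p4661 (envOK_cons p4671 envOK_nil))) (by decide +kernel)

theorem p4728 : Fam (nat_lit 6) (nat_lit 419952151673887328078602941639913611735027952231718598477260280339157896679598883004855252779219812352) (nat_lit 7932671861895027411418027243735538033772322005261938592612532790393562496029060848722754179129597120644394413714509708394496) (nat_lit 7932671861895027411418027243735538033772322005261938592612532790393562496029060848722754179129597120644394413714509708394496) :=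
  chk_sound Env.nil
    (n (nat_lit 361) (b (b (n (nat_lit 286) (b (n (nat_lit 261) (b (n (nat_lit 260) (b (l (nat_lit 7) (nat_lit 235) (nat_lit 235)) (l (nat_lit 7) (nat_lit 260) (nat_lit 285)))) (l (nat_lit 4) (nat_lit 236) (nat_lit 236)))) (n (nat_lit 386) (b (n (nat_lit 385) (b (l (nat_lit 6) (nat_lit 285) (nat_lit 360)) (l (nat_lit 6) (nat_lit 310) (nat_lit 410)))) (l (nat_lit 5) (nat_lit 311) (nat_lit 411)))))) (n (nat_lit 287) (b (l (nat_lit 5) (nat_lit 286) (nat_lit 386)) (l (nat_lit 6) (nat_lit 261) (nat_lit 262))))) (n (nat_lit 286) (b (b (n (nat_lit 262) (b (n (nat_lit 261) (b (l (nat_lit 4) (nat_lit 236) (nat_lit 236)) (l (nat_lit 5) (nat_lit 236) (nat_lit 237)))) (l (nat_lit 6) (nat_lit 261) (nat_lit 287)))) (n (nat_lit 287) (b (n (nat_lit 285) (b (n (nat_lit 284) (b (l (nat_lit 0) (nat_lit 283) (nat_lit 283)) (l (nat_lit 0) (nat_lit 284) (nat_lit 313)))) (l (nat_lit 7) (nat_lit 260) (nat_lit 260)))) (l (nat_lit 6) (nat_lit 261) (nat_lit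 262))))) (n (nat_lit 261) (b (n (nat_lit 260) (b (l (nat_lit 7) (nat_lit 235) (nat_lit 235)) (l (nat_lit 7) (nat_lit 260) (nat_lit 285)))) (l (nat_lit 4) (nat_lit 236) (nat_lit 236))))))))
    envOK_nil (by decide +kernel)

theorem p4805 : Fam (nat_lit 13) (nat_lit 279968105287774564918762799104385844352425108654553002546010961528920904730838823918550409449744367616) (nat_lit 29086463493615214999986598951624977614518932828085807285580375492802498467597955542264508370281256731381026782008393882140672) (nat_lit 29086463493615214999986598951624977614518932828085807285580375492802498467597955542264508370281256731381026782008393882140672) :=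
  chk_sound (Env.cons (nat_lit 6) (nat_lit 419952151673887328078602941639913611735027952231718598477260280339157896679598883004855252779219812352) (nat_lit 7932671861895029172826714124673597961595346029210377803404757613399083348976490557743996527474955830609768333137305493569536) (Env.cons (nat_lit 6) (nat_lit 419952151673887328078602941639913611735027952231718598477260280339157896679598883004855252779219812352) (nat_lit 7932671861895027411418027243735538033772322005261938592612532790393562496029060848722754179129597120644394413714509708394496) Env.nil))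
    (n (nat_lit 336) (b (b (b (n (nat_lit 286) (b (b (b (n (nat_lit 261) (b (n (nat_lit 262) (b (n (nat_lit 287) (b (n (nat_lit 260) (b (n (nat_lit 288) (b (l (nat_lit 3) (nat_lit 260) (nat_lit 289)) (l (nat_lit 0) (nat_lit 259) (nat_lit 259)))) (l (nat_lit 7) (nat_lit 235) (nat_lit 235)))) (l (nat_lit 6) (nat_lit 261) (nat_lit 361)))) (l (nat_lit 5) (nat_lit 236) (nat_lit 237)))) (l (nat_lit 4) (nat_lit 236) (nat_lit 236)))) (n (nat_lit 261) (b (n (nat_lit 262) (b (n (nat_lit 287) (b (n (nat_lit 263) (b (n (nat_lit 285) (b (l (nat_lit 2) (nat_lit 260) (nat_lit 264)) (l (nat_lit 1) (nat_lit 259) (nat_lit 284)))) (l (nat_lit 5) (nat_lit 237) (nat_lit 238)))) (l (nat_lit 6) (nat_lit 261) (nat_lit 361)))) (l (nat_lit 5) (nat_lit 236) (nat_lit 237)))) (l (nat_lit 4) (nat_lit 236) (nat_lit 236))))) (b (n (nat_lit 261) (b (n (nat_lit 260) (b (n (nat_lit 285) (b (n (nat_lit 284) (b (n (nat_lit 262) (b (l (nat_lit 2) (nat_lit 259) (nat_lit 263)) (l (nat_lit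 5) (nat_lit 236) (nat_lit 237)))) (l (nat_lit 0) (nat_lit 283) (nat_lit 283)))) (l (nat_lit 7) (nat_lit 260) (nat_lit 361)))) (l (nat_lit 7) (nat_lit 235) (nat_lit 235)))) (l (nat_lit 4) (nat_lit 236) (nat_lit 236)))) (n (nat_lit 285) (b (b (n (nat_lit 284) (b (n (nat_lit 287) (b (n (nat_lit 262) (b (l (nat_lit 1) (nat_lit 259) (nat_lit 263)) (l (nat_lit 6) (nat_lit 236) (nat_lit 237)))) (l (nat_lit 0) (nat_lit 284) (nat_lit 313)))) (l (nat_lit 0) (nat_lit 283) (nat_lit 283)))) (n (nat_lit 361) (b (n (nat_lit 386) (b (l (nat_lit 5) (nat_lit 286) (nat_lit 287)) (l (nat_lit 5) (nat_lit 311) (nat_lit 411)))) (l (nat_lit 7) (nat_lit 260) (nat_lit 260))))) (n (nat_lit 334) (b (n (nat_lit 335) (b (l (nat_lit 1) (nat_lit 309) (nat_lit 313)) (l (nat_lit 1) (nat_lit 308) (nat_lit 333)))) (n (nat_lit 260) (b (n (nat_lit 284) (b (n (nat_lit 309) (b (n (nat_lit 235) (b (l (nat_lit 5) (nat_lit 234) (nat_lit 259)) (l (nat_lit 4) (nat_lit 210) (nat_lit 210))))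 (l (nat_lit 5) (nat_lit 259) (nat_lit 359)))) (l (nat_lit 0) (nat_lit 283) (nat_lit 283)))) (l (nat_lit 7) (nat_lit 260) (nat_lit 361)))))))))) (b (n (nat_lit 361) (b (n (nat_lit 261) (b (n (nat_lit 260) (b (l (nat_lit 7) (nat_lit 235) (nat_lit 235)) (l (nat_lit 7) (nat_lit 260) (nat_lit 285)))) (l (nat_lit 4) (nat_lit 236) (nat_lit 236)))) (n (nat_lit 386) (b (l (nat_lit 5) (nat_lit 286) (nat_lit 287)) (l (nat_lit 5) (nat_lit 311) (nat_lit 411)))))) (n (nat_lit 261) (b (n (nat_lit 262) (b (n (nat_lit 263) (b (b (n (nat_lit 285) (b (n (nat_lit 287) (b (l (nat_lit 1) (nat_lit 259) (nat_lit 284)) (l (nat_lit 5) (nat_lit 237) (nat_lit 238)))) (l (nat_lit 2) (nat_lit 260) (nat_lit 264)))) (n (nat_lit 260) (b (n (nat_lit 238) (b (l (nat_lit 1) (nat_lit 235) (nat_lit 239)) (l (nat_lit 5) (nat_lit 237) (nat_lit 287)))) (l (nat_lit 7) (nat_lit 235) (nat_lit 235))))) (n (nat_lit 285) (b (n (nat_lit 260) (b (l (nat_lit 7) (nat_lit 235) (nat_lit 235)) (l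 (nat_lit 2) (nat_lit 259) (nat_lit 284)))) (l (nat_lit 2) (nat_lit 260) (nat_lit 264)))))) (l (nat_lit 5) (nat_lit 236) (nat_lit 237)))) (l (nat_lit 4) (nat_lit 236) (nat_lit 236))))))) (r (nat_lit 0))) (b (r (nat_lit 1)) (n (nat_lit 335) (b (n (nat_lit 334) (b (l (nat_lit 1) (nat_lit 308) (nat_lit 333)) (l (nat_lit 1) (nat_lit 309) (nat_lit 313)))) (n (nat_lit 360) (b (n (nat_lit 286) (b (n (nat_lit 385) (b (l (nat_lit 5) (nat_lit 310) (nat_lit 410)) (l (nat_lit 6) (nat_lit 285) (nat_lit 361)))) (l (nat_lit 6) (nat_lit 260) (nat_lit 261)))) (n (nat_lit 338) (b (n (nat_lit 339) (b (n (nat_lit 364) (b (l (nat_lit 0) (nat_lit 336) (nat_lit 365)) (l (nat_lit 0) (nat_lit 335) (nat_lit 363)))) (l (nat_lit 3) (nat_lit 311) (nat_lit 340)))) (l (nat_lit 2) (nat_lit 334) (nat_lit 359)))))))))) (b (n (nat_lit 335) (b (b (n (nat_lit 338) (b (n (nat_lit 339) (b (n (nat_lit 364) (b (l (nat_lit 0) (nat_lit 336) (nat_lit 365)) (l (nat_lit 0) (nat_lit 335) (nat_lit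 363)))) (l (nat_lit 3) (nat_lit 311) (nat_lit 340)))) (n (nat_lit 334) (b (n (nat_lit 359) (b (l (nat_lit 2) (nat_lit 333) (nat_lit 358)) (l (nat_lit 2) (nat_lit 334) (nat_lit 360)))) (l (nat_lit 1) (nat_lit 308) (nat_lit 333)))))) (n (nat_lit 334) (b (l (nat_lit 1) (nat_lit 308) (nat_lit 333)) (l (nat_lit 1) (nat_lit 309) (nat_lit 313))))) (n (nat_lit 338) (b (b (n (nat_lit 361) (b (n (nat_lit 386) (b (l (nat_lit 5) (nat_lit 286) (nat_lit 287)) (l (nat_lit 5) (nat_lit 311) (nat_lit 411)))) (n (nat_lit 339) (b (l (nat_lit 2) (nat_lit 335) (nat_lit 360)) (l (nat_lit 3) (nat_lit 311) (nat_lit 340)))))) (n (nat_lit 363) (b (n (nat_lit 388) (b (n (nat_lit 287) (b (l (nat_lit 7) (nat_lit 287) (nat_lit 313)) (l (nat_lit 4) (nat_lit 262) (nat_lit 262)))) (l (nat_lit 7) (nat_lit 312) (nat_lit 413)))) (l (nat_lit 0) (nat_lit 335) (nat_lit 364))))) (n (nat_lit 339) (b (n (nat_lit 364) (b (l (nat_lit 0) (nat_lit 336) (nat_lit 365)) (l (nat_lit 0) (nat_lit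 335) (nat_lit 363)))) (l (nat_lit 3) (nat_lit 311) (nat_lit 340)))))))) (n (nat_lit 261) (b (b (n (nat_lit 262) (b (b (n (nat_lit 287) (b (n (nat_lit 338) (b (n (nat_lit 263) (b (n (nat_lit 339) (b (n (nat_lit 288) (b (n (nat_lit 260) (b (l (nat_lit 0) (nat_lit 260) (nat_lit 289)) (l (nat_lit 0) (nat_lit 259) (nat_lit 259)))) (n (nat_lit 364) (b (l (nat_lit 0) (nat_lit 336) (nat_lit 365)) (l (nat_lit 4) (nat_lit 263) (nat_lit 313)))))) (l (nat_lit 3) (nat_lit 311) (nat_lit 340)))) (l (nat_lit 5) (nat_lit 237) (nat_lit 238)))) (l (nat_lit 4) (nat_lit 262) (nat_lit 363)))) (l (nat_lit 6) (nat_lit 236) (nat_lit 237)))) (n (nat_lit 237) (b (l (nat_lit 5) (nat_lit 236) (nat_lit 286)) (l (nat_lit 6) (nat_lit 236) (nat_lit 287))))) (b (n (nat_lit 335) (b (n (nat_lit 338) (b (n (nat_lit 363) (b (l (nat_lit 4) (nat_lit 262) (nat_lit 287)) (l (nat_lit 0) (nat_lit 335) (nat_lit 364)))) (n (nat_lit 360) (b (l (nat_lit 6) (nat_lit 260) (nat_lit 286)) (l (nat_lit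 2) (nat_lit 334) (nat_lit 359)))))) (n (nat_lit 334) (b (l (nat_lit 1) (nat_lit 308) (nat_lit 333)) (l (nat_lit 1) (nat_lit 309) (nat_lit 313)))))) (n (nat_lit 335) (b (n (nat_lit 334) (b (l (nat_lit 1) (nat_lit 308) (nat_lit 333)) (l (nat_lit 1) (nat_lit 309) (nat_lit 313)))) (n (nat_lit 286) (b (l (nat_lit 5) (nat_lit 236) (nat_lit 237)) (l (nat_lit 6) (nat_lit 260) (nat_lit 360))))))))) (n (nat_lit 335) (b (n (nat_lit 334) (b (l (nat_lit 1) (nat_lit 308) (nat_lit 333)) (l (nat_lit 1) (nat_lit 309) (nat_lit 313)))) (n (nat_lit 286) (b (l (nat_lit 4) (nat_lit 236) (nat_lit 236)) (l (nat_lit 6) (nat_lit 260) (nat_lit 360))))))) (b (n (nat_lit 262) (b (b (n (nat_lit 237) (b (l (nat_lit 5) (nat_lit 236) (nat_lit 286)) (l (nat_lit 6) (nat_lit 236) (nat_lit 287)))) (n (nat_lit 287) (b (l (nat_lit 7) (nat_lit 236) (nat_lit 236)) (l (nat_lit 6) (nat_lit 236) (nat_lit 237))))) (b (n (nat_lit 286) (b (l (nat_lit 4) (nat_lit 236) (nat_lit 236)) (l (nat_lit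 5) (nat_lit 236) (nat_lit 237)))) (n (nat_lit 236) (b (l (nat_lit 7) (nat_lit 236) (nat_lit 287)) (l (nat_lit 4) (nat_lit 236) (nat_lit 286))))))) (n (nat_lit 262) (b (b (n (nat_lit 287) (b (n (nat_lit 338) (b (n (nat_lit 263) (b (n (nat_lit 339) (b (n (nat_lit 288) (b (n (nat_lit 260) (b (l (nat_lit 0) (nat_lit 260) (nat_lit 289)) (l (nat_lit 0) (nat_lit 259) (nat_lit 259)))) (n (nat_lit 364) (b (l (nat_lit 0) (nat_lit 336) (nat_lit 365)) (l (nat_lit 4) (nat_lit 263) (nat_lit 313)))))) (l (nat_lit 3) (nat_lit 311) (nat_lit 340)))) (l (nat_lit 5) (nat_lit 237) (nat_lit 238)))) (l (nat_lit 4) (nat_lit 262) (nat_lit 363)))) (l (nat_lit 7) (nat_lit 236) (nat_lit 236)))) (n (nat_lit 287) (b (n (nat_lit 338) (b (n (nat_lit 263) (b (n (nat_lit 339) (b (n (nat_lit 288) (b (n (nat_lit 260) (b (l (nat_lit 0) (nat_lit 260) (nat_lit 289)) (l (nat_lit 0) (nat_lit 259) (nat_lit 259)))) (n (nat_lit 364) (b (l (nat_lit 0) (nat_lit 336) (nat_lit 365)) (l (nat_lit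 4) (nat_lit 263) (nat_lit 313)))))) (l (nat_lit 3) (nat_lit 311) (nat_lit 340)))) (l (nat_lit 5) (nat_lit 237) (nat_lit 238)))) (l (nat_lit 4) (nat_lit 262) (nat_lit 363)))) (l (nat_lit 6) (nat_lit 236) (nat_lit 237))))) (b (n (nat_lit 287) (b (l (nat_lit 7) (nat_lit 236) (nat_lit 236)) (l (nat_lit 6) (nat_lit 236) (nat_lit 237)))) (n (nat_lit 263) (b (b (b (n (nat_lit 264) (b (b (n (nat_lit 265) (b (n (nat_lit 236) (b (l (nat_lit 3) (nat_lit 235) (nat_lit 235)) (l (nat_lit 3) (nat_lit 236) (nat_lit 237)))) (n (nat_lit 290) (b (l (nat_lit 0) (nat_lit 262) (nat_lit 291)) (l (nat_lit 0) (nat_lit 261) (nat_lit 289)))))) (n (nat_lit 265) (b (n (nat_lit 240) (b (l (nat_lit 1) (nat_lit 236) (nat_lit 239)) (l (nat_lit 1) (nat_lit 237) (nat_lit 241)))) (n (nat_lit 236) (b (l (nat_lit 3) (nat_lit 235) (nat_lit 235)) (l (nat_lit 3) (nat_lit 236) (nat_lit 237))))))) (b (n (nat_lit 265) (b (n (nat_lit 240) (b (l (nat_lit 1) (nat_lit 236) (nat_lit 239)) (l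 (nat_lit 1) (nat_lit 237) (nat_lit 241)))) (n (nat_lit 290) (b (l (nat_lit 0) (nat_lit 262) (nat_lit 291)) (l (nat_lit 0) (nat_lit 261) (nat_lit 289)))))) (n (nat_lit 239) (b (n (nat_lit 289) (b (n (nat_lit 214) (b (n (nat_lit 288) (b (l (nat_lit 6) (nat_lit 213) (nat_lit 313)) (l (nat_lit 6) (nat_lit 188) (nat_lit 189)))) (n (nat_lit 213) (b (n (nat_lit 236) (b (n (nat_lit 215) (b (n (nat_lit 237) (b (l (nat_lit 2) (nat_lit 211) (nat_lit 212)) (l (nat_lit 1) (nat_lit 211) (nat_lit 238)))) (l (nat_lit 5) (nat_lit 189) (nat_lit 190)))) (l (nat_lit 3) (nat_lit 235) (nat_lit 235)))) (l (nat_lit 7) (nat_lit 188) (nat_lit 188)))))) (l (nat_lit 0) (nat_lit 261) (nat_lit 290)))) (l (nat_lit 1) (nat_lit 236) (nat_lit 240))))))) (n (nat_lit 260) (b (b (n (nat_lit 288) (b (n (nat_lit 259) (b (n (nat_lit 238) (b (l (nat_lit 6) (nat_lit 237) (nat_lit 313)) (l (nat_lit 1) (nat_lit 234) (nat_lit 237)))) (n (nat_lit 284) (b (l (nat_lit 2) (nat_lit 258) (nat_lit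 283)) (l (nat_lit 2) (nat_lit 259) (nat_lit 285)))))) (l (nat_lit 0) (nat_lit 260) (nat_lit 289)))) (n (nat_lit 259) (b (n (nat_lit 234) (b (l (nat_lit 3) (nat_lit 234) (nat_lit 235)) (l (nat_lit 3) (nat_lit 233) (nat_lit 233)))) (n (nat_lit 284) (b (l (nat_lit 2) (nat_lit 258) (nat_lit 283)) (l (nat_lit 2) (nat_lit 259) (nat_lit 285))))))) (n (nat_lit 264) (b (n (nat_lit 289) (b (l (nat_lit 0) (nat_lit 261) (nat_lit 290)) (l (nat_lit 0) (nat_lit 260) (nat_lit 288)))) (n (nat_lit 235) (b (l (nat_lit 3) (nat_lit 234) (nat_lit 234)) (l (nat_lit 3) (nat_lit 235) (nat_lit 236))))))))) (b (n (nat_lit 260) (b (n (nat_lit 238) (b (n (nat_lit 288) (b (l (nat_lit 6) (nat_lit 237) (nat_lit 313)) (l (nat_lit 0) (nat_lit 260) (nat_lit 289)))) (l (nat_lit 1) (nat_lit 235) (nat_lit 239)))) (n (nat_lit 259) (b (n (nat_lit 234) (b (l (nat_lit 3) (nat_lit 234) (nat_lit 235)) (l (nat_lit 3) (nat_lit 233) (nat_lit 233)))) (n (nat_lit 284) (b (l (nat_lit 2) (nat_lit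 258) (nat_lit 283)) (l (nat_lit 2) (nat_lit 259) (nat_lit 285)))))))) (n (nat_lit 264) (b (b (n (nat_lit 265) (b (n (nat_lit 240) (b (l (nat_lit 1) (nat_lit 236) (nat_lit 239)) (l (nat_lit 1) (nat_lit 237) (nat_lit 241)))) (n (nat_lit 290) (b (l (nat_lit 0) (nat_lit 262) (nat_lit 291)) (l (nat_lit 0) (nat_lit 261) (nat_lit 289)))))) (n (nat_lit 260) (b (n (nat_lit 235) (b (l (nat_lit 3) (nat_lit 234) (nat_lit 234)) (l (nat_lit 3) (nat_lit 235) (nat_lit 236)))) (n (nat_lit 289) (b (l (nat_lit 0) (nat_lit 261) (nat_lit 290)) (l (nat_lit 0) (nat_lit 260) (nat_lit 288))))))) (n (nat_lit 265) (b (n (nat_lit 240) (b (l (nat_lit 1) (nat_lit 236) (nat_lit 239)) (l (nat_lit 1) (nat_lit 237) (nat_lit 241)))) (n (nat_lit 236) (b (l (nat_lit 3) (nat_lit 235) (nat_lit 235)) (l (nat_lit 3) (nat_lit 236) (nat_lit 237)))))))))) (b (n (nat_lit 260) (b (b (n (nat_lit 264) (b (n (nat_lit 239) (b (l (nat_lit 1) (nat_lit 235) (nat_lit 238)) (l (nat_lit 1) (nat_lit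 236) (nat_lit 240)))) (n (nat_lit 235) (b (l (nat_lit 3) (nat_lit 234) (nat_lit 234)) (l (nat_lit 3) (nat_lit 235) (nat_lit 236)))))) (n (nat_lit 259) (b (n (nat_lit 284) (b (l (nat_lit 2) (nat_lit 258) (nat_lit 283)) (l (nat_lit 2) (nat_lit 259) (nat_lit 285)))) (n (nat_lit 238) (b (l (nat_lit 1) (nat_lit 234) (nat_lit 237)) (l (nat_lit 1) (nat_lit 235) (nat_lit 239))))))) (n (nat_lit 259) (b (n (nat_lit 234) (b (l (nat_lit 3) (nat_lit 234) (nat_lit 235)) (l (nat_lit 3) (nat_lit 233) (nat_lit 233)))) (n (nat_lit 284) (b (l (nat_lit 2) (nat_lit 258) (nat_lit 283)) (l (nat_lit 2) (nat_lit 259) (nat_lit 285)))))))) (n (nat_lit 239) (b (b (n (nat_lit 288) (b (b (n (nat_lit 260) (b (l (nat_lit 0) (nat_lit 260) (nat_lit 289)) (l (nat_lit 1) (nat_lit 235) (nat_lit 238)))) (n (nat_lit 313) (b (n (nat_lit 338) (b (l (nat_lit 5) (nat_lit 238) (nat_lit 264)) (l (nat_lit 7) (nat_lit 237) (nat_lit 237)))) (l (nat_lit 6) (nat_lit 237) (nat_lit 238))))) (n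 (nat_lit 289) (b (n (nat_lit 290) (b (l (nat_lit 0) (nat_lit 261) (nat_lit 264)) (l (nat_lit 3) (nat_lit 262) (nat_lit 291)))) (l (nat_lit 0) (nat_lit 260) (nat_lit 260)))))) (n (nat_lit 264) (b (n (nat_lit 289) (b (n (nat_lit 288) (b (n (nat_lit 214) (b (l (nat_lit 6) (nat_lit 213) (nat_lit 313)) (l (nat_lit 6) (nat_lit 188) (nat_lit 189)))) (l (nat_lit 0) (nat_lit 260) (nat_lit 260)))) (l (nat_lit 0) (nat_lit 261) (nat_lit 290)))) (l (nat_lit 1) (nat_lit 236) (nat_lit 240))))) (b (n (nat_lit 238) (b (n (nat_lit 240) (b (l (nat_lit 2) (nat_lit 236) (nat_lit 237)) (l (nat_lit 2) (nat_lit 237) (nat_lit 241)))) (l (nat_lit 1) (nat_lit 235) (nat_lit 260)))) (n (nat_lit 240) (b (n (nat_lit 238) (b (l (nat_lit 2) (nat_lit 236) (nat_lit 237)) (l (nat_lit 2) (nat_lit 237) (nat_lit 241)))) (l (nat_lit 1) (nat_lit 236) (nat_lit 264)))))))))))))))))))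
    (envOK_cons p4546 (envOK_cons p4728 envOK_nil)) (by decide +kernel)

theorem p4852 : Fam (nat_lit 8) (nat_lit 279968105287774564918762799104385844352425108654553002546010961528920904730838823918550409449744367616) (nat_lit 29086463493615214999986598951626020570970937188758981992450589268113648113682989342810414962685987902862266509527670398648320) (nat_lit 29086463493615214999986598951626020570970937188758981992450589268113648113682989342810414962685987902862266509527670398648320) :=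
  chk_sound (Env.cons (nat_lit 6) (nat_lit 419952151673887328078602941639913611735027952231718598477260280339157896679598883004855252779219812352) (nat_lit 7932671861895029172826714124673597961595346029210377803404757613399083348976490557743996527474955830609768333137305493569536) (Env.cons (nat_lit 6) (nat_lit 419952151673887328078602941639913611735027952231718598477260280339157896679598883004855252779219812352) (nat_lit 7932671861895027411418027243735538033772322005261938592612532790393562496029060848722754179129597120644394413714509708394496) Env.nil))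
    (n (nat_lit 336) (b (b (b (r (nat_lit 0)) (n (nat_lit 338) (b (n (nat_lit 339) (b (l (nat_lit 3) (nat_lit 311) (nat_lit 340)) (l (nat_lit 3) (nat_lit 310) (nat_lit 310)))) (n (nat_lit 335) (b (n (nat_lit 363) (b (n (nat_lit 388) (b (n (nat_lit 287) (b (l (nat_lit 7) (nat_lit 287) (nat_lit 313)) (l (nat_lit 4) (nat_lit 262) (nat_lit 262)))) (l (nat_lit 7) (nat_lit 312) (nat_lit 413)))) (l (nat_lit 0) (nat_lit 335) (nat_lit 364)))) (n (nat_lit 334) (b (n (nat_lit 359) (b (l (nat_lit 2) (nat_lit 333) (nat_lit 358)) (l (nat_lit 2) (nat_lit 334) (nat_lit 360)))) (l (nat_lit 1) (nat_lit 308) (nat_lit 333))))))))) (b (r (nat_lit 1)) (n (nat_lit 335) (b (n (nat_lit 334) (b (l (nat_lit 1) (nat_lit 308) (nat_lit 333)) (l (nat_lit 1) (nat_lit 309) (nat_lit 313)))) (n (nat_lit 360) (b (n (nat_lit 286) (b (n (nat_lit 385) (b (l (nat_lit 5) (nat_lit 310) (nat_lit 410)) (l (nat_lit 6) (nat_lit 285) (nat_lit 361)))) (l (nat_lit 6) (nat_lit 260) (nat_lit 261))))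 (n (nat_lit 338) (b (n (nat_lit 339) (b (n (nat_lit 364) (b (l (nat_lit 0) (nat_lit 336) (nat_lit 365)) (l (nat_lit 0) (nat_lit 335) (nat_lit 363)))) (l (nat_lit 3) (nat_lit 311) (nat_lit 340)))) (l (nat_lit 2) (nat_lit 334) (nat_lit 359)))))))))) (n (nat_lit 286) (b (b (b (n (nat_lit 261) (b (n (nat_lit 262) (b (n (nat_lit 263) (b (b (n (nat_lit 285) (b (n (nat_lit 287) (b (l (nat_lit 1) (nat_lit 259) (nat_lit 284)) (l (nat_lit 5) (nat_lit 237) (nat_lit 238)))) (l (nat_lit 2) (nat_lit 260) (nat_lit 264)))) (n (nat_lit 260) (b (n (nat_lit 238) (b (l (nat_lit 1) (nat_lit 235) (nat_lit 239)) (l (nat_lit 5) (nat_lit 237) (nat_lit 287)))) (l (nat_lit 7) (nat_lit 235) (nat_lit 235))))) (n (nat_lit 285) (b (n (nat_lit 260) (b (l (nat_lit 7) (nat_lit 235) (nat_lit 235)) (l (nat_lit 2) (nat_lit 259) (nat_lit 284)))) (l (nat_lit 2) (nat_lit 260) (nat_lit 264)))))) (l (nat_lit 5) (nat_lit 236) (nat_lit 237)))) (l (nat_lit 4) (nat_lit 236) (nat_lit 236))))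 (n (nat_lit 261) (b (n (nat_lit 262) (b (n (nat_lit 287) (b (n (nat_lit 260) (b (n (nat_lit 288) (b (l (nat_lit 3) (nat_lit 260) (nat_lit 289)) (l (nat_lit 0) (nat_lit 259) (nat_lit 259)))) (l (nat_lit 7) (nat_lit 235) (nat_lit 235)))) (l (nat_lit 6) (nat_lit 261) (nat_lit 361)))) (l (nat_lit 5) (nat_lit 236) (nat_lit 237)))) (l (nat_lit 4) (nat_lit 236) (nat_lit 236))))) (b (n (nat_lit 261) (b (n (nat_lit 262) (b (n (nat_lit 287) (b (n (nat_lit 263) (b (n (nat_lit 285) (b (l (nat_lit 2) (nat_lit 260) (nat_lit 264)) (l (nat_lit 1) (nat_lit 259) (nat_lit 284)))) (l (nat_lit 5) (nat_lit 237) (nat_lit 238)))) (l (nat_lit 6) (nat_lit 261) (nat_lit 361)))) (l (nat_lit 5) (nat_lit 236) (nat_lit 237)))) (l (nat_lit 4) (nat_lit 236) (nat_lit 236)))) (n (nat_lit 261) (b (n (nat_lit 260) (b (n (nat_lit 285) (b (n (nat_lit 284) (b (n (nat_lit 262) (b (l (nat_lit 2) (nat_lit 259) (nat_lit 263)) (l (nat_lit 5) (nat_lit 236) (nat_lit 237)))) (l (nat_lit 0)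 (nat_lit 283) (nat_lit 283)))) (l (nat_lit 7) (nat_lit 260) (nat_lit 361)))) (l (nat_lit 7) (nat_lit 235) (nat_lit 235)))) (l (nat_lit 4) (nat_lit 236) (nat_lit 236)))))) (b (n (nat_lit 361) (b (n (nat_lit 261) (b (n (nat_lit 260) (b (l (nat_lit 7) (nat_lit 235) (nat_lit 235)) (l (nat_lit 7) (nat_lit 260) (nat_lit 285)))) (l (nat_lit 4) (nat_lit 236) (nat_lit 236)))) (n (nat_lit 386) (b (l (nat_lit 5) (nat_lit 286) (nat_lit 287)) (l (nat_lit 5) (nat_lit 311) (nat_lit 411)))))) (n (nat_lit 287) (b (n (nat_lit 338) (b (n (nat_lit 339) (b (l (nat_lit 3) (nat_lit 311) (nat_lit 340)) (l (nat_lit 3) (nat_lit 310) (nat_lit 310)))) (n (nat_lit 262) (b (l (nat_lit 4) (nat_lit 262) (nat_lit 363)) (l (nat_lit 6) (nat_lit 236) (nat_lit 237)))))) (n (nat_lit 285) (b (n (nat_lit 284) (b (l (nat_lit 0) (nat_lit 283) (nat_lit 283)) (l (nat_lit 0) (nat_lit 284) (nat_lit 313)))) (n (nat_lit 361) (b (l (nat_lit 5) (nat_lit 286) (nat_lit 386)) (l (nat_lit 7) (nat_lit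 260) (nat_lit 260)))))))))))))
    (envOK_cons p4546 (envOK_cons p4728 envOK_nil)) (by decide +kernel)

theorem p4868 : Fam (nat_lit 7) (nat_lit 279968105287774564918762799104385844352425108654553002546010961528920904730838823918550409449744367616) (nat_lit 197010039789008192586670848172795101757263609850185681296561264784688262859671317895174862017965694383025585653809152) (nat_lit 197010039789008192586670848172795101757263609850185681296561264784688262859671317895174862017965694383025585653809152) :=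
  chk_sound Env.nil
    (n (nat_lit 310) (b (b (b (n (nat_lit 285) (b (b (n (nat_lit 260) (b (b (n (nat_lit 235) (b (b (n (nat_lit 210) (b (n (nat_lit 209) (b (l (nat_lit 7) (nat_lit 184) (nat_lit 184)) (l (nat_lit 7) (nat_lit 209) (nat_lit 234)))) (l (nat_lit 4) (nat_lit 210) (nat_lit 286)))) (n (nat_lit 236) (b (n (nat_lit 261) (b (l (nat_lit 4) (nat_lit 236) (nat_lit 286)) (l (nat_lit 5) (nat_lit 235) (nat_lit 335)))) (l (nat_lit 5) (nat_lit 210) (nat_lit 211))))) (n (nat_lit 335) (b (n (nat_lit 234) (b (l (nat_lit 7) (nat_lit 234) (nat_lit 259)) (l (nat_lit 7) (nat_lit 209) (nat_lit 209)))) (n (nat_lit 236) (b (l (nat_lit 5) (nat_lit 210) (nat_lit 211)) (l (nat_lit 5) (nat_lit 235) (nat_lit 261)))))))) (n (nat_lit 235) (b (n (nat_lit 210) (b (n (nat_lit 211) (b (l (nat_lit 5) (nat_lit 210) (nat_lit 236)) (l (nat_lit 5) (nat_lit 185) (nat_lit 186)))) (n (nat_lit 209) (b (l (nat_lit 7) (nat_lit 184) (nat_lit 184)) (l (nat_lit 7) (nat_lit 209)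 (nat_lit 234)))))) (l (nat_lit 4) (nat_lit 235) (nat_lit 336))))) (b (n (nat_lit 336) (b (n (nat_lit 361) (b (l (nat_lit 7) (nat_lit 260) (nat_lit 286)) (l (nat_lit 7) (nat_lit 285) (nat_lit 386)))) (l (nat_lit 4) (nat_lit 235) (nat_lit 235)))) (n (nat_lit 335) (b (n (nat_lit 334) (b (l (nat_lit 2) (nat_lit 309) (nat_lit 313)) (l (nat_lit 6) (nat_lit 259) (nat_lit 359)))) (n (nat_lit 360) (b (n (nat_lit 261) (b (l (nat_lit 5) (nat_lit 235) (nat_lit 236)) (l (nat_lit 5) (nat_lit 260) (nat_lit 286)))) (n (nat_lit 361) (b (l (nat_lit 4) (nat_lit 285) (nat_lit 386)) (l (nat_lit 4) (nat_lit 260) (nat_lit 336))))))))))) (n (nat_lit 260) (b (b (n (nat_lit 336) (b (n (nat_lit 361) (b (l (nat_lit 7) (nat_lit 260) (nat_lit 286)) (l (nat_lit 7) (nat_lit 285) (nat_lit 386)))) (l (nat_lit 4) (nat_lit 235) (nat_lit 235)))) (n (nat_lit 335) (b (b (n (nat_lit 360) (b (n (nat_lit 261) (b (l (nat_lit 5) (nat_lit 235) (nat_lit 236)) (l (nat_lit 5) (nat_lit 260)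 (nat_lit 286)))) (n (nat_lit 359) (b (l (nat_lit 6) (nat_lit 259) (nat_lit 334)) (l (nat_lit 6) (nat_lit 284) (nat_lit 384)))))) (n (nat_lit 360) (b (n (nat_lit 259) (b (l (nat_lit 7) (nat_lit 259) (nat_lit 284)) (l (nat_lit 7) (nat_lit 234) (nat_lit 234)))) (n (nat_lit 359) (b (l (nat_lit 6) (nat_lit 259) (nat_lit 334)) (l (nat_lit 6) (nat_lit 284) (nat_lit 384))))))) (n (nat_lit 235) (b (n (nat_lit 234) (b (l (nat_lit 7) (nat_lit 234) (nat_lit 259)) (l (nat_lit 7) (nat_lit 209) (nat_lit 209)))) (n (nat_lit 236) (b (l (nat_lit 5) (nat_lit 210) (nat_lit 211)) (l (nat_lit 5) (nat_lit 235) (nat_lit 261))))))))) (n (nat_lit 335) (b (b (n (nat_lit 360) (b (n (nat_lit 259) (b (l (nat_lit 7) (nat_lit 259) (nat_lit 284)) (l (nat_lit 7) (nat_lit 234) (nat_lit 234)))) (n (nat_lit 359) (b (l (nat_lit 6) (nat_lit 259) (nat_lit 334)) (l (nat_lit 6) (nat_lit 284) (nat_lit 384)))))) (n (nat_lit 360) (b (n (nat_lit 361) (b (l (nat_lit 4) (nat_lit 285) (nat_lit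 386)) (l (nat_lit 4) (nat_lit 260) (nat_lit 336)))) (n (nat_lit 259) (b (l (nat_lit 7) (nat_lit 259) (nat_lit 284)) (l (nat_lit 7) (nat_lit 234) (nat_lit 234))))))) (n (nat_lit 336) (b (n (nat_lit 334) (b (l (nat_lit 6) (nat_lit 259) (nat_lit 359)) (l (nat_lit 1) (nat_lit 308) (nat_lit 333)))) (l (nat_lit 4) (nat_lit 260) (nat_lit 361))))))))) (b (n (nat_lit 284) (b (n (nat_lit 283) (b (l (nat_lit 0) (nat_lit 283) (nat_lit 286)) (l (nat_lit 0) (nat_lit 282) (nat_lit 282)))) (l (nat_lit 3) (nat_lit 284) (nat_lit 313)))) (n (nat_lit 335) (b (b (n (nat_lit 334) (b (n (nat_lit 333) (b (l (nat_lit 1) (nat_lit 308) (nat_lit 336)) (l (nat_lit 1) (nat_lit 307) (nat_lit 332)))) (l (nat_lit 2) (nat_lit 309) (nat_lit 313)))) (n (nat_lit 260) (b (n (nat_lit 235) (b (n (nat_lit 234) (b (l (nat_lit 7) (nat_lit 234) (nat_lit 259)) (l (nat_lit 7) (nat_lit 209) (nat_lit 209)))) (n (nat_lit 236) (b (l (nat_lit 5) (nat_lit 210) (nat_lit 211)) (l (nat_lit 5) (nat_lit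 235) (nat_lit 261)))))) (n (nat_lit 334) (b (l (nat_lit 2) (nat_lit 309) (nat_lit 313)) (l (nat_lit 6) (nat_lit 259) (nat_lit 359))))))) (b (n (nat_lit 336) (b (n (nat_lit 361) (b (l (nat_lit 7) (nat_lit 285) (nat_lit 386)) (l (nat_lit 4) (nat_lit 260) (nat_lit 260)))) (n (nat_lit 359) (b (n (nat_lit 360) (b (l (nat_lit 6) (nat_lit 284) (nat_lit 384)) (l (nat_lit 2) (nat_lit 334) (nat_lit 338)))) (n (nat_lit 334) (b (l (nat_lit 1) (nat_lit 308) (nat_lit 333)) (l (nat_lit 2) (nat_lit 333) (nat_lit 358)))))))) (n (nat_lit 336) (b (n (nat_lit 360) (b (n (nat_lit 359) (b (l (nat_lit 2) (nat_lit 334) (nat_lit 338)) (l (nat_lit 6) (nat_lit 284) (nat_lit 384)))) (n (nat_lit 284) (b (l (nat_lit 3) (nat_lit 284) (nat_lit 313)) (l (nat_lit 7) (nat_lit 259) (nat_lit 259)))))) (n (nat_lit 260) (b (l (nat_lit 4) (nat_lit 260) (nat_lit 361)) (l (nat_lit 4) (nat_lit 235) (nat_lit 235)))))))))))) (n (nat_lit 309) (b (n (nat_lit 308) (b (n (nat_lit 333) (b (l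 (nat_lit 2) (nat_lit 307) (nat_lit 332)) (l (nat_lit 2) (nat_lit 308) (nat_lit 334)))) (l (nat_lit 0) (nat_lit 308) (nat_lit 336)))) (l (nat_lit 0) (nat_lit 309) (nat_lit 338))))) (b (n (nat_lit 309) (b (n (nat_lit 308) (b (n (nat_lit 283) (b (l (nat_lit 3) (nat_lit 283) (nat_lit 284)) (l (nat_lit 3) (nat_lit 282) (nat_lit 282)))) (l (nat_lit 0) (nat_lit 308) (nat_lit 336)))) (l (nat_lit 0) (nat_lit 309) (nat_lit 338)))) (n (nat_lit 309) (b (n (nat_lit 308) (b (n (nat_lit 283) (b (l (nat_lit 3) (nat_lit 283) (nat_lit 284)) (l (nat_lit 3) (nat_lit 282) (nat_lit 282)))) (n (nat_lit 333) (b (l (nat_lit 2) (nat_lit 307) (nat_lit 332)) (l (nat_lit 2) (nat_lit 308) (nat_lit 334)))))) (l (nat_lit 0) (nat_lit 309) (nat_lit 338)))))) (n (nat_lit 309) (b (b (n (nat_lit 313) (b (n (nat_lit 284) (b (l (nat_lit 3) (nat_lit 283) (nat_lit 283)) (l (nat_lit 3) (nat_lit 284) (nat_lit 285)))) (n (nat_lit 334) (b (l (nat_lit 2) (nat_lit 309) (nat_lit 335)) (l (nat_lit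 2) (nat_lit 308) (nat_lit 333)))))) (n (nat_lit 308) (b (n (nat_lit 333) (b (l (nat_lit 2) (nat_lit 307) (nat_lit 332)) (l (nat_lit 2) (nat_lit 308) (nat_lit 334)))) (l (nat_lit 0) (nat_lit 308) (nat_lit 336))))) (n (nat_lit 308) (b (n (nat_lit 283) (b (l (nat_lit 3) (nat_lit 283) (nat_lit 284)) (l (nat_lit 3) (nat_lit 282) (nat_lit 282)))) (l (nat_lit 0) (nat_lit 308) (nat_lit 336))))))))
    envOK_nil (by decide +kernel)

theorem p4896 : Fam (nat_lit 9) (nat_lit 279968105287774564918762799104385844352425108654553002546010961528920904730838823918550409449744367616) (nat_lit 1322112233095552477897661297248446053498937654630487600415797604251915841801934779850354022542668416759419020516111648030720) (nat_lit 1322112233095552477897661297248446053498937654630487600415797604251915841801934779850354022542668416759419020516111648030720) :=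
  chk_sound (Env.cons (nat_lit 6) (nat_lit 279968103201849787317655450662255525903129667226214518995636742865732414898974115927174875494691635200) (nat_lit 349960126394906448641952508974767386442822147841878317438386884253730595628900803758757146569702637568) Env.nil)
    (n (nat_lit 310) (b (b (b (n (nat_lit 285) (b (b (n (nat_lit 260) (b (b (n (nat_lit 235) (b (b (n (nat_lit 236) (b (n (nat_lit 261) (b (l (nat_lit 4) (nat_lit 236) (nat_lit 286)) (l (nat_lit 5) (nat_lit 235) (nat_lit 335)))) (l (nat_lit 5) (nat_lit 210) (nat_lit 211)))) (n (nat_lit 210) (b (n (nat_lit 209) (b (l (nat_lit 7) (nat_lit 184) (nat_lit 184)) (l (nat_lit 7) (nat_lit 209) (nat_lit 234)))) (l (nat_lit 4) (nat_lit 210) (nat_lit 286))))) (n (nat_lit 210) (b (n (nat_lit 211) (b (l (nat_lit 5) (nat_lit 210) (nat_lit 236)) (l (nat_lit 5) (nat_lit 185) (nat_lit 186)))) (n (nat_lit 209) (b (l (nat_lit 7) (nat_lit 184) (nat_lit 184)) (l (nat_lit 7) (nat_lit 209) (nat_lit 234))))))))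 (n (nat_lit 235) (b (n (nat_lit 210) (b (n (nat_lit 211) (b (l (nat_lit 5) (nat_lit 210) (nat_lit 236)) (l (nat_lit 5) (nat_lit 185) (nat_lit 186)))) (n (nat_lit 209) (b (l (nat_lit 7) (nat_lit 184) (nat_lit 184)) (l (nat_lit 7) (nat_lit 209) (nat_lit 234)))))) (l (nat_lit 4) (nat_lit 235) (nat_lit 336))))) (n (nat_lit 335) (b (b (n (nat_lit 360) (b (n (nat_lit 286) (b (l (nat_lit 5) (nat_lit 285) (nat_lit 385)) (l (nat_lit 5) (nat_lit 260) (nat_lit 261)))) (n (nat_lit 359) (b (l (nat_lit 6) (nat_lit 259) (nat_lit 334)) (l (nat_lit 6) (nat_lit 284) (nat_lit 384)))))) (n (nat_lit 336) (b (n (nat_lit 334) (b (l (nat_lit 6) (nat_lit 259) (nat_lit 359)) (l (nat_lit 1) (nat_lit 308) (nat_lit 333)))) (l (nat_lit 4) (nat_lit 260) (nat_lit 361))))) (n (nat_lit 360) (b (n (nat_lit 286) (b (l (nat_lit 5) (nat_lit 285) (nat_lit 385)) (l (nat_lit 5) (nat_lit 260) (nat_lit 261)))) (n (nat_lit 361) (b (l (nat_lit 4) (nat_lit 285) (nat_lit 386)) (l (nat_lit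 4) (nat_lit 260) (nat_lit 336)))))))))) (n (nat_lit 284) (b (n (nat_lit 283) (b (l (nat_lit 0) (nat_lit 283) (nat_lit 286)) (l (nat_lit 0) (nat_lit 282) (nat_lit 282)))) (l (nat_lit 3) (nat_lit 284) (nat_lit 313))))) (n (nat_lit 260) (b (b (r (nat_lit 0)) (n (nat_lit 335) (b (b (n (nat_lit 360) (b (n (nat_lit 259) (b (l (nat_lit 7) (nat_lit 259) (nat_lit 284)) (l (nat_lit 7) (nat_lit 234) (nat_lit 234)))) (n (nat_lit 359) (b (l (nat_lit 6) (nat_lit 259) (nat_lit 334)) (l (nat_lit 6) (nat_lit 284) (nat_lit 384)))))) (n (nat_lit 360) (b (n (nat_lit 361) (b (l (nat_lit 4) (nat_lit 285) (nat_lit 386)) (l (nat_lit 4) (nat_lit 260) (nat_lit 336)))) (n (nat_lit 259) (b (l (nat_lit 7) (nat_lit 259) (nat_lit 284)) (l (nat_lit 7) (nat_lit 234) (nat_lit 234))))))) (n (nat_lit 336) (b (n (nat_lit 334) (b (l (nat_lit 6) (nat_lit 259) (nat_lit 359)) (l (nat_lit 1) (nat_lit 308) (nat_lit 333)))) (l (nat_lit 4) (nat_lit 260) (nat_lit 361))))))) (b (n (nat_lit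 235) (b (n (nat_lit 210) (b (n (nat_lit 211) (b (l (nat_lit 5) (nat_lit 210) (nat_lit 236)) (l (nat_lit 5) (nat_lit 185) (nat_lit 186)))) (n (nat_lit 209) (b (l (nat_lit 7) (nat_lit 184) (nat_lit 184)) (l (nat_lit 7) (nat_lit 209) (nat_lit 234)))))) (l (nat_lit 4) (nat_lit 235) (nat_lit 336)))) (n (nat_lit 336) (b (n (nat_lit 361) (b (l (nat_lit 4) (nat_lit 260) (nat_lit 335)) (l (nat_lit 7) (nat_lit 285) (nat_lit 386)))) (l (nat_lit 4) (nat_lit 235) (nat_lit 235))))))))) (n (nat_lit 309) (b (b (n (nat_lit 313) (b (n (nat_lit 334) (b (l (nat_lit 2) (nat_lit 309) (nat_lit 335)) (l (nat_lit 2) (nat_lit 308) (nat_lit 333)))) (n (nat_lit 288) (b (l (nat_lit 1) (nat_lit 284) (nat_lit 287)) (l (nat_lit 1) (nat_lit 285) (nat_lit 289)))))) (n (nat_lit 308) (b (n (nat_lit 333) (b (l (nat_lit 2) (nat_lit 307) (nat_lit 332)) (l (nat_lit 2) (nat_lit 308) (nat_lit 334)))) (l (nat_lit 0) (nat_lit 308) (nat_lit 336))))) (n (nat_lit 308) (b (n (nat_lit 287) (b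 (l (nat_lit 1) (nat_lit 283) (nat_lit 286)) (l (nat_lit 1) (nat_lit 284) (nat_lit 288)))) (l (nat_lit 0) (nat_lit 308) (nat_lit 336))))))) (b (n (nat_lit 309) (b (b (n (nat_lit 313) (b (n (nat_lit 284) (b (l (nat_lit 3) (nat_lit 283) (nat_lit 283)) (l (nat_lit 3) (nat_lit 284) (nat_lit 285)))) (n (nat_lit 288) (b (l (nat_lit 1) (nat_lit 284) (nat_lit 287)) (l (nat_lit 1) (nat_lit 285) (nat_lit 289)))))) (n (nat_lit 308) (b (n (nat_lit 287) (b (l (nat_lit 1) (nat_lit 283) (nat_lit 286)) (l (nat_lit 1) (nat_lit 284) (nat_lit 288)))) (l (nat_lit 0) (nat_lit 308) (nat_lit 336))))) (n (nat_lit 308) (b (n (nat_lit 283) (b (l (nat_lit 3) (nat_lit 283) (nat_lit 284)) (l (nat_lit 3) (nat_lit 282) (nat_lit 282)))) (l (nat_lit 0) (nat_lit 308) (nat_lit 336)))))) (n (nat_lit 309) (b (b (n (nat_lit 313) (b (n (nat_lit 334) (b (l (nat_lit 2) (nat_lit 309) (nat_lit 335)) (l (nat_lit 2) (nat_lit 308) (nat_lit 333)))) (n (nat_lit 288) (b (l (nat_lit 1) (nat_lit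 284) (nat_lit 287)) (l (nat_lit 1) (nat_lit 285) (nat_lit 289)))))) (n (nat_lit 308) (b (n (nat_lit 283) (b (l (nat_lit 3) (nat_lit 283) (nat_lit 284)) (l (nat_lit 3) (nat_lit 282) (nat_lit 282)))) (n (nat_lit 333) (b (l (nat_lit 2) (nat_lit 307) (nat_lit 332)) (l (nat_lit 2) (nat_lit 308) (nat_lit 334))))))) (n (nat_lit 313) (b (n (nat_lit 284) (b (l (nat_lit 3) (nat_lit 283) (nat_lit 283)) (l (nat_lit 3) (nat_lit 284) (nat_lit 285)))) (n (nat_lit 288) (b (l (nat_lit 1) (nat_lit 284) (nat_lit 287)) (l (nat_lit 1) (nat_lit 285) (nat_lit 289)))))))))) (n (nat_lit 309) (b (b (n (nat_lit 284) (b (n (nat_lit 334) (b (n (nat_lit 335) (b (n (nat_lit 359) (b (n (nat_lit 384) (b (l (nat_lit 5) (nat_lit 309) (nat_lit 409)) (l (nat_lit 5) (nat_lit 284) (nat_lit 285)))) (n (nat_lit 358) (b (l (nat_lit 6) (nat_lit 283) (nat_lit 383)) (l (nat_lit 2) (nat_lit 333) (nat_lit 336)))))) (n (nat_lit 259) (b (l (nat_lit 4) (nat_lit 259) (nat_lit 360)) (l (nat_lit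 4) (nat_lit 234) (nat_lit 234)))))) (l (nat_lit 2) (nat_lit 308) (nat_lit 333)))) (l (nat_lit 3) (nat_lit 283) (nat_lit 283)))) (n (nat_lit 308) (b (n (nat_lit 283) (b (l (nat_lit 3) (nat_lit 283) (nat_lit 284)) (l (nat_lit 3) (nat_lit 282) (nat_lit 282)))) (l (nat_lit 0) (nat_lit 308) (nat_lit 336))))) (b (n (nat_lit 308) (b (n (nat_lit 333) (b (l (nat_lit 2) (nat_lit 307) (nat_lit 332)) (l (nat_lit 2) (nat_lit 308) (nat_lit 334)))) (l (nat_lit 0) (nat_lit 308) (nat_lit 336)))) (n (nat_lit 308) (b (n (nat_lit 283) (b (l (nat_lit 3) (nat_lit 283) (nat_lit 284)) (l (nat_lit 3) (nat_lit 282) (nat_lit 282)))) (n (nat_lit 333) (b (l (nat_lit 2) (nat_lit 307) (nat_lit 332)) (l (nat_lit 2) (nat_lit 308) (nat_lit 334)))))))))))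
    (envOK_cons p4661 envOK_nil) (by decide +kernel)

theorem p4897 : Fam (nat_lit 14) (nat_lit 279968101115924885385735294426609074490018634821145732318173520226105264453065922003236835186146541568) (nat_lit 221813658822719758365130399145996965172788540543331376442672897262734027227117843044026030494439672851897163480631561969274168803328) (nat_lit 221813658822719758365130399145996965172788540543331376442672897262734027227117843044026030494439672851897163480631561969274168803328) :=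
  chk_sound (Env.cons (nat_lit 12) (nat_lit 279968105287774564918762799104385844352425108654553002546010961528920904730838823918550409449744367616) (nat_lit 63461375052768248774008280234790852973345376862261447207358054535214492096258906654372823680781494148700293148442619570814976) (Env.cons (nat_lit 9) (nat_lit 279968105287774564918762799104385844352425108654553002546010961528920904730838823918550409449744367616) (nat_lit 18509568308187286987911787721318881781766358481262297925922623566120669203820610674908926050900443984355730968707314917310464) (Env.cons (nat_lit 11) (nat_lit 279968105287774564918762799104385844352425108654553002546010961528920904730838823918550409449744367616) (nat_lit 70071934858876756875524736363702626372244169855500962373299408936161346389913675358950552393886178575926257212429220953718784) (Env.cons (nat_lit 13) (nat_lit 279968105287774564918762799104385844352425108654553002546010961528920904730838823918550409449744367616)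 (nat_lit 29086463493615214999986598951624977614518932828085807285580375492802498467597955542264508370281256731381026782008393882140672) (Env.cons (nat_lit 6) (nat_lit 279968107373699466850682955340032295765536141059621789223474184168548055176747017842488449758289461248) (nat_lit 349960130566756773141023284572886824444960059543214120909649484243096995579282947555400480217209241600) (Env.cons (nat_lit 6) (nat_lit 6257774581464947660913423221275517506238476056905300663942442790723681095839251614572142919680) (nat_lit 118206022111997416785628009493960984943022315921954142526205216249748833835075097947318541918031338568763586434301952) (Env.cons (nat_lit 8) (nat_lit 279968105287774564918762799104385844352425108654553002546010961528920904730838823918550409449744367616) (nat_lit 29086463493615214999986598951626020570970937188758981992450589268113648113682989342810414962685987902862266509527670398648320) (Env.cons (nat_lit 7) (nat_lit 279968105287774564918762799104385844352425108654553002546010961528920904730838823918550409449744367616)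 (nat_lit 197010039789008192586670848172795101757263609850185681296561264784688262859671317895174862017965694383025585653809152) (Env.cons (nat_lit 9) (nat_lit 279968105287774564918762799104385844352425108654553002546010961528920904730838823918550409449744367616) (nat_lit 1322112233095552477897661297248446053498937654630487600415797604251915841801934779850354022542668416759419020516111648030720) Env.nil)))))))))
    (n (nat_lit 311) (b (b (b (b (r (nat_lit 0)) (n (nat_lit 338) (b (b (n (nat_lit 339) (b (n (nat_lit 336) (b (n (nat_lit 335) (b (n (nat_lit 334) (b (l (nat_lit 1) (nat_lit 308) (nat_lit 333)) (l (nat_lit 1) (nat_lit 309) (nat_lit 313)))) (n (nat_lit 364) (b (l (nat_lit 0) (nat_lit 336) (nat_lit 365)) (l (nat_lit 0) (nat_lit 335) (nat_lit 363)))))) (n (nat_lit 361) (b (n (nat_lit 287) (b (l (nat_lit 5) (nat_lit 286) (nat_lit 386)) (l (nat_lit 6) (nat_lit 261) (nat_lit 262)))) (l (nat_lit 2) (nat_lit 335) (nat_lit 360)))))) (l (nat_lit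 3) (nat_lit 311) (nat_lit 340)))) (n (nat_lit 339) (b (n (nat_lit 310) (b (l (nat_lit 0) (nat_lit 309) (nat_lit 309)) (l (nat_lit 3) (nat_lit 310) (nat_lit 336)))) (l (nat_lit 3) (nat_lit 311) (nat_lit 340))))) (b (n (nat_lit 310) (b (n (nat_lit 339) (b (l (nat_lit 0) (nat_lit 310) (nat_lit 313)) (l (nat_lit 3) (nat_lit 311) (nat_lit 340)))) (l (nat_lit 0) (nat_lit 309) (nat_lit 309)))) (n (nat_lit 335) (b (b (n (nat_lit 310) (b (n (nat_lit 360) (b (n (nat_lit 385) (b (n (nat_lit 410) (b (n (nat_lit 411) (b (l (nat_lit 4) (nat_lit 335) (nat_lit 436)) (l (nat_lit 4) (nat_lit 310) (nat_lit 386)))) (n (nat_lit 409) (b (l (nat_lit 6) (nat_lit 334) (nat_lit 434)) (l (nat_lit 6) (nat_lit 309) (nat_lit 384)))))) (l (nat_lit 5) (nat_lit 285) (nat_lit 286)))) (n (nat_lit 363) (b (n (nat_lit 388) (b (n (nat_lit 287) (b (l (nat_lit 7) (nat_lit 287) (nat_lit 313)) (l (nat_lit 4) (nat_lit 262) (nat_lit 262)))) (l (nat_lit 7) (nat_lit 312) (nat_lit 413))))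 (n (nat_lit 336) (b (l (nat_lit 2) (nat_lit 334) (nat_lit 359)) (l (nat_lit 0) (nat_lit 335) (nat_lit 364)))))))) (l (nat_lit 0) (nat_lit 309) (nat_lit 309)))) (n (nat_lit 336) (b (n (nat_lit 334) (b (n (nat_lit 359) (b (l (nat_lit 2) (nat_lit 333) (nat_lit 358)) (l (nat_lit 2) (nat_lit 334) (nat_lit 360)))) (l (nat_lit 1) (nat_lit 308) (nat_lit 333)))) (n (nat_lit 363) (b (n (nat_lit 388) (b (n (nat_lit 287) (b (l (nat_lit 7) (nat_lit 287) (nat_lit 313)) (l (nat_lit 4) (nat_lit 262) (nat_lit 262)))) (l (nat_lit 7) (nat_lit 312) (nat_lit 413)))) (l (nat_lit 0) (nat_lit 335) (nat_lit 364))))))) (b (n (nat_lit 336) (b (b (n (nat_lit 360) (b (n (nat_lit 310) (b (n (nat_lit 286) (b (l (nat_lit 5) (nat_lit 285) (nat_lit 385)) (l (nat_lit 6) (nat_lit 260) (nat_lit 261)))) (l (nat_lit 3) (nat_lit 309) (nat_lit 309)))) (l (nat_lit 2) (nat_lit 334) (nat_lit 359)))) (n (nat_lit 334) (b (n (nat_lit 359) (b (l (nat_lit 2) (nat_lit 333) (nat_lit 358)) (l (nat_lit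 2) (nat_lit 334) (nat_lit 360)))) (l (nat_lit 1) (nat_lit 308) (nat_lit 333))))) (n (nat_lit 309) (b (n (nat_lit 334) (b (l (nat_lit 3) (nat_lit 308) (nat_lit 308)) (l (nat_lit 1) (nat_lit 308) (nat_lit 333)))) (l (nat_lit 3) (nat_lit 309) (nat_lit 310)))))) (n (nat_lit 310) (b (n (nat_lit 313) (b (n (nat_lit 288) (b (n (nat_lit 363) (b (n (nat_lit 388) (b (n (nat_lit 389) (b (l (nat_lit 4) (nat_lit 288) (nat_lit 364)) (l (nat_lit 4) (nat_lit 313) (nat_lit 414)))) (l (nat_lit 7) (nat_lit 312) (nat_lit 413)))) (n (nat_lit 262) (b (n (nat_lit 263) (b (l (nat_lit 7) (nat_lit 237) (nat_lit 237)) (l (nat_lit 6) (nat_lit 237) (nat_lit 238)))) (l (nat_lit 7) (nat_lit 262) (nat_lit 287)))))) (l (nat_lit 1) (nat_lit 285) (nat_lit 289)))) (l (nat_lit 2) (nat_lit 309) (nat_lit 334)))) (l (nat_lit 0) (nat_lit 309) (nat_lit 309))))))))))) (b (r (nat_lit 1)) (r (nat_lit 2)))) (b (b (r (nat_lit 3)) (n (nat_lit 310) (b (b (n (nat_lit 309) (b (n (nat_lit 308)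 (b (n (nat_lit 333) (b (l (nat_lit 2) (nat_lit 307) (nat_lit 332)) (l (nat_lit 2) (nat_lit 308) (nat_lit 334)))) (l (nat_lit 0) (nat_lit 308) (nat_lit 336)))) (l (nat_lit 0) (nat_lit 309) (nat_lit 338)))) (n (nat_lit 309) (b (n (nat_lit 308) (b (n (nat_lit 283) (b (l (nat_lit 3) (nat_lit 283) (nat_lit 284)) (l (nat_lit 3) (nat_lit 282) (nat_lit 282)))) (l (nat_lit 0) (nat_lit 308) (nat_lit 336)))) (l (nat_lit 0) (nat_lit 309) (nat_lit 338))))) (b (n (nat_lit 309) (b (b (n (nat_lit 313) (b (n (nat_lit 334) (b (l (nat_lit 2) (nat_lit 309) (nat_lit 335)) (l (nat_lit 2) (nat_lit 308) (nat_lit 333)))) (n (nat_lit 288) (b (l (nat_lit 1) (nat_lit 284) (nat_lit 287)) (l (nat_lit 1) (nat_lit 285) (nat_lit 289)))))) (n (nat_lit 308) (b (n (nat_lit 283) (b (l (nat_lit 3) (nat_lit 283) (nat_lit 284)) (l (nat_lit 3) (nat_lit 282) (nat_lit 282)))) (n (nat_lit 333) (b (l (nat_lit 2) (nat_lit 307) (nat_lit 332)) (l (nat_lit 2) (nat_lit 308) (nat_lit 334)))))))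 (n (nat_lit 313) (b (n (nat_lit 284) (b (l (nat_lit 3) (nat_lit 283) (nat_lit 283)) (l (nat_lit 3) (nat_lit 284) (nat_lit 285)))) (n (nat_lit 288) (b (l (nat_lit 1) (nat_lit 284) (nat_lit 287)) (l (nat_lit 1) (nat_lit 285) (nat_lit 289)))))))) (n (nat_lit 338) (b (b (n (nat_lit 339) (b (l (nat_lit 0) (nat_lit 310) (nat_lit 313)) (l (nat_lit 3) (nat_lit 311) (nat_lit 340)))) (n (nat_lit 339) (b (l (nat_lit 3) (nat_lit 310) (nat_lit 336)) (l (nat_lit 3) (nat_lit 311) (nat_lit 340))))) (n (nat_lit 313) (b (b (n (nat_lit 288) (b (n (nat_lit 363) (b (n (nat_lit 388) (b (n (nat_lit 389) (b (l (nat_lit 4) (nat_lit 288) (nat_lit 364)) (l (nat_lit 4) (nat_lit 313) (nat_lit 414)))) (l (nat_lit 7) (nat_lit 312) (nat_lit 413)))) (n (nat_lit 262) (b (n (nat_lit 263) (b (l (nat_lit 7) (nat_lit 237) (nat_lit 237)) (l (nat_lit 6) (nat_lit 237) (nat_lit 238)))) (l (nat_lit 7) (nat_lit 262) (nat_lit 287)))))) (l (nat_lit 1) (nat_lit 285) (nat_lit 289)))) (n (nat_lit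 335) (b (n (nat_lit 336) (b (n (nat_lit 285) (b (n (nat_lit 260) (b (l (nat_lit 4) (nat_lit 260) (nat_lit 361)) (l (nat_lit 4) (nat_lit 235) (nat_lit 235)))) (l (nat_lit 3) (nat_lit 284) (nat_lit 284)))) (n (nat_lit 363) (b (n (nat_lit 388) (b (l (nat_lit 7) (nat_lit 312) (nat_lit 413)) (l (nat_lit 7) (nat_lit 287) (nat_lit 287)))) (l (nat_lit 0) (nat_lit 335) (nat_lit 364)))))) (l (nat_lit 2) (nat_lit 309) (nat_lit 334))))) (n (nat_lit 335) (b (n (nat_lit 288) (b (n (nat_lit 263) (b (n (nat_lit 262) (b (n (nat_lit 285) (b (n (nat_lit 360) (b (b (n (nat_lit 359) (b (l (nat_lit 6) (nat_lit 284) (nat_lit 384)) (l (nat_lit 2) (nat_lit 334) (nat_lit 336)))) (n (nat_lit 260) (b (n (nat_lit 261) (b (n (nat_lit 234) (b (l (nat_lit 7) (nat_lit 234) (nat_lit 259)) (l (nat_lit 3) (nat_lit 234) (nat_lit 235)))) (l (nat_lit 5) (nat_lit 235) (nat_lit 236)))) (n (nat_lit 361) (b (l (nat_lit 4) (nat_lit 285) (nat_lit 386)) (l (nat_lit 4) (nat_lit 260) (nat_lit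 336))))))) (n (nat_lit 385) (b (n (nat_lit 384) (b (l (nat_lit 6) (nat_lit 284) (nat_lit 359)) (l (nat_lit 6) (nat_lit 309) (nat_lit 409)))) (n (nat_lit 386) (b (l (nat_lit 4) (nat_lit 310) (nat_lit 411)) (l (nat_lit 4) (nat_lit 285) (nat_lit 361)))))))) (l (nat_lit 3) (nat_lit 284) (nat_lit 284)))) (l (nat_lit 7) (nat_lit 237) (nat_lit 237)))) (l (nat_lit 6) (nat_lit 237) (nat_lit 238)))) (l (nat_lit 1) (nat_lit 285) (nat_lit 289)))) (l (nat_lit 2) (nat_lit 309) (nat_lit 334)))))))))))) (b (n (nat_lit 310) (b (b (n (nat_lit 309) (b (n (nat_lit 308) (b (n (nat_lit 333) (b (l (nat_lit 2) (nat_lit 307) (nat_lit 332)) (l (nat_lit 2) (nat_lit 308) (nat_lit 334)))) (l (nat_lit 0) (nat_lit 308) (nat_lit 336)))) (l (nat_lit 0) (nat_lit 309) (nat_lit 338)))) (n (nat_lit 309) (b (b (n (nat_lit 313) (b (n (nat_lit 334) (b (l (nat_lit 2) (nat_lit 309) (nat_lit 335)) (l (nat_lit 2) (nat_lit 308) (nat_lit 333)))) (n (nat_lit 288) (b (l (nat_lit 1) (nat_lit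 284) (nat_lit 287)) (l (nat_lit 1) (nat_lit 285) (nat_lit 289)))))) (n (nat_lit 308) (b (n (nat_lit 333) (b (l (nat_lit 2) (nat_lit 307) (nat_lit 332)) (l (nat_lit 2) (nat_lit 308) (nat_lit 334)))) (l (nat_lit 0) (nat_lit 308) (nat_lit 336))))) (n (nat_lit 308) (b (n (nat_lit 287) (b (l (nat_lit 1) (nat_lit 283) (nat_lit 286)) (l (nat_lit 1) (nat_lit 284) (nat_lit 288)))) (l (nat_lit 0) (nat_lit 308) (nat_lit 336))))))) (b (n (nat_lit 338) (b (n (nat_lit 339) (b (l (nat_lit 0) (nat_lit 310) (nat_lit 313)) (l (nat_lit 3) (nat_lit 311) (nat_lit 340)))) (l (nat_lit 0) (nat_lit 309) (nat_lit 309)))) (n (nat_lit 338) (b (b (n (nat_lit 339) (b (l (nat_lit 0) (nat_lit 310) (nat_lit 313)) (l (nat_lit 3) (nat_lit 311) (nat_lit 340)))) (n (nat_lit 339) (b (l (nat_lit 3) (nat_lit 310) (nat_lit 336)) (l (nat_lit 3) (nat_lit 311) (nat_lit 340))))) (n (nat_lit 335) (b (b (n (nat_lit 313) (b (n (nat_lit 288) (b (n (nat_lit 363) (b (n (nat_lit 388) (b (n (nat_lit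 389) (b (l (nat_lit 4) (nat_lit 288) (nat_lit 364)) (l (nat_lit 4) (nat_lit 313) (nat_lit 414)))) (l (nat_lit 7) (nat_lit 312) (nat_lit 413)))) (n (nat_lit 262) (b (n (nat_lit 263) (b (l (nat_lit 7) (nat_lit 237) (nat_lit 237)) (l (nat_lit 6) (nat_lit 237) (nat_lit 238)))) (l (nat_lit 7) (nat_lit 262) (nat_lit 287)))))) (l (nat_lit 1) (nat_lit 285) (nat_lit 289)))) (l (nat_lit 2) (nat_lit 309) (nat_lit 334)))) (n (nat_lit 360) (b (n (nat_lit 385) (b (n (nat_lit 410) (b (n (nat_lit 411) (b (l (nat_lit 4) (nat_lit 335) (nat_lit 436)) (l (nat_lit 4) (nat_lit 310) (nat_lit 386)))) (n (nat_lit 409) (b (l (nat_lit 6) (nat_lit 334) (nat_lit 434)) (l (nat_lit 6) (nat_lit 309) (nat_lit 384)))))) (l (nat_lit 5) (nat_lit 285) (nat_lit 286)))) (n (nat_lit 363) (b (n (nat_lit 388) (b (n (nat_lit 287) (b (l (nat_lit 7) (nat_lit 287) (nat_lit 313)) (l (nat_lit 4) (nat_lit 262) (nat_lit 262)))) (l (nat_lit 7) (nat_lit 312) (nat_lit 413)))) (n (nat_lit 336) (b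 (l (nat_lit 2) (nat_lit 334) (nat_lit 359)) (l (nat_lit 0) (nat_lit 335) (nat_lit 364))))))))) (b (n (nat_lit 334) (b (n (nat_lit 333) (b (l (nat_lit 1) (nat_lit 308) (nat_lit 336)) (l (nat_lit 1) (nat_lit 307) (nat_lit 332)))) (l (nat_lit 2) (nat_lit 309) (nat_lit 313)))) (n (nat_lit 360) (b (b (n (nat_lit 336) (b (n (nat_lit 386) (b (n (nat_lit 385) (b (l (nat_lit 5) (nat_lit 310) (nat_lit 410)) (l (nat_lit 4) (nat_lit 310) (nat_lit 411)))) (n (nat_lit 361) (b (l (nat_lit 7) (nat_lit 285) (nat_lit 285)) (l (nat_lit 5) (nat_lit 286) (nat_lit 287)))))) (l (nat_lit 2) (nat_lit 334) (nat_lit 359)))) (n (nat_lit 385) (b (n (nat_lit 410) (b (n (nat_lit 411) (b (l (nat_lit 4) (nat_lit 335) (nat_lit 436)) (l (nat_lit 4) (nat_lit 310) (nat_lit 386)))) (n (nat_lit 409) (b (l (nat_lit 6) (nat_lit 334) (nat_lit 434)) (l (nat_lit 6) (nat_lit 309) (nat_lit 384)))))) (l (nat_lit 5) (nat_lit 285) (nat_lit 286))))) (n (nat_lit 359) (b (n (nat_lit 384) (b (n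 (nat_lit 409) (b (l (nat_lit 5) (nat_lit 334) (nat_lit 434)) (l (nat_lit 5) (nat_lit 309) (nat_lit 334)))) (l (nat_lit 6) (nat_lit 284) (nat_lit 285)))) (l (nat_lit 2) (nat_lit 334) (nat_lit 336)))))))))))))) (n (nat_lit 310) (b (b (n (nat_lit 309) (b (n (nat_lit 308) (b (n (nat_lit 283) (b (l (nat_lit 3) (nat_lit 283) (nat_lit 284)) (l (nat_lit 3) (nat_lit 282) (nat_lit 282)))) (l (nat_lit 0) (nat_lit 308) (nat_lit 336)))) (l (nat_lit 0) (nat_lit 309) (nat_lit 338)))) (n (nat_lit 309) (b (n (nat_lit 313) (b (n (nat_lit 284) (b (l (nat_lit 3) (nat_lit 283) (nat_lit 283)) (l (nat_lit 3) (nat_lit 284) (nat_lit 285)))) (n (nat_lit 334) (b (l (nat_lit 2) (nat_lit 309) (nat_lit 335)) (l (nat_lit 2) (nat_lit 308) (nat_lit 333)))))) (l (nat_lit 0) (nat_lit 309) (nat_lit 338))))) (b (n (nat_lit 309) (b (b (n (nat_lit 313) (b (n (nat_lit 334) (b (l (nat_lit 2) (nat_lit 309) (nat_lit 335)) (l (nat_lit 2) (nat_lit 308) (nat_lit 333)))) (n (nat_lit 288) (b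 (l (nat_lit 1) (nat_lit 284) (nat_lit 287)) (l (nat_lit 1) (nat_lit 285) (nat_lit 289)))))) (n (nat_lit 308) (b (n (nat_lit 333) (b (l (nat_lit 2) (nat_lit 307) (nat_lit 332)) (l (nat_lit 2) (nat_lit 308) (nat_lit 334)))) (l (nat_lit 0) (nat_lit 308) (nat_lit 336))))) (n (nat_lit 308) (b (n (nat_lit 287) (b (l (nat_lit 1) (nat_lit 283) (nat_lit 286)) (l (nat_lit 1) (nat_lit 284) (nat_lit 288)))) (l (nat_lit 0) (nat_lit 308) (nat_lit 336)))))) (n (nat_lit 285) (b (b (n (nat_lit 313) (b (n (nat_lit 335) (b (n (nat_lit 338) (b (n (nat_lit 363) (b (n (nat_lit 388) (b (l (nat_lit 7) (nat_lit 312) (nat_lit 413)) (l (nat_lit 7) (nat_lit 287) (nat_lit 287)))) (n (nat_lit 336) (b (n (nat_lit 260) (b (l (nat_lit 4) (nat_lit 260) (nat_lit 361)) (l (nat_lit 4) (nat_lit 235) (nat_lit 235)))) (l (nat_lit 0) (nat_lit 335) (nat_lit 364)))))) (l (nat_lit 0) (nat_lit 310) (nat_lit 339)))) (l (nat_lit 2) (nat_lit 309) (nat_lit 334)))) (l (nat_lit 3) (nat_lit 284)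 (nat_lit 284)))) (n (nat_lit 335) (b (b (n (nat_lit 336) (b (n (nat_lit 360) (b (n (nat_lit 338) (b (l (nat_lit 2) (nat_lit 334) (nat_lit 359)) (l (nat_lit 3) (nat_lit 310) (nat_lit 339)))) (n (nat_lit 286) (b (l (nat_lit 5) (nat_lit 285) (nat_lit 385)) (l (nat_lit 5) (nat_lit 260) (nat_lit 261)))))) (n (nat_lit 260) (b (l (nat_lit 4) (nat_lit 260) (nat_lit 361)) (l (nat_lit 4) (nat_lit 235) (nat_lit 235)))))) (n (nat_lit 334) (b (n (nat_lit 359) (b (n (nat_lit 384) (b (l (nat_lit 5) (nat_lit 309) (nat_lit 409)) (l (nat_lit 6) (nat_lit 284) (nat_lit 360)))) (l (nat_lit 6) (nat_lit 259) (nat_lit 260)))) (l (nat_lit 2) (nat_lit 309) (nat_lit 313))))) (n (nat_lit 334) (b (n (nat_lit 333) (b (l (nat_lit 1) (nat_lit 308) (nat_lit 336)) (l (nat_lit 1) (nat_lit 307) (nat_lit 332)))) (l (nat_lit 2) (nat_lit 309) (nat_lit 313))))))) (b (n (nat_lit 284) (b (n (nat_lit 283) (b (l (nat_lit 0) (nat_lit 283) (nat_lit 286)) (l (nat_lit 0) (nat_lit 282) (nat_lit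 282)))) (l (nat_lit 3) (nat_lit 284) (nat_lit 313)))) (n (nat_lit 260) (b (b (r (nat_lit 4)) (r (nat_lit 5))) (b (n (nat_lit 235) (b (n (nat_lit 210) (b (n (nat_lit 211) (b (l (nat_lit 5) (nat_lit 210) (nat_lit 236)) (l (nat_lit 5) (nat_lit 185) (nat_lit 186)))) (n (nat_lit 209) (b (l (nat_lit 7) (nat_lit 184) (nat_lit 184)) (l (nat_lit 7) (nat_lit 209) (nat_lit 234)))))) (l (nat_lit 4) (nat_lit 235) (nat_lit 336)))) (n (nat_lit 235) (b (n (nat_lit 210) (b (n (nat_lit 211) (b (l (nat_lit 5) (nat_lit 210) (nat_lit 236)) (l (nat_lit 5) (nat_lit 185) (nat_lit 186)))) (l (nat_lit 4) (nat_lit 210) (nat_lit 286)))) (l (nat_lit 4) (nat_lit 235) (nat_lit 336)))))))))))))))) (b (b (r (nat_lit 6)) (r (nat_lit 7))) (b (n (nat_lit 310) (b (b (n (nat_lit 309) (b (n (nat_lit 308) (b (n (nat_lit 283) (b (l (nat_lit 3) (nat_lit 283) (nat_lit 284)) (l (nat_lit 3) (nat_lit 282) (nat_lit 282)))) (l (nat_lit 0) (nat_lit 308) (nat_lit 336)))) (l (nat_lit 0) (nat_lit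 309) (nat_lit 338)))) (n (nat_lit 309) (b (n (nat_lit 313) (b (n (nat_lit 284) (b (l (nat_lit 3) (nat_lit 283) (nat_lit 283)) (l (nat_lit 3) (nat_lit 284) (nat_lit 285)))) (n (nat_lit 334) (b (l (nat_lit 2) (nat_lit 309) (nat_lit 335)) (l (nat_lit 2) (nat_lit 308) (nat_lit 333)))))) (l (nat_lit 0) (nat_lit 309) (nat_lit 338))))) (b (n (nat_lit 309) (b (b (n (nat_lit 313) (b (n (nat_lit 334) (b (l (nat_lit 2) (nat_lit 309) (nat_lit 335)) (l (nat_lit 2) (nat_lit 308) (nat_lit 333)))) (n (nat_lit 288) (b (l (nat_lit 1) (nat_lit 284) (nat_lit 287)) (l (nat_lit 1) (nat_lit 285) (nat_lit 289)))))) (n (nat_lit 308) (b (n (nat_lit 333) (b (l (nat_lit 2) (nat_lit 307) (nat_lit 332)) (l (nat_lit 2) (nat_lit 308) (nat_lit 334)))) (l (nat_lit 0) (nat_lit 308) (nat_lit 336))))) (n (nat_lit 308) (b (n (nat_lit 287) (b (l (nat_lit 1) (nat_lit 283) (nat_lit 286)) (l (nat_lit 1) (nat_lit 284) (nat_lit 288)))) (l (nat_lit 0) (nat_lit 308) (nat_lit 336)))))) (n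 (nat_lit 338) (b (b (n (nat_lit 339) (b (l (nat_lit 0) (nat_lit 310) (nat_lit 313)) (l (nat_lit 3) (nat_lit 311) (nat_lit 340)))) (n (nat_lit 339) (b (l (nat_lit 3) (nat_lit 310) (nat_lit 336)) (l (nat_lit 3) (nat_lit 311) (nat_lit 340))))) (n (nat_lit 335) (b (b (n (nat_lit 313) (b (n (nat_lit 288) (b (n (nat_lit 363) (b (n (nat_lit 388) (b (n (nat_lit 389) (b (l (nat_lit 4) (nat_lit 288) (nat_lit 364)) (l (nat_lit 4) (nat_lit 313) (nat_lit 414)))) (l (nat_lit 7) (nat_lit 312) (nat_lit 413)))) (n (nat_lit 262) (b (n (nat_lit 263) (b (l (nat_lit 7) (nat_lit 237) (nat_lit 237)) (l (nat_lit 6) (nat_lit 237) (nat_lit 238)))) (l (nat_lit 7) (nat_lit 262) (nat_lit 287)))))) (l (nat_lit 1) (nat_lit 285) (nat_lit 289)))) (l (nat_lit 2) (nat_lit 309) (nat_lit 334)))) (n (nat_lit 360) (b (b (n (nat_lit 285) (b (n (nat_lit 284) (b (l (nat_lit 3) (nat_lit 284) (nat_lit 313)) (l (nat_lit 7) (nat_lit 259) (nat_lit 259)))) (n (nat_lit 359) (b (l (nat_lit 6)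 (nat_lit 284) (nat_lit 384)) (l (nat_lit 2) (nat_lit 334) (nat_lit 336)))))) (n (nat_lit 286) (b (n (nat_lit 336) (b (l (nat_lit 6) (nat_lit 260) (nat_lit 261)) (l (nat_lit 2) (nat_lit 334) (nat_lit 359)))) (l (nat_lit 5) (nat_lit 285) (nat_lit 385))))) (n (nat_lit 286) (b (n (nat_lit 261) (b (l (nat_lit 6) (nat_lit 235) (nat_lit 236)) (l (nat_lit 5) (nat_lit 260) (nat_lit 285)))) (l (nat_lit 5) (nat_lit 285) (nat_lit 385))))))) (n (nat_lit 360) (b (b (n (nat_lit 285) (b (n (nat_lit 359) (b (l (nat_lit 6) (nat_lit 284) (nat_lit 384)) (l (nat_lit 2) (nat_lit 334) (nat_lit 336)))) (n (nat_lit 284) (b (n (nat_lit 283) (b (l (nat_lit 0) (nat_lit 283) (nat_lit 286)) (l (nat_lit 0) (nat_lit 282) (nat_lit 282)))) (l (nat_lit 7) (nat_lit 259) (nat_lit 259)))))) (n (nat_lit 385) (b (n (nat_lit 410) (b (n (nat_lit 411) (b (l (nat_lit 4) (nat_lit 335) (nat_lit 436)) (l (nat_lit 4) (nat_lit 310) (nat_lit 386)))) (n (nat_lit 409) (b (l (nat_lit 6) (nat_lit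 334) (nat_lit 434)) (l (nat_lit 6) (nat_lit 309) (nat_lit 384)))))) (l (nat_lit 5) (nat_lit 285) (nat_lit 286))))) (b (n (nat_lit 286) (b (n (nat_lit 336) (b (l (nat_lit 6) (nat_lit 260) (nat_lit 261)) (l (nat_lit 2) (nat_lit 334) (nat_lit 359)))) (l (nat_lit 5) (nat_lit 285) (nat_lit 385)))) (n (nat_lit 359) (b (n (nat_lit 384) (b (n (nat_lit 409) (b (l (nat_lit 5) (nat_lit 309) (nat_lit 334)) (l (nat_lit 6) (nat_lit 309) (nat_lit 385)))) (l (nat_lit 6) (nat_lit 284) (nat_lit 285)))) (l (nat_lit 2) (nat_lit 334) (nat_lit 336)))))))))))))) (r (nat_lit 8))))))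
    (envOK_cons p4513 (envOK_cons p4563 (envOK_cons p4691 (envOK_cons p4805 (envOK_cons p4645 (envOK_cons p4671 (envOK_cons p4852 (envOK_cons p4868 (envOK_cons p4896 envOK_nil))))))))) (by decide +kernel)

theorem p4903 : Fam (nat_lit 16) (nat_lit 8343699359066055009355553539724812947666814540455674882605631280555545803830627148527195652096) (nat_lit 8379880330824008023503946889956349160283125391972046690039371336835163168754662815671446019538934037065817857280663667726305911427516460492918343151386624) (nat_lit 8379880330824008023503946889956349160283125391972046690039371336835163168754662815671446019538934037065817857280663667726305911427516460492918343151386624) :=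
  chk_sound (Env.cons (nat_lit 9) (nat_lit 279968101115924885385735294426609074490018634821145732318173520226105264453065922003236835186146541568) (nat_lit 26442248680915654581948321435033119637061087270201092190206871374023935116092361473575675877995766953277608925291765267693568) (Env.cons (nat_lit 7) (nat_lit 9394170611063434027482807772892642536111804685651914303974896204302356326563698226920717996775909998274281472) (nat_lit 9614089661052715857917461213805443162864876996456948041397343042460079352422993578757434000821560378920660101475860480) (Env.cons (nat_lit 7) (nat_lit 9394170611063434027482807772892642536111804685651914303974896204302356326563698226920717996775909998274281472) (nat_lit 887254635290874029405472791970105561094260339804745845943232203275236581066380778576656114003162522029847917359369651566527471681536) (Env.cons (nat_lit 7) (nat_lit 9394170611063434027482807772892642536111804685651914303974896204302356326563698226920717996775909998274281472)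 (nat_lit 887254635290874029405472791969685608942586452103674815694252308046964867004033429902836740624812576052820335806495173554348220219392) (Env.cons (nat_lit 8) (nat_lit 9394170611063434027482807772892642536111804685651914303974896204302356326563698226920717996775909998274281472) (nat_lit 157608038876833833444285974952307057751910737232703022477007565758528798889448551978106930349959046626958714953793536) (Env.cons (nat_lit 8) (nat_lit 279968101115925134047353499319930152181142708231565782546248918899963984685054368582985341452834308096) (nat_lit 136215474140387796475961858990833114774482267523186594939176056439208361560445227675694276682254869737859186688) (Env.cons (nat_lit 9) (nat_lit 279968101115924885385735294426609074490018634821145732318173520226105264453065922003236835186146541568) (nat_lit 5288448223146208757993544494740037040365101383127429187269137480665693977338153755216483658726718853428453633271929491161088) (Env.cons (nat_lit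 7) (nat_lit 9394170611063434027482807772892642536111804685651914303974896204302356326563698226920717996775909998274281472) (nat_lit 9614089661052715857917461213805816155303300377336630757490063034447857015079302729791069073616196731255980324695310336) (Env.cons (nat_lit 9) (nat_lit 279968101115924885385735294426609074490018634821145732318173520226105264453065922003236835186146541568) (nat_lit 887254635290874029405472791973465178213784823996813511252914444953416437441543657861300444304520510424323962931988291854193070702592) (Env.cons (nat_lit 9) (nat_lit 9394170611063434027482807772892642536111804685651914303974896204302356326563698226920717996775909998274281472) (nat_lit 177450876289075874803075679167399207492604272754915878295546906033302496070753703190981268038418312308892017005445936189842508480512) (Env.cons (nat_lit 9) (nat_lit 279968101115924885385735294426609074490018634821145732318173520226105264453065922003236835186146541568) (nat_lit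 9614089661052715857917953231334591727525884362711905526981891175193011693872630564289285651716101926589300042362781696) (Env.cons (nat_lit 9) (nat_lit 279968101115924885385735294426609074490018634821145732318173520226105264453065922003236835186146541568) (nat_lit 21153791946936140282343285938138804316280820676683155330556648520586363560061618117347341312791745190411085605286943305760768) (Env.cons (nat_lit 15) (nat_lit 279968101115924885385735294426609074490018634821145732318173520226105264453065922003236835186146541568) (nat_lit 8379880330824008023503946889956349160283125391972046690038904089664838929003874862976107945382642661841488926484017840757641194824002717468300857841811456) (Env.cons (nat_lit 14) (nat_lit 279968101115924885385735294426609074490018634821145732318173520226105264453065922003236835186146541568) (nat_lit 221813658822719758365130399145996965172788540543331376442672897262734027227117843044026030494439672851897163480631561969274168803328)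 (Env.cons (nat_lit 10) (nat_lit 9394170611063434027482807772892642536111804685651914303974896204302356326563698226920717996775909998274281472) (nat_lit 887254343104132041522767044181788040624843289268787381672634663505881082486315967330883473132868247680774610648043856967575927783424) (Env.cons (nat_lit 7) (nat_lit 9394170611063434027483056434510847429432882376775987714394946432377755000422418458909164576524416264962048000) (nat_lit 9394170611063925262790498876190867655625693455532718695137268609613877031990016646109779270768584784277929984) Env.nil))))))))))))))))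
    (n (nat_lit 337) (b (b (b (b (r (nat_lit 0)) (n (nat_lit 362) (b (b (r (nat_lit 1)) (n (nat_lit 287) (b (b (n (nat_lit 387) (b (n (nat_lit 288) (b (l (nat_lit 5) (nat_lit 262) (nat_lit 263)) (l (nat_lit 5) (nat_lit 287) (nat_lit 313)))) (n (nat_lit 388) (b (l (nat_lit 4) (nat_lit 312) (nat_lit 413)) (l (nat_lit 4) (nat_lit 287) (nat_lit 363)))))) (n (nat_lit 262) (b (n (nat_lit 261) (b (l (nat_lit 7) (nat_lit 261) (nat_lit 286)) (l (nat_lit 7) (nat_lit 236) (nat_lit 236)))) (n (nat_lit 263) (b (l (nat_lit 5) (nat_lit 237) (nat_lit 238)) (l (nat_lit 5) (nat_lit 262) (nat_lit 288))))))) (n (nat_lit 262) (b (n (nat_lit 261) (b (l (nat_lit 7) (nat_lit 261) (nat_lit 286)) (l (nat_lit 7) (nat_lit 236) (nat_lit 236)))) (n (nat_lit 363) (b (l (nat_lit 4) (nat_lit 262) (nat_lit 338)) (l (nat_lit 4) (nat_lit 287) (nat_lit 388))))))))) (b (n (nat_lit 287) (b (b (n (nat_lit 387) (b (n (nat_lit 288) (b (l (nat_lit 5) (nat_lit 262) (nat_lit 263)) (l (nat_lit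 5) (nat_lit 287) (nat_lit 313)))) (n (nat_lit 386) (b (l (nat_lit 6) (nat_lit 311) (nat_lit 411)) (l (nat_lit 6) (nat_lit 286) (nat_lit 361)))))) (n (nat_lit 262) (b (n (nat_lit 261) (b (l (nat_lit 7) (nat_lit 261) (nat_lit 286)) (l (nat_lit 7) (nat_lit 236) (nat_lit 236)))) (n (nat_lit 361) (b (l (nat_lit 6) (nat_lit 286) (nat_lit 386)) (l (nat_lit 6) (nat_lit 261) (nat_lit 336))))))) (n (nat_lit 262) (b (n (nat_lit 261) (b (l (nat_lit 7) (nat_lit 261) (nat_lit 286)) (l (nat_lit 7) (nat_lit 236) (nat_lit 236)))) (n (nat_lit 263) (b (l (nat_lit 5) (nat_lit 237) (nat_lit 238)) (l (nat_lit 5) (nat_lit 262) (nat_lit 288)))))))) (r (nat_lit 2)))))) (b (n (nat_lit 362) (b (b (r (nat_lit 3)) (n (nat_lit 387) (b (b (n (nat_lit 412) (b (n (nat_lit 413) (b (l (nat_lit 4) (nat_lit 337) (nat_lit 438)) (l (nat_lit 4) (nat_lit 312) (nat_lit 388)))) (n (nat_lit 411) (b (l (nat_lit 6) (nat_lit 336) (nat_lit 436)) (l (nat_lit 6) (nat_lit 311) (nat_lit 386))))))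 (n (nat_lit 287) (b (n (nat_lit 288) (b (l (nat_lit 5) (nat_lit 262) (nat_lit 263)) (l (nat_lit 5) (nat_lit 287) (nat_lit 313)))) (n (nat_lit 386) (b (l (nat_lit 6) (nat_lit 311) (nat_lit 411)) (l (nat_lit 6) (nat_lit 286) (nat_lit 361))))))) (n (nat_lit 287) (b (n (nat_lit 288) (b (l (nat_lit 5) (nat_lit 262) (nat_lit 263)) (l (nat_lit 5) (nat_lit 287) (nat_lit 313)))) (n (nat_lit 388) (b (l (nat_lit 4) (nat_lit 312) (nat_lit 413)) (l (nat_lit 4) (nat_lit 287) (nat_lit 363))))))))) (b (n (nat_lit 287) (b (b (n (nat_lit 387) (b (n (nat_lit 288) (b (l (nat_lit 5) (nat_lit 262) (nat_lit 263)) (l (nat_lit 5) (nat_lit 287) (nat_lit 313)))) (n (nat_lit 388) (b (l (nat_lit 4) (nat_lit 312) (nat_lit 413)) (l (nat_lit 4) (nat_lit 287) (nat_lit 363)))))) (n (nat_lit 262) (b (n (nat_lit 261) (b (l (nat_lit 7) (nat_lit 261) (nat_lit 286)) (l (nat_lit 7) (nat_lit 236) (nat_lit 236)))) (n (nat_lit 263) (b (l (nat_lit 5) (nat_lit 237) (nat_lit 238)) (l (nat_lit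 5) (nat_lit 262) (nat_lit 288))))))) (n (nat_lit 387) (b (n (nat_lit 286) (b (l (nat_lit 7) (nat_lit 261) (nat_lit 261)) (l (nat_lit 7) (nat_lit 286) (nat_lit 311)))) (n (nat_lit 388) (b (l (nat_lit 4) (nat_lit 312) (nat_lit 413)) (l (nat_lit 4) (nat_lit 287) (nat_lit 363)))))))) (r (nat_lit 4))))) (n (nat_lit 287) (b (b (b (n (nat_lit 262) (b (b (n (nat_lit 362) (b (n (nat_lit 361) (b (l (nat_lit 6) (nat_lit 286) (nat_lit 386)) (l (nat_lit 6) (nat_lit 261) (nat_lit 336)))) (n (nat_lit 363) (b (l (nat_lit 4) (nat_lit 262) (nat_lit 338)) (l (nat_lit 4) (nat_lit 287) (nat_lit 388)))))) (n (nat_lit 237) (b (n (nat_lit 336) (b (l (nat_lit 6) (nat_lit 261) (nat_lit 361)) (l (nat_lit 6) (nat_lit 236) (nat_lit 311)))) (n (nat_lit 236) (b (l (nat_lit 7) (nat_lit 211) (nat_lit 211)) (l (nat_lit 7) (nat_lit 236) (nat_lit 261))))))) (n (nat_lit 237) (b (n (nat_lit 338) (b (l (nat_lit 4) (nat_lit 237) (nat_lit 313)) (l (nat_lit 4) (nat_lit 262) (nat_lit 363))))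 (n (nat_lit 236) (b (l (nat_lit 7) (nat_lit 211) (nat_lit 211)) (l (nat_lit 7) (nat_lit 236) (nat_lit 261)))))))) (n (nat_lit 262) (b (b (n (nat_lit 362) (b (n (nat_lit 263) (b (l (nat_lit 5) (nat_lit 237) (nat_lit 238)) (l (nat_lit 5) (nat_lit 262) (nat_lit 288)))) (n (nat_lit 361) (b (l (nat_lit 6) (nat_lit 286) (nat_lit 386)) (l (nat_lit 6) (nat_lit 261) (nat_lit 336)))))) (n (nat_lit 237) (b (n (nat_lit 336) (b (l (nat_lit 6) (nat_lit 261) (nat_lit 361)) (l (nat_lit 6) (nat_lit 236) (nat_lit 311)))) (n (nat_lit 236) (b (l (nat_lit 7) (nat_lit 211) (nat_lit 211)) (l (nat_lit 7) (nat_lit 236) (nat_lit 261))))))) (n (nat_lit 237) (b (n (nat_lit 238) (b (l (nat_lit 5) (nat_lit 237) (nat_lit 263)) (l (nat_lit 5) (nat_lit 212) (nat_lit 213)))) (n (nat_lit 236) (b (l (nat_lit 7) (nat_lit 211) (nat_lit 211)) (l (nat_lit 7) (nat_lit 236) (nat_lit 261))))))))) (b (n (nat_lit 262) (b (b (n (nat_lit 362) (b (n (nat_lit 363) (b (l (nat_lit 4) (nat_lit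 262) (nat_lit 338)) (l (nat_lit 4) (nat_lit 287) (nat_lit 388)))) (n (nat_lit 263) (b (l (nat_lit 5) (nat_lit 237) (nat_lit 238)) (l (nat_lit 5) (nat_lit 262) (nat_lit 288)))))) (n (nat_lit 237) (b (n (nat_lit 238) (b (l (nat_lit 5) (nat_lit 237) (nat_lit 263)) (l (nat_lit 5) (nat_lit 212) (nat_lit 213)))) (n (nat_lit 236) (b (l (nat_lit 7) (nat_lit 211) (nat_lit 211)) (l (nat_lit 7) (nat_lit 236) (nat_lit 261))))))) (n (nat_lit 237) (b (n (nat_lit 338) (b (l (nat_lit 4) (nat_lit 237) (nat_lit 313)) (l (nat_lit 4) (nat_lit 262) (nat_lit 363)))) (n (nat_lit 236) (b (l (nat_lit 7) (nat_lit 211) (nat_lit 211)) (l (nat_lit 7) (nat_lit 236) (nat_lit 261)))))))) (r (nat_lit 5)))) (n (nat_lit 362) (b (b (n (nat_lit 387) (b (n (nat_lit 288) (b (l (nat_lit 5) (nat_lit 262) (nat_lit 263)) (l (nat_lit 5) (nat_lit 287) (nat_lit 313)))) (n (nat_lit 386) (b (l (nat_lit 6) (nat_lit 311) (nat_lit 411)) (l (nat_lit 6) (nat_lit 286) (nat_lit 361)))))) (n (nat_lit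 387) (b (n (nat_lit 288) (b (l (nat_lit 5) (nat_lit 262) (nat_lit 263)) (l (nat_lit 5) (nat_lit 287) (nat_lit 313)))) (n (nat_lit 388) (b (l (nat_lit 4) (nat_lit 312) (nat_lit 413)) (l (nat_lit 4) (nat_lit 287) (nat_lit 363))))))) (n (nat_lit 363) (b (n (nat_lit 361) (b (n (nat_lit 364) (b (b (n (nat_lit 365) (b (n (nat_lit 340) (b (l (nat_lit 1) (nat_lit 336) (nat_lit 339)) (l (nat_lit 1) (nat_lit 337) (nat_lit 341)))) (n (nat_lit 390) (b (l (nat_lit 0) (nat_lit 362) (nat_lit 391)) (l (nat_lit 0) (nat_lit 361) (nat_lit 389)))))) (n (nat_lit 336) (b (l (nat_lit 3) (nat_lit 336) (nat_lit 365)) (l (nat_lit 3) (nat_lit 335) (nat_lit 335))))) (n (nat_lit 360) (b (n (nat_lit 335) (b (l (nat_lit 3) (nat_lit 334) (nat_lit 334)) (l (nat_lit 3) (nat_lit 335) (nat_lit 336)))) (n (nat_lit 338) (b (l (nat_lit 1) (nat_lit 334) (nat_lit 359)) (l (nat_lit 1) (nat_lit 335) (nat_lit 339)))))))) (l (nat_lit 6) (nat_lit 286) (nat_lit 386)))) (l (nat_lit 4) (nat_lit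 287) (nat_lit 388)))))))))) (b (b (r (nat_lit 6)) (n (nat_lit 362) (b (b (r (nat_lit 3)) (r (nat_lit 7))) (b (n (nat_lit 287) (b (b (n (nat_lit 387) (b (n (nat_lit 286) (b (l (nat_lit 7) (nat_lit 261) (nat_lit 261)) (l (nat_lit 7) (nat_lit 286) (nat_lit 311)))) (n (nat_lit 386) (b (l (nat_lit 6) (nat_lit 311) (nat_lit 411)) (l (nat_lit 6) (nat_lit 286) (nat_lit 361)))))) (n (nat_lit 262) (b (n (nat_lit 263) (b (l (nat_lit 5) (nat_lit 237) (nat_lit 238)) (l (nat_lit 5) (nat_lit 262) (nat_lit 288)))) (n (nat_lit 361) (b (l (nat_lit 6) (nat_lit 286) (nat_lit 386)) (l (nat_lit 6) (nat_lit 261) (nat_lit 336))))))) (n (nat_lit 262) (b (n (nat_lit 261) (b (l (nat_lit 7) (nat_lit 261) (nat_lit 286)) (l (nat_lit 7) (nat_lit 236) (nat_lit 236)))) (n (nat_lit 263) (b (l (nat_lit 5) (nat_lit 237) (nat_lit 238)) (l (nat_lit 5) (nat_lit 262) (nat_lit 288)))))))) (n (nat_lit 287) (b (b (n (nat_lit 387) (b (n (nat_lit 286) (b (l (nat_lit 7) (nat_lit 261) (nat_lit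 261)) (l (nat_lit 7) (nat_lit 286) (nat_lit 311)))) (n (nat_lit 388) (b (l (nat_lit 4) (nat_lit 312) (nat_lit 413)) (l (nat_lit 4) (nat_lit 287) (nat_lit 363)))))) (n (nat_lit 262) (b (n (nat_lit 263) (b (l (nat_lit 5) (nat_lit 237) (nat_lit 238)) (l (nat_lit 5) (nat_lit 262) (nat_lit 288)))) (n (nat_lit 363) (b (l (nat_lit 4) (nat_lit 262) (nat_lit 338)) (l (nat_lit 4) (nat_lit 287) (nat_lit 388))))))) (n (nat_lit 262) (b (n (nat_lit 261) (b (l (nat_lit 7) (nat_lit 261) (nat_lit 286)) (l (nat_lit 7) (nat_lit 236) (nat_lit 236)))) (n (nat_lit 263) (b (l (nat_lit 5) (nat_lit 237) (nat_lit 238)) (l (nat_lit 5) (nat_lit 262) (nat_lit 288)))))))))))) (b (r (nat_lit 8)) (n (nat_lit 362) (b (b (b (r (nat_lit 9)) (r (nat_lit 4))) (b (n (nat_lit 387) (b (b (n (nat_lit 412) (b (n (nat_lit 413) (b (l (nat_lit 4) (nat_lit 337) (nat_lit 438)) (l (nat_lit 4) (nat_lit 312) (nat_lit 388)))) (n (nat_lit 411) (b (l (nat_lit 6) (nat_lit 336) (nat_lit 436)) (l (nat_lit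 6) (nat_lit 311) (nat_lit 386)))))) (n (nat_lit 287) (b (n (nat_lit 286) (b (l (nat_lit 7) (nat_lit 261) (nat_lit 261)) (l (nat_lit 7) (nat_lit 286) (nat_lit 311)))) (n (nat_lit 386) (b (l (nat_lit 6) (nat_lit 311) (nat_lit 411)) (l (nat_lit 6) (nat_lit 286) (nat_lit 361))))))) (n (nat_lit 412) (b (n (nat_lit 311) (b (l (nat_lit 7) (nat_lit 286) (nat_lit 286)) (l (nat_lit 7) (nat_lit 311) (nat_lit 336)))) (n (nat_lit 413) (b (l (nat_lit 4) (nat_lit 337) (nat_lit 438)) (l (nat_lit 4) (nat_lit 312) (nat_lit 388)))))))) (n (nat_lit 387) (b (b (n (nat_lit 287) (b (n (nat_lit 288) (b (l (nat_lit 5) (nat_lit 262) (nat_lit 263)) (l (nat_lit 5) (nat_lit 287) (nat_lit 313)))) (n (nat_lit 386) (b (l (nat_lit 6) (nat_lit 311) (nat_lit 411)) (l (nat_lit 6) (nat_lit 286) (nat_lit 361)))))) (n (nat_lit 412) (b (n (nat_lit 413) (b (l (nat_lit 4) (nat_lit 337) (nat_lit 438)) (l (nat_lit 4) (nat_lit 312) (nat_lit 388)))) (n (nat_lit 411) (b (l (nat_lit 6) (nat_lit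 336) (nat_lit 436)) (l (nat_lit 6) (nat_lit 311) (nat_lit 386))))))) (n (nat_lit 412) (b (n (nat_lit 313) (b (l (nat_lit 5) (nat_lit 287) (nat_lit 288)) (l (nat_lit 5) (nat_lit 312) (nat_lit 338)))) (n (nat_lit 413) (b (l (nat_lit 4) (nat_lit 337) (nat_lit 438)) (l (nat_lit 4) (nat_lit 312) (nat_lit 388)))))))))) (n (nat_lit 387) (b (b (n (nat_lit 412) (b (n (nat_lit 313) (b (l (nat_lit 5) (nat_lit 287) (nat_lit 288)) (l (nat_lit 5) (nat_lit 312) (nat_lit 338)))) (n (nat_lit 413) (b (l (nat_lit 4) (nat_lit 337) (nat_lit 438)) (l (nat_lit 4) (nat_lit 312) (nat_lit 388)))))) (n (nat_lit 412) (b (n (nat_lit 311) (b (l (nat_lit 7) (nat_lit 286) (nat_lit 286)) (l (nat_lit 7) (nat_lit 311) (nat_lit 336)))) (n (nat_lit 413) (b (l (nat_lit 4) (nat_lit 337) (nat_lit 438)) (l (nat_lit 4) (nat_lit 312) (nat_lit 388))))))) (n (nat_lit 287) (b (n (nat_lit 288) (b (l (nat_lit 5) (nat_lit 262) (nat_lit 263)) (l (nat_lit 5) (nat_lit 287) (nat_lit 313)))) (n (nat_lit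 286) (b (l (nat_lit 7) (nat_lit 261) (nat_lit 261)) (l (nat_lit 7) (nat_lit 286) (nat_lit 311))))))))))))) (b (b (b (r (nat_lit 10)) (n (nat_lit 362) (b (b (b (r (nat_lit 9)) (r (nat_lit 2))) (b (n (nat_lit 387) (b (b (n (nat_lit 287) (b (n (nat_lit 388) (b (l (nat_lit 4) (nat_lit 312) (nat_lit 413)) (l (nat_lit 4) (nat_lit 287) (nat_lit 363)))) (n (nat_lit 386) (b (l (nat_lit 6) (nat_lit 311) (nat_lit 411)) (l (nat_lit 6) (nat_lit 286) (nat_lit 361)))))) (n (nat_lit 412) (b (n (nat_lit 311) (b (l (nat_lit 7) (nat_lit 286) (nat_lit 286)) (l (nat_lit 7) (nat_lit 311) (nat_lit 336)))) (n (nat_lit 413) (b (l (nat_lit 4) (nat_lit 337) (nat_lit 438)) (l (nat_lit 4) (nat_lit 312) (nat_lit 388))))))) (n (nat_lit 412) (b (n (nat_lit 311) (b (l (nat_lit 7) (nat_lit 286) (nat_lit 286)) (l (nat_lit 7) (nat_lit 311) (nat_lit 336)))) (n (nat_lit 411) (b (l (nat_lit 6) (nat_lit 336) (nat_lit 436)) (l (nat_lit 6) (nat_lit 311) (nat_lit 386)))))))) (r (nat_lit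 7)))) (n (nat_lit 387) (b (b (n (nat_lit 287) (b (n (nat_lit 288) (b (l (nat_lit 5) (nat_lit 262) (nat_lit 263)) (l (nat_lit 5) (nat_lit 287) (nat_lit 313)))) (n (nat_lit 388) (b (l (nat_lit 4) (nat_lit 312) (nat_lit 413)) (l (nat_lit 4) (nat_lit 287) (nat_lit 363)))))) (n (nat_lit 412) (b (n (nat_lit 311) (b (l (nat_lit 7) (nat_lit 286) (nat_lit 286)) (l (nat_lit 7) (nat_lit 311) (nat_lit 336)))) (n (nat_lit 413) (b (l (nat_lit 4) (nat_lit 337) (nat_lit 438)) (l (nat_lit 4) (nat_lit 312) (nat_lit 388))))))) (n (nat_lit 412) (b (n (nat_lit 313) (b (l (nat_lit 5) (nat_lit 287) (nat_lit 288)) (l (nat_lit 5) (nat_lit 312) (nat_lit 338)))) (n (nat_lit 311) (b (l (nat_lit 7) (nat_lit 286) (nat_lit 286)) (l (nat_lit 7) (nat_lit 311) (nat_lit 336))))))))))) (b (n (nat_lit 362) (b (b (b (r (nat_lit 9)) (r (nat_lit 2))) (b (n (nat_lit 387) (b (b (n (nat_lit 287) (b (n (nat_lit 388) (b (l (nat_lit 4) (nat_lit 312) (nat_lit 413)) (l (nat_lit 4) (nat_lit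 287) (nat_lit 363)))) (n (nat_lit 386) (b (l (nat_lit 6) (nat_lit 311) (nat_lit 411)) (l (nat_lit 6) (nat_lit 286) (nat_lit 361)))))) (n (nat_lit 412) (b (n (nat_lit 311) (b (l (nat_lit 7) (nat_lit 286) (nat_lit 286)) (l (nat_lit 7) (nat_lit 311) (nat_lit 336)))) (n (nat_lit 413) (b (l (nat_lit 4) (nat_lit 337) (nat_lit 438)) (l (nat_lit 4) (nat_lit 312) (nat_lit 388))))))) (n (nat_lit 412) (b (n (nat_lit 311) (b (l (nat_lit 7) (nat_lit 286) (nat_lit 286)) (l (nat_lit 7) (nat_lit 311) (nat_lit 336)))) (n (nat_lit 411) (b (l (nat_lit 6) (nat_lit 336) (nat_lit 436)) (l (nat_lit 6) (nat_lit 311) (nat_lit 386)))))))) (r (nat_lit 1)))) (n (nat_lit 387) (b (b (n (nat_lit 412) (b (n (nat_lit 313) (b (l (nat_lit 5) (nat_lit 287) (nat_lit 288)) (l (nat_lit 5) (nat_lit 312) (nat_lit 338)))) (n (nat_lit 413) (b (l (nat_lit 4) (nat_lit 337) (nat_lit 438)) (l (nat_lit 4) (nat_lit 312) (nat_lit 388)))))) (n (nat_lit 287) (b (n (nat_lit 286) (b (l (nat_lit 7)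 (nat_lit 261) (nat_lit 261)) (l (nat_lit 7) (nat_lit 286) (nat_lit 311)))) (n (nat_lit 388) (b (l (nat_lit 4) (nat_lit 312) (nat_lit 413)) (l (nat_lit 4) (nat_lit 287) (nat_lit 363))))))) (n (nat_lit 412) (b (n (nat_lit 313) (b (l (nat_lit 5) (nat_lit 287) (nat_lit 288)) (l (nat_lit 5) (nat_lit 312) (nat_lit 338)))) (n (nat_lit 311) (b (l (nat_lit 7) (nat_lit 286) (nat_lit 286)) (l (nat_lit 7) (nat_lit 311) (nat_lit 336)))))))))) (r (nat_lit 11)))) (b (b (r (nat_lit 12)) (r (nat_lit 13))) (n (nat_lit 362) (b (b (b (r (nat_lit 14)) (n (nat_lit 287) (b (b (n (nat_lit 262) (b (n (nat_lit 261) (b (l (nat_lit 7) (nat_lit 261) (nat_lit 286)) (l (nat_lit 7) (nat_lit 236) (nat_lit 236)))) (n (nat_lit 363) (b (l (nat_lit 4) (nat_lit 262) (nat_lit 338)) (l (nat_lit 4) (nat_lit 287) (nat_lit 388)))))) (n (nat_lit 262) (b (n (nat_lit 263) (b (l (nat_lit 5) (nat_lit 237) (nat_lit 238)) (l (nat_lit 5) (nat_lit 262) (nat_lit 288)))) (n (nat_lit 363) (b (l (nat_lit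 4) (nat_lit 262) (nat_lit 338)) (l (nat_lit 4) (nat_lit 287) (nat_lit 388))))))) (r (nat_lit 15))))) (b (n (nat_lit 387) (b (b (n (nat_lit 412) (b (n (nat_lit 313) (b (l (nat_lit 5) (nat_lit 287) (nat_lit 288)) (l (nat_lit 5) (nat_lit 312) (nat_lit 338)))) (n (nat_lit 411) (b (l (nat_lit 6) (nat_lit 336) (nat_lit 436)) (l (nat_lit 6) (nat_lit 311) (nat_lit 386)))))) (n (nat_lit 412) (b (n (nat_lit 311) (b (l (nat_lit 7) (nat_lit 286) (nat_lit 286)) (l (nat_lit 7) (nat_lit 311) (nat_lit 336)))) (n (nat_lit 411) (b (l (nat_lit 6) (nat_lit 336) (nat_lit 436)) (l (nat_lit 6) (nat_lit 311) (nat_lit 386))))))) (n (nat_lit 287) (b (n (nat_lit 288) (b (l (nat_lit 5) (nat_lit 262) (nat_lit 263)) (l (nat_lit 5) (nat_lit 287) (nat_lit 313)))) (n (nat_lit 286) (b (l (nat_lit 7) (nat_lit 261) (nat_lit 261)) (l (nat_lit 7) (nat_lit 286) (nat_lit 311)))))))) (n (nat_lit 387) (b (b (n (nat_lit 412) (b (n (nat_lit 413) (b (l (nat_lit 4) (nat_lit 337) (nat_lit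 438)) (l (nat_lit 4) (nat_lit 312) (nat_lit 388)))) (n (nat_lit 411) (b (l (nat_lit 6) (nat_lit 336) (nat_lit 436)) (l (nat_lit 6) (nat_lit 311) (nat_lit 386)))))) (n (nat_lit 287) (b (n (nat_lit 286) (b (l (nat_lit 7) (nat_lit 261) (nat_lit 261)) (l (nat_lit 7) (nat_lit 286) (nat_lit 311)))) (n (nat_lit 388) (b (l (nat_lit 4) (nat_lit 312) (nat_lit 413)) (l (nat_lit 4) (nat_lit 287) (nat_lit 363))))))) (n (nat_lit 412) (b (n (nat_lit 311) (b (l (nat_lit 7) (nat_lit 286) (nat_lit 286)) (l (nat_lit 7) (nat_lit 311) (nat_lit 336)))) (n (nat_lit 411) (b (l (nat_lit 6) (nat_lit 336) (nat_lit 436)) (l (nat_lit 6) (nat_lit 311) (nat_lit 386)))))))))) (n (nat_lit 387) (b (b (n (nat_lit 287) (b (n (nat_lit 288) (b (l (nat_lit 5) (nat_lit 262) (nat_lit 263)) (l (nat_lit 5) (nat_lit 287) (nat_lit 313)))) (n (nat_lit 388) (b (l (nat_lit 4) (nat_lit 312) (nat_lit 413)) (l (nat_lit 4) (nat_lit 287) (nat_lit 363)))))) (n (nat_lit 412) (b (n (nat_lit 413) (b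 (l (nat_lit 4) (nat_lit 337) (nat_lit 438)) (l (nat_lit 4) (nat_lit 312) (nat_lit 388)))) (n (nat_lit 411) (b (l (nat_lit 6) (nat_lit 336) (nat_lit 436)) (l (nat_lit 6) (nat_lit 311) (nat_lit 386))))))) (n (nat_lit 412) (b (n (nat_lit 313) (b (l (nat_lit 5) (nat_lit 287) (nat_lit 288)) (l (nat_lit 5) (nat_lit 312) (nat_lit 338)))) (n (nat_lit 411) (b (l (nat_lit 6) (nat_lit 336) (nat_lit 436)) (l (nat_lit 6) (nat_lit 311) (nat_lit 386))))))))))))))
    (envOK_cons p3650 (envOK_cons p3651 (envOK_cons p3684 (envOK_cons p3690 (envOK_cons p3701 (envOK_cons p3714 (envOK_cons p3722 (envOK_cons p3723 (envOK_cons p3741 (envOK_cons p3754 (envOK_cons p3775 (envOK_cons p3789 (envOK_cons p4460 (envOK_cons p4897 (envOK_cons p4459 (envOK_cons p3787 envOK_nil)))))))))))))))) (by decide +kernel)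

theorem p4917 : Fam (nat_lit 11) (nat_lit 279968101115925134047353499319930152181142708231565782546248918899963984685054368582985341452834308096) (nat_lit 26442243637458857920636016182980017490907624415250442782140327627048399474848632115852529609204618007466971928970057318662144) (nat_lit 26442243637458857920636016182980017490907624415250442782140327627048399474848632115852529609204618007466971928970057318662144) :=
  chk_sound Env.nil
    (n (nat_lit 362) (b (b (n (nat_lit 387) (b (n (nat_lit 286) (b (l (nat_lit 7) (nat_lit 261) (nat_lit 261)) (l (nat_lit 7) (nat_lit 286) (nat_lit 311)))) (n (nat_lit 386) (b (l (nat_lit 6) (nat_lit 311) (nat_lit 411)) (l (nat_lit 6) (nat_lit 286) (nat_lit 361)))))) (n (nat_lit 387) (b (n (nat_lit 288) (b (l (nat_lit 5) (nat_lit 262) (nat_lit 263)) (l (nat_lit 5) (nat_lit 287) (nat_lit 313)))) (n (nat_lit 388) (b (l (nat_lit 4) (nat_lit 312) (nat_lit 413)) (l (nat_lit 4) (nat_lit 287) (nat_lit 363))))))) (n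 (nat_lit 288) (b (n (nat_lit 361) (b (n (nat_lit 289) (b (b (n (nat_lit 311) (b (n (nat_lit 310) (b (l (nat_lit 1) (nat_lit 285) (nat_lit 313)) (l (nat_lit 1) (nat_lit 284) (nat_lit 309)))) (l (nat_lit 2) (nat_lit 286) (nat_lit 290)))) (n (nat_lit 311) (b (n (nat_lit 310) (b (l (nat_lit 1) (nat_lit 284) (nat_lit 309)) (l (nat_lit 2) (nat_lit 285) (nat_lit 286)))) (l (nat_lit 2) (nat_lit 286) (nat_lit 290))))) (n (nat_lit 286) (b (n (nat_lit 314) (b (n (nat_lit 363) (b (n (nat_lit 364) (b (n (nat_lit 389) (b (n (nat_lit 339) (b (l (nat_lit 7) (nat_lit 288) (nat_lit 313)) (l (nat_lit 1) (nat_lit 336) (nat_lit 340)))) (l (nat_lit 0) (nat_lit 361) (nat_lit 390)))) (n (nat_lit 336) (b (l (nat_lit 3) (nat_lit 336) (nat_lit 365)) (l (nat_lit 3) (nat_lit 335) (nat_lit 335)))))) (l (nat_lit 4) (nat_lit 287) (nat_lit 388)))) (l (nat_lit 0) (nat_lit 286) (nat_lit 315)))) (l (nat_lit 7) (nat_lit 261) (nat_lit 261)))))) (l (nat_lit 6) (nat_lit 286) (nat_lit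 386)))) (l (nat_lit 5) (nat_lit 262) (nat_lit 263))))))
    envOK_nil (by decide +kernel)

theorem p4930 : Fam (nat_lit 9) (nat_lit 279968101115925258378188539194579849854479624837417753751645750713458448287393430371677367127217537024) (nat_lit 2644223953965015889199670343605907071320827247424103543680572966728647747539060294371412434694473747213087207561565671784448) (nat_lit 2644223953965015889199670343605907071320827247424103543680572966728647747539060294371412434694473747213087207561565671784448) :=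
  chk_sound Env.nil
    (n (nat_lit 264) (b (n (nat_lit 336) (b (n (nat_lit 335) (b (b (n (nat_lit 334) (b (n (nat_lit 333) (b (n (nat_lit 358) (b (l (nat_lit 2) (nat_lit 333) (nat_lit 359)) (l (nat_lit 2) (nat_lit 332) (nat_lit 357)))) (n (nat_lit 308) (b (l (nat_lit 3) (nat_lit 308) (nat_lit 309)) (l (nat_lit 3) (nat_lit 307) (nat_lit 307)))))) (l (nat_lit 1) (nat_lit 309) (nat_lit 313)))) (n (nat_lit 289) (b (n (nat_lit 311) (b (n (nat_lit 288) (b (n (nat_lit 314) (b (l (nat_lit 0) (nat_lit 286) (nat_lit 315)) (l (nat_lit 2) (nat_lit 310) (nat_lit 313)))) (l (nat_lit 2) (nat_lit 285) (nat_lit 310)))) (l (nat_lit 6) (nat_lit 260) (nat_lit 360)))) (l (nat_lit 0) (nat_lit 261) (nat_lit 290))))) (n (nat_lit 334) (b (b (n (nat_lit 311) (b (l (nat_lit 6) (nat_lit 260) (nat_lit 360)) (l (nat_lit 1) (nat_lit 308) (nat_lit 333)))) (n (nat_lit 333) (b (n (nat_lit 358) (b (l (nat_lit 2) (nat_lit 333) (nat_lit 359)) (l (nat_lit 2) (nat_lit 332) (nat_lit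 357)))) (n (nat_lit 308) (b (l (nat_lit 3) (nat_lit 308) (nat_lit 309)) (l (nat_lit 3) (nat_lit 307) (nat_lit 307))))))) (n (nat_lit 309) (b (n (nat_lit 360) (b (n (nat_lit 385) (b (n (nat_lit 284) (b (l (nat_lit 4) (nat_lit 259) (nat_lit 259)) (l (nat_lit 7) (nat_lit 284) (nat_lit 310)))) (l (nat_lit 7) (nat_lit 309) (nat_lit 410)))) (l (nat_lit 6) (nat_lit 260) (nat_lit 311)))) (l (nat_lit 3) (nat_lit 308) (nat_lit 308)))))))) (l (nat_lit 6) (nat_lit 261) (nat_lit 361)))) (l (nat_lit 2) (nat_lit 261) (nat_lit 265))))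
    envOK_nil (by decide +kernel)

theorem p4953 : Fam (nat_lit 6) (nat_lit 279968101115925134047353499319930152181142708231565782546248918899963984685054368582985341452834308096) (nat_lit 177450897442867506523184004415840705851533163927245650626102145300688775370506868334343853540101905533018445551714224250149062836224) (nat_lit 177450897442867506523184004415840705851533163927245650626102145300688775370506868334343853540101905533018445551714224250149062836224) :=
  chk_sound Env.nil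
    (n (nat_lit 362) (b (b (n (nat_lit 361) (b (n (nat_lit 363) (b (n (nat_lit 336) (b (n (nat_lit 335) (b (l (nat_lit 3) (nat_lit 335) (nat_lit 364)) (l (nat_lit 0) (nat_lit 334) (nat_lit 334)))) (l (nat_lit 6) (nat_lit 261) (nat_lit 262)))) (l (nat_lit 4) (nat_lit 287) (nat_lit 388)))) (l (nat_lit 6) (nat_lit 286) (nat_lit 386)))) (n (nat_lit 387) (b (n (nat_lit 388) (b (l (nat_lit 4) (nat_lit 312) (nat_lit 413)) (l (nat_lit 4) (nat_lit 287) (nat_lit 363)))) (n (nat_lit 311) (b (n (nat_lit 336) (b (n (nat_lit 262) (b (l (nat_lit 6) (nat_lit 261) (nat_lit 361)) (l (nat_lit 6) (nat_lit 236) (nat_lit 237)))) (l (nat_lit 7) (nat_lit 311) (nat_lit 412)))) (l (nat_lit 7) (nat_lit 286) (nat_lit 286))))))) (b (n (nat_lit 387) (b (n (nat_lit 412) (b (n (nat_lit 311) (b (l (nat_lit 7) (nat_lit 286) (nat_lit 286)) (l (nat_lit 7) (nat_lit 311) (nat_lit 336)))) (n (nat_lit 411) (b (l (nat_lit 6) (nat_lit 336) (nat_lit 436)) (l (nat_lit 6) (nat_lit 311) (nat_lit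 386)))))) (n (nat_lit 388) (b (l (nat_lit 4) (nat_lit 312) (nat_lit 413)) (l (nat_lit 4) (nat_lit 287) (nat_lit 363)))))) (n (nat_lit 387) (b (n (nat_lit 286) (b (l (nat_lit 7) (nat_lit 261) (nat_lit 261)) (l (nat_lit 7) (nat_lit 286) (nat_lit 311)))) (n (nat_lit 386) (b (l (nat_lit 6) (nat_lit 311) (nat_lit 411)) (l (nat_lit 6) (nat_lit 286) (nat_lit 361)))))))))
    envOK_nil (by decide +kernel)

theorem p4970 : Fam (nat_lit 10) (nat_lit 279968101115925134047360910013641340417649816774606338572351528178982585681152893868361847893131264000) (nat_lit 4697085707985979179678292266955871075712294709046508640995701891770518512907813786165751500196651093358280704) (nat_lit 4697085707985979179678292266955871075712294709046508640995701891770518512907813786165751500196651093358280704) :=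
  chk_sound Env.nil
    (n (nat_lit 336) (b (n (nat_lit 311) (b (n (nat_lit 313) (b (b (n (nat_lit 310) (b (n (nat_lit 309) (b (n (nat_lit 284) (b (l (nat_lit 3) (nat_lit 283) (nat_lit 283)) (l (nat_lit 3) (nat_lit 284) (nat_lit 285)))) (l (nat_lit 0) (nat_lit 308) (nat_lit 308)))) (n (nat_lit 314) (b (n (nat_lit 289) (b (l (nat_lit 1) (nat_lit 286) (nat_lit 290)) (l (nat_lit 1) (nat_lit 285) (nat_lit 288)))) (l (nat_lit 2) (nat_lit 311) (nat_lit 315)))))) (n (nat_lit 335) (b (l (nat_lit 1) (nat_lit 309) (nat_lit 334)) (l (nat_lit 2) (nat_lit 310) (nat_lit 314))))) (n (nat_lit 310) (b (b (n (nat_lit 335) (b (n (nat_lit 285) (b (n (nat_lit 260) (b (n (nat_lit 259) (b (n (nat_lit 288) (b (l (nat_lit 0) (nat_lit 259) (nat_lit 261)) (l (nat_lit 1) (nat_lit 285) (nat_lit 289)))) (l (nat_lit 7) (nat_lit 234) (nat_lit 234)))) (l (nat_lit 4) (nat_lit 235) (nat_lit 235)))) (l (nat_lit 3) (nat_lit 284) (nat_lit 284)))) (l (nat_lit 2) (nat_lit 309) (nat_lit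 334)))) (n (nat_lit 288) (b (l (nat_lit 1) (nat_lit 285) (nat_lit 289)) (l (nat_lit 1) (nat_lit 284) (nat_lit 309))))) (n (nat_lit 334) (b (n (nat_lit 309) (b (l (nat_lit 2) (nat_lit 308) (nat_lit 333)) (l (nat_lit 0) (nat_lit 308) (nat_lit 308)))) (l (nat_lit 2) (nat_lit 309) (nat_lit 335)))))))) (l (nat_lit 6) (nat_lit 236) (nat_lit 237)))) (l (nat_lit 6) (nat_lit 261) (nat_lit 361))))
    envOK_nil (by decide +kernel)

theorem p5016 : Fam (nat_lit 7) (nat_lit 8343700105050909624035516772798185167898074691139901078627207441251511143569872667327258951680) (nat_lit 1399840996814932118032166912122570481166651294631108714951023853140514222830667535454175908454664765440) (nat_lit 1399840996814932118032166912122570481166651294631108714951023853140514222830667535454175908454664765440) :=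
  chk_sound Env.nil
    (n (nat_lit 289) (b (b (n (nat_lit 290) (b (n (nat_lit 291) (b (n (nat_lit 316) (b (l (nat_lit 0) (nat_lit 288) (nat_lit 317)) (l (nat_lit 0) (nat_lit 287) (nat_lit 315)))) (n (nat_lit 266) (b (l (nat_lit 1) (nat_lit 263) (nat_lit 267)) (l (nat_lit 1) (nat_lit 262) (nat_lit 265)))))) (l (nat_lit 2) (nat_lit 286) (nat_lit 311)))) (n (nat_lit 286) (b (b (n (nat_lit 261) (b (n (nat_lit 236) (b (n (nat_lit 311) (b (l (nat_lit 4) (nat_lit 236) (nat_lit 337)) (l (nat_lit 2) (nat_lit 285) (nat_lit 310)))) (l (nat_lit 4) (nat_lit 211) (nat_lit 211)))) (l (nat_lit 3) (nat_lit 260) (nat_lit 260)))) (n (nat_lit 285) (b (n (nat_lit 313) (b (l (nat_lit 0) (nat_lit 284) (nat_lit 284)) (l (nat_lit 0) (nat_lit 285) (nat_lit 314)))) (n (nat_lit 310) (b (l (nat_lit 2) (nat_lit 284) (nat_lit 309)) (l (nat_lit 2) (nat_lit 285) (nat_lit 311))))))) (n (nat_lit 285) (b (n (nat_lit 313) (b (l (nat_lit 0) (nat_lit 284) (nat_lit 284)) (l (nat_lit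 0) (nat_lit 285) (nat_lit 314)))) (n (nat_lit 260) (b (l (nat_lit 3) (nat_lit 260) (nat_lit 261)) (l (nat_lit 3) (nat_lit 259) (nat_lit 259))))))))) (n (nat_lit 290) (b (b (n (nat_lit 291) (b (n (nat_lit 316) (b (l (nat_lit 0) (nat_lit 288) (nat_lit 317)) (l (nat_lit 0) (nat_lit 287) (nat_lit 315)))) (l (nat_lit 2) (nat_lit 287) (nat_lit 313)))) (n (nat_lit 291) (b (n (nat_lit 266) (b (l (nat_lit 1) (nat_lit 263) (nat_lit 267)) (l (nat_lit 1) (nat_lit 262) (nat_lit 265)))) (l (nat_lit 2) (nat_lit 287) (nat_lit 313))))) (n (nat_lit 315) (b (n (nat_lit 265) (b (n (nat_lit 314) (b (n (nat_lit 240) (b (l (nat_lit 6) (nat_lit 239) (nat_lit 339)) (l (nat_lit 6) (nat_lit 214) (nat_lit 215)))) (l (nat_lit 0) (nat_lit 286) (nat_lit 286)))) (l (nat_lit 1) (nat_lit 262) (nat_lit 266)))) (l (nat_lit 0) (nat_lit 287) (nat_lit 316))))))))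
    envOK_nil (by decide +kernel)

theorem p5082 : Fam (nat_lit 7) (nat_lit 8343701099697382443608801083562681461539754892052202673322642322179464929888866692394010017792) (nat_lit 225460095785395113152772203914898919335768474049270161552597812361138831185357463664778391239770424769249280000) (nat_lit 225460095785395113152772203914898919335768474049270161552597812361138831185357463664778391239770424769249280000) :=
  chk_sound Env.nil
    (n (nat_lit 290) (b (b (n (nat_lit 291) (b (n (nat_lit 316) (b (l (nat_lit 0) (nat_lit 288) (nat_lit 317)) (l (nat_lit 0) (nat_lit 287) (nat_lit 315)))) (l (nat_lit 2) (nat_lit 287) (nat_lit 313)))) (n (nat_lit 291) (b (n (nat_lit 316) (b (l (nat_lit 0) (nat_lit 288) (nat_lit 317)) (l (nat_lit 0) (nat_lit 287) (nat_lit 315)))) (n (nat_lit 266) (b (l (nat_lit 1) (nat_lit 263) (nat_lit 267)) (l (nat_lit 1) (nat_lit 262) (nat_lit 265))))))) (b (n (nat_lit 291) (b (n (nat_lit 266) (b (l (nat_lit 1) (nat_lit 263)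 (nat_lit 267)) (l (nat_lit 1) (nat_lit 262) (nat_lit 265)))) (l (nat_lit 2) (nat_lit 287) (nat_lit 313)))) (n (nat_lit 265) (b (n (nat_lit 315) (b (n (nat_lit 340) (b (n (nat_lit 314) (b (n (nat_lit 240) (b (l (nat_lit 6) (nat_lit 239) (nat_lit 339)) (l (nat_lit 6) (nat_lit 214) (nat_lit 215)))) (n (nat_lit 341) (b (l (nat_lit 0) (nat_lit 312) (nat_lit 313)) (l (nat_lit 4) (nat_lit 265) (nat_lit 366)))))) (n (nat_lit 264) (b (l (nat_lit 7) (nat_lit 264) (nat_lit 365)) (l (nat_lit 7) (nat_lit 239) (nat_lit 239)))))) (l (nat_lit 0) (nat_lit 287) (nat_lit 316)))) (l (nat_lit 1) (nat_lit 262) (nat_lit 266)))))))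
    envOK_nil (by decide +kernel)

theorem p5084 : Fam (nat_lit 11) (nat_lit 8343699607727673214248874617415937021077234590683750281279490000787534250410375654793883418624) (nat_lit 26442241115730614006661741382177713607874042135036203953322961331052157962418372211701057865106756570236243822629589344059392) (nat_lit 26442241115730614006661741382177713607874042135036203953322961331052157962418372211701057865106756570236243822629589344059392) :=
  chk_sound (Env.cons (nat_lit 7) (nat_lit 8343700105050909624035516772798185167898074691139901078627207441251511143569872667327258951680) (nat_lit 1399840996814932118032166912122570481166651294631108714951023853140514222830667535454175908454664765440) (Env.cons (nat_lit 7) (nat_lit 8343701099697382443608801083562681461539754892052202673322642322179464929888866692394010017792) (nat_lit 225460095785395113152772203914898919335768474049270161552597812361138831185357463664778391239770424769249280000) Env.nil))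
    (n (nat_lit 288) (b (b (b (n (nat_lit 337) (b (b (n (nat_lit 262) (b (b (n (nat_lit 311) (b (n (nat_lit 310) (b (n (nat_lit 289) (b (l (nat_lit 1) (nat_lit 285) (nat_lit 313)) (l (nat_lit 2) (nat_lit 286) (nat_lit 290)))) (l (nat_lit 1) (nat_lit 284) (nat_lit 309)))) (n (nat_lit 336) (b (l (nat_lit 6) (nat_lit 261) (nat_lit 361)) (l (nat_lit 6) (nat_lit 236) (nat_lit 237)))))) (n (nat_lit 261) (b (n (nat_lit 260) (b (n (nat_lit 289) (b (l (nat_lit 0) (nat_lit 260) (nat_lit 263)) (l (nat_lit 3) (nat_lit 261) (nat_lit 290)))) (l (nat_lit 0) (nat_lit 259) (nat_lit 259)))) (l (nat_lit 7) (nat_lit 236) (nat_lit 236))))) (n (nat_lit 237) (b (n (nat_lit 336) (b (l (nat_lit 6) (nat_lit 261) (nat_lit 361)) (l (nat_lit 6) (nat_lit 236) (nat_lit 311)))) (n (nat_lit 236) (b (l (nat_lit 7) (nat_lit 211) (nat_lit 211)) (l (nat_lit 7) (nat_lit 236) (nat_lit 261)))))))) (n (nat_lit 362) (b (n (nat_lit 387) (b (n (nat_lit 388) (b (l (nat_lit 4) (nat_lit 312)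 (nat_lit 413)) (l (nat_lit 4) (nat_lit 287) (nat_lit 363)))) (n (nat_lit 386) (b (l (nat_lit 6) (nat_lit 311) (nat_lit 411)) (l (nat_lit 6) (nat_lit 286) (nat_lit 361)))))) (l (nat_lit 5) (nat_lit 262) (nat_lit 263))))) (b (n (nat_lit 362) (b (n (nat_lit 387) (b (n (nat_lit 388) (b (l (nat_lit 4) (nat_lit 312) (nat_lit 413)) (l (nat_lit 4) (nat_lit 287) (nat_lit 363)))) (l (nat_lit 5) (nat_lit 287) (nat_lit 313)))) (l (nat_lit 5) (nat_lit 262) (nat_lit 263)))) (n (nat_lit 362) (b (b (n (nat_lit 387) (b (n (nat_lit 388) (b (l (nat_lit 4) (nat_lit 312) (nat_lit 413)) (l (nat_lit 4) (nat_lit 287) (nat_lit 363)))) (l (nat_lit 5) (nat_lit 287) (nat_lit 313)))) (n (nat_lit 387) (b (n (nat_lit 386) (b (l (nat_lit 6) (nat_lit 311) (nat_lit 411)) (l (nat_lit 6) (nat_lit 286) (nat_lit 361)))) (l (nat_lit 5) (nat_lit 287) (nat_lit 313))))) (n (nat_lit 361) (b (n (nat_lit 363) (b (n (nat_lit 336) (b (n (nat_lit 335) (b (l (nat_lit 3) (nat_lit 335) (nat_lit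 364)) (l (nat_lit 0) (nat_lit 334) (nat_lit 334)))) (l (nat_lit 6) (nat_lit 261) (nat_lit 262)))) (l (nat_lit 4) (nat_lit 287) (nat_lit 388)))) (l (nat_lit 6) (nat_lit 286) (nat_lit 386))))))))) (n (nat_lit 289) (b (b (n (nat_lit 290) (b (b (n (nat_lit 291) (b (n (nat_lit 316) (b (l (nat_lit 0) (nat_lit 288) (nat_lit 317)) (l (nat_lit 0) (nat_lit 287) (nat_lit 315)))) (l (nat_lit 2) (nat_lit 287) (nat_lit 313)))) (n (nat_lit 291) (b (n (nat_lit 266) (b (l (nat_lit 1) (nat_lit 263) (nat_lit 267)) (l (nat_lit 1) (nat_lit 262) (nat_lit 265)))) (l (nat_lit 2) (nat_lit 287) (nat_lit 313))))) (n (nat_lit 315) (b (n (nat_lit 265) (b (n (nat_lit 314) (b (n (nat_lit 240) (b (l (nat_lit 6) (nat_lit 239) (nat_lit 339)) (l (nat_lit 6) (nat_lit 214) (nat_lit 215)))) (l (nat_lit 0) (nat_lit 286) (nat_lit 286)))) (l (nat_lit 1) (nat_lit 262) (nat_lit 266)))) (l (nat_lit 0) (nat_lit 287) (nat_lit 316)))))) (n (nat_lit 290) (b (n (nat_lit 291) (b (n (nat_lit 316)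 (b (l (nat_lit 0) (nat_lit 288) (nat_lit 317)) (l (nat_lit 0) (nat_lit 287) (nat_lit 315)))) (n (nat_lit 266) (b (l (nat_lit 1) (nat_lit 263) (nat_lit 267)) (l (nat_lit 1) (nat_lit 262) (nat_lit 265)))))) (l (nat_lit 2) (nat_lit 286) (nat_lit 311))))) (b (n (nat_lit 311) (b (n (nat_lit 310) (b (l (nat_lit 1) (nat_lit 285) (nat_lit 313)) (l (nat_lit 1) (nat_lit 284) (nat_lit 309)))) (l (nat_lit 2) (nat_lit 286) (nat_lit 290)))) (n (nat_lit 286) (b (b (n (nat_lit 285) (b (n (nat_lit 264) (b (l (nat_lit 1) (nat_lit 261) (nat_lit 265)) (l (nat_lit 1) (nat_lit 260) (nat_lit 263)))) (n (nat_lit 310) (b (l (nat_lit 2) (nat_lit 284) (nat_lit 309)) (l (nat_lit 2) (nat_lit 285) (nat_lit 311)))))) (n (nat_lit 285) (b (n (nat_lit 313) (b (l (nat_lit 0) (nat_lit 284) (nat_lit 284)) (l (nat_lit 0) (nat_lit 285) (nat_lit 314)))) (n (nat_lit 264) (b (l (nat_lit 1) (nat_lit 261) (nat_lit 265)) (l (nat_lit 1) (nat_lit 260) (nat_lit 263))))))) (b (n (nat_lit 285)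 (b (n (nat_lit 313) (b (l (nat_lit 0) (nat_lit 284) (nat_lit 284)) (l (nat_lit 0) (nat_lit 285) (nat_lit 314)))) (n (nat_lit 310) (b (l (nat_lit 2) (nat_lit 284) (nat_lit 309)) (l (nat_lit 2) (nat_lit 285) (nat_lit 311)))))) (n (nat_lit 311) (b (n (nat_lit 314) (b (n (nat_lit 313) (b (n (nat_lit 339) (b (n (nat_lit 364) (b (l (nat_lit 7) (nat_lit 288) (nat_lit 389)) (l (nat_lit 7) (nat_lit 263) (nat_lit 263)))) (l (nat_lit 0) (nat_lit 311) (nat_lit 340)))) (n (nat_lit 336) (b (n (nat_lit 262) (b (l (nat_lit 5) (nat_lit 261) (nat_lit 361)) (l (nat_lit 6) (nat_lit 236) (nat_lit 237)))) (l (nat_lit 2) (nat_lit 310) (nat_lit 335)))))) (l (nat_lit 0) (nat_lit 286) (nat_lit 315)))) (l (nat_lit 2) (nat_lit 285) (nat_lit 310))))))))))) (b (r (nat_lit 0)) (n (nat_lit 289) (b (b (n (nat_lit 286) (b (b (n (nat_lit 290) (b (n (nat_lit 265) (b (l (nat_lit 1) (nat_lit 261) (nat_lit 264)) (l (nat_lit 1) (nat_lit 262) (nat_lit 266)))) (n (nat_lit 315) (b (l (nat_lit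 0) (nat_lit 287) (nat_lit 316)) (l (nat_lit 0) (nat_lit 286) (nat_lit 314)))))) (n (nat_lit 285) (b (n (nat_lit 260) (b (l (nat_lit 3) (nat_lit 260) (nat_lit 261)) (l (nat_lit 3) (nat_lit 259) (nat_lit 259)))) (n (nat_lit 264) (b (l (nat_lit 1) (nat_lit 261) (nat_lit 265)) (l (nat_lit 1) (nat_lit 260) (nat_lit 263))))))) (n (nat_lit 290) (b (n (nat_lit 315) (b (l (nat_lit 0) (nat_lit 287) (nat_lit 316)) (l (nat_lit 0) (nat_lit 286) (nat_lit 314)))) (n (nat_lit 261) (b (l (nat_lit 3) (nat_lit 261) (nat_lit 262)) (l (nat_lit 3) (nat_lit 260) (nat_lit 260)))))))) (n (nat_lit 290) (b (n (nat_lit 291) (b (n (nat_lit 316) (b (l (nat_lit 0) (nat_lit 288) (nat_lit 317)) (l (nat_lit 0) (nat_lit 287) (nat_lit 315)))) (n (nat_lit 262) (b (l (nat_lit 3) (nat_lit 262) (nat_lit 263)) (l (nat_lit 3) (nat_lit 261) (nat_lit 261)))))) (l (nat_lit 2) (nat_lit 286) (nat_lit 311))))) (b (n (nat_lit 311) (b (n (nat_lit 310) (b (l (nat_lit 1) (nat_lit 284) (nat_lit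 309)) (l (nat_lit 2) (nat_lit 285) (nat_lit 286)))) (l (nat_lit 2) (nat_lit 286) (nat_lit 290)))) (n (nat_lit 286) (b (b (n (nat_lit 285) (b (n (nat_lit 264) (b (l (nat_lit 1) (nat_lit 261) (nat_lit 265)) (l (nat_lit 1) (nat_lit 260) (nat_lit 263)))) (n (nat_lit 310) (b (l (nat_lit 2) (nat_lit 284) (nat_lit 309)) (l (nat_lit 2) (nat_lit 285) (nat_lit 311)))))) (n (nat_lit 261) (b (n (nat_lit 236) (b (n (nat_lit 311) (b (l (nat_lit 4) (nat_lit 236) (nat_lit 337)) (l (nat_lit 2) (nat_lit 285) (nat_lit 310)))) (l (nat_lit 4) (nat_lit 211) (nat_lit 211)))) (l (nat_lit 3) (nat_lit 260) (nat_lit 260))))) (n (nat_lit 285) (b (n (nat_lit 260) (b (l (nat_lit 3) (nat_lit 260) (nat_lit 261)) (l (nat_lit 3) (nat_lit 259) (nat_lit 259)))) (n (nat_lit 264) (b (l (nat_lit 1) (nat_lit 261) (nat_lit 265)) (l (nat_lit 1) (nat_lit 260) (nat_lit 263))))))))))))) (b (n (nat_lit 337) (b (b (n (nat_lit 362) (b (b (n (nat_lit 387) (b (n (nat_lit 388) (b (l (nat_lit 4)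 (nat_lit 312) (nat_lit 413)) (l (nat_lit 4) (nat_lit 287) (nat_lit 363)))) (l (nat_lit 5) (nat_lit 287) (nat_lit 313)))) (n (nat_lit 387) (b (n (nat_lit 386) (b (l (nat_lit 6) (nat_lit 311) (nat_lit 411)) (l (nat_lit 6) (nat_lit 286) (nat_lit 361)))) (l (nat_lit 5) (nat_lit 287) (nat_lit 313))))) (n (nat_lit 361) (b (n (nat_lit 363) (b (n (nat_lit 336) (b (n (nat_lit 335) (b (l (nat_lit 3) (nat_lit 335) (nat_lit 364)) (l (nat_lit 0) (nat_lit 334) (nat_lit 334)))) (l (nat_lit 6) (nat_lit 261) (nat_lit 262)))) (l (nat_lit 4) (nat_lit 287) (nat_lit 388)))) (l (nat_lit 6) (nat_lit 286) (nat_lit 386)))))) (n (nat_lit 362) (b (n (nat_lit 387) (b (n (nat_lit 388) (b (l (nat_lit 4) (nat_lit 312) (nat_lit 413)) (l (nat_lit 4) (nat_lit 287) (nat_lit 363)))) (n (nat_lit 386) (b (l (nat_lit 6) (nat_lit 311) (nat_lit 411)) (l (nat_lit 6) (nat_lit 286) (nat_lit 361)))))) (l (nat_lit 5) (nat_lit 262) (nat_lit 263))))) (b (n (nat_lit 362) (b (n (nat_lit 387)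 (b (n (nat_lit 388) (b (l (nat_lit 4) (nat_lit 312) (nat_lit 413)) (l (nat_lit 4) (nat_lit 287) (nat_lit 363)))) (l (nat_lit 5) (nat_lit 287) (nat_lit 313)))) (l (nat_lit 5) (nat_lit 262) (nat_lit 263)))) (n (nat_lit 262) (b (b (b (n (nat_lit 237) (b (n (nat_lit 212) (b (n (nat_lit 187) (b (n (nat_lit 188) (b (l (nat_lit 5) (nat_lit 187) (nat_lit 213)) (l (nat_lit 5) (nat_lit 162) (nat_lit 163)))) (l (nat_lit 4) (nat_lit 187) (nat_lit 263)))) (l (nat_lit 4) (nat_lit 212) (nat_lit 313)))) (n (nat_lit 236) (b (l (nat_lit 7) (nat_lit 211) (nat_lit 211)) (l (nat_lit 7) (nat_lit 236) (nat_lit 261)))))) (n (nat_lit 237) (b (n (nat_lit 212) (b (n (nat_lit 211) (b (l (nat_lit 7) (nat_lit 211) (nat_lit 236)) (l (nat_lit 7) (nat_lit 186) (nat_lit 186)))) (l (nat_lit 4) (nat_lit 212) (nat_lit 313)))) (n (nat_lit 336) (b (l (nat_lit 6) (nat_lit 261) (nat_lit 361)) (l (nat_lit 6) (nat_lit 236) (nat_lit 311))))))) (b (n (nat_lit 237) (b (n (nat_lit 336) (b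 (l (nat_lit 6) (nat_lit 261) (nat_lit 361)) (l (nat_lit 6) (nat_lit 236) (nat_lit 311)))) (n (nat_lit 236) (b (l (nat_lit 7) (nat_lit 211) (nat_lit 211)) (l (nat_lit 7) (nat_lit 236) (nat_lit 261)))))) (n (nat_lit 336) (b (n (nat_lit 311) (b (n (nat_lit 310) (b (n (nat_lit 285) (b (n (nat_lit 260) (b (n (nat_lit 259) (b (l (nat_lit 0) (nat_lit 259) (nat_lit 261)) (l (nat_lit 3) (nat_lit 259) (nat_lit 286)))) (l (nat_lit 4) (nat_lit 235) (nat_lit 235)))) (n (nat_lit 313) (b (n (nat_lit 335) (b (l (nat_lit 2) (nat_lit 310) (nat_lit 314)) (l (nat_lit 2) (nat_lit 309) (nat_lit 334)))) (l (nat_lit 3) (nat_lit 284) (nat_lit 284)))))) (l (nat_lit 1) (nat_lit 284) (nat_lit 309)))) (l (nat_lit 6) (nat_lit 236) (nat_lit 237)))) (l (nat_lit 6) (nat_lit 261) (nat_lit 361)))))) (n (nat_lit 336) (b (n (nat_lit 261) (b (n (nat_lit 260) (b (n (nat_lit 286) (b (b (n (nat_lit 285) (b (n (nat_lit 263) (b (l (nat_lit 1) (nat_lit 260) (nat_lit 264)) (l (nat_lit 1)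 (nat_lit 259) (nat_lit 284)))) (n (nat_lit 335) (b (n (nat_lit 313) (b (l (nat_lit 0) (nat_lit 285) (nat_lit 314)) (l (nat_lit 1) (nat_lit 309) (nat_lit 334)))) (n (nat_lit 310) (b (l (nat_lit 2) (nat_lit 284) (nat_lit 309)) (l (nat_lit 5) (nat_lit 260) (nat_lit 360)))))))) (n (nat_lit 263) (b (n (nat_lit 235) (b (l (nat_lit 7) (nat_lit 235) (nat_lit 311)) (l (nat_lit 3) (nat_lit 234) (nat_lit 234)))) (n (nat_lit 285) (b (l (nat_lit 1) (nat_lit 260) (nat_lit 264)) (l (nat_lit 1) (nat_lit 259) (nat_lit 284))))))) (n (nat_lit 311) (b (n (nat_lit 335) (b (n (nat_lit 313) (b (l (nat_lit 2) (nat_lit 310) (nat_lit 314)) (l (nat_lit 1) (nat_lit 309) (nat_lit 334)))) (l (nat_lit 6) (nat_lit 260) (nat_lit 360)))) (l (nat_lit 7) (nat_lit 235) (nat_lit 235)))))) (l (nat_lit 0) (nat_lit 259) (nat_lit 259)))) (l (nat_lit 7) (nat_lit 236) (nat_lit 236)))) (l (nat_lit 6) (nat_lit 261) (nat_lit 361))))))))) (n (nat_lit 289) (b (b (b (n (nat_lit 286) (b (n (nat_lit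 261) (b (n (nat_lit 337) (b (n (nat_lit 236) (b (l (nat_lit 4) (nat_lit 211) (nat_lit 211)) (l (nat_lit 7) (nat_lit 236) (nat_lit 262)))) (l (nat_lit 7) (nat_lit 261) (nat_lit 362)))) (l (nat_lit 3) (nat_lit 260) (nat_lit 260)))) (n (nat_lit 285) (b (n (nat_lit 313) (b (l (nat_lit 0) (nat_lit 284) (nat_lit 284)) (l (nat_lit 0) (nat_lit 285) (nat_lit 314)))) (n (nat_lit 264) (b (l (nat_lit 1) (nat_lit 261) (nat_lit 265)) (l (nat_lit 1) (nat_lit 260) (nat_lit 263)))))))) (n (nat_lit 290) (b (b (n (nat_lit 291) (b (n (nat_lit 316) (b (l (nat_lit 0) (nat_lit 288) (nat_lit 317)) (l (nat_lit 0) (nat_lit 287) (nat_lit 315)))) (l (nat_lit 2) (nat_lit 287) (nat_lit 313)))) (n (nat_lit 291) (b (n (nat_lit 266) (b (l (nat_lit 1) (nat_lit 263) (nat_lit 267)) (l (nat_lit 1) (nat_lit 262) (nat_lit 265)))) (l (nat_lit 2) (nat_lit 287) (nat_lit 313))))) (n (nat_lit 265) (b (n (nat_lit 315) (b (n (nat_lit 264) (b (n (nat_lit 340) (b (l (nat_lit 7) (nat_lit 264)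 (nat_lit 365)) (l (nat_lit 7) (nat_lit 239) (nat_lit 239)))) (l (nat_lit 1) (nat_lit 261) (nat_lit 286)))) (l (nat_lit 0) (nat_lit 287) (nat_lit 316)))) (l (nat_lit 1) (nat_lit 262) (nat_lit 266))))))) (b (n (nat_lit 286) (b (b (n (nat_lit 290) (b (n (nat_lit 265) (b (l (nat_lit 1) (nat_lit 261) (nat_lit 264)) (l (nat_lit 1) (nat_lit 262) (nat_lit 266)))) (n (nat_lit 315) (b (l (nat_lit 0) (nat_lit 287) (nat_lit 316)) (l (nat_lit 0) (nat_lit 286) (nat_lit 314)))))) (n (nat_lit 285) (b (n (nat_lit 260) (b (l (nat_lit 3) (nat_lit 260) (nat_lit 261)) (l (nat_lit 3) (nat_lit 259) (nat_lit 259)))) (n (nat_lit 264) (b (l (nat_lit 1) (nat_lit 261) (nat_lit 265)) (l (nat_lit 1) (nat_lit 260) (nat_lit 263))))))) (n (nat_lit 290) (b (n (nat_lit 315) (b (l (nat_lit 0) (nat_lit 287) (nat_lit 316)) (l (nat_lit 0) (nat_lit 286) (nat_lit 314)))) (n (nat_lit 261) (b (l (nat_lit 3) (nat_lit 261) (nat_lit 262)) (l (nat_lit 3) (nat_lit 260) (nat_lit 260))))))))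 (n (nat_lit 290) (b (b (n (nat_lit 286) (b (n (nat_lit 315) (b (l (nat_lit 0) (nat_lit 287) (nat_lit 316)) (l (nat_lit 0) (nat_lit 286) (nat_lit 314)))) (n (nat_lit 261) (b (l (nat_lit 3) (nat_lit 261) (nat_lit 262)) (l (nat_lit 3) (nat_lit 260) (nat_lit 260)))))) (n (nat_lit 291) (b (n (nat_lit 316) (b (l (nat_lit 0) (nat_lit 288) (nat_lit 317)) (l (nat_lit 0) (nat_lit 287) (nat_lit 315)))) (l (nat_lit 2) (nat_lit 287) (nat_lit 313))))) (n (nat_lit 291) (b (n (nat_lit 262) (b (l (nat_lit 3) (nat_lit 262) (nat_lit 263)) (l (nat_lit 3) (nat_lit 261) (nat_lit 261)))) (l (nat_lit 2) (nat_lit 287) (nat_lit 313)))))))) (r (nat_lit 1)))))))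
    (envOK_cons p5016 (envOK_cons p5082 envOK_nil)) (by decide +kernel)

theorem p5091 : Fam (nat_lit 5) (nat_lit 8343699607727680624942585805652444129620275146709852890558508601783632775695752161234180374528) (nat_lit 4697085585499834817065877719977583614191960583255028485002743284128931649017862209146528200319422203917500416) (nat_lit 4697085585499834817065877719977583614191960583255028485002743284128931649017862209146528200319422203917500416) :=
  chk_sound Env.nil
    (n (nat_lit 237) (b (b (n (nat_lit 212) (b (n (nat_lit 187) (b (n (nat_lit 186) (b (l (nat_lit 7) (nat_lit 186) (nat_lit 211)) (l (nat_lit 7) (nat_lit 161) (nat_lit 161)))) (n (nat_lit 288) (b (l (nat_lit 4) (nat_lit 187) (nat_lit 263)) (l (nat_lit 4) (nat_lit 212) (nat_lit 313)))))) (n (nat_lit 213) (b (l (nat_lit 5) (nat_lit 187) (nat_lit 188)) (l (nat_lit 5) (nat_lit 212) (nat_lit 238)))))) (n (nat_lit 337) (b (n (nat_lit 238) (b (l (nat_lit 5) (nat_lit 237) (nat_lit 263))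 (l (nat_lit 5) (nat_lit 212) (nat_lit 213)))) (n (nat_lit 336) (b (l (nat_lit 6) (nat_lit 261) (nat_lit 361)) (l (nat_lit 6) (nat_lit 236) (nat_lit 311))))))) (b (n (nat_lit 212) (b (n (nat_lit 187) (b (n (nat_lit 186) (b (l (nat_lit 7) (nat_lit 186) (nat_lit 211)) (l (nat_lit 7) (nat_lit 161) (nat_lit 161)))) (n (nat_lit 188) (b (l (nat_lit 5) (nat_lit 187) (nat_lit 213)) (l (nat_lit 5) (nat_lit 162) (nat_lit 163)))))) (n (nat_lit 311) (b (l (nat_lit 6) (nat_lit 236) (nat_lit 336)) (l (nat_lit 6) (nat_lit 211) (nat_lit 286)))))) (n (nat_lit 212) (b (n (nat_lit 187) (b (n (nat_lit 186) (b (l (nat_lit 7) (nat_lit 186) (nat_lit 211)) (l (nat_lit 7) (nat_lit 161) (nat_lit 161)))) (n (nat_lit 288) (b (l (nat_lit 4) (nat_lit 187) (nat_lit 263)) (l (nat_lit 4) (nat_lit 212) (nat_lit 313)))))) (n (nat_lit 311) (b (l (nat_lit 6) (nat_lit 236) (nat_lit 336)) (l (nat_lit 6) (nat_lit 211) (nat_lit 286)))))))))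
    envOK_nil (by decide +kernel)

theorem p5095 : Fam (nat_lit 5) (nat_lit 279968101115925134047360910013641340417649816774606338572351528178982585681152893868361847893131264000) (nat_lit 177450897442867506523146427734411336485097347665327137421415412104367939267579959291650257037138406317976297608412885864408135237632) (nat_lit 177450897442867506523146427734411336485097347665327137421415412104367939267579959291650257037138406317976297608412885864408135237632) :=
  chk_sound Env.nil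
    (n (nat_lit 362) (b (b (n (nat_lit 336) (b (n (nat_lit 387) (b (n (nat_lit 311) (b (l (nat_lit 7) (nat_lit 286) (nat_lit 286)) (l (nat_lit 7) (nat_lit 311) (nat_lit 412)))) (n (nat_lit 388) (b (l (nat_lit 4) (nat_lit 312) (nat_lit 413)) (l (nat_lit 4) (nat_lit 287) (nat_lit 363)))))) (l (nat_lit 6) (nat_lit 261) (nat_lit 361)))) (n (nat_lit 387) (b (n (nat_lit 412) (b (n (nat_lit 311) (b (l (nat_lit 7) (nat_lit 286) (nat_lit 286)) (l (nat_lit 7) (nat_lit 311) (nat_lit 336)))) (n (nat_lit 411) (b (l (nat_lit 6) (nat_lit 336) (nat_lit 436)) (l (nat_lit 6) (nat_lit 311) (nat_lit 386)))))) (n (nat_lit 388) (b (l (nat_lit 4) (nat_lit 312) (nat_lit 413)) (l (nat_lit 4) (nat_lit 287) (nat_lit 363))))))) (b (n (nat_lit 361) (b (l (nat_lit 6) (nat_lit 286) (nat_lit 386)) (l (nat_lit 6) (nat_lit 261) (nat_lit 336)))) (n (nat_lit 387) (b (n (nat_lit 388) (b (l (nat_lit 4) (nat_lit 312) (nat_lit 413)) (l (nat_lit 4) (nat_lit 287) (nat_lit 363)))) (n (nat_lit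 386) (b (l (nat_lit 6) (nat_lit 311) (nat_lit 411)) (l (nat_lit 6) (nat_lit 286) (nat_lit 361)))))))))
    envOK_nil (by decide +kernel)

theorem p5125 : Fam (nat_lit 6) (nat_lit 8343699607727680624942585805652444129620275146709852890558508601783632775695752161234180374528) (nat_lit 9394170611063450714882271889968436333678150340908590158019546254001835093388456938033698592067858035539705856) (nat_lit 9394170611063450714882271889968436333678150340908590158019546254001835093388456938033698592067858035539705856) :=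
  chk_sound Env.nil
    (n (nat_lit 237) (b (b (b (n (nat_lit 238) (b (n (nat_lit 263) (b (n (nat_lit 236) (b (n (nat_lit 264) (b (l (nat_lit 3) (nat_lit 236) (nat_lit 265)) (l (nat_lit 0) (nat_lit 235) (nat_lit 235)))) (l (nat_lit 7) (nat_lit 211) (nat_lit 211)))) (l (nat_lit 5) (nat_lit 237) (nat_lit 337)))) (l (nat_lit 5) (nat_lit 212) (nat_lit 213)))) (n (nat_lit 212) (b (n (nat_lit 211) (b (l (nat_lit 7) (nat_lit 211) (nat_lit 236)) (l (nat_lit 7) (nat_lit 186) (nat_lit 186)))) (n (nat_lit 288) (b (n (nat_lit 263) (b (n (nat_lit 337) (b (l (nat_lit 5) (nat_lit 237) (nat_lit 238)) (l (nat_lit 5) (nat_lit 262) (nat_lit 362)))) (l (nat_lit 4) (nat_lit 187) (nat_lit 187)))) (l (nat_lit 4) (nat_lit 212) (nat_lit 313))))))) (b (n (nat_lit 212) (b (n (nat_lit 187) (b (n (nat_lit 188) (b (l (nat_lit 5) (nat_lit 187) (nat_lit 213)) (l (nat_lit 5) (nat_lit 162) (nat_lit 163)))) (n (nat_lit 288) (b (l (nat_lit 4) (nat_lit 187) (nat_lit 263)) (l (nat_lit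 4) (nat_lit 212) (nat_lit 313)))))) (n (nat_lit 211) (b (l (nat_lit 7) (nat_lit 211) (nat_lit 236)) (l (nat_lit 7) (nat_lit 186) (nat_lit 186)))))) (n (nat_lit 212) (b (n (nat_lit 213) (b (l (nat_lit 5) (nat_lit 187) (nat_lit 188)) (l (nat_lit 5) (nat_lit 212) (nat_lit 238)))) (n (nat_lit 211) (b (l (nat_lit 7) (nat_lit 211) (nat_lit 236)) (l (nat_lit 7) (nat_lit 186) (nat_lit 186)))))))) (n (nat_lit 212) (b (b (n (nat_lit 288) (b (n (nat_lit 263) (b (n (nat_lit 337) (b (l (nat_lit 5) (nat_lit 237) (nat_lit 238)) (l (nat_lit 5) (nat_lit 262) (nat_lit 362)))) (l (nat_lit 4) (nat_lit 187) (nat_lit 187)))) (l (nat_lit 4) (nat_lit 212) (nat_lit 313)))) (n (nat_lit 187) (b (n (nat_lit 162) (b (n (nat_lit 163) (b (l (nat_lit 5) (nat_lit 162) (nat_lit 188)) (l (nat_lit 5) (nat_lit 137) (nat_lit 138)))) (n (nat_lit 161) (b (l (nat_lit 7) (nat_lit 136) (nat_lit 136)) (l (nat_lit 7) (nat_lit 161) (nat_lit 186)))))) (n (nat_lit 288) (b (l (nat_lit 4) (nat_lit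 187) (nat_lit 263)) (l (nat_lit 4) (nat_lit 212) (nat_lit 313))))))) (n (nat_lit 213) (b (l (nat_lit 5) (nat_lit 187) (nat_lit 188)) (l (nat_lit 5) (nat_lit 212) (nat_lit 238))))))))
    envOK_nil (by decide +kernel)

theorem p5131 : Fam (nat_lit 6) (nat_lit 8343699607727680624942585805652444129620275146709852890558508601783632775695752161234180374528) (nat_lit 177450897442867506523146427734411336485097347665327141126762598982333875833402331339457801789409004828974956193153117360175485812736) (nat_lit 177450897442867506523146427734411336485097347665327141126762598982333875833402331339457801789409004828974956193153117360175485812736) :=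
  chk_sound (Env.cons (nat_lit 5) (nat_lit 279968101115925134047360910013641340417649816774606338572351528178982585681152893868361847893131264000) (nat_lit 177450897442867506523146427734411336485097347665327137421415412104367939267579959291650257037138406317976297608412885864408135237632) Env.nil)
    (n (nat_lit 337) (b (b (r (nat_lit 0)) (n (nat_lit 362) (b (n (nat_lit 387) (b (n (nat_lit 388) (b (l (nat_lit 4) (nat_lit 312) (nat_lit 413)) (l (nat_lit 4) (nat_lit 287) (nat_lit 363)))) (n (nat_lit 386) (b (l (nat_lit 6) (nat_lit 311) (nat_lit 411)) (l (nat_lit 6) (nat_lit 286) (nat_lit 361)))))) (n (nat_lit 261) (b (l (nat_lit 7) (nat_lit 261) (nat_lit 286)) (l (nat_lit 7) (nat_lit 236) (nat_lit 236))))))) (b (n (nat_lit 237) (b (n (nat_lit 336) (b (l (nat_lit 6) (nat_lit 261) (nat_lit 361)) (l (nat_lit 6) (nat_lit 236) (nat_lit 311)))) (n (nat_lit 236) (b (l (nat_lit 7) (nat_lit 211) (nat_lit 211)) (l (nat_lit 7) (nat_lit 236) (nat_lit 261))))))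 (n (nat_lit 237) (b (b (n (nat_lit 236) (b (l (nat_lit 7) (nat_lit 211) (nat_lit 211)) (l (nat_lit 7) (nat_lit 236) (nat_lit 261)))) (n (nat_lit 286) (b (n (nat_lit 261) (b (l (nat_lit 7) (nat_lit 236) (nat_lit 236)) (l (nat_lit 7) (nat_lit 261) (nat_lit 362)))) (n (nat_lit 311) (b (l (nat_lit 6) (nat_lit 236) (nat_lit 336)) (l (nat_lit 6) (nat_lit 211) (nat_lit 212))))))) (n (nat_lit 212) (b (n (nat_lit 187) (b (n (nat_lit 186) (b (l (nat_lit 7) (nat_lit 186) (nat_lit 211)) (l (nat_lit 7) (nat_lit 161) (nat_lit 161)))) (n (nat_lit 188) (b (l (nat_lit 5) (nat_lit 187) (nat_lit 213)) (l (nat_lit 5) (nat_lit 162) (nat_lit 163)))))) (n (nat_lit 311) (b (l (nat_lit 6) (nat_lit 236) (nat_lit 336)) (l (nat_lit 6) (nat_lit 211) (nat_lit 286)))))))))))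
    (envOK_cons p5095 envOK_nil) (by decide +kernel)

theorem p5137 : Fam (nat_lit 5) (nat_lit 8343699607727680624942806661535541427661473058897445755372987037270742228065517362009341952000) (nat_lit 25031098823183045580174944294910104918224627845445870655370706843925667588887048931850143662080) (nat_lit 25031098823183045580174944294910104918224627845445870655370706843925667588887048931850143662080) :=
  chk_sound Env.nil
    (n (nat_lit 212) (b (b (n (nat_lit 211) (b (l (nat_lit 7) (nat_lit 211) (nat_lit 236)) (l (nat_lit 7) (nat_lit 186) (nat_lit 186)))) (n (nat_lit 187) (b (n (nat_lit 162) (b (n (nat_lit 163) (b (l (nat_lit 5) (nat_lit 162) (nat_lit 188)) (l (nat_lit 5) (nat_lit 137) (nat_lit 138)))) (n (nat_lit 161) (b (l (nat_lit 7) (nat_lit 136) (nat_lit 136)) (l (nat_lit 7) (nat_lit 161) (nat_lit 186)))))) (n (nat_lit 288) (b (l (nat_lit 4) (nat_lit 187) (nat_lit 263)) (l (nat_lit 4) (nat_lit 212) (nat_lit 313))))))) (n (nat_lit 187) (b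 (n (nat_lit 162) (b (n (nat_lit 236) (b (l (nat_lit 7) (nat_lit 211) (nat_lit 211)) (l (nat_lit 6) (nat_lit 161) (nat_lit 261)))) (n (nat_lit 163) (b (l (nat_lit 5) (nat_lit 162) (nat_lit 188)) (l (nat_lit 5) (nat_lit 137) (nat_lit 138)))))) (n (nat_lit 288) (b (l (nat_lit 4) (nat_lit 187) (nat_lit 263)) (l (nat_lit 4) (nat_lit 212) (nat_lit 313))))))))
    envOK_nil (by decide +kernel)

theorem p5140 : Fam (nat_lit 8) (nat_lit 8343699607727680624942585805652444129620275146709852890558508601783632775695752161234180374528) (nat_lit 139984075589061390206753825286356724340987436285104544927050843198940230426147874180285524792582340608) (nat_lit 139984075589061390206753825286356724340987436285104544927050843198940230426147874180285524792582340608) :=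
  chk_sound (Env.cons (nat_lit 5) (nat_lit 8343699607727680624942806661535541427661473058897445755372987037270742228065517362009341952000) (nat_lit 25031098823183045580174944294910104918224627845445870655370706843925667588887048931850143662080) Env.nil)
    (n (nat_lit 237) (b (b (n (nat_lit 212) (b (n (nat_lit 187) (b (n (nat_lit 188) (b (l (nat_lit 5) (nat_lit 187) (nat_lit 213)) (l (nat_lit 5) (nat_lit 162) (nat_lit 163)))) (n (nat_lit 288) (b (l (nat_lit 4) (nat_lit 187) (nat_lit 263)) (l (nat_lit 4) (nat_lit 212) (nat_lit 313)))))) (n (nat_lit 311) (b (l (nat_lit 6) (nat_lit 236) (nat_lit 336)) (l (nat_lit 6) (nat_lit 211) (nat_lit 286)))))) (n (nat_lit 212) (b (n (nat_lit 311) (b (l (nat_lit 6) (nat_lit 236) (nat_lit 336)) (l (nat_lit 6) (nat_lit 211) (nat_lit 286)))) (n (nat_lit 211) (b (l (nat_lit 7) (nat_lit 211) (nat_lit 236)) (l (nat_lit 7) (nat_lit 186) (nat_lit 186))))))) (b (r (nat_lit 0)) (n (nat_lit 238) (b (n (nat_lit 311) (b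 (n (nat_lit 236) (b (n (nat_lit 235) (b (n (nat_lit 261) (b (n (nat_lit 239) (b (l (nat_lit 2) (nat_lit 235) (nat_lit 260)) (l (nat_lit 2) (nat_lit 236) (nat_lit 240)))) (n (nat_lit 210) (b (l (nat_lit 7) (nat_lit 210) (nat_lit 286)) (l (nat_lit 3) (nat_lit 209) (nat_lit 209)))))) (n (nat_lit 263) (b (l (nat_lit 0) (nat_lit 234) (nat_lit 234)) (l (nat_lit 0) (nat_lit 235) (nat_lit 264)))))) (l (nat_lit 7) (nat_lit 211) (nat_lit 211)))) (l (nat_lit 6) (nat_lit 236) (nat_lit 336)))) (l (nat_lit 5) (nat_lit 212) (nat_lit 213)))))))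
    (envOK_cons p5137 envOK_nil) (by decide +kernel)

theorem p5148 : Fam (nat_lit 7) (nat_lit 8343699607727680624942585805652444129620275146709852890558508601783632775695752161234180374528) (nat_lit 157608038876833833444263029783032670729703827483368046340969130616306621566713904734844692161835655087817878589669376) (nat_lit 157608038876833833444263029783032670729703827483368046340969130616306621566713904734844692161835655087817878589669376) :=
  chk_sound Env.nil
    (n (nat_lit 337) (b (b (n (nat_lit 261) (b (n (nat_lit 263) (b (n (nat_lit 264) (b (b (n (nat_lit 265) (b (n (nat_lit 240) (b (l (nat_lit 1) (nat_lit 236) (nat_lit 239)) (l (nat_lit 1) (nat_lit 237) (nat_lit 241)))) (n (nat_lit 290) (b (l (nat_lit 0) (nat_lit 262) (nat_lit 291)) (l (nat_lit 0) (nat_lit 261) (nat_lit 289)))))) (n (nat_lit 286) (b (l (nat_lit 2) (nat_lit 260) (nat_lit 285)) (l (nat_lit 2) (nat_lit 261) (nat_lit 265))))) (n (nat_lit 260) (b (n (nat_lit 285) (b (l (nat_lit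 2) (nat_lit 259) (nat_lit 284)) (l (nat_lit 2) (nat_lit 260) (nat_lit 286)))) (n (nat_lit 288) (b (l (nat_lit 0) (nat_lit 260) (nat_lit 289)) (l (nat_lit 0) (nat_lit 259) (nat_lit 259)))))))) (l (nat_lit 5) (nat_lit 237) (nat_lit 238)))) (l (nat_lit 7) (nat_lit 236) (nat_lit 236)))) (n (nat_lit 362) (b (n (nat_lit 263) (b (l (nat_lit 5) (nat_lit 237) (nat_lit 238)) (l (nat_lit 5) (nat_lit 262) (nat_lit 288)))) (n (nat_lit 361) (b (l (nat_lit 6) (nat_lit 286) (nat_lit 386)) (l (nat_lit 6) (nat_lit 261) (nat_lit 336))))))) (n (nat_lit 362) (b (n (nat_lit 261) (b (l (nat_lit 7) (nat_lit 261) (nat_lit 286)) (l (nat_lit 7) (nat_lit 236) (nat_lit 236)))) (n (nat_lit 361) (b (l (nat_lit 6) (nat_lit 286) (nat_lit 386)) (l (nat_lit 6) (nat_lit 261) (nat_lit 336))))))))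
    envOK_nil (by decide +kernel)

theorem p5149 : Fam (nat_lit 7) (nat_lit 8343699607727680624942585805652444129620275146709852890558508601783632775695752161234180374528) (nat_lit 139984058901662174751586179774389905896675641119322595655542692104932275554488142371094612491133517824) (nat_lit 139984058901662174751586179774389905896675641119322595655542692104932275554488142371094612491133517824) :=
  chk_sound Env.nil
    (n (nat_lit 237) (b (b (n (nat_lit 238) (b (n (nat_lit 236) (b (n (nat_lit 239) (b (b (n (nat_lit 240) (b (n (nat_lit 215) (b (l (nat_lit 1) (nat_lit 211) (nat_lit 214)) (l (nat_lit 1) (nat_lit 212) (nat_lit 216)))) (n (nat_lit 265) (b (l (nat_lit 0) (nat_lit 237) (nat_lit 266)) (l (nat_lit 0) (nat_lit 236) (nat_lit 264)))))) (n (nat_lit 261) (b (l (nat_lit 2) (nat_lit 235) (nat_lit 260)) (l (nat_lit 2) (nat_lit 236) (nat_lit 240))))) (n (nat_lit 235) (b (n (nat_lit 260) (b (l (nat_lit 2) (nat_lit 234) (nat_lit 259)) (l (nat_lit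 2) (nat_lit 235) (nat_lit 261)))) (n (nat_lit 263) (b (l (nat_lit 0) (nat_lit 234) (nat_lit 234)) (l (nat_lit 0) (nat_lit 235) (nat_lit 264)))))))) (l (nat_lit 7) (nat_lit 211) (nat_lit 211)))) (l (nat_lit 5) (nat_lit 212) (nat_lit 213)))) (n (nat_lit 212) (b (n (nat_lit 311) (b (l (nat_lit 6) (nat_lit 236) (nat_lit 336)) (l (nat_lit 6) (nat_lit 211) (nat_lit 286)))) (n (nat_lit 211) (b (l (nat_lit 7) (nat_lit 211) (nat_lit 236)) (l (nat_lit 7) (nat_lit 186) (nat_lit 186))))))) (n (nat_lit 212) (b (n (nat_lit 311) (b (l (nat_lit 6) (nat_lit 236) (nat_lit 336)) (l (nat_lit 6) (nat_lit 211) (nat_lit 286)))) (n (nat_lit 213) (b (l (nat_lit 5) (nat_lit 187) (nat_lit 188)) (l (nat_lit 5) (nat_lit 212) (nat_lit 238))))))))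
    envOK_nil (by decide +kernel)

theorem p5166 : Fam (nat_lit 7) (nat_lit 8343699607727680624942585805652444129620275146709852890558508601783632775695752161234180374528) (nat_lit 279968101115925258378398817632140903410289992633796097190334692882124225205544356079551562103616700416) (nat_lit 279968101115925258378398817632140903410289992633796097190334692882124225205544356079551562103616700416) :=
  chk_sound Env.nil
    (n (nat_lit 236) (b (b (n (nat_lit 261) (b (n (nat_lit 211) (b (l (nat_lit 4) (nat_lit 211) (nat_lit 286)) (l (nat_lit 4) (nat_lit 186) (nat_lit 186)))) (l (nat_lit 7) (nat_lit 236) (nat_lit 337)))) (n (nat_lit 211) (b (n (nat_lit 261) (b (l (nat_lit 4) (nat_lit 211) (nat_lit 286)) (l (nat_lit 4) (nat_lit 186) (nat_lit 186)))) (l (nat_lit 7) (nat_lit 211) (nat_lit 237))))) (b (n (nat_lit 237) (b (n (nat_lit 238) (b (n (nat_lit 263) (b (n (nat_lit 264) (b (l (nat_lit 3) (nat_lit 236) (nat_lit 265)) (l (nat_lit 0) (nat_lit 235)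 (nat_lit 235)))) (l (nat_lit 5) (nat_lit 237) (nat_lit 337)))) (l (nat_lit 5) (nat_lit 212) (nat_lit 213)))) (l (nat_lit 7) (nat_lit 211) (nat_lit 211)))) (n (nat_lit 238) (b (b (n (nat_lit 337) (b (l (nat_lit 7) (nat_lit 236) (nat_lit 261)) (l (nat_lit 5) (nat_lit 237) (nat_lit 263)))) (n (nat_lit 237) (b (n (nat_lit 261) (b (n (nat_lit 260) (b (l (nat_lit 2) (nat_lit 235) (nat_lit 239)) (l (nat_lit 1) (nat_lit 234) (nat_lit 259)))) (l (nat_lit 7) (nat_lit 236) (nat_lit 337)))) (l (nat_lit 5) (nat_lit 212) (nat_lit 213))))) (b (n (nat_lit 213) (b (n (nat_lit 263) (b (l (nat_lit 5) (nat_lit 237) (nat_lit 337)) (l (nat_lit 6) (nat_lit 187) (nat_lit 188)))) (l (nat_lit 5) (nat_lit 212) (nat_lit 237)))) (n (nat_lit 237) (b (n (nat_lit 239) (b (b (n (nat_lit 240) (b (n (nat_lit 215) (b (l (nat_lit 1) (nat_lit 211) (nat_lit 214)) (l (nat_lit 1) (nat_lit 212) (nat_lit 216)))) (n (nat_lit 265) (b (l (nat_lit 0) (nat_lit 237) (nat_lit 266)) (l (nat_lit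 0) (nat_lit 236) (nat_lit 264)))))) (n (nat_lit 261) (b (l (nat_lit 2) (nat_lit 235) (nat_lit 260)) (l (nat_lit 2) (nat_lit 236) (nat_lit 240))))) (n (nat_lit 235) (b (n (nat_lit 260) (b (l (nat_lit 2) (nat_lit 234) (nat_lit 259)) (l (nat_lit 2) (nat_lit 235) (nat_lit 261)))) (n (nat_lit 263) (b (l (nat_lit 0) (nat_lit 234) (nat_lit 234)) (l (nat_lit 0) (nat_lit 235) (nat_lit 264)))))))) (l (nat_lit 5) (nat_lit 212) (nat_lit 213))))))))))
    envOK_nil (by decide +kernel)

theorem p5176 : Fam (nat_lit 8) (nat_lit 279968101115925134047353499319930152181142708231565782546248918899963984685054368582985341452834308096) (nat_lit 26442239854866187913400038420424076345466214585943994962730578188198344802716823383997683030028551990322878313530065353179136) (nat_lit 26442239854866187913400038420424076345466214585943994962730578188198344802716823383997683030028551990322878313530065353179136) :=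
  chk_sound Env.nil
    (n (nat_lit 362) (b (b (n (nat_lit 387) (b (n (nat_lit 286) (b (l (nat_lit 7) (nat_lit 261) (nat_lit 261)) (l (nat_lit 7) (nat_lit 286) (nat_lit 311)))) (n (nat_lit 386) (b (l (nat_lit 6) (nat_lit 311) (nat_lit 411)) (l (nat_lit 6) (nat_lit 286) (nat_lit 361)))))) (n (nat_lit 387) (b (n (nat_lit 288) (b (l (nat_lit 5) (nat_lit 262) (nat_lit 263)) (l (nat_lit 5) (nat_lit 287) (nat_lit 313)))) (n (nat_lit 388) (b (l (nat_lit 4) (nat_lit 312) (nat_lit 413)) (l (nat_lit 4) (nat_lit 287) (nat_lit 363))))))) (n (nat_lit 286) (b (n (nat_lit 361) (b (n (nat_lit 285) (b (b (n (nat_lit 336) (b (n (nat_lit 288) (b (n (nat_lit 260) (b (l (nat_lit 3) (nat_lit 259) (nat_lit 259)) (l (nat_lit 7) (nat_lit 260) (nat_lit 311)))) (l (nat_lit 5) (nat_lit 262) (nat_lit 263)))) (n (nat_lit 363) (b (n (nat_lit 335) (b (l (nat_lit 3) (nat_lit 335) (nat_lit 364)) (l (nat_lit 0) (nat_lit 334) (nat_lit 334)))) (l (nat_lit 4) (nat_lit 287) (nat_lit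 388)))))) (n (nat_lit 313) (b (n (nat_lit 314) (b (l (nat_lit 3) (nat_lit 285) (nat_lit 311)) (l (nat_lit 3) (nat_lit 286) (nat_lit 315)))) (l (nat_lit 0) (nat_lit 284) (nat_lit 284))))) (n (nat_lit 288) (b (n (nat_lit 313) (b (l (nat_lit 0) (nat_lit 284) (nat_lit 284)) (l (nat_lit 0) (nat_lit 285) (nat_lit 314)))) (l (nat_lit 5) (nat_lit 262) (nat_lit 263)))))) (l (nat_lit 6) (nat_lit 286) (nat_lit 386)))) (l (nat_lit 7) (nat_lit 261) (nat_lit 261))))))
    envOK_nil (by decide +kernel)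

theorem p5210 : Fam (nat_lit 10) (nat_lit 8343699607727680624942806661535541427661473058897445755372987037270742228065517362009341952000) (nat_lit 3639585331194429656912748933313882901270044201689945251095997297010168476822498839132485784912856612864) (nat_lit 3639585331194429656912748933313882901270044201689945251095997297010168476822498839132485784912856612864) :=
  chk_sound Env.nil
    (n (nat_lit 238) (b (n (nat_lit 263) (b (n (nat_lit 261) (b (b (n (nat_lit 264) (b (n (nat_lit 265) (b (n (nat_lit 290) (b (l (nat_lit 0) (nat_lit 262) (nat_lit 291)) (l (nat_lit 0) (nat_lit 261) (nat_lit 289)))) (l (nat_lit 3) (nat_lit 237) (nat_lit 266)))) (n (nat_lit 260) (b (n (nat_lit 285) (b (l (nat_lit 2) (nat_lit 259) (nat_lit 284)) (l (nat_lit 2) (nat_lit 260) (nat_lit 286)))) (l (nat_lit 1) (nat_lit 234) (nat_lit 259)))))) (n (nat_lit 239) (b (l (nat_lit 1) (nat_lit 235) (nat_lit 260)) (l (nat_lit 2) (nat_lit 236) (nat_lit 240))))) (n (nat_lit 264)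 (b (b (n (nat_lit 265) (b (l (nat_lit 3) (nat_lit 237) (nat_lit 266)) (l (nat_lit 2) (nat_lit 261) (nat_lit 286)))) (n (nat_lit 239) (b (n (nat_lit 289) (b (n (nat_lit 314) (b (n (nat_lit 315) (b (n (nat_lit 286) (b (l (nat_lit 3) (nat_lit 286) (nat_lit 313)) (l (nat_lit 2) (nat_lit 260) (nat_lit 285)))) (l (nat_lit 4) (nat_lit 239) (nat_lit 340)))) (l (nat_lit 7) (nat_lit 238) (nat_lit 339)))) (l (nat_lit 0) (nat_lit 261) (nat_lit 290)))) (l (nat_lit 2) (nat_lit 236) (nat_lit 240))))) (n (nat_lit 240) (b (n (nat_lit 265) (b (l (nat_lit 1) (nat_lit 237) (nat_lit 241)) (l (nat_lit 3) (nat_lit 237) (nat_lit 266)))) (l (nat_lit 2) (nat_lit 236) (nat_lit 239)))))))) (l (nat_lit 5) (nat_lit 237) (nat_lit 337)))) (l (nat_lit 5) (nat_lit 212) (nat_lit 213))))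
    envOK_nil (by decide +kernel)

theorem p5222 : Fam (nat_lit 7) (nat_lit 8343699607727680624942585805652444129620275146709852890558508601783632775695752161234180374528) (nat_lit 25031098947514064961058834603483540366059378360555813626614798578031084148840885899971694428160) (nat_lit 25031098947514064961058834603483540366059378360555813626614798578031084148840885899971694428160) :=
  chk_sound (Env.cons (nat_lit 5) (nat_lit 8343699607727680624942806661535541427661473058897445755372987037270742228065517362009341952000) (nat_lit 25031098823183045580174944294910104918224627845445870655370706843925667588887048931850143662080) Env.nil)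
    (n (nat_lit 237) (b (b (b (n (nat_lit 238) (b (n (nat_lit 236) (b (n (nat_lit 239) (b (b (n (nat_lit 240) (b (n (nat_lit 215) (b (l (nat_lit 1) (nat_lit 211) (nat_lit 214)) (l (nat_lit 1) (nat_lit 212) (nat_lit 216)))) (n (nat_lit 265) (b (l (nat_lit 0) (nat_lit 237) (nat_lit 266)) (l (nat_lit 0) (nat_lit 236) (nat_lit 264)))))) (n (nat_lit 261) (b (l (nat_lit 2) (nat_lit 235) (nat_lit 260)) (l (nat_lit 2) (nat_lit 236) (nat_lit 240))))) (n (nat_lit 235) (b (n (nat_lit 260) (b (l (nat_lit 2) (nat_lit 234) (nat_lit 259)) (l (nat_lit 2) (nat_lit 235) (nat_lit 261)))) (n (nat_lit 263) (b (l (nat_lit 0) (nat_lit 234) (nat_lit 234)) (l (nat_lit 0) (nat_lit 235) (nat_lit 264)))))))) (l (nat_lit 7) (nat_lit 211) (nat_lit 211)))) (l (nat_lit 5) (nat_lit 212) (nat_lit 213)))) (r (nat_lit 0))) (b (n (nat_lit 212) (b (n (nat_lit 187) (b (n (nat_lit 186) (b (l (nat_lit 7) (nat_lit 186) (nat_lit 211)) (l (nat_lit 7) (nat_lit 161) (nat_lit 161)))) (n (nat_lit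 288) (b (l (nat_lit 4) (nat_lit 187) (nat_lit 263)) (l (nat_lit 4) (nat_lit 212) (nat_lit 313)))))) (n (nat_lit 213) (b (l (nat_lit 5) (nat_lit 187) (nat_lit 188)) (l (nat_lit 5) (nat_lit 212) (nat_lit 238)))))) (n (nat_lit 212) (b (n (nat_lit 213) (b (l (nat_lit 5) (nat_lit 187) (nat_lit 188)) (l (nat_lit 5) (nat_lit 212) (nat_lit 238)))) (n (nat_lit 211) (b (l (nat_lit 7) (nat_lit 211) (nat_lit 236)) (l (nat_lit 7) (nat_lit 186) (nat_lit 186)))))))) (n (nat_lit 212) (b (n (nat_lit 213) (b (l (nat_lit 5) (nat_lit 187) (nat_lit 188)) (l (nat_lit 5) (nat_lit 212) (nat_lit 238)))) (n (nat_lit 187) (b (n (nat_lit 162) (b (n (nat_lit 261) (b (l (nat_lit 6) (nat_lit 186) (nat_lit 286)) (l (nat_lit 6) (nat_lit 161) (nat_lit 236)))) (n (nat_lit 161) (b (l (nat_lit 7) (nat_lit 136) (nat_lit 136)) (l (nat_lit 7) (nat_lit 161) (nat_lit 186)))))) (n (nat_lit 288) (b (l (nat_lit 4) (nat_lit 187) (nat_lit 263)) (l (nat_lit 4) (nat_lit 212) (nat_lit 313))))))))))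
    (envOK_cons p5137 envOK_nil) (by decide +kernel)

theorem p5242 : Fam (nat_lit 5) (nat_lit 139984046386113011821513927631682756847530231060389816355094287076735219651487445306377147898390380544) (nat_lit 139984050557962932245487310478459590025540078890745840084871540760756448615402645069946584514605088768) (nat_lit 139984050557962932245487310478459590025540078890745840084871540760756448615402645069946584514605088768) :=
  chk_sound Env.nil
    (n (nat_lit 260) (b (b (n (nat_lit 285) (b (l (nat_lit 2) (nat_lit 259) (nat_lit 284)) (l (nat_lit 2) (nat_lit 260) (nat_lit 286)))) (n (nat_lit 259) (b (n (nat_lit 258) (b (n (nat_lit 283) (b (l (nat_lit 2) (nat_lit 257) (nat_lit 282)) (l (nat_lit 2) (nat_lit 258) (nat_lit 284)))) (l (nat_lit 0) (nat_lit 258) (nat_lit 286)))) (n (nat_lit 234) (b (l (nat_lit 3) (nat_lit 234) (nat_lit 235)) (l (nat_lit 3) (nat_lit 233) (nat_lit 233))))))) (b (n (nat_lit 286) (b (n (nat_lit 235) (b (l (nat_lit 7) (nat_lit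 235) (nat_lit 311)) (l (nat_lit 3) (nat_lit 234) (nat_lit 234)))) (l (nat_lit 2) (nat_lit 260) (nat_lit 285)))) (n (nat_lit 259) (b (n (nat_lit 234) (b (l (nat_lit 3) (nat_lit 234) (nat_lit 235)) (l (nat_lit 3) (nat_lit 233) (nat_lit 233)))) (n (nat_lit 284) (b (l (nat_lit 2) (nat_lit 258) (nat_lit 283)) (l (nat_lit 2) (nat_lit 259) (nat_lit 285)))))))))
    envOK_nil (by decide +kernel)

theorem p5248 : Fam (nat_lit 12) (nat_lit 8343699607727673214248874617415937021077234590683750281279490000787534250410375654793883418624) (nat_lit 4697088945117051337066798256012019347568263649904879019853342506171507874632271876690957958554226783737085952) (nat_lit 4697088945117051337066798256012019347568263649904879019853342506171507874632271876690957958554226783737085952) :=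
  chk_sound (Env.cons (nat_lit 10) (nat_lit 8343699607727680624942806661535541427661473058897445755372987037270742228065517362009341952000) (nat_lit 3639585331194429656912748933313882901270044201689945251095997297010168476822498839132485784912856612864) (Env.cons (nat_lit 5) (nat_lit 8343699607727680624942806661535541427661473058897445755372987037270742228065517362009341952000) (nat_lit 25031098823183045580174944294910104918224627845445870655370706843925667588887048931850143662080) (Env.cons (nat_lit 5) (nat_lit 8343699607727680624942585805652444129620275146709852890558508601783632775695752161234180374528) (nat_lit 4697085585499834817065877719977583614191960583255028485002743284128931649017862209146528200319422203917500416) (Env.cons (nat_lit 7) (nat_lit 8343699607727680624942585805652444129620275146709852890558508601783632775695752161234180374528) (nat_lit 25031098947514064961058834603483540366059378360555813626614798578031084148840885899971694428160)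 (Env.cons (nat_lit 5) (nat_lit 139984046386113011821513927631682756847530231060389816355094287076735219651487445306377147898390380544) (nat_lit 139984050557962932245487310478459590025540078890745840084871540760756448615402645069946584514605088768) Env.nil)))))
    (n (nat_lit 262) (b (b (b (n (nat_lit 237) (b (b (n (nat_lit 311) (b (n (nat_lit 288) (b (b (n (nat_lit 212) (b (l (nat_lit 4) (nat_lit 212) (nat_lit 313)) (l (nat_lit 6) (nat_lit 211) (nat_lit 286)))) (n (nat_lit 289) (b (n (nat_lit 310) (b (l (nat_lit 1) (nat_lit 284) (nat_lit 309)) (l (nat_lit 2) (nat_lit 285) (nat_lit 286)))) (l (nat_lit 2) (nat_lit 286) (nat_lit 290))))) (n (nat_lit 310) (b (n (nat_lit 313) (b (l (nat_lit 1) (nat_lit 285) (nat_lit 289)) (l (nat_lit 4) (nat_lit 212) (nat_lit 212)))) (l (nat_lit 1) (nat_lit 284) (nat_lit 309)))))) (l (nat_lit 6) (nat_lit 236) (nat_lit 336)))) (r (nat_lit 0))) (n (nat_lit 337) (b (n (nat_lit 238) (b (l (nat_lit 5) (nat_lit 237) (nat_lit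 263)) (l (nat_lit 5) (nat_lit 212) (nat_lit 213)))) (n (nat_lit 336) (b (l (nat_lit 6) (nat_lit 261) (nat_lit 361)) (l (nat_lit 6) (nat_lit 236) (nat_lit 311)))))))) (n (nat_lit 237) (b (b (r (nat_lit 1)) (n (nat_lit 337) (b (n (nat_lit 336) (b (l (nat_lit 6) (nat_lit 261) (nat_lit 361)) (l (nat_lit 6) (nat_lit 236) (nat_lit 311)))) (n (nat_lit 236) (b (l (nat_lit 7) (nat_lit 211) (nat_lit 211)) (l (nat_lit 7) (nat_lit 236) (nat_lit 261))))))) (n (nat_lit 311) (b (n (nat_lit 288) (b (b (n (nat_lit 212) (b (l (nat_lit 4) (nat_lit 212) (nat_lit 313)) (l (nat_lit 6) (nat_lit 211) (nat_lit 286)))) (n (nat_lit 289) (b (n (nat_lit 310) (b (l (nat_lit 1) (nat_lit 284) (nat_lit 309)) (l (nat_lit 2) (nat_lit 285) (nat_lit 286)))) (l (nat_lit 2) (nat_lit 286) (nat_lit 290))))) (n (nat_lit 310) (b (n (nat_lit 313) (b (l (nat_lit 1) (nat_lit 285) (nat_lit 289)) (l (nat_lit 4) (nat_lit 212) (nat_lit 212)))) (l (nat_lit 1) (nat_lit 284) (nat_lit 309)))))) (l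 (nat_lit 6) (nat_lit 236) (nat_lit 336))))))) (b (r (nat_lit 2)) (n (nat_lit 237) (b (b (n (nat_lit 236) (b (n (nat_lit 238) (b (n (nat_lit 261) (b (n (nat_lit 260) (b (l (nat_lit 2) (nat_lit 235) (nat_lit 239)) (l (nat_lit 1) (nat_lit 234) (nat_lit 259)))) (l (nat_lit 7) (nat_lit 236) (nat_lit 337)))) (l (nat_lit 5) (nat_lit 212) (nat_lit 213)))) (l (nat_lit 7) (nat_lit 211) (nat_lit 211)))) (n (nat_lit 212) (b (n (nat_lit 311) (b (l (nat_lit 6) (nat_lit 236) (nat_lit 336)) (l (nat_lit 6) (nat_lit 211) (nat_lit 286)))) (n (nat_lit 211) (b (l (nat_lit 7) (nat_lit 211) (nat_lit 236)) (l (nat_lit 7) (nat_lit 186) (nat_lit 186))))))) (n (nat_lit 212) (b (n (nat_lit 311) (b (l (nat_lit 6) (nat_lit 236) (nat_lit 336)) (l (nat_lit 6) (nat_lit 211) (nat_lit 286)))) (n (nat_lit 213) (b (l (nat_lit 5) (nat_lit 187) (nat_lit 188)) (l (nat_lit 5) (nat_lit 212) (nat_lit 238)))))))))) (b (b (r (nat_lit 3)) (n (nat_lit 237) (b (b (n (nat_lit 337) (b (n (nat_lit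 238) (b (l (nat_lit 5) (nat_lit 237) (nat_lit 263)) (l (nat_lit 5) (nat_lit 212) (nat_lit 213)))) (n (nat_lit 336) (b (l (nat_lit 6) (nat_lit 261) (nat_lit 361)) (l (nat_lit 6) (nat_lit 236) (nat_lit 311)))))) (n (nat_lit 212) (b (n (nat_lit 213) (b (l (nat_lit 5) (nat_lit 187) (nat_lit 188)) (l (nat_lit 5) (nat_lit 212) (nat_lit 238)))) (n (nat_lit 211) (b (l (nat_lit 7) (nat_lit 211) (nat_lit 236)) (l (nat_lit 7) (nat_lit 186) (nat_lit 186))))))) (n (nat_lit 337) (b (n (nat_lit 336) (b (l (nat_lit 6) (nat_lit 261) (nat_lit 361)) (l (nat_lit 6) (nat_lit 236) (nat_lit 311)))) (n (nat_lit 236) (b (l (nat_lit 7) (nat_lit 211) (nat_lit 211)) (l (nat_lit 7) (nat_lit 236) (nat_lit 261))))))))) (n (nat_lit 263) (b (b (n (nat_lit 264) (b (b (n (nat_lit 261) (b (n (nat_lit 265) (b (n (nat_lit 240) (b (l (nat_lit 1) (nat_lit 236) (nat_lit 239)) (l (nat_lit 1) (nat_lit 237) (nat_lit 241)))) (n (nat_lit 290) (b (l (nat_lit 0) (nat_lit 262) (nat_lit 291))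 (l (nat_lit 0) (nat_lit 261) (nat_lit 289)))))) (n (nat_lit 236) (b (l (nat_lit 3) (nat_lit 235) (nat_lit 235)) (l (nat_lit 7) (nat_lit 236) (nat_lit 337)))))) (n (nat_lit 286) (b (n (nat_lit 285) (b (l (nat_lit 1) (nat_lit 260) (nat_lit 288)) (l (nat_lit 1) (nat_lit 259) (nat_lit 284)))) (l (nat_lit 2) (nat_lit 261) (nat_lit 265))))) (n (nat_lit 261) (b (n (nat_lit 236) (b (l (nat_lit 3) (nat_lit 235) (nat_lit 235)) (l (nat_lit 7) (nat_lit 236) (nat_lit 337)))) (n (nat_lit 260) (b (n (nat_lit 285) (b (l (nat_lit 2) (nat_lit 259) (nat_lit 284)) (l (nat_lit 2) (nat_lit 260) (nat_lit 286)))) (n (nat_lit 288) (b (l (nat_lit 0) (nat_lit 260) (nat_lit 289)) (l (nat_lit 0) (nat_lit 259) (nat_lit 259)))))))))) (n (nat_lit 264) (b (b (n (nat_lit 265) (b (n (nat_lit 266) (b (n (nat_lit 291) (b (l (nat_lit 0) (nat_lit 262) (nat_lit 290)) (l (nat_lit 0) (nat_lit 263) (nat_lit 292)))) (n (nat_lit 241) (b (l (nat_lit 1) (nat_lit 238) (nat_lit 242)) (l (nat_lit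 1) (nat_lit 237) (nat_lit 240)))))) (l (nat_lit 2) (nat_lit 261) (nat_lit 286)))) (n (nat_lit 265) (b (b (n (nat_lit 261) (b (n (nat_lit 290) (b (l (nat_lit 0) (nat_lit 262) (nat_lit 291)) (l (nat_lit 0) (nat_lit 261) (nat_lit 289)))) (n (nat_lit 240) (b (l (nat_lit 1) (nat_lit 236) (nat_lit 239)) (l (nat_lit 1) (nat_lit 237) (nat_lit 241)))))) (n (nat_lit 266) (b (n (nat_lit 291) (b (l (nat_lit 0) (nat_lit 262) (nat_lit 290)) (l (nat_lit 0) (nat_lit 263) (nat_lit 292)))) (l (nat_lit 2) (nat_lit 262) (nat_lit 288))))) (n (nat_lit 266) (b (n (nat_lit 241) (b (l (nat_lit 1) (nat_lit 238) (nat_lit 242)) (l (nat_lit 1) (nat_lit 237) (nat_lit 240)))) (l (nat_lit 2) (nat_lit 262) (nat_lit 288))))))) (b (n (nat_lit 286) (b (n (nat_lit 285) (b (l (nat_lit 2) (nat_lit 260) (nat_lit 261)) (l (nat_lit 1) (nat_lit 259) (nat_lit 284)))) (l (nat_lit 2) (nat_lit 261) (nat_lit 265)))) (n (nat_lit 261) (b (b (n (nat_lit 236) (b (n (nat_lit 211) (b (l (nat_lit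 4) (nat_lit 211) (nat_lit 286)) (l (nat_lit 4) (nat_lit 186) (nat_lit 186)))) (l (nat_lit 3) (nat_lit 235) (nat_lit 235)))) (n (nat_lit 260) (b (n (nat_lit 235) (b (l (nat_lit 3) (nat_lit 234) (nat_lit 234)) (l (nat_lit 3) (nat_lit 235) (nat_lit 236)))) (n (nat_lit 239) (b (l (nat_lit 1) (nat_lit 235) (nat_lit 238)) (l (nat_lit 1) (nat_lit 236) (nat_lit 240))))))) (n (nat_lit 260) (b (n (nat_lit 285) (b (l (nat_lit 2) (nat_lit 259) (nat_lit 284)) (l (nat_lit 2) (nat_lit 260) (nat_lit 286)))) (n (nat_lit 288) (b (l (nat_lit 0) (nat_lit 260) (nat_lit 289)) (l (nat_lit 0) (nat_lit 259) (nat_lit 259)))))))))))) (b (n (nat_lit 238) (b (n (nat_lit 213) (b (l (nat_lit 6) (nat_lit 212) (nat_lit 288)) (l (nat_lit 6) (nat_lit 187) (nat_lit 188)))) (l (nat_lit 5) (nat_lit 237) (nat_lit 337)))) (n (nat_lit 337) (b (n (nat_lit 264) (b (b (n (nat_lit 265) (b (n (nat_lit 266) (b (n (nat_lit 291) (b (l (nat_lit 0) (nat_lit 262) (nat_lit 290)) (l (nat_lit 0) (nat_lit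 263) (nat_lit 292)))) (n (nat_lit 241) (b (l (nat_lit 1) (nat_lit 238) (nat_lit 242)) (l (nat_lit 1) (nat_lit 237) (nat_lit 240)))))) (l (nat_lit 2) (nat_lit 261) (nat_lit 286)))) (n (nat_lit 261) (b (n (nat_lit 265) (b (n (nat_lit 240) (b (l (nat_lit 1) (nat_lit 236) (nat_lit 239)) (l (nat_lit 1) (nat_lit 237) (nat_lit 241)))) (n (nat_lit 290) (b (l (nat_lit 0) (nat_lit 262) (nat_lit 291)) (l (nat_lit 0) (nat_lit 261) (nat_lit 289)))))) (l (nat_lit 7) (nat_lit 236) (nat_lit 236))))) (n (nat_lit 261) (b (n (nat_lit 336) (b (r (nat_lit 4)) (l (nat_lit 6) (nat_lit 261) (nat_lit 361)))) (l (nat_lit 7) (nat_lit 236) (nat_lit 236)))))) (l (nat_lit 5) (nat_lit 237) (nat_lit 238))))))))))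
    (envOK_cons p5210 (envOK_cons p5137 (envOK_cons p5091 (envOK_cons p5222 (envOK_cons p5242 envOK_nil))))) (by decide +kernel)

theorem p5273 : Fam (nat_lit 12) (nat_lit 8343699607727673214248874617415937021077234590683750281279490000787534250410375654793883418624) (nat_lit 177450897442871289115854011651853464535882629231336392089011077458352220532131915979824316677331158286450747564113998471184412311552) (nat_lit 177450897442871289115854011651853464535882629231336392089011077458352220532131915979824316677331158286450747564113998471184412311552) :=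
  chk_sound (Env.cons (nat_lit 6) (nat_lit 279968101115925134047353499319930152181142708231565782546248918899963984685054368582985341452834308096) (nat_lit 177450897442867506523184004415840705851533163927245650626102145300688775370506868334343853540101905533018445551714224250149062836224) (Env.cons (nat_lit 11) (nat_lit 279968101115925134047353499319930152181142708231565782546248918899963984685054368582985341452834308096) (nat_lit 26442243637458857920636016182980017490907624415250442782140327627048399474848632115852529609204618007466971928970057318662144) Env.nil))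
    (n (nat_lit 337) (b (b (b (n (nat_lit 263) (b (b (n (nat_lit 288) (b (n (nat_lit 238) (b (l (nat_lit 6) (nat_lit 237) (nat_lit 313)) (l (nat_lit 6) (nat_lit 212) (nat_lit 213)))) (l (nat_lit 5) (nat_lit 262) (nat_lit 362)))) (n (nat_lit 238) (b (n (nat_lit 288) (b (l (nat_lit 6) (nat_lit 212) (nat_lit 213)) (l (nat_lit 6) (nat_lit 237) (nat_lit 313)))) (l (nat_lit 5) (nat_lit 237) (nat_lit 262))))) (b (n (nat_lit 362) (b (n (nat_lit 262) (b (n (nat_lit 261) (b (l (nat_lit 7) (nat_lit 261) (nat_lit 286)) (l (nat_lit 7) (nat_lit 236) (nat_lit 236)))) (n (nat_lit 361) (b (l (nat_lit 6) (nat_lit 286) (nat_lit 386)) (l (nat_lit 6) (nat_lit 261) (nat_lit 336)))))) (l (nat_lit 5) (nat_lit 262) (nat_lit 288)))) (n (nat_lit 262) (b (n (nat_lit 362) (b (n (nat_lit 261) (b (l (nat_lit 7) (nat_lit 261) (nat_lit 286)) (l (nat_lit 7) (nat_lit 236) (nat_lit 236)))) (n (nat_lit 361) (b (l (nat_lit 6) (nat_lit 286) (nat_lit 386)) (l (nat_lit 6) (nat_lit 261)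 (nat_lit 336)))))) (l (nat_lit 5) (nat_lit 237) (nat_lit 238))))))) (r (nat_lit 0))) (b (r (nat_lit 1)) (n (nat_lit 262) (b (b (n (nat_lit 237) (b (b (n (nat_lit 212) (b (n (nat_lit 187) (b (n (nat_lit 188) (b (l (nat_lit 5) (nat_lit 187) (nat_lit 213)) (l (nat_lit 5) (nat_lit 162) (nat_lit 163)))) (n (nat_lit 288) (b (l (nat_lit 4) (nat_lit 187) (nat_lit 263)) (l (nat_lit 4) (nat_lit 212) (nat_lit 313)))))) (n (nat_lit 211) (b (l (nat_lit 7) (nat_lit 211) (nat_lit 236)) (l (nat_lit 7) (nat_lit 186) (nat_lit 186)))))) (n (nat_lit 212) (b (n (nat_lit 213) (b (l (nat_lit 5) (nat_lit 187) (nat_lit 188)) (l (nat_lit 5) (nat_lit 212) (nat_lit 238)))) (n (nat_lit 211) (b (l (nat_lit 7) (nat_lit 211) (nat_lit 236)) (l (nat_lit 7) (nat_lit 186) (nat_lit 186))))))) (b (n (nat_lit 238) (b (l (nat_lit 5) (nat_lit 237) (nat_lit 263)) (l (nat_lit 5) (nat_lit 212) (nat_lit 213)))) (n (nat_lit 263) (b (n (nat_lit 212) (b (n (nat_lit 288) (b (l (nat_lit 4) (nat_lit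 212) (nat_lit 313)) (l (nat_lit 4) (nat_lit 187) (nat_lit 187)))) (n (nat_lit 211) (b (l (nat_lit 7) (nat_lit 211) (nat_lit 236)) (l (nat_lit 7) (nat_lit 186) (nat_lit 186)))))) (l (nat_lit 5) (nat_lit 237) (nat_lit 238))))))) (n (nat_lit 237) (b (n (nat_lit 212) (b (n (nat_lit 213) (b (l (nat_lit 5) (nat_lit 187) (nat_lit 188)) (l (nat_lit 5) (nat_lit 212) (nat_lit 238)))) (n (nat_lit 211) (b (l (nat_lit 7) (nat_lit 211) (nat_lit 236)) (l (nat_lit 7) (nat_lit 186) (nat_lit 186)))))) (n (nat_lit 336) (b (l (nat_lit 6) (nat_lit 261) (nat_lit 361)) (l (nat_lit 6) (nat_lit 236) (nat_lit 311))))))) (b (n (nat_lit 362) (b (n (nat_lit 263) (b (l (nat_lit 5) (nat_lit 237) (nat_lit 238)) (l (nat_lit 5) (nat_lit 262) (nat_lit 288)))) (n (nat_lit 361) (b (l (nat_lit 6) (nat_lit 286) (nat_lit 386)) (l (nat_lit 6) (nat_lit 261) (nat_lit 336)))))) (n (nat_lit 336) (b (n (nat_lit 311) (b (n (nat_lit 313) (b (n (nat_lit 288) (b (n (nat_lit 362) (b (l (nat_lit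 5) (nat_lit 262) (nat_lit 263)) (l (nat_lit 5) (nat_lit 287) (nat_lit 387)))) (n (nat_lit 310) (b (l (nat_lit 1) (nat_lit 285) (nat_lit 289)) (l (nat_lit 1) (nat_lit 284) (nat_lit 309)))))) (n (nat_lit 335) (b (l (nat_lit 1) (nat_lit 309) (nat_lit 334)) (l (nat_lit 2) (nat_lit 310) (nat_lit 314)))))) (l (nat_lit 6) (nat_lit 236) (nat_lit 237)))) (l (nat_lit 6) (nat_lit 261) (nat_lit 361))))))))) (b (n (nat_lit 362) (b (b (n (nat_lit 387) (b (n (nat_lit 288) (b (l (nat_lit 5) (nat_lit 262) (nat_lit 263)) (l (nat_lit 5) (nat_lit 287) (nat_lit 313)))) (n (nat_lit 388) (b (l (nat_lit 4) (nat_lit 312) (nat_lit 413)) (l (nat_lit 4) (nat_lit 287) (nat_lit 363)))))) (n (nat_lit 387) (b (n (nat_lit 286) (b (l (nat_lit 7) (nat_lit 261) (nat_lit 261)) (l (nat_lit 7) (nat_lit 286) (nat_lit 311)))) (n (nat_lit 388) (b (l (nat_lit 4) (nat_lit 312) (nat_lit 413)) (l (nat_lit 4) (nat_lit 287) (nat_lit 363))))))) (n (nat_lit 262) (b (n (nat_lit 261) (b (l (nat_lit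 7) (nat_lit 261) (nat_lit 286)) (l (nat_lit 7) (nat_lit 236) (nat_lit 236)))) (n (nat_lit 263) (b (l (nat_lit 5) (nat_lit 237) (nat_lit 238)) (l (nat_lit 5) (nat_lit 262) (nat_lit 288)))))))) (n (nat_lit 262) (b (b (n (nat_lit 237) (b (n (nat_lit 238) (b (l (nat_lit 5) (nat_lit 237) (nat_lit 263)) (l (nat_lit 5) (nat_lit 212) (nat_lit 213)))) (n (nat_lit 336) (b (l (nat_lit 6) (nat_lit 261) (nat_lit 361)) (l (nat_lit 6) (nat_lit 236) (nat_lit 311)))))) (n (nat_lit 237) (b (n (nat_lit 336) (b (l (nat_lit 6) (nat_lit 261) (nat_lit 361)) (l (nat_lit 6) (nat_lit 236) (nat_lit 311)))) (n (nat_lit 236) (b (l (nat_lit 7) (nat_lit 211) (nat_lit 211)) (l (nat_lit 7) (nat_lit 236) (nat_lit 261))))))) (n (nat_lit 263) (b (n (nat_lit 261) (b (n (nat_lit 260) (b (b (n (nat_lit 288) (b (l (nat_lit 0) (nat_lit 260) (nat_lit 289)) (l (nat_lit 0) (nat_lit 259) (nat_lit 259)))) (n (nat_lit 264) (b (n (nat_lit 265) (b (n (nat_lit 240) (b (l (nat_lit 1) (nat_lit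 236) (nat_lit 239)) (l (nat_lit 1) (nat_lit 237) (nat_lit 241)))) (l (nat_lit 2) (nat_lit 261) (nat_lit 286)))) (n (nat_lit 289) (b (l (nat_lit 0) (nat_lit 261) (nat_lit 290)) (l (nat_lit 0) (nat_lit 260) (nat_lit 288))))))) (n (nat_lit 259) (b (n (nat_lit 258) (b (n (nat_lit 283) (b (l (nat_lit 2) (nat_lit 257) (nat_lit 282)) (l (nat_lit 2) (nat_lit 258) (nat_lit 284)))) (l (nat_lit 0) (nat_lit 258) (nat_lit 286)))) (n (nat_lit 234) (b (l (nat_lit 3) (nat_lit 234) (nat_lit 235)) (l (nat_lit 3) (nat_lit 233) (nat_lit 233)))))))) (l (nat_lit 7) (nat_lit 236) (nat_lit 236)))) (l (nat_lit 5) (nat_lit 237) (nat_lit 238)))))))))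
    (envOK_cons p4953 (envOK_cons p4917 envOK_nil)) (by decide +kernel)

theorem p5319 : Fam (nat_lit 7) (nat_lit 51874855978317655549759801283892182718264953130206972689676997635545082078691328) (nat_lit 3359617213391113544326032545151343695647580574966265309810485163711323506868715122328096479678493097984) (nat_lit 3359617213391113544326032545151343695647580574966265309810485163711323506868715122328096479678493097984) :=
  chk_sound Env.nil
    (n (nat_lit 290) (b (b (n (nat_lit 261) (b (n (nat_lit 260) (b (n (nat_lit 235) (b (l (nat_lit 3) (nat_lit 234) (nat_lit 234)) (l (nat_lit 3) (nat_lit 235) (nat_lit 236)))) (n (nat_lit 239) (b (l (nat_lit 1) (nat_lit 235) (nat_lit 238)) (l (nat_lit 1) (nat_lit 236) (nat_lit 240)))))) (l (nat_lit 0) (nat_lit 261) (nat_lit 289)))) (n (nat_lit 265) (b (n (nat_lit 240) (b (n (nat_lit 239) (b (n (nat_lit 315) (b (l (nat_lit 7) (nat_lit 239) (nat_lit 340)) (l (nat_lit 7) (nat_lit 214) (nat_lit 214)))) (l (nat_lit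 1) (nat_lit 236) (nat_lit 261)))) (l (nat_lit 1) (nat_lit 237) (nat_lit 241)))) (l (nat_lit 0) (nat_lit 262) (nat_lit 291))))) (b (n (nat_lit 291) (b (n (nat_lit 289) (b (l (nat_lit 3) (nat_lit 263) (nat_lit 292)) (l (nat_lit 0) (nat_lit 261) (nat_lit 261)))) (l (nat_lit 0) (nat_lit 262) (nat_lit 265)))) (n (nat_lit 265) (b (n (nat_lit 240) (b (n (nat_lit 215) (b (b (n (nat_lit 190) (b (n (nat_lit 191) (b (l (nat_lit 5) (nat_lit 190) (nat_lit 216)) (l (nat_lit 5) (nat_lit 165) (nat_lit 166)))) (n (nat_lit 189) (b (l (nat_lit 7) (nat_lit 164) (nat_lit 164)) (l (nat_lit 7) (nat_lit 189) (nat_lit 214)))))) (n (nat_lit 289) (b (l (nat_lit 6) (nat_lit 189) (nat_lit 190)) (l (nat_lit 6) (nat_lit 214) (nat_lit 314))))) (n (nat_lit 315) (b (n (nat_lit 314) (b (l (nat_lit 6) (nat_lit 214) (nat_lit 289)) (l (nat_lit 6) (nat_lit 239) (nat_lit 339)))) (n (nat_lit 214) (b (l (nat_lit 7) (nat_lit 214) (nat_lit 239)) (l (nat_lit 7) (nat_lit 189) (nat_lit 189))))))))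 (l (nat_lit 1) (nat_lit 237) (nat_lit 241)))) (l (nat_lit 0) (nat_lit 262) (nat_lit 291)))))))
    envOK_nil (by decide +kernel)

theorem p5323 : Fam (nat_lit 5) (nat_lit 248661673785096154989464927387483224220423844968266498227702727386220072304568914935808) (nat_lit 489552619663265155052780530761480172973925784780647703816388869684068328166921531817984) (nat_lit 489552619663265155052780530761480172973925784780647703816388869684068328166921531817984) :=
  chk_sound Env.nil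
    (n (nat_lit 260) (b (b (n (nat_lit 285) (b (l (nat_lit 2) (nat_lit 259) (nat_lit 284)) (l (nat_lit 2) (nat_lit 260) (nat_lit 286)))) (n (nat_lit 259) (b (n (nat_lit 258) (b (n (nat_lit 283) (b (l (nat_lit 2) (nat_lit 257) (nat_lit 282)) (l (nat_lit 2) (nat_lit 258) (nat_lit 284)))) (l (nat_lit 0) (nat_lit 258) (nat_lit 286)))) (n (nat_lit 234) (b (l (nat_lit 3) (nat_lit 234) (nat_lit 235)) (l (nat_lit 3) (nat_lit 233) (nat_lit 233))))))) (b (n (nat_lit 259) (b (n (nat_lit 286) (b (l (nat_lit 2) (nat_lit 260) (nat_lit 285)) (l (nat_lit 0) (nat_lit 258) (nat_lit 258)))) (n (nat_lit 234) (b (l (nat_lit 3) (nat_lit 234) (nat_lit 235)) (l (nat_lit 3) (nat_lit 233) (nat_lit 233)))))) (n (nat_lit 259) (b (n (nat_lit 234) (b (l (nat_lit 3) (nat_lit 234) (nat_lit 235)) (l (nat_lit 3) (nat_lit 233) (nat_lit 233)))) (n (nat_lit 284) (b (l (nat_lit 2) (nat_lit 258) (nat_lit 283)) (l (nat_lit 2) (nat_lit 259) (nat_lit 285)))))))))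
    envOK_nil (by decide +kernel)

theorem p5391 : Fam (nat_lit 16) (nat_lit 8343699607727673214248874617415937021077234590683750281279490000787534250410375654793883418624) (nat_lit 177450897442876411376661891481230822134998950351810702122761036832764077213284686679507101740354343321409715187223030273643888246784) (nat_lit 177450897442876411376661891481230822134998950351810702122761036832764077213284686679507101740354343321409715187223030273643888246784) :=
  chk_sound (Env.cons (nat_lit 10) (nat_lit 8343699607727680624942806661535541427661473058897445755372987037270742228065517362009341952000) (nat_lit 3639585331194429656912748933313882901270044201689945251095997297010168476822498839132485784912856612864) (Env.cons (nat_lit 7) (nat_lit 8343699607727680624942585805652444129620275146709852890558508601783632775695752161234180374528) (nat_lit 139984058901662174751586179774389905896675641119322595655542692104932275554488142371094612491133517824) (Env.cons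 (nat_lit 7) (nat_lit 8343699607727680624942585805652444129620275146709852890558508601783632775695752161234180374528) (nat_lit 279968101115925258378398817632140903410289992633796097190334692882124225205544356079551562103616700416) (Env.cons (nat_lit 6) (nat_lit 8343699607727680624942585805652444129620275146709852890558508601783632775695752161234180374528) (nat_lit 177450897442867506523146427734411336485097347665327141126762598982333875833402331339457801789409004828974956193153117360175485812736) (Env.cons (nat_lit 5) (nat_lit 279968101115925134047360910013641340417649816774606338572351528178982585681152893868361847893131264000) (nat_lit 177450897442867506523146427734411336485097347665327137421415412104367939267579959291650257037138406317976297608412885864408135237632) (Env.cons (nat_lit 7) (nat_lit 51874855978317655549759801283892182718264953130206972689676997635545082078691328) (nat_lit 3359617213391113544326032545151343695647580574966265309810485163711323506868715122328096479678493097984)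 (Env.cons (nat_lit 5) (nat_lit 248661673785096154989464927387483224220423844968266498227702727386220072304568914935808) (nat_lit 489552619663265155052780530761480172973925784780647703816388869684068328166921531817984) Env.nil)))))))
    (n (nat_lit 262) (b (b (b (b (n (nat_lit 237) (b (b (n (nat_lit 311) (b (n (nat_lit 286) (b (n (nat_lit 310) (b (b (n (nat_lit 284) (b (n (nat_lit 309) (b (l (nat_lit 1) (nat_lit 283) (nat_lit 308)) (l (nat_lit 3) (nat_lit 283) (nat_lit 283)))) (n (nat_lit 337) (b (n (nat_lit 362) (b (l (nat_lit 7) (nat_lit 286) (nat_lit 387)) (l (nat_lit 7) (nat_lit 261) (nat_lit 261)))) (n (nat_lit 263) (b (l (nat_lit 1) (nat_lit 259) (nat_lit 285)) (l (nat_lit 5) (nat_lit 237) (nat_lit 238)))))))) (n (nat_lit 309) (b (n (nat_lit 313) (b (n (nat_lit 314) (b (l (nat_lit 3) (nat_lit 286) (nat_lit 315)) (l (nat_lit 3) (nat_lit 285) (nat_lit 285)))) (n (nat_lit 334) (b (l (nat_lit 2) (nat_lit 309) (nat_lit 335)) (l (nat_lit 2) (nat_lit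 308) (nat_lit 333)))))) (l (nat_lit 1) (nat_lit 283) (nat_lit 308))))) (b (n (nat_lit 285) (b (n (nat_lit 335) (b (n (nat_lit 360) (b (l (nat_lit 5) (nat_lit 285) (nat_lit 385)) (l (nat_lit 5) (nat_lit 260) (nat_lit 261)))) (n (nat_lit 313) (b (l (nat_lit 2) (nat_lit 309) (nat_lit 334)) (l (nat_lit 3) (nat_lit 285) (nat_lit 314)))))) (n (nat_lit 284) (b (l (nat_lit 1) (nat_lit 259) (nat_lit 263)) (l (nat_lit 0) (nat_lit 283) (nat_lit 283)))))) (n (nat_lit 309) (b (n (nat_lit 334) (b (n (nat_lit 284) (b (n (nat_lit 335) (b (n (nat_lit 259) (b (l (nat_lit 4) (nat_lit 259) (nat_lit 360)) (l (nat_lit 4) (nat_lit 234) (nat_lit 234)))) (l (nat_lit 2) (nat_lit 309) (nat_lit 313)))) (l (nat_lit 3) (nat_lit 283) (nat_lit 283)))) (l (nat_lit 2) (nat_lit 308) (nat_lit 333)))) (l (nat_lit 1) (nat_lit 283) (nat_lit 308))))))) (l (nat_lit 6) (nat_lit 211) (nat_lit 212)))) (l (nat_lit 6) (nat_lit 236) (nat_lit 336)))) (n (nat_lit 337) (b (n (nat_lit 238) (b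 (l (nat_lit 5) (nat_lit 237) (nat_lit 263)) (l (nat_lit 5) (nat_lit 212) (nat_lit 213)))) (n (nat_lit 336) (b (l (nat_lit 6) (nat_lit 261) (nat_lit 361)) (l (nat_lit 6) (nat_lit 236) (nat_lit 311))))))) (b (n (nat_lit 212) (b (n (nat_lit 187) (b (n (nat_lit 186) (b (l (nat_lit 7) (nat_lit 186) (nat_lit 211)) (l (nat_lit 7) (nat_lit 161) (nat_lit 161)))) (n (nat_lit 188) (b (l (nat_lit 5) (nat_lit 187) (nat_lit 213)) (l (nat_lit 5) (nat_lit 162) (nat_lit 163)))))) (n (nat_lit 311) (b (l (nat_lit 6) (nat_lit 236) (nat_lit 336)) (l (nat_lit 6) (nat_lit 211) (nat_lit 286)))))) (r (nat_lit 0))))) (r (nat_lit 1))) (b (r (nat_lit 2)) (r (nat_lit 3)))) (b (b (n (nat_lit 337) (b (b (r (nat_lit 4)) (n (nat_lit 261) (b (n (nat_lit 263) (b (n (nat_lit 286) (b (n (nat_lit 285) (b (l (nat_lit 2) (nat_lit 260) (nat_lit 264)) (l (nat_lit 1) (nat_lit 259) (nat_lit 284)))) (l (nat_lit 7) (nat_lit 261) (nat_lit 362)))) (l (nat_lit 5) (nat_lit 237) (nat_lit 238))))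 (l (nat_lit 7) (nat_lit 236) (nat_lit 236))))) (n (nat_lit 237) (b (n (nat_lit 336) (b (l (nat_lit 6) (nat_lit 261) (nat_lit 361)) (l (nat_lit 6) (nat_lit 236) (nat_lit 311)))) (n (nat_lit 236) (b (l (nat_lit 7) (nat_lit 211) (nat_lit 211)) (l (nat_lit 7) (nat_lit 236) (nat_lit 261)))))))) (n (nat_lit 337) (b (b (r (nat_lit 4)) (n (nat_lit 261) (b (n (nat_lit 263) (b (n (nat_lit 286) (b (n (nat_lit 285) (b (l (nat_lit 2) (nat_lit 260) (nat_lit 264)) (l (nat_lit 1) (nat_lit 259) (nat_lit 284)))) (l (nat_lit 7) (nat_lit 261) (nat_lit 362)))) (l (nat_lit 5) (nat_lit 237) (nat_lit 238)))) (l (nat_lit 7) (nat_lit 236) (nat_lit 236))))) (n (nat_lit 237) (b (n (nat_lit 238) (b (l (nat_lit 5) (nat_lit 237) (nat_lit 263)) (l (nat_lit 5) (nat_lit 212) (nat_lit 213)))) (n (nat_lit 336) (b (l (nat_lit 6) (nat_lit 261) (nat_lit 361)) (l (nat_lit 6) (nat_lit 236) (nat_lit 311))))))))) (b (n (nat_lit 237) (b (b (n (nat_lit 337) (b (n (nat_lit 238) (b (l (nat_lit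 5) (nat_lit 237) (nat_lit 263)) (l (nat_lit 5) (nat_lit 212) (nat_lit 213)))) (n (nat_lit 336) (b (l (nat_lit 6) (nat_lit 261) (nat_lit 361)) (l (nat_lit 6) (nat_lit 236) (nat_lit 311)))))) (n (nat_lit 212) (b (n (nat_lit 213) (b (l (nat_lit 5) (nat_lit 187) (nat_lit 188)) (l (nat_lit 5) (nat_lit 212) (nat_lit 238)))) (n (nat_lit 211) (b (l (nat_lit 7) (nat_lit 211) (nat_lit 236)) (l (nat_lit 7) (nat_lit 186) (nat_lit 186))))))) (n (nat_lit 337) (b (n (nat_lit 336) (b (l (nat_lit 6) (nat_lit 261) (nat_lit 361)) (l (nat_lit 6) (nat_lit 236) (nat_lit 311)))) (n (nat_lit 236) (b (l (nat_lit 7) (nat_lit 211) (nat_lit 211)) (l (nat_lit 7) (nat_lit 236) (nat_lit 261)))))))) (n (nat_lit 237) (b (b (n (nat_lit 337) (b (n (nat_lit 238) (b (l (nat_lit 5) (nat_lit 237) (nat_lit 263)) (l (nat_lit 5) (nat_lit 212) (nat_lit 213)))) (n (nat_lit 336) (b (l (nat_lit 6) (nat_lit 261) (nat_lit 361)) (l (nat_lit 6) (nat_lit 236) (nat_lit 311)))))) (n (nat_lit 212)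 (b (n (nat_lit 311) (b (l (nat_lit 6) (nat_lit 236) (nat_lit 336)) (l (nat_lit 6) (nat_lit 211) (nat_lit 286)))) (n (nat_lit 211) (b (l (nat_lit 7) (nat_lit 211) (nat_lit 236)) (l (nat_lit 7) (nat_lit 186) (nat_lit 186))))))) (n (nat_lit 212) (b (n (nat_lit 213) (b (l (nat_lit 5) (nat_lit 187) (nat_lit 188)) (l (nat_lit 5) (nat_lit 212) (nat_lit 238)))) (n (nat_lit 211) (b (l (nat_lit 7) (nat_lit 211) (nat_lit 236)) (l (nat_lit 7) (nat_lit 186) (nat_lit 186))))))))))) (n (nat_lit 263) (b (b (n (nat_lit 264) (b (b (n (nat_lit 261) (b (b (n (nat_lit 236) (b (n (nat_lit 211) (b (l (nat_lit 4) (nat_lit 211) (nat_lit 286)) (l (nat_lit 4) (nat_lit 186) (nat_lit 186)))) (l (nat_lit 3) (nat_lit 235) (nat_lit 235)))) (n (nat_lit 260) (b (n (nat_lit 235) (b (l (nat_lit 3) (nat_lit 234) (nat_lit 234)) (l (nat_lit 3) (nat_lit 235) (nat_lit 236)))) (n (nat_lit 239) (b (l (nat_lit 1) (nat_lit 235) (nat_lit 238)) (l (nat_lit 1) (nat_lit 236) (nat_lit 240)))))))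 (n (nat_lit 260) (b (n (nat_lit 285) (b (l (nat_lit 2) (nat_lit 259) (nat_lit 284)) (l (nat_lit 2) (nat_lit 260) (nat_lit 286)))) (n (nat_lit 239) (b (l (nat_lit 1) (nat_lit 235) (nat_lit 238)) (l (nat_lit 1) (nat_lit 236) (nat_lit 240)))))))) (n (nat_lit 265) (b (n (nat_lit 266) (b (n (nat_lit 291) (b (l (nat_lit 0) (nat_lit 262) (nat_lit 290)) (l (nat_lit 0) (nat_lit 263) (nat_lit 292)))) (n (nat_lit 241) (b (l (nat_lit 1) (nat_lit 238) (nat_lit 242)) (l (nat_lit 1) (nat_lit 237) (nat_lit 240)))))) (l (nat_lit 2) (nat_lit 261) (nat_lit 286))))) (b (n (nat_lit 286) (b (n (nat_lit 285) (b (l (nat_lit 2) (nat_lit 260) (nat_lit 261)) (l (nat_lit 1) (nat_lit 259) (nat_lit 284)))) (l (nat_lit 2) (nat_lit 261) (nat_lit 265)))) (r (nat_lit 5))))) (n (nat_lit 264) (b (b (n (nat_lit 261) (b (n (nat_lit 265) (b (n (nat_lit 240) (b (l (nat_lit 1) (nat_lit 236) (nat_lit 239)) (l (nat_lit 1) (nat_lit 237) (nat_lit 241)))) (n (nat_lit 290) (b (l (nat_lit 0)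 (nat_lit 262) (nat_lit 291)) (l (nat_lit 0) (nat_lit 261) (nat_lit 289)))))) (n (nat_lit 236) (b (l (nat_lit 3) (nat_lit 235) (nat_lit 235)) (l (nat_lit 7) (nat_lit 236) (nat_lit 337)))))) (n (nat_lit 265) (b (n (nat_lit 266) (b (n (nat_lit 291) (b (l (nat_lit 0) (nat_lit 262) (nat_lit 290)) (l (nat_lit 0) (nat_lit 263) (nat_lit 292)))) (n (nat_lit 241) (b (l (nat_lit 1) (nat_lit 238) (nat_lit 242)) (l (nat_lit 1) (nat_lit 237) (nat_lit 240)))))) (l (nat_lit 2) (nat_lit 261) (nat_lit 286))))) (n (nat_lit 261) (b (b (r (nat_lit 6)) (n (nat_lit 236) (b (n (nat_lit 286) (b (l (nat_lit 4) (nat_lit 211) (nat_lit 211)) (l (nat_lit 2) (nat_lit 260) (nat_lit 285)))) (l (nat_lit 7) (nat_lit 236) (nat_lit 337))))) (n (nat_lit 236) (b (l (nat_lit 3) (nat_lit 235) (nat_lit 235)) (l (nat_lit 7) (nat_lit 236) (nat_lit 337))))))))) (b (n (nat_lit 337) (b (r (nat_lit 4)) (l (nat_lit 5) (nat_lit 237) (nat_lit 238)))) (n (nat_lit 264) (b (b (b (r (nat_lit 5)) (n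 (nat_lit 238) (b (n (nat_lit 289) (b (n (nat_lit 290) (b (n (nat_lit 291) (b (l (nat_lit 0) (nat_lit 262) (nat_lit 265)) (l (nat_lit 3) (nat_lit 263) (nat_lit 292)))) (l (nat_lit 0) (nat_lit 261) (nat_lit 261)))) (n (nat_lit 213) (b (n (nat_lit 314) (b (l (nat_lit 7) (nat_lit 213) (nat_lit 239)) (l (nat_lit 7) (nat_lit 238) (nat_lit 339)))) (l (nat_lit 6) (nat_lit 187) (nat_lit 188)))))) (l (nat_lit 5) (nat_lit 237) (nat_lit 337))))) (b (n (nat_lit 261) (b (n (nat_lit 265) (b (n (nat_lit 240) (b (l (nat_lit 1) (nat_lit 236) (nat_lit 239)) (l (nat_lit 1) (nat_lit 237) (nat_lit 241)))) (n (nat_lit 290) (b (l (nat_lit 0) (nat_lit 262) (nat_lit 291)) (l (nat_lit 0) (nat_lit 261) (nat_lit 289)))))) (n (nat_lit 236) (b (l (nat_lit 3) (nat_lit 235) (nat_lit 235)) (l (nat_lit 7) (nat_lit 236) (nat_lit 337)))))) (n (nat_lit 261) (b (b (n (nat_lit 260) (b (n (nat_lit 235) (b (l (nat_lit 3) (nat_lit 234) (nat_lit 234)) (l (nat_lit 3) (nat_lit 235) (nat_lit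 236)))) (n (nat_lit 239) (b (l (nat_lit 1) (nat_lit 235) (nat_lit 238)) (l (nat_lit 1) (nat_lit 236) (nat_lit 240)))))) (n (nat_lit 238) (b (n (nat_lit 239) (b (l (nat_lit 1) (nat_lit 236) (nat_lit 240)) (l (nat_lit 1) (nat_lit 235) (nat_lit 260)))) (l (nat_lit 5) (nat_lit 237) (nat_lit 337))))) (n (nat_lit 236) (b (l (nat_lit 3) (nat_lit 235) (nat_lit 235)) (l (nat_lit 7) (nat_lit 236) (nat_lit 337)))))))) (b (n (nat_lit 238) (b (n (nat_lit 265) (b (b (b (n (nat_lit 266) (b (n (nat_lit 267) (b (n (nat_lit 292) (b (l (nat_lit 0) (nat_lit 264) (nat_lit 293)) (l (nat_lit 0) (nat_lit 263) (nat_lit 291)))) (l (nat_lit 3) (nat_lit 238) (nat_lit 239)))) (n (nat_lit 241) (b (l (nat_lit 1) (nat_lit 238) (nat_lit 242)) (l (nat_lit 1) (nat_lit 237) (nat_lit 240)))))) (n (nat_lit 266) (b (b (n (nat_lit 291) (b (l (nat_lit 0) (nat_lit 262) (nat_lit 290)) (l (nat_lit 0) (nat_lit 263) (nat_lit 292)))) (n (nat_lit 267) (b (n (nat_lit 268) (b (n (nat_lit 243)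 (b (l (nat_lit 1) (nat_lit 239) (nat_lit 242)) (l (nat_lit 1) (nat_lit 240) (nat_lit 244)))) (n (nat_lit 290) (b (l (nat_lit 0) (nat_lit 262) (nat_lit 291)) (l (nat_lit 2) (nat_lit 264) (nat_lit 289)))))) (l (nat_lit 3) (nat_lit 238) (nat_lit 239))))) (n (nat_lit 267) (b (n (nat_lit 268) (b (n (nat_lit 293) (b (l (nat_lit 0) (nat_lit 264) (nat_lit 292)) (l (nat_lit 0) (nat_lit 265) (nat_lit 294)))) (n (nat_lit 243) (b (l (nat_lit 1) (nat_lit 239) (nat_lit 242)) (l (nat_lit 1) (nat_lit 240) (nat_lit 244)))))) (l (nat_lit 3) (nat_lit 238) (nat_lit 239))))))) (b (n (nat_lit 266) (b (n (nat_lit 291) (b (l (nat_lit 0) (nat_lit 262) (nat_lit 290)) (l (nat_lit 0) (nat_lit 263) (nat_lit 292)))) (n (nat_lit 241) (b (l (nat_lit 1) (nat_lit 238) (nat_lit 242)) (l (nat_lit 1) (nat_lit 237) (nat_lit 240)))))) (n (nat_lit 240) (b (n (nat_lit 290) (b (n (nat_lit 314) (b (b (n (nat_lit 315) (b (n (nat_lit 239) (b (l (nat_lit 7) (nat_lit 214) (nat_lit 214)) (l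 (nat_lit 7) (nat_lit 239) (nat_lit 340)))) (l (nat_lit 6) (nat_lit 239) (nat_lit 339)))) (n (nat_lit 289) (b (n (nat_lit 213) (b (l (nat_lit 6) (nat_lit 187) (nat_lit 188)) (l (nat_lit 7) (nat_lit 213) (nat_lit 239)))) (l (nat_lit 6) (nat_lit 214) (nat_lit 215))))) (n (nat_lit 289) (b (l (nat_lit 7) (nat_lit 238) (nat_lit 339)) (l (nat_lit 6) (nat_lit 214) (nat_lit 215)))))) (l (nat_lit 0) (nat_lit 262) (nat_lit 291)))) (l (nat_lit 1) (nat_lit 237) (nat_lit 241)))))) (n (nat_lit 213) (b (n (nat_lit 289) (b (b (n (nat_lit 314) (b (l (nat_lit 7) (nat_lit 213) (nat_lit 239)) (l (nat_lit 7) (nat_lit 238) (nat_lit 339)))) (n (nat_lit 240) (b (n (nat_lit 314) (b (n (nat_lit 215) (b (l (nat_lit 6) (nat_lit 189) (nat_lit 190)) (l (nat_lit 6) (nat_lit 214) (nat_lit 290)))) (l (nat_lit 7) (nat_lit 238) (nat_lit 339)))) (l (nat_lit 1) (nat_lit 237) (nat_lit 241))))) (n (nat_lit 266) (b (n (nat_lit 241) (b (l (nat_lit 1) (nat_lit 238) (nat_lit 242)) (l (nat_lit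 1) (nat_lit 237) (nat_lit 240)))) (n (nat_lit 267) (b (n (nat_lit 268) (b (n (nat_lit 293) (b (l (nat_lit 0) (nat_lit 264) (nat_lit 292)) (l (nat_lit 0) (nat_lit 265) (nat_lit 294)))) (l (nat_lit 2) (nat_lit 264) (nat_lit 290)))) (l (nat_lit 3) (nat_lit 238) (nat_lit 239)))))))) (l (nat_lit 6) (nat_lit 187) (nat_lit 188)))))) (l (nat_lit 5) (nat_lit 237) (nat_lit 337)))) (n (nat_lit 337) (b (n (nat_lit 290) (b (n (nat_lit 261) (b (l (nat_lit 0) (nat_lit 261) (nat_lit 289)) (l (nat_lit 7) (nat_lit 236) (nat_lit 236)))) (n (nat_lit 265) (b (n (nat_lit 361) (b (n (nat_lit 241) (b (n (nat_lit 362) (b (n (nat_lit 266) (b (n (nat_lit 363) (b (n (nat_lit 340) (b (n (nat_lit 364) (b (n (nat_lit 365) (b (n (nat_lit 390) (b (l (nat_lit 0) (nat_lit 362) (nat_lit 391)) (l (nat_lit 0) (nat_lit 361) (nat_lit 389)))) (l (nat_lit 1) (nat_lit 337) (nat_lit 341)))) (l (nat_lit 1) (nat_lit 336) (nat_lit 339)))) (l (nat_lit 5) (nat_lit 240) (nat_lit 315)))) (l (nat_lit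 4) (nat_lit 287) (nat_lit 388)))) (l (nat_lit 1) (nat_lit 238) (nat_lit 242)))) (l (nat_lit 6) (nat_lit 286) (nat_lit 386)))) (l (nat_lit 1) (nat_lit 237) (nat_lit 240)))) (l (nat_lit 6) (nat_lit 261) (nat_lit 336)))) (l (nat_lit 0) (nat_lit 262) (nat_lit 291)))))) (l (nat_lit 5) (nat_lit 237) (nat_lit 238))))))))))))
    (envOK_cons p5210 (envOK_cons p5149 (envOK_cons p5166 (envOK_cons p5131 (envOK_cons p5095 (envOK_cons p5319 (envOK_cons p5323 envOK_nil))))))) (by decide +kernel)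

theorem p5420 : Fam (nat_lit 11) (nat_lit 8343699607727673214248874617415937021077234590683750281279490000787534250410375654793883418624) (nat_lit 29771315389304118222160715772387716853909998221689354186548039161336072836076891261860363289851715069104980154502073853358817782735921217536) (nat_lit 29771315389304118222160715772387716853909998221689354186548039161336072836076891261860363289851715069104980154502073853358817782735921217536) :=
  chk_sound (Env.cons (nat_lit 8) (nat_lit 279968101115925134047353499319930152181142708231565782546248918899963984685054368582985341452834308096) (nat_lit 26442239854866187913400038420424076345466214585943994962730578188198344802716823383997683030028551990322878313530065353179136) (Env.cons (nat_lit 5) (nat_lit 139984046386113011821513927631682756847530231060389816355094287076735219651487445306377147898390380544) (nat_lit 139984050557962932245487310478459590025540078890745840084871540760756448615402645069946584514605088768)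 Env.nil))
    (n (nat_lit 337) (b (b (b (n (nat_lit 362) (b (b (b (n (nat_lit 361) (b (n (nat_lit 363) (b (n (nat_lit 336) (b (n (nat_lit 335) (b (l (nat_lit 3) (nat_lit 335) (nat_lit 364)) (l (nat_lit 0) (nat_lit 334) (nat_lit 334)))) (l (nat_lit 6) (nat_lit 261) (nat_lit 262)))) (l (nat_lit 4) (nat_lit 287) (nat_lit 388)))) (l (nat_lit 6) (nat_lit 286) (nat_lit 386)))) (n (nat_lit 387) (b (n (nat_lit 388) (b (l (nat_lit 4) (nat_lit 312) (nat_lit 413)) (l (nat_lit 4) (nat_lit 287) (nat_lit 363)))) (n (nat_lit 311) (b (n (nat_lit 336) (b (n (nat_lit 262) (b (l (nat_lit 6) (nat_lit 261) (nat_lit 361)) (l (nat_lit 6) (nat_lit 236) (nat_lit 237)))) (l (nat_lit 7) (nat_lit 311) (nat_lit 412)))) (l (nat_lit 7) (nat_lit 286) (nat_lit 286))))))) (b (n (nat_lit 387) (b (n (nat_lit 412) (b (n (nat_lit 311) (b (l (nat_lit 7) (nat_lit 286) (nat_lit 286)) (l (nat_lit 7) (nat_lit 311) (nat_lit 336)))) (n (nat_lit 411) (b (l (nat_lit 6) (nat_lit 336) (nat_lit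 436)) (l (nat_lit 6) (nat_lit 311) (nat_lit 386)))))) (n (nat_lit 388) (b (l (nat_lit 4) (nat_lit 312) (nat_lit 413)) (l (nat_lit 4) (nat_lit 287) (nat_lit 363)))))) (n (nat_lit 387) (b (n (nat_lit 388) (b (l (nat_lit 4) (nat_lit 312) (nat_lit 413)) (l (nat_lit 4) (nat_lit 287) (nat_lit 363)))) (n (nat_lit 386) (b (l (nat_lit 6) (nat_lit 311) (nat_lit 411)) (l (nat_lit 6) (nat_lit 286) (nat_lit 361)))))))) (n (nat_lit 387) (b (b (n (nat_lit 311) (b (n (nat_lit 336) (b (n (nat_lit 262) (b (l (nat_lit 6) (nat_lit 261) (nat_lit 361)) (l (nat_lit 6) (nat_lit 236) (nat_lit 237)))) (l (nat_lit 7) (nat_lit 311) (nat_lit 412)))) (l (nat_lit 7) (nat_lit 286) (nat_lit 286)))) (n (nat_lit 412) (b (n (nat_lit 437) (b (n (nat_lit 438) (b (l (nat_lit 4) (nat_lit 337) (nat_lit 413)) (l (nat_lit 4) (nat_lit 362) (nat_lit 463)))) (n (nat_lit 436) (b (l (nat_lit 6) (nat_lit 361) (nat_lit 461)) (l (nat_lit 6) (nat_lit 336) (nat_lit 411)))))) (n (nat_lit 311) (b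 (l (nat_lit 7) (nat_lit 286) (nat_lit 286)) (l (nat_lit 7) (nat_lit 311) (nat_lit 336))))))) (n (nat_lit 386) (b (l (nat_lit 6) (nat_lit 311) (nat_lit 411)) (l (nat_lit 6) (nat_lit 286) (nat_lit 361)))))))) (r (nat_lit 0))) (b (n (nat_lit 362) (b (b (n (nat_lit 361) (b (n (nat_lit 363) (b (n (nat_lit 336) (b (n (nat_lit 335) (b (l (nat_lit 3) (nat_lit 335) (nat_lit 364)) (l (nat_lit 0) (nat_lit 334) (nat_lit 334)))) (l (nat_lit 6) (nat_lit 261) (nat_lit 262)))) (l (nat_lit 4) (nat_lit 287) (nat_lit 388)))) (l (nat_lit 6) (nat_lit 286) (nat_lit 386)))) (n (nat_lit 387) (b (n (nat_lit 288) (b (l (nat_lit 5) (nat_lit 262) (nat_lit 263)) (l (nat_lit 5) (nat_lit 287) (nat_lit 313)))) (n (nat_lit 386) (b (l (nat_lit 6) (nat_lit 311) (nat_lit 411)) (l (nat_lit 6) (nat_lit 286) (nat_lit 361))))))) (n (nat_lit 387) (b (n (nat_lit 288) (b (l (nat_lit 5) (nat_lit 262) (nat_lit 263)) (l (nat_lit 5) (nat_lit 287) (nat_lit 313)))) (n (nat_lit 388) (b (l (nat_lit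 4) (nat_lit 312) (nat_lit 413)) (l (nat_lit 4) (nat_lit 287) (nat_lit 363)))))))) (n (nat_lit 362) (b (b (n (nat_lit 387) (b (n (nat_lit 288) (b (l (nat_lit 5) (nat_lit 262) (nat_lit 263)) (l (nat_lit 5) (nat_lit 287) (nat_lit 313)))) (n (nat_lit 388) (b (l (nat_lit 4) (nat_lit 312) (nat_lit 413)) (l (nat_lit 4) (nat_lit 287) (nat_lit 363)))))) (n (nat_lit 387) (b (n (nat_lit 286) (b (l (nat_lit 7) (nat_lit 261) (nat_lit 261)) (l (nat_lit 7) (nat_lit 286) (nat_lit 311)))) (n (nat_lit 388) (b (l (nat_lit 4) (nat_lit 312) (nat_lit 413)) (l (nat_lit 4) (nat_lit 287) (nat_lit 363))))))) (n (nat_lit 262) (b (n (nat_lit 261) (b (l (nat_lit 7) (nat_lit 261) (nat_lit 286)) (l (nat_lit 7) (nat_lit 236) (nat_lit 236)))) (n (nat_lit 263) (b (l (nat_lit 5) (nat_lit 237) (nat_lit 238)) (l (nat_lit 5) (nat_lit 262) (nat_lit 288)))))))))) (n (nat_lit 262) (b (b (n (nat_lit 237) (b (n (nat_lit 238) (b (l (nat_lit 5) (nat_lit 237) (nat_lit 263)) (l (nat_lit 5)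 (nat_lit 212) (nat_lit 213)))) (n (nat_lit 236) (b (l (nat_lit 7) (nat_lit 211) (nat_lit 211)) (l (nat_lit 7) (nat_lit 236) (nat_lit 261)))))) (n (nat_lit 237) (b (n (nat_lit 238) (b (l (nat_lit 5) (nat_lit 237) (nat_lit 263)) (l (nat_lit 5) (nat_lit 212) (nat_lit 213)))) (n (nat_lit 336) (b (l (nat_lit 6) (nat_lit 261) (nat_lit 361)) (l (nat_lit 6) (nat_lit 236) (nat_lit 311))))))) (b (n (nat_lit 237) (b (n (nat_lit 336) (b (l (nat_lit 6) (nat_lit 261) (nat_lit 361)) (l (nat_lit 6) (nat_lit 236) (nat_lit 311)))) (n (nat_lit 236) (b (l (nat_lit 7) (nat_lit 211) (nat_lit 211)) (l (nat_lit 7) (nat_lit 236) (nat_lit 261)))))) (n (nat_lit 261) (b (n (nat_lit 263) (b (n (nat_lit 264) (b (n (nat_lit 336) (b (r (nat_lit 1)) (l (nat_lit 6) (nat_lit 261) (nat_lit 361)))) (n (nat_lit 265) (b (n (nat_lit 266) (b (n (nat_lit 291) (b (l (nat_lit 0) (nat_lit 262) (nat_lit 290)) (l (nat_lit 0) (nat_lit 263) (nat_lit 292)))) (l (nat_lit 2) (nat_lit 262) (nat_lit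 288)))) (n (nat_lit 240) (b (l (nat_lit 1) (nat_lit 236) (nat_lit 239)) (l (nat_lit 1) (nat_lit 237) (nat_lit 241)))))))) (l (nat_lit 5) (nat_lit 237) (nat_lit 238)))) (l (nat_lit 7) (nat_lit 236) (nat_lit 236)))))))))
    (envOK_cons p5176 (envOK_cons p5242 envOK_nil)) (by decide +kernel)

theorem p5431 : Fam (nat_lit 8) (nat_lit 8343699732058482316695535156261499057782444615797787980616419360903528473700249907927227301888) (nat_lit 236412044223994868567388338417752840608582132876567184603627922732666487311623619079831626074244855892978367828328448) (nat_lit 236412044223994868567388338417752840608582132876567184603627922732666487311623619079831626074244855892978367828328448) :=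
  chk_sound Env.nil
    (n (nat_lit 285) (b (b (n (nat_lit 284) (b (b (n (nat_lit 288) (b (n (nat_lit 259) (b (l (nat_lit 3) (nat_lit 258) (nat_lit 258)) (l (nat_lit 3) (nat_lit 259) (nat_lit 260)))) (n (nat_lit 309) (b (l (nat_lit 2) (nat_lit 283) (nat_lit 308)) (l (nat_lit 2) (nat_lit 284) (nat_lit 310)))))) (n (nat_lit 283) (b (n (nat_lit 308) (b (l (nat_lit 2) (nat_lit 283) (nat_lit 309)) (l (nat_lit 2) (nat_lit 282) (nat_lit 307)))) (n (nat_lit 262) (b (l (nat_lit 1) (nat_lit 259) (nat_lit 263)) (l (nat_lit 1) (nat_lit 258) (nat_lit 261))))))) (n (nat_lit 283) (b (n (nat_lit 262) (b (l (nat_lit 1) (nat_lit 259) (nat_lit 263)) (l (nat_lit 1) (nat_lit 258) (nat_lit 261)))) (n (nat_lit 258) (b (l (nat_lit 3) (nat_lit 257) (nat_lit 257)) (l (nat_lit 3) (nat_lit 258) (nat_lit 259)))))))) (n (nat_lit 313) (b (n (nat_lit 314) (b (l (nat_lit 3) (nat_lit 285) (nat_lit 311)) (l (nat_lit 3) (nat_lit 286) (nat_lit 315)))) (l (nat_lit 0) (nat_lit 284)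 (nat_lit 284))))) (n (nat_lit 288) (b (b (n (nat_lit 313) (b (n (nat_lit 310) (b (n (nat_lit 311) (b (n (nat_lit 335) (b (n (nat_lit 360) (b (l (nat_lit 5) (nat_lit 285) (nat_lit 385)) (l (nat_lit 5) (nat_lit 260) (nat_lit 261)))) (l (nat_lit 2) (nat_lit 309) (nat_lit 334)))) (n (nat_lit 336) (b (n (nat_lit 260) (b (l (nat_lit 4) (nat_lit 235) (nat_lit 235)) (l (nat_lit 3) (nat_lit 259) (nat_lit 259)))) (n (nat_lit 361) (b (l (nat_lit 5) (nat_lit 261) (nat_lit 262)) (l (nat_lit 5) (nat_lit 286) (nat_lit 386)))))))) (l (nat_lit 2) (nat_lit 284) (nat_lit 309)))) (l (nat_lit 0) (nat_lit 285) (nat_lit 314)))) (n (nat_lit 289) (b (n (nat_lit 310) (b (l (nat_lit 2) (nat_lit 284) (nat_lit 309)) (l (nat_lit 2) (nat_lit 285) (nat_lit 311)))) (n (nat_lit 260) (b (l (nat_lit 3) (nat_lit 260) (nat_lit 261)) (l (nat_lit 3) (nat_lit 259) (nat_lit 259))))))) (b (n (nat_lit 289) (b (n (nat_lit 260) (b (l (nat_lit 3) (nat_lit 260) (nat_lit 261)) (l (nat_lit 3)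 (nat_lit 259) (nat_lit 259)))) (n (nat_lit 314) (b (l (nat_lit 0) (nat_lit 286) (nat_lit 315)) (l (nat_lit 0) (nat_lit 285) (nat_lit 313)))))) (n (nat_lit 289) (b (n (nat_lit 310) (b (l (nat_lit 2) (nat_lit 284) (nat_lit 309)) (l (nat_lit 2) (nat_lit 285) (nat_lit 311)))) (n (nat_lit 314) (b (l (nat_lit 0) (nat_lit 286) (nat_lit 315)) (l (nat_lit 0) (nat_lit 285) (nat_lit 313)))))))))))
    envOK_nil (by decide +kernel)

theorem p5433 : Fam (nat_lit 8) (nat_lit 8343699732058482316695535156261499057782444615797787980616419360903528473700249907927227301888) (nat_lit 236412044223994868567788835992955890278626675670839697997614432776612556709990809562689446937253538786865550016380928) (nat_lit 236412044223994868567788835992955890278626675670839697997614432776612556709990809562689446937253538786865550016380928) :=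
  chk_sound (Env.cons (nat_lit 5) (nat_lit 8343700291547123277705507581066528222955889728810957627632601481425502478504684047027274776576) (nat_lit 525653067516168051094186730489978604072995288212179784571862305870255777528227067611508977434624) Env.nil)
    (n (nat_lit 285) (b (b (n (nat_lit 284) (b (b (n (nat_lit 283) (b (n (nat_lit 258) (b (l (nat_lit 3) (nat_lit 257) (nat_lit 257)) (l (nat_lit 3) (nat_lit 258) (nat_lit 259)))) (l (nat_lit 0) (nat_lit 283) (nat_lit 311)))) (n (nat_lit 283) (b (n (nat_lit 308) (b (l (nat_lit 2) (nat_lit 283) (nat_lit 309)) (l (nat_lit 2) (nat_lit 282) (nat_lit 307)))) (l (nat_lit 0) (nat_lit 283) (nat_lit 311))))) (n (nat_lit 309) (b (n (nat_lit 259) (b (n (nat_lit 310) (b (n (nat_lit 234) (b (l (nat_lit 4) (nat_lit 234) (nat_lit 335)) (l (nat_lit 4) (nat_lit 209) (nat_lit 209)))) (l (nat_lit 2) (nat_lit 284) (nat_lit 288)))) (l (nat_lit 3) (nat_lit 258) (nat_lit 258)))) (l (nat_lit 2) (nat_lit 283) (nat_lit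 308)))))) (n (nat_lit 284) (b (n (nat_lit 283) (b (n (nat_lit 308) (b (l (nat_lit 2) (nat_lit 283) (nat_lit 309)) (l (nat_lit 2) (nat_lit 282) (nat_lit 307)))) (n (nat_lit 258) (b (l (nat_lit 3) (nat_lit 257) (nat_lit 257)) (l (nat_lit 3) (nat_lit 258) (nat_lit 259)))))) (l (nat_lit 0) (nat_lit 284) (nat_lit 313))))) (b (n (nat_lit 313) (b (n (nat_lit 314) (b (l (nat_lit 3) (nat_lit 285) (nat_lit 311)) (l (nat_lit 3) (nat_lit 286) (nat_lit 315)))) (l (nat_lit 0) (nat_lit 284) (nat_lit 284)))) (n (nat_lit 288) (b (b (n (nat_lit 289) (b (n (nat_lit 310) (b (l (nat_lit 2) (nat_lit 284) (nat_lit 309)) (l (nat_lit 2) (nat_lit 285) (nat_lit 311)))) (n (nat_lit 260) (b (l (nat_lit 3) (nat_lit 260) (nat_lit 261)) (l (nat_lit 3) (nat_lit 259) (nat_lit 259)))))) (r (nat_lit 0))) (n (nat_lit 313) (b (n (nat_lit 310) (b (n (nat_lit 311) (b (n (nat_lit 335) (b (n (nat_lit 360) (b (l (nat_lit 5) (nat_lit 285) (nat_lit 385)) (l (nat_lit 5) (nat_lit 260) (nat_lit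 261)))) (l (nat_lit 2) (nat_lit 309) (nat_lit 334)))) (n (nat_lit 336) (b (n (nat_lit 260) (b (l (nat_lit 4) (nat_lit 235) (nat_lit 235)) (l (nat_lit 3) (nat_lit 259) (nat_lit 259)))) (n (nat_lit 361) (b (l (nat_lit 5) (nat_lit 261) (nat_lit 262)) (l (nat_lit 5) (nat_lit 286) (nat_lit 386)))))))) (l (nat_lit 2) (nat_lit 284) (nat_lit 309)))) (l (nat_lit 0) (nat_lit 285) (nat_lit 314)))))))))
    (envOK_cons p2751 envOK_nil) (by decide +kernel)

theorem p5450 : Fam (nat_lit 7) (nat_lit 8343700229381718726482177311643747204603284716253938777964136801367505366859746920460602834944) (nat_lit 1260864240558393394315375143549211562452707195944530120148503437717383830745257490329890796448335797155866948378034176) (nat_lit 1260864240558393394315375143549211562452707195944530120148503437717383830745257490329890796448335797155866948378034176) :=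
  chk_sound Env.nil
    (n (nat_lit 289) (b (b (n (nat_lit 311) (b (l (nat_lit 2) (nat_lit 285) (nat_lit 310)) (l (nat_lit 2) (nat_lit 286) (nat_lit 290)))) (n (nat_lit 311) (b (n (nat_lit 314) (b (n (nat_lit 313) (b (n (nat_lit 339) (b (n (nat_lit 364) (b (l (nat_lit 7) (nat_lit 288) (nat_lit 389)) (l (nat_lit 7) (nat_lit 263) (nat_lit 263)))) (l (nat_lit 0) (nat_lit 311) (nat_lit 340)))) (n (nat_lit 336) (b (n (nat_lit 262) (b (l (nat_lit 5) (nat_lit 261) (nat_lit 361)) (l (nat_lit 6) (nat_lit 236) (nat_lit 237)))) (l (nat_lit 2) (nat_lit 310) (nat_lit 335)))))) (l (nat_lit 0) (nat_lit 286) (nat_lit 315)))) (l (nat_lit 2) (nat_lit 285) (nat_lit 310))))) (n (nat_lit 290) (b (n (nat_lit 265) (b (l (nat_lit 1) (nat_lit 261) (nat_lit 264)) (l (nat_lit 1) (nat_lit 262) (nat_lit 266)))) (n (nat_lit 315) (b (l (nat_lit 0) (nat_lit 287) (nat_lit 316)) (l (nat_lit 0) (nat_lit 286) (nat_lit 314))))))))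
    envOK_nil (by decide +kernel)

theorem p5685 : Fam (nat_lit 14) (nat_lit 139984054729812495218322459231062923644101901359610211729037299426656352852288532786554751256702746624) (nat_lit 3305282818802837056710483216193372425276018174588922836488211793019098089348050150619385653161818859902752699629939321733120) (nat_lit 3305282818802837056710483216193372425276018174588922836488211793019098089348050150619385653161818859902752699629939321733120) :=
  chk_sound Env.nil
    (n (nat_lit 311) (b (b (b (n (nat_lit 262) (b (n (nat_lit 337) (b (b (n (nat_lit 362) (b (n (nat_lit 263) (b (l (nat_lit 5) (nat_lit 237) (nat_lit 238)) (l (nat_lit 5) (nat_lit 262) (nat_lit 288)))) (l (nat_lit 7) (nat_lit 286) (nat_lit 387)))) (n (nat_lit 362) (b (l (nat_lit 7) (nat_lit 286) (nat_lit 387)) (l (nat_lit 7) (nat_lit 261) (nat_lit 261))))) (n (nat_lit 264) (b (b (n (nat_lit 289) (b (b (n (nat_lit 288) (b (l (nat_lit 2) (nat_lit 286) (nat_lit 290)) (l (nat_lit 2)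 (nat_lit 285) (nat_lit 310)))) (n (nat_lit 314) (b (b (n (nat_lit 315) (b (n (nat_lit 340) (b (n (nat_lit 365) (b (l (nat_lit 4) (nat_lit 264) (nat_lit 339)) (l (nat_lit 7) (nat_lit 289) (nat_lit 390)))) (l (nat_lit 4) (nat_lit 239) (nat_lit 239)))) (l (nat_lit 3) (nat_lit 286) (nat_lit 313)))) (n (nat_lit 239) (b (n (nat_lit 214) (b (n (nat_lit 315) (b (l (nat_lit 4) (nat_lit 239) (nat_lit 340)) (l (nat_lit 4) (nat_lit 214) (nat_lit 290)))) (n (nat_lit 215) (b (l (nat_lit 5) (nat_lit 214) (nat_lit 240)) (l (nat_lit 5) (nat_lit 189) (nat_lit 190)))))) (n (nat_lit 238) (b (l (nat_lit 7) (nat_lit 213) (nat_lit 213)) (l (nat_lit 5) (nat_lit 237) (nat_lit 263))))))) (n (nat_lit 263) (b (n (nat_lit 290) (b (l (nat_lit 0) (nat_lit 261) (nat_lit 261)) (l (nat_lit 1) (nat_lit 286) (nat_lit 313)))) (l (nat_lit 5) (nat_lit 237) (nat_lit 238))))))) (n (nat_lit 288) (b (n (nat_lit 314) (b (n (nat_lit 339) (b (n (nat_lit 340) (b (l (nat_lit 0) (nat_lit 311)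 (nat_lit 313)) (l (nat_lit 4) (nat_lit 264) (nat_lit 365)))) (n (nat_lit 263) (b (l (nat_lit 5) (nat_lit 237) (nat_lit 238)) (l (nat_lit 7) (nat_lit 263) (nat_lit 364)))))) (l (nat_lit 0) (nat_lit 286) (nat_lit 315)))) (l (nat_lit 2) (nat_lit 285) (nat_lit 310)))))) (n (nat_lit 289) (b (b (n (nat_lit 288) (b (l (nat_lit 2) (nat_lit 285) (nat_lit 310)) (l (nat_lit 1) (nat_lit 261) (nat_lit 265)))) (n (nat_lit 288) (b (l (nat_lit 2) (nat_lit 286) (nat_lit 290)) (l (nat_lit 2) (nat_lit 285) (nat_lit 310))))) (n (nat_lit 314) (b (b (n (nat_lit 313) (b (l (nat_lit 3) (nat_lit 286) (nat_lit 315)) (l (nat_lit 1) (nat_lit 286) (nat_lit 290)))) (n (nat_lit 239) (b (b (n (nat_lit 339) (b (n (nat_lit 340) (b (l (nat_lit 4) (nat_lit 239) (nat_lit 315)) (l (nat_lit 4) (nat_lit 264) (nat_lit 365)))) (n (nat_lit 240) (b (l (nat_lit 5) (nat_lit 239) (nat_lit 265)) (l (nat_lit 5) (nat_lit 214) (nat_lit 215)))))) (n (nat_lit 214) (b (n (nat_lit 215) (b (l (nat_lit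 5) (nat_lit 214) (nat_lit 240)) (l (nat_lit 5) (nat_lit 189) (nat_lit 190)))) (n (nat_lit 213) (b (l (nat_lit 7) (nat_lit 188) (nat_lit 188)) (l (nat_lit 7) (nat_lit 213) (nat_lit 238))))))) (n (nat_lit 214) (b (n (nat_lit 315) (b (l (nat_lit 4) (nat_lit 239) (nat_lit 340)) (l (nat_lit 4) (nat_lit 214) (nat_lit 290)))) (n (nat_lit 213) (b (l (nat_lit 7) (nat_lit 188) (nat_lit 188)) (l (nat_lit 7) (nat_lit 213) (nat_lit 238))))))))) (b (n (nat_lit 315) (b (n (nat_lit 340) (b (n (nat_lit 365) (b (l (nat_lit 4) (nat_lit 264) (nat_lit 339)) (l (nat_lit 7) (nat_lit 289) (nat_lit 390)))) (l (nat_lit 4) (nat_lit 239) (nat_lit 239)))) (l (nat_lit 3) (nat_lit 286) (nat_lit 313)))) (n (nat_lit 339) (b (b (n (nat_lit 364) (b (n (nat_lit 365) (b (l (nat_lit 4) (nat_lit 289) (nat_lit 390)) (l (nat_lit 4) (nat_lit 264) (nat_lit 340)))) (n (nat_lit 265) (b (l (nat_lit 5) (nat_lit 264) (nat_lit 290)) (l (nat_lit 5) (nat_lit 239) (nat_lit 240)))))) (n (nat_lit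 290) (b (n (nat_lit 265) (b (l (nat_lit 5) (nat_lit 264) (nat_lit 364)) (l (nat_lit 5) (nat_lit 239) (nat_lit 240)))) (l (nat_lit 1) (nat_lit 286) (nat_lit 313))))) (n (nat_lit 340) (b (l (nat_lit 0) (nat_lit 311) (nat_lit 313)) (l (nat_lit 4) (nat_lit 264) (nat_lit 365)))))))))))) (b (n (nat_lit 263) (b (l (nat_lit 5) (nat_lit 237) (nat_lit 238)) (l (nat_lit 2) (nat_lit 261) (nat_lit 265)))) (n (nat_lit 265) (b (n (nat_lit 289) (b (n (nat_lit 314) (b (n (nat_lit 313) (b (l (nat_lit 3) (nat_lit 286) (nat_lit 315)) (l (nat_lit 1) (nat_lit 286) (nat_lit 290)))) (n (nat_lit 240) (b (n (nat_lit 215) (b (l (nat_lit 6) (nat_lit 189) (nat_lit 190)) (l (nat_lit 5) (nat_lit 214) (nat_lit 239)))) (l (nat_lit 5) (nat_lit 239) (nat_lit 339)))))) (l (nat_lit 1) (nat_lit 261) (nat_lit 288)))) (l (nat_lit 2) (nat_lit 261) (nat_lit 263))))))))) (l (nat_lit 6) (nat_lit 236) (nat_lit 237)))) (n (nat_lit 337) (b (b (n (nat_lit 263) (b (n (nat_lit 362) (b (l (nat_lit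 7) (nat_lit 286) (nat_lit 387)) (l (nat_lit 5) (nat_lit 262) (nat_lit 288)))) (n (nat_lit 262) (b (l (nat_lit 5) (nat_lit 237) (nat_lit 238)) (l (nat_lit 6) (nat_lit 236) (nat_lit 237)))))) (n (nat_lit 362) (b (l (nat_lit 7) (nat_lit 286) (nat_lit 387)) (l (nat_lit 7) (nat_lit 261) (nat_lit 261))))) (n (nat_lit 262) (b (n (nat_lit 263) (b (n (nat_lit 289) (b (b (n (nat_lit 264) (b (n (nat_lit 261) (b (n (nat_lit 335) (b (n (nat_lit 260) (b (n (nat_lit 259) (b (n (nat_lit 309) (b (n (nat_lit 334) (b (l (nat_lit 3) (nat_lit 308) (nat_lit 308)) (l (nat_lit 1) (nat_lit 308) (nat_lit 333)))) (n (nat_lit 284) (b (n (nat_lit 234) (b (l (nat_lit 3) (nat_lit 233) (nat_lit 233)) (l (nat_lit 4) (nat_lit 234) (nat_lit 310)))) (l (nat_lit 2) (nat_lit 258) (nat_lit 283)))))) (l (nat_lit 0) (nat_lit 258) (nat_lit 258)))) (l (nat_lit 7) (nat_lit 235) (nat_lit 235)))) (l (nat_lit 6) (nat_lit 260) (nat_lit 360)))) (l (nat_lit 0) (nat_lit 261) (nat_lit 290)))) (l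 (nat_lit 2) (nat_lit 261) (nat_lit 265)))) (n (nat_lit 261) (b (n (nat_lit 264) (b (l (nat_lit 2) (nat_lit 261) (nat_lit 265)) (l (nat_lit 0) (nat_lit 261) (nat_lit 290)))) (n (nat_lit 260) (b (l (nat_lit 7) (nat_lit 235) (nat_lit 235)) (l (nat_lit 0) (nat_lit 260) (nat_lit 288))))))) (b (n (nat_lit 288) (b (l (nat_lit 2) (nat_lit 286) (nat_lit 290)) (l (nat_lit 2) (nat_lit 285) (nat_lit 310)))) (n (nat_lit 261) (b (b (n (nat_lit 335) (b (n (nat_lit 260) (b (n (nat_lit 259) (b (n (nat_lit 309) (b (n (nat_lit 334) (b (l (nat_lit 3) (nat_lit 308) (nat_lit 308)) (l (nat_lit 1) (nat_lit 308) (nat_lit 333)))) (n (nat_lit 284) (b (n (nat_lit 234) (b (l (nat_lit 3) (nat_lit 233) (nat_lit 233)) (l (nat_lit 4) (nat_lit 234) (nat_lit 310)))) (l (nat_lit 2) (nat_lit 258) (nat_lit 283)))))) (l (nat_lit 0) (nat_lit 258) (nat_lit 258)))) (l (nat_lit 7) (nat_lit 235) (nat_lit 235)))) (l (nat_lit 6) (nat_lit 260) (nat_lit 360)))) (n (nat_lit 260) (b (l (nat_lit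 7) (nat_lit 235) (nat_lit 235)) (l (nat_lit 3) (nat_lit 260) (nat_lit 288))))) (n (nat_lit 310) (b (n (nat_lit 309) (b (n (nat_lit 334) (b (n (nat_lit 284) (b (n (nat_lit 359) (b (b (n (nat_lit 384) (b (n (nat_lit 383) (b (l (nat_lit 6) (nat_lit 283) (nat_lit 358)) (l (nat_lit 6) (nat_lit 308) (nat_lit 408)))) (n (nat_lit 385) (b (l (nat_lit 4) (nat_lit 309) (nat_lit 410)) (l (nat_lit 4) (nat_lit 284) (nat_lit 360)))))) (n (nat_lit 358) (b (l (nat_lit 2) (nat_lit 333) (nat_lit 335)) (l (nat_lit 6) (nat_lit 283) (nat_lit 383))))) (n (nat_lit 360) (b (l (nat_lit 4) (nat_lit 284) (nat_lit 385)) (l (nat_lit 6) (nat_lit 260) (nat_lit 335)))))) (l (nat_lit 3) (nat_lit 283) (nat_lit 283)))) (l (nat_lit 2) (nat_lit 308) (nat_lit 333)))) (l (nat_lit 1) (nat_lit 283) (nat_lit 308)))) (l (nat_lit 2) (nat_lit 285) (nat_lit 288))))))))) (l (nat_lit 5) (nat_lit 237) (nat_lit 238)))) (l (nat_lit 6) (nat_lit 236) (nat_lit 237))))))) (b (n (nat_lit 337) (b (b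 (n (nat_lit 263) (b (n (nat_lit 362) (b (l (nat_lit 7) (nat_lit 286) (nat_lit 387)) (l (nat_lit 5) (nat_lit 262) (nat_lit 288)))) (n (nat_lit 262) (b (l (nat_lit 5) (nat_lit 237) (nat_lit 238)) (l (nat_lit 6) (nat_lit 236) (nat_lit 237)))))) (n (nat_lit 362) (b (l (nat_lit 7) (nat_lit 286) (nat_lit 387)) (l (nat_lit 7) (nat_lit 261) (nat_lit 261))))) (n (nat_lit 262) (b (n (nat_lit 261) (b (n (nat_lit 260) (b (n (nat_lit 288) (b (l (nat_lit 3) (nat_lit 260) (nat_lit 289)) (l (nat_lit 0) (nat_lit 259) (nat_lit 259)))) (l (nat_lit 7) (nat_lit 235) (nat_lit 235)))) (n (nat_lit 335) (b (n (nat_lit 313) (b (l (nat_lit 2) (nat_lit 310) (nat_lit 314)) (l (nat_lit 1) (nat_lit 309) (nat_lit 334)))) (l (nat_lit 6) (nat_lit 260) (nat_lit 360)))))) (l (nat_lit 6) (nat_lit 236) (nat_lit 237)))))) (n (nat_lit 310) (b (n (nat_lit 309) (b (l (nat_lit 1) (nat_lit 284) (nat_lit 288)) (l (nat_lit 1) (nat_lit 283) (nat_lit 308)))) (n (nat_lit 335) (b (n (nat_lit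 360) (b (l (nat_lit 6) (nat_lit 260) (nat_lit 261)) (l (nat_lit 5) (nat_lit 285) (nat_lit 385)))) (n (nat_lit 313) (b (l (nat_lit 2) (nat_lit 310) (nat_lit 314)) (l (nat_lit 2) (nat_lit 309) (nat_lit 334)))))))))) (b (n (nat_lit 335) (b (b (n (nat_lit 360) (b (n (nat_lit 385) (b (l (nat_lit 5) (nat_lit 310) (nat_lit 410)) (l (nat_lit 5) (nat_lit 285) (nat_lit 310)))) (l (nat_lit 6) (nat_lit 260) (nat_lit 261)))) (n (nat_lit 313) (b (n (nat_lit 334) (b (l (nat_lit 1) (nat_lit 308) (nat_lit 333)) (l (nat_lit 2) (nat_lit 309) (nat_lit 310)))) (l (nat_lit 2) (nat_lit 310) (nat_lit 314))))) (n (nat_lit 337) (b (n (nat_lit 261) (b (l (nat_lit 6) (nat_lit 260) (nat_lit 360)) (l (nat_lit 4) (nat_lit 261) (nat_lit 362)))) (n (nat_lit 334) (b (l (nat_lit 1) (nat_lit 308) (nat_lit 333)) (l (nat_lit 1) (nat_lit 309) (nat_lit 313)))))))) (n (nat_lit 314) (b (b (n (nat_lit 262) (b (n (nat_lit 289) (b (b (n (nat_lit 288) (b (l (nat_lit 2) (nat_lit 286) (nat_lit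 290)) (l (nat_lit 2) (nat_lit 285) (nat_lit 310)))) (n (nat_lit 264) (b (b (b (n (nat_lit 263) (b (n (nat_lit 238) (b (l (nat_lit 5) (nat_lit 237) (nat_lit 337)) (l (nat_lit 7) (nat_lit 238) (nat_lit 339)))) (l (nat_lit 2) (nat_lit 261) (nat_lit 265)))) (n (nat_lit 239) (b (n (nat_lit 214) (b (n (nat_lit 315) (b (l (nat_lit 4) (nat_lit 239) (nat_lit 340)) (l (nat_lit 4) (nat_lit 214) (nat_lit 290)))) (n (nat_lit 215) (b (l (nat_lit 5) (nat_lit 214) (nat_lit 240)) (l (nat_lit 5) (nat_lit 189) (nat_lit 190)))))) (n (nat_lit 238) (b (n (nat_lit 263) (b (l (nat_lit 5) (nat_lit 237) (nat_lit 337)) (l (nat_lit 7) (nat_lit 238) (nat_lit 339)))) (l (nat_lit 7) (nat_lit 213) (nat_lit 213))))))) (b (n (nat_lit 239) (b (b (n (nat_lit 339) (b (n (nat_lit 340) (b (l (nat_lit 4) (nat_lit 239) (nat_lit 315)) (l (nat_lit 4) (nat_lit 264) (nat_lit 365)))) (n (nat_lit 240) (b (l (nat_lit 5) (nat_lit 239) (nat_lit 265)) (l (nat_lit 5) (nat_lit 214) (nat_lit 215))))))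 (n (nat_lit 214) (b (n (nat_lit 215) (b (l (nat_lit 5) (nat_lit 214) (nat_lit 240)) (l (nat_lit 5) (nat_lit 189) (nat_lit 190)))) (n (nat_lit 213) (b (l (nat_lit 7) (nat_lit 188) (nat_lit 188)) (l (nat_lit 7) (nat_lit 213) (nat_lit 238))))))) (n (nat_lit 214) (b (n (nat_lit 315) (b (l (nat_lit 4) (nat_lit 239) (nat_lit 340)) (l (nat_lit 4) (nat_lit 214) (nat_lit 290)))) (n (nat_lit 213) (b (l (nat_lit 7) (nat_lit 188) (nat_lit 188)) (l (nat_lit 7) (nat_lit 213) (nat_lit 238)))))))) (n (nat_lit 265) (b (n (nat_lit 240) (b (n (nat_lit 215) (b (l (nat_lit 6) (nat_lit 189) (nat_lit 190)) (l (nat_lit 5) (nat_lit 214) (nat_lit 239)))) (l (nat_lit 5) (nat_lit 239) (nat_lit 339)))) (l (nat_lit 2) (nat_lit 261) (nat_lit 263)))))) (n (nat_lit 263) (b (n (nat_lit 238) (b (n (nat_lit 213) (b (l (nat_lit 6) (nat_lit 187) (nat_lit 188)) (l (nat_lit 7) (nat_lit 213) (nat_lit 239)))) (l (nat_lit 5) (nat_lit 237) (nat_lit 337)))) (l (nat_lit 2) (nat_lit 261) (nat_lit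 265))))))) (n (nat_lit 288) (b (l (nat_lit 0) (nat_lit 286) (nat_lit 315)) (l (nat_lit 2) (nat_lit 285) (nat_lit 310)))))) (l (nat_lit 6) (nat_lit 236) (nat_lit 237)))) (n (nat_lit 313) (b (l (nat_lit 3) (nat_lit 286) (nat_lit 315)) (l (nat_lit 2) (nat_lit 310) (nat_lit 335))))) (n (nat_lit 313) (b (n (nat_lit 289) (b (n (nat_lit 288) (b (n (nat_lit 263) (b (n (nat_lit 339) (b (l (nat_lit 7) (nat_lit 263) (nat_lit 364)) (l (nat_lit 0) (nat_lit 311) (nat_lit 340)))) (n (nat_lit 238) (b (l (nat_lit 4) (nat_lit 213) (nat_lit 213)) (l (nat_lit 6) (nat_lit 237) (nat_lit 337)))))) (l (nat_lit 2) (nat_lit 285) (nat_lit 310)))) (l (nat_lit 1) (nat_lit 286) (nat_lit 290)))) (l (nat_lit 2) (nat_lit 310) (nat_lit 335)))))))))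
    envOK_nil (by decide +kernel)

end Crest.Agent.R35
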