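import Crest.Agent.R35.C2

/-! Generated strategy certificate for Snaky (part 3). -/

set_option autoImplicit false
set_option maxRecDepth 100000

namespace Crest.Agent.R35

local notation "l" => T.leaf
local notation "n" => T.node
local notation "b" => T.both
local notation "r" => T.ref

theorem p5686 : Fam (nat_lit 16) (nat_lit 8343699732058482316695535156261499057782444615797787980616419360903528473700249907927227301888) (nat_lit 29747523619317277019455619329291017849589043542806868335115195805680897314213507038029849035750682478690715800958758404751360) (nat_lit 29747523619317277019455619329291017849589043542806868335115195805680897314213507038029849035750682478690715800958758404751360) :=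
  chk_sound (Env.cons (nat_lit 14) (nat_lit 139984054729812495218322459231062923644101901359610211729037299426656352852288532786554751256702746624) (nat_lit 3305282818802837056710483216193372425276018174588922836488211793019098089348050150619385653161818859902752699629939321733120) Env.nil)
    (n (nat_lit 336) (b (b (b (n (nat_lit 337) (b (b (n (nat_lit 361) (b (n (nat_lit 386) (b (l (nat_lit 5) (nat_lit 311) (nat_lit 411)) (l (nat_lit 6) (nat_lit 286) (nat_lit 362)))) (l (nat_lit 6) (nat_lit 261) (nat_lit 262)))) (n (nat_lit 362) (b (n (nat_lit 387) (b (n (nat_lit 288) (b (l (nat_lit 5) (nat_lit 262) (nat_lit 263)) (l (nat_lit 5) (nat_lit 287) (nat_lit 313)))) (n (nat_lit 388) (b (l (nat_lit 4) (nat_lit 312) (nat_lit 413)) (l (nat_lit 4) (nat_lit 287) (nat_lit 363)))))) (l (nat_lit 7) (nat_lit 261) (nat_lit 261))))) (n (nat_lit 262) (b (n (nat_lit 237) (b (b (n (nat_lit 212) (b (b (n (nat_lit 187) (b (n (nat_lit 186) (b (l (nat_lit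 7) (nat_lit 186) (nat_lit 211)) (l (nat_lit 7) (nat_lit 161) (nat_lit 161)))) (l (nat_lit 6) (nat_lit 186) (nat_lit 261)))) (n (nat_lit 263) (b (n (nat_lit 288) (b (l (nat_lit 4) (nat_lit 212) (nat_lit 313)) (l (nat_lit 4) (nat_lit 187) (nat_lit 187)))) (l (nat_lit 5) (nat_lit 237) (nat_lit 238))))) (n (nat_lit 288) (b (n (nat_lit 265) (b (b (n (nat_lit 263) (b (l (nat_lit 5) (nat_lit 237) (nat_lit 238)) (l (nat_lit 2) (nat_lit 261) (nat_lit 264)))) (n (nat_lit 289) (b (n (nat_lit 261) (b (l (nat_lit 3) (nat_lit 260) (nat_lit 260)) (l (nat_lit 3) (nat_lit 261) (nat_lit 290)))) (l (nat_lit 1) (nat_lit 261) (nat_lit 264))))) (n (nat_lit 238) (b (n (nat_lit 240) (b (n (nat_lit 211) (b (l (nat_lit 7) (nat_lit 186) (nat_lit 186)) (l (nat_lit 3) (nat_lit 211) (nat_lit 239)))) (n (nat_lit 290) (b (b (n (nat_lit 289) (b (l (nat_lit 1) (nat_lit 262) (nat_lit 266)) (l (nat_lit 3) (nat_lit 261) (nat_lit 261)))) (n (nat_lit 315) (b (b (n (nat_lit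 215) (b (n (nat_lit 316) (b (l (nat_lit 4) (nat_lit 240) (nat_lit 341)) (l (nat_lit 4) (nat_lit 215) (nat_lit 291)))) (n (nat_lit 216) (b (l (nat_lit 5) (nat_lit 190) (nat_lit 191)) (l (nat_lit 5) (nat_lit 215) (nat_lit 241)))))) (n (nat_lit 340) (b (n (nat_lit 341) (b (l (nat_lit 4) (nat_lit 240) (nat_lit 316)) (l (nat_lit 4) (nat_lit 265) (nat_lit 366)))) (n (nat_lit 339) (b (l (nat_lit 6) (nat_lit 264) (nat_lit 364)) (l (nat_lit 6) (nat_lit 239) (nat_lit 314))))))) (n (nat_lit 340) (b (n (nat_lit 241) (b (l (nat_lit 5) (nat_lit 240) (nat_lit 266)) (l (nat_lit 5) (nat_lit 215) (nat_lit 216)))) (n (nat_lit 339) (b (l (nat_lit 6) (nat_lit 264) (nat_lit 364)) (l (nat_lit 6) (nat_lit 239) (nat_lit 314))))))))) (n (nat_lit 289) (b (n (nat_lit 314) (b (l (nat_lit 6) (nat_lit 214) (nat_lit 215)) (l (nat_lit 0) (nat_lit 286) (nat_lit 315)))) (l (nat_lit 3) (nat_lit 261) (nat_lit 261)))))))) (l (nat_lit 5) (nat_lit 237) (nat_lit 263))))))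 (l (nat_lit 4) (nat_lit 212) (nat_lit 313)))))) (n (nat_lit 212) (b (n (nat_lit 187) (b (n (nat_lit 186) (b (l (nat_lit 7) (nat_lit 186) (nat_lit 211)) (l (nat_lit 7) (nat_lit 161) (nat_lit 161)))) (l (nat_lit 6) (nat_lit 186) (nat_lit 261)))) (n (nat_lit 213) (b (l (nat_lit 5) (nat_lit 187) (nat_lit 188)) (l (nat_lit 5) (nat_lit 212) (nat_lit 238))))))) (b (n (nat_lit 238) (b (l (nat_lit 5) (nat_lit 237) (nat_lit 263)) (l (nat_lit 5) (nat_lit 212) (nat_lit 213)))) (n (nat_lit 212) (b (b (n (nat_lit 187) (b (n (nat_lit 188) (b (l (nat_lit 5) (nat_lit 187) (nat_lit 213)) (l (nat_lit 5) (nat_lit 162) (nat_lit 163)))) (l (nat_lit 6) (nat_lit 186) (nat_lit 261)))) (n (nat_lit 187) (b (n (nat_lit 186) (b (l (nat_lit 7) (nat_lit 186) (nat_lit 211)) (l (nat_lit 7) (nat_lit 161) (nat_lit 161)))) (n (nat_lit 188) (b (l (nat_lit 5) (nat_lit 187) (nat_lit 213)) (l (nat_lit 5) (nat_lit 162) (nat_lit 163))))))) (b (n (nat_lit 187) (b (n (nat_lit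 186) (b (l (nat_lit 7) (nat_lit 186) (nat_lit 211)) (l (nat_lit 7) (nat_lit 161) (nat_lit 161)))) (l (nat_lit 6) (nat_lit 186) (nat_lit 261)))) (n (nat_lit 213) (b (n (nat_lit 211) (b (n (nat_lit 214) (b (b (b (n (nat_lit 265) (b (b (n (nat_lit 288) (b (n (nat_lit 264) (b (l (nat_lit 1) (nat_lit 261) (nat_lit 289)) (l (nat_lit 2) (nat_lit 261) (nat_lit 263)))) (l (nat_lit 4) (nat_lit 212) (nat_lit 313)))) (n (nat_lit 240) (b (n (nat_lit 215) (b (n (nat_lit 289) (b (n (nat_lit 290) (b (l (nat_lit 7) (nat_lit 189) (nat_lit 189)) (l (nat_lit 6) (nat_lit 214) (nat_lit 314)))) (n (nat_lit 264) (b (l (nat_lit 1) (nat_lit 261) (nat_lit 288)) (l (nat_lit 2) (nat_lit 261) (nat_lit 263)))))) (l (nat_lit 0) (nat_lit 212) (nat_lit 241)))) (l (nat_lit 0) (nat_lit 211) (nat_lit 239))))) (n (nat_lit 240) (b (n (nat_lit 215) (b (n (nat_lit 290) (b (n (nat_lit 315) (b (n (nat_lit 314) (b (l (nat_lit 2) (nat_lit 311) (nat_lit 313)) (l (nat_lit 6)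 (nat_lit 239) (nat_lit 339)))) (n (nat_lit 316) (b (l (nat_lit 4) (nat_lit 240) (nat_lit 341)) (l (nat_lit 4) (nat_lit 215) (nat_lit 291)))))) (l (nat_lit 7) (nat_lit 189) (nat_lit 189)))) (l (nat_lit 0) (nat_lit 212) (nat_lit 241)))) (l (nat_lit 0) (nat_lit 211) (nat_lit 239)))))) (n (nat_lit 288) (b (n (nat_lit 264) (b (n (nat_lit 189) (b (n (nat_lit 239) (b (l (nat_lit 6) (nat_lit 188) (nat_lit 263)) (l (nat_lit 0) (nat_lit 211) (nat_lit 240)))) (l (nat_lit 1) (nat_lit 186) (nat_lit 190)))) (n (nat_lit 289) (b (n (nat_lit 261) (b (l (nat_lit 3) (nat_lit 260) (nat_lit 260)) (l (nat_lit 3) (nat_lit 261) (nat_lit 290)))) (l (nat_lit 1) (nat_lit 261) (nat_lit 265)))))) (l (nat_lit 4) (nat_lit 212) (nat_lit 313))))) (b (n (nat_lit 288) (b (n (nat_lit 289) (b (n (nat_lit 261) (b (l (nat_lit 3) (nat_lit 260) (nat_lit 260)) (l (nat_lit 3) (nat_lit 261) (nat_lit 290)))) (n (nat_lit 215) (b (b (n (nat_lit 264) (b (n (nat_lit 190) (b (l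 (nat_lit 5) (nat_lit 189) (nat_lit 239)) (l (nat_lit 1) (nat_lit 187) (nat_lit 191)))) (l (nat_lit 1) (nat_lit 261) (nat_lit 265)))) (n (nat_lit 240) (b (l (nat_lit 0) (nat_lit 211) (nat_lit 239)) (l (nat_lit 0) (nat_lit 212) (nat_lit 241))))) (n (nat_lit 216) (b (n (nat_lit 191) (b (l (nat_lit 1) (nat_lit 187) (nat_lit 190)) (l (nat_lit 1) (nat_lit 188) (nat_lit 192)))) (n (nat_lit 241) (b (l (nat_lit 0) (nat_lit 213) (nat_lit 242)) (l (nat_lit 0) (nat_lit 212) (nat_lit 240)))))))))) (l (nat_lit 4) (nat_lit 212) (nat_lit 313)))) (n (nat_lit 190) (b (n (nat_lit 288) (b (n (nat_lit 289) (b (n (nat_lit 264) (b (n (nat_lit 215) (b (l (nat_lit 5) (nat_lit 189) (nat_lit 239)) (l (nat_lit 1) (nat_lit 187) (nat_lit 191)))) (l (nat_lit 1) (nat_lit 261) (nat_lit 265)))) (n (nat_lit 261) (b (l (nat_lit 3) (nat_lit 260) (nat_lit 260)) (l (nat_lit 3) (nat_lit 261) (nat_lit 290)))))) (l (nat_lit 4) (nat_lit 212) (nat_lit 313)))) (l (nat_lit 1)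 (nat_lit 186) (nat_lit 189)))))) (b (n (nat_lit 215) (b (n (nat_lit 190) (b (l (nat_lit 1) (nat_lit 186) (nat_lit 189)) (l (nat_lit 1) (nat_lit 187) (nat_lit 191)))) (n (nat_lit 240) (b (l (nat_lit 0) (nat_lit 211) (nat_lit 239)) (l (nat_lit 0) (nat_lit 212) (nat_lit 241)))))) (n (nat_lit 265) (b (b (n (nat_lit 288) (b (n (nat_lit 264) (b (l (nat_lit 1) (nat_lit 261) (nat_lit 289)) (l (nat_lit 2) (nat_lit 261) (nat_lit 263)))) (l (nat_lit 4) (nat_lit 212) (nat_lit 313)))) (n (nat_lit 190) (b (n (nat_lit 215) (b (n (nat_lit 240) (b (n (nat_lit 264) (b (l (nat_lit 6) (nat_lit 189) (nat_lit 289)) (l (nat_lit 2) (nat_lit 261) (nat_lit 263)))) (l (nat_lit 0) (nat_lit 212) (nat_lit 241)))) (l (nat_lit 1) (nat_lit 187) (nat_lit 191)))) (l (nat_lit 1) (nat_lit 186) (nat_lit 189))))) (n (nat_lit 313) (b (n (nat_lit 315) (b (n (nat_lit 215) (b (b (n (nat_lit 190) (b (l (nat_lit 1) (nat_lit 186) (nat_lit 189)) (l (nat_lit 1) (nat_lit 187) (nat_lit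 191)))) (n (nat_lit 240) (b (n (nat_lit 290) (b (n (nat_lit 316) (b (l (nat_lit 4) (nat_lit 240) (nat_lit 341)) (l (nat_lit 4) (nat_lit 215) (nat_lit 291)))) (l (nat_lit 7) (nat_lit 189) (nat_lit 189)))) (l (nat_lit 0) (nat_lit 212) (nat_lit 241))))) (n (nat_lit 216) (b (n (nat_lit 191) (b (l (nat_lit 1) (nat_lit 187) (nat_lit 190)) (l (nat_lit 1) (nat_lit 188) (nat_lit 192)))) (n (nat_lit 241) (b (l (nat_lit 0) (nat_lit 213) (nat_lit 242)) (l (nat_lit 0) (nat_lit 212) (nat_lit 240)))))))) (l (nat_lit 3) (nat_lit 286) (nat_lit 314)))) (l (nat_lit 4) (nat_lit 212) (nat_lit 288))))))))) (l (nat_lit 7) (nat_lit 186) (nat_lit 186)))) (l (nat_lit 5) (nat_lit 187) (nat_lit 188)))))))))) (l (nat_lit 6) (nat_lit 261) (nat_lit 361)))))) (n (nat_lit 311) (b (b (n (nat_lit 310) (b (n (nat_lit 309) (b (l (nat_lit 1) (nat_lit 284) (nat_lit 288)) (l (nat_lit 1) (nat_lit 283) (nat_lit 308)))) (n (nat_lit 335) (b (n (nat_lit 360) (b (l (nat_lit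 6) (nat_lit 260) (nat_lit 261)) (l (nat_lit 5) (nat_lit 285) (nat_lit 385)))) (n (nat_lit 313) (b (l (nat_lit 2) (nat_lit 310) (nat_lit 314)) (l (nat_lit 2) (nat_lit 309) (nat_lit 334)))))))) (n (nat_lit 362) (b (n (nat_lit 361) (b (l (nat_lit 4) (nat_lit 286) (nat_lit 387)) (l (nat_lit 5) (nat_lit 286) (nat_lit 386)))) (n (nat_lit 288) (b (n (nat_lit 289) (b (l (nat_lit 2) (nat_lit 286) (nat_lit 290)) (l (nat_lit 2) (nat_lit 285) (nat_lit 310)))) (n (nat_lit 337) (b (l (nat_lit 5) (nat_lit 262) (nat_lit 263)) (l (nat_lit 4) (nat_lit 261) (nat_lit 261))))))))) (n (nat_lit 361) (b (n (nat_lit 362) (b (n (nat_lit 363) (b (b (n (nat_lit 335) (b (n (nat_lit 337) (b (l (nat_lit 0) (nat_lit 334) (nat_lit 334)) (l (nat_lit 4) (nat_lit 287) (nat_lit 388)))) (l (nat_lit 3) (nat_lit 335) (nat_lit 364)))) (n (nat_lit 360) (b (n (nat_lit 388) (b (l (nat_lit 0) (nat_lit 360) (nat_lit 389)) (l (nat_lit 4) (nat_lit 287) (nat_lit 337)))) (l (nat_lit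 6) (nat_lit 285) (nat_lit 385))))) (n (nat_lit 335) (b (n (nat_lit 360) (b (l (nat_lit 6) (nat_lit 285) (nat_lit 385)) (l (nat_lit 3) (nat_lit 334) (nat_lit 334)))) (l (nat_lit 3) (nat_lit 335) (nat_lit 364)))))) (l (nat_lit 4) (nat_lit 286) (nat_lit 387)))) (l (nat_lit 5) (nat_lit 286) (nat_lit 386))))))) (b (n (nat_lit 311) (b (n (nat_lit 262) (b (l (nat_lit 5) (nat_lit 261) (nat_lit 361)) (l (nat_lit 6) (nat_lit 236) (nat_lit 237)))) (n (nat_lit 310) (b (n (nat_lit 335) (b (n (nat_lit 360) (b (l (nat_lit 6) (nat_lit 260) (nat_lit 261)) (l (nat_lit 5) (nat_lit 285) (nat_lit 385)))) (n (nat_lit 334) (b (l (nat_lit 1) (nat_lit 308) (nat_lit 333)) (l (nat_lit 2) (nat_lit 309) (nat_lit 313)))))) (n (nat_lit 309) (b (l (nat_lit 1) (nat_lit 284) (nat_lit 288)) (l (nat_lit 1) (nat_lit 283) (nat_lit 308)))))))) (n (nat_lit 361) (b (b (n (nat_lit 311) (b (l (nat_lit 5) (nat_lit 261) (nat_lit 262)) (l (nat_lit 5) (nat_lit 286) (nat_lit 386))))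 (n (nat_lit 262) (b (l (nat_lit 5) (nat_lit 261) (nat_lit 311)) (l (nat_lit 6) (nat_lit 261) (nat_lit 337))))) (b (n (nat_lit 386) (b (n (nat_lit 337) (b (l (nat_lit 5) (nat_lit 311) (nat_lit 411)) (l (nat_lit 6) (nat_lit 286) (nat_lit 362)))) (l (nat_lit 5) (nat_lit 286) (nat_lit 311)))) (n (nat_lit 337) (b (n (nat_lit 386) (b (l (nat_lit 5) (nat_lit 311) (nat_lit 411)) (l (nat_lit 6) (nat_lit 286) (nat_lit 362)))) (l (nat_lit 6) (nat_lit 261) (nat_lit 262))))))))) (r (nat_lit 0))))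
    (envOK_cons p5685 envOK_nil) (by decide +kernel)

theorem p5687 : Fam (nat_lit 17) (nat_lit 8343699607727673214248874617415937021077234590683750281279490000787534250410375654793883418624) (nat_lit 29747523619317277019455619329558276969746293522108095918178562215028623203095431786154110375392568921778158498742344746008576) (nat_lit 29747523619317277019455619329558276969746293522108095918178562215028623203095431786154110375392568921778158498742344746008576) :=
  chk_sound (Env.cons (nat_lit 7) (nat_lit 8343699794223886867918865425684280076135049628354806830284884040961525585345187034493899243520) (nat_lit 4109949642340265163313853752426009928809800722169624750487107186613452218315169299022169853682200382795677696) (Env.cons (nat_lit 8) (nat_lit 8343699732058482316695535156261499057782444615797787980616419360903528473700249907927227301888) (nat_lit 236412044223994868567388338417752840608582132876567184603627922732666487311623619079831626074244855892978367828328448)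 (Env.cons (nat_lit 8) (nat_lit 8343699732058482316695535156261499057782444615797787980616419360903528473700249907927227301888) (nat_lit 236412044223994868567788835992955890278626675670839697997614432776612556709990809562689446937253538786865550016380928) (Env.cons (nat_lit 7) (nat_lit 8343700229381718726482177311643747204603284716253938777964136801367505366859746920460602834944) (nat_lit 1260864240558393394315375143549211562452707195944530120148503437717383830745257490329890796448335797155866948378034176) (Env.cons (nat_lit 16) (nat_lit 8343699732058482316695535156261499057782444615797787980616419360903528473700249907927227301888) (nat_lit 29747523619317277019455619329291017849589043542806868335115195805680897314213507038029849035750682478690715800958758404751360) Env.nil)))))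
    (n (nat_lit 286) (b (b (b (b (n (nat_lit 285) (b (b (b (n (nat_lit 288) (b (n (nat_lit 289) (b (n (nat_lit 310) (b (l (nat_lit 2) (nat_lit 284) (nat_lit 309)) (l (nat_lit 2) (nat_lit 285) (nat_lit 311)))) (n (nat_lit 260) (b (l (nat_lit 3) (nat_lit 260) (nat_lit 261)) (l (nat_lit 3) (nat_lit 259) (nat_lit 259)))))) (n (nat_lit 263) (b (n (nat_lit 337) (b (n (nat_lit 238) (b (l (nat_lit 6) (nat_lit 212) (nat_lit 213)) (l (nat_lit 5) (nat_lit 237) (nat_lit 262)))) (l (nat_lit 5) (nat_lit 262) (nat_lit 362)))) (l (nat_lit 1) (nat_lit 260) (nat_lit 264)))))) (n (nat_lit 284) (b (b (n (nat_lit 288) (b (n (nat_lit 309) (b (l (nat_lit 2) (nat_lit 283) (nat_lit 308)) (l (nat_lit 2) (nat_lit 284) (nat_lit 310)))) (n (nat_lit 263) (b (l (nat_lit 1) (nat_lit 259) (nat_lit 262)) (l (nat_lit 1) (nat_lit 260) (nat_lit 264)))))) (n (nat_lit 283) (b (n (nat_lit 308) (b (l (nat_lit 2) (nat_lit 283) (nat_lit 309)) (l (nat_lit 2) (nat_lit 282)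 (nat_lit 307)))) (l (nat_lit 0) (nat_lit 283) (nat_lit 311))))) (n (nat_lit 283) (b (n (nat_lit 262) (b (l (nat_lit 1) (nat_lit 259) (nat_lit 263)) (l (nat_lit 1) (nat_lit 258) (nat_lit 261)))) (l (nat_lit 0) (nat_lit 283) (nat_lit 311))))))) (b (n (nat_lit 284) (b (b (n (nat_lit 288) (b (n (nat_lit 259) (b (l (nat_lit 3) (nat_lit 258) (nat_lit 258)) (l (nat_lit 3) (nat_lit 259) (nat_lit 260)))) (n (nat_lit 263) (b (l (nat_lit 1) (nat_lit 259) (nat_lit 262)) (l (nat_lit 1) (nat_lit 260) (nat_lit 264)))))) (n (nat_lit 283) (b (n (nat_lit 262) (b (l (nat_lit 1) (nat_lit 259) (nat_lit 263)) (l (nat_lit 1) (nat_lit 258) (nat_lit 261)))) (l (nat_lit 0) (nat_lit 283) (nat_lit 311))))) (n (nat_lit 283) (b (n (nat_lit 258) (b (l (nat_lit 3) (nat_lit 257) (nat_lit 257)) (l (nat_lit 3) (nat_lit 258) (nat_lit 259)))) (l (nat_lit 0) (nat_lit 283) (nat_lit 311)))))) (n (nat_lit 284) (b (b (n (nat_lit 288) (b (n (nat_lit 259) (b (l (nat_lit 3)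 (nat_lit 258) (nat_lit 258)) (l (nat_lit 3) (nat_lit 259) (nat_lit 260)))) (n (nat_lit 309) (b (l (nat_lit 2) (nat_lit 283) (nat_lit 308)) (l (nat_lit 2) (nat_lit 284) (nat_lit 310)))))) (n (nat_lit 283) (b (n (nat_lit 308) (b (l (nat_lit 2) (nat_lit 283) (nat_lit 309)) (l (nat_lit 2) (nat_lit 282) (nat_lit 307)))) (n (nat_lit 262) (b (l (nat_lit 1) (nat_lit 259) (nat_lit 263)) (l (nat_lit 1) (nat_lit 258) (nat_lit 261))))))) (n (nat_lit 283) (b (n (nat_lit 262) (b (l (nat_lit 1) (nat_lit 259) (nat_lit 263)) (l (nat_lit 1) (nat_lit 258) (nat_lit 261)))) (n (nat_lit 258) (b (l (nat_lit 3) (nat_lit 257) (nat_lit 257)) (l (nat_lit 3) (nat_lit 258) (nat_lit 259)))))))))) (r (nat_lit 0)))) (r (nat_lit 1))) (b (r (nat_lit 2)) (n (nat_lit 337) (b (b (n (nat_lit 262) (b (b (n (nat_lit 263) (b (n (nat_lit 264) (b (n (nat_lit 285) (b (l (nat_lit 2) (nat_lit 260) (nat_lit 261)) (l (nat_lit 1) (nat_lit 259) (nat_lit 284)))) (l (nat_lit 2) (nat_lit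 261) (nat_lit 265)))) (l (nat_lit 5) (nat_lit 237) (nat_lit 238)))) (n (nat_lit 237) (b (n (nat_lit 238) (b (l (nat_lit 5) (nat_lit 237) (nat_lit 263)) (l (nat_lit 5) (nat_lit 212) (nat_lit 213)))) (n (nat_lit 336) (b (l (nat_lit 6) (nat_lit 261) (nat_lit 361)) (l (nat_lit 6) (nat_lit 236) (nat_lit 311))))))) (n (nat_lit 336) (b (n (nat_lit 311) (b (n (nat_lit 335) (b (n (nat_lit 360) (b (n (nat_lit 385) (b (l (nat_lit 5) (nat_lit 310) (nat_lit 410)) (l (nat_lit 5) (nat_lit 285) (nat_lit 310)))) (l (nat_lit 6) (nat_lit 260) (nat_lit 261)))) (n (nat_lit 334) (b (l (nat_lit 1) (nat_lit 308) (nat_lit 333)) (l (nat_lit 1) (nat_lit 309) (nat_lit 313)))))) (l (nat_lit 6) (nat_lit 236) (nat_lit 237)))) (l (nat_lit 6) (nat_lit 261) (nat_lit 361)))))) (n (nat_lit 362) (b (n (nat_lit 387) (b (n (nat_lit 388) (b (l (nat_lit 4) (nat_lit 312) (nat_lit 413)) (l (nat_lit 4) (nat_lit 287) (nat_lit 363)))) (l (nat_lit 7) (nat_lit 286) (nat_lit 311))))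 (l (nat_lit 7) (nat_lit 261) (nat_lit 261))))) (b (n (nat_lit 362) (b (n (nat_lit 387) (b (n (nat_lit 388) (b (l (nat_lit 4) (nat_lit 312) (nat_lit 413)) (l (nat_lit 4) (nat_lit 287) (nat_lit 363)))) (n (nat_lit 386) (b (l (nat_lit 6) (nat_lit 311) (nat_lit 411)) (l (nat_lit 6) (nat_lit 286) (nat_lit 361)))))) (l (nat_lit 7) (nat_lit 261) (nat_lit 261)))) (n (nat_lit 362) (b (b (n (nat_lit 387) (b (n (nat_lit 388) (b (l (nat_lit 4) (nat_lit 312) (nat_lit 413)) (l (nat_lit 4) (nat_lit 287) (nat_lit 363)))) (l (nat_lit 7) (nat_lit 286) (nat_lit 311)))) (n (nat_lit 387) (b (n (nat_lit 386) (b (l (nat_lit 6) (nat_lit 311) (nat_lit 411)) (l (nat_lit 6) (nat_lit 286) (nat_lit 361)))) (l (nat_lit 7) (nat_lit 286) (nat_lit 311))))) (n (nat_lit 361) (b (n (nat_lit 363) (b (n (nat_lit 336) (b (n (nat_lit 335) (b (l (nat_lit 3) (nat_lit 335) (nat_lit 364)) (l (nat_lit 0) (nat_lit 334) (nat_lit 334)))) (l (nat_lit 6) (nat_lit 261) (nat_lit 262))))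 (l (nat_lit 4) (nat_lit 287) (nat_lit 388)))) (l (nat_lit 6) (nat_lit 286) (nat_lit 386))))))))))) (b (b (n (nat_lit 285) (b (b (n (nat_lit 284) (b (b (n (nat_lit 288) (b (n (nat_lit 259) (b (l (nat_lit 3) (nat_lit 258) (nat_lit 258)) (l (nat_lit 3) (nat_lit 259) (nat_lit 260)))) (n (nat_lit 263) (b (l (nat_lit 1) (nat_lit 259) (nat_lit 262)) (l (nat_lit 1) (nat_lit 260) (nat_lit 264)))))) (n (nat_lit 283) (b (n (nat_lit 262) (b (l (nat_lit 1) (nat_lit 259) (nat_lit 263)) (l (nat_lit 1) (nat_lit 258) (nat_lit 261)))) (l (nat_lit 0) (nat_lit 283) (nat_lit 311))))) (n (nat_lit 283) (b (n (nat_lit 258) (b (l (nat_lit 3) (nat_lit 257) (nat_lit 257)) (l (nat_lit 3) (nat_lit 258) (nat_lit 259)))) (l (nat_lit 0) (nat_lit 283) (nat_lit 311)))))) (n (nat_lit 288) (b (b (n (nat_lit 289) (b (n (nat_lit 260) (b (l (nat_lit 3) (nat_lit 260) (nat_lit 261)) (l (nat_lit 3) (nat_lit 259) (nat_lit 259)))) (n (nat_lit 314) (b (l (nat_lit 0) (nat_lit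 286) (nat_lit 315)) (l (nat_lit 0) (nat_lit 285) (nat_lit 313)))))) (n (nat_lit 263) (b (n (nat_lit 238) (b (n (nat_lit 337) (b (l (nat_lit 6) (nat_lit 237) (nat_lit 313)) (l (nat_lit 5) (nat_lit 262) (nat_lit 362)))) (l (nat_lit 6) (nat_lit 212) (nat_lit 213)))) (l (nat_lit 1) (nat_lit 260) (nat_lit 264))))) (n (nat_lit 289) (b (n (nat_lit 264) (b (l (nat_lit 1) (nat_lit 261) (nat_lit 265)) (l (nat_lit 1) (nat_lit 260) (nat_lit 263)))) (n (nat_lit 260) (b (l (nat_lit 3) (nat_lit 260) (nat_lit 261)) (l (nat_lit 3) (nat_lit 259) (nat_lit 259))))))))) (n (nat_lit 313) (b (n (nat_lit 314) (b (l (nat_lit 3) (nat_lit 285) (nat_lit 311)) (l (nat_lit 3) (nat_lit 286) (nat_lit 315)))) (l (nat_lit 0) (nat_lit 284) (nat_lit 284)))))) (n (nat_lit 285) (b (b (n (nat_lit 284) (b (n (nat_lit 283) (b (n (nat_lit 308) (b (l (nat_lit 2) (nat_lit 283) (nat_lit 309)) (l (nat_lit 2) (nat_lit 282) (nat_lit 307)))) (n (nat_lit 258) (b (l (nat_lit 3) (nat_lit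 257) (nat_lit 257)) (l (nat_lit 3) (nat_lit 258) (nat_lit 259)))))) (l (nat_lit 0) (nat_lit 284) (nat_lit 313)))) (n (nat_lit 284) (b (n (nat_lit 283) (b (n (nat_lit 308) (b (l (nat_lit 2) (nat_lit 283) (nat_lit 309)) (l (nat_lit 2) (nat_lit 282) (nat_lit 307)))) (n (nat_lit 262) (b (l (nat_lit 1) (nat_lit 259) (nat_lit 263)) (l (nat_lit 1) (nat_lit 258) (nat_lit 261)))))) (l (nat_lit 0) (nat_lit 284) (nat_lit 313))))) (b (n (nat_lit 284) (b (b (n (nat_lit 288) (b (n (nat_lit 259) (b (l (nat_lit 3) (nat_lit 258) (nat_lit 258)) (l (nat_lit 3) (nat_lit 259) (nat_lit 260)))) (n (nat_lit 309) (b (l (nat_lit 2) (nat_lit 283) (nat_lit 308)) (l (nat_lit 2) (nat_lit 284) (nat_lit 310)))))) (n (nat_lit 283) (b (n (nat_lit 308) (b (l (nat_lit 2) (nat_lit 283) (nat_lit 309)) (l (nat_lit 2) (nat_lit 282) (nat_lit 307)))) (n (nat_lit 262) (b (l (nat_lit 1) (nat_lit 259) (nat_lit 263)) (l (nat_lit 1) (nat_lit 258) (nat_lit 261))))))) (n (nat_lit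 283) (b (n (nat_lit 262) (b (l (nat_lit 1) (nat_lit 259) (nat_lit 263)) (l (nat_lit 1) (nat_lit 258) (nat_lit 261)))) (n (nat_lit 258) (b (l (nat_lit 3) (nat_lit 257) (nat_lit 257)) (l (nat_lit 3) (nat_lit 258) (nat_lit 259)))))))) (n (nat_lit 288) (b (b (n (nat_lit 289) (b (n (nat_lit 260) (b (l (nat_lit 3) (nat_lit 260) (nat_lit 261)) (l (nat_lit 3) (nat_lit 259) (nat_lit 259)))) (n (nat_lit 314) (b (l (nat_lit 0) (nat_lit 286) (nat_lit 315)) (l (nat_lit 0) (nat_lit 285) (nat_lit 313)))))) (n (nat_lit 263) (b (n (nat_lit 238) (b (n (nat_lit 337) (b (l (nat_lit 6) (nat_lit 237) (nat_lit 313)) (l (nat_lit 5) (nat_lit 262) (nat_lit 362)))) (l (nat_lit 6) (nat_lit 212) (nat_lit 213)))) (l (nat_lit 1) (nat_lit 260) (nat_lit 264))))) (n (nat_lit 289) (b (n (nat_lit 264) (b (l (nat_lit 1) (nat_lit 261) (nat_lit 265)) (l (nat_lit 1) (nat_lit 260) (nat_lit 263)))) (n (nat_lit 260) (b (l (nat_lit 3) (nat_lit 260) (nat_lit 261)) (l (nat_lit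 3) (nat_lit 259) (nat_lit 259)))))))))))) (b (n (nat_lit 285) (b (b (n (nat_lit 288) (b (b (n (nat_lit 289) (b (n (nat_lit 310) (b (l (nat_lit 2) (nat_lit 284) (nat_lit 309)) (l (nat_lit 2) (nat_lit 285) (nat_lit 311)))) (n (nat_lit 264) (b (l (nat_lit 1) (nat_lit 261) (nat_lit 265)) (l (nat_lit 1) (nat_lit 260) (nat_lit 263)))))) (n (nat_lit 263) (b (n (nat_lit 238) (b (n (nat_lit 337) (b (l (nat_lit 6) (nat_lit 237) (nat_lit 313)) (l (nat_lit 5) (nat_lit 262) (nat_lit 362)))) (l (nat_lit 6) (nat_lit 212) (nat_lit 213)))) (l (nat_lit 1) (nat_lit 260) (nat_lit 264))))) (n (nat_lit 289) (b (n (nat_lit 310) (b (l (nat_lit 2) (nat_lit 284) (nat_lit 309)) (l (nat_lit 2) (nat_lit 285) (nat_lit 311)))) (n (nat_lit 314) (b (l (nat_lit 0) (nat_lit 286) (nat_lit 315)) (l (nat_lit 0) (nat_lit 285) (nat_lit 313)))))))) (n (nat_lit 284) (b (n (nat_lit 283) (b (n (nat_lit 258) (b (l (nat_lit 3) (nat_lit 257) (nat_lit 257)) (l (nat_lit 3) (nat_lit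 258) (nat_lit 259)))) (l (nat_lit 0) (nat_lit 283) (nat_lit 311)))) (l (nat_lit 0) (nat_lit 284) (nat_lit 313))))) (b (n (nat_lit 284) (b (n (nat_lit 283) (b (n (nat_lit 308) (b (l (nat_lit 2) (nat_lit 283) (nat_lit 309)) (l (nat_lit 2) (nat_lit 282) (nat_lit 307)))) (n (nat_lit 258) (b (l (nat_lit 3) (nat_lit 257) (nat_lit 257)) (l (nat_lit 3) (nat_lit 258) (nat_lit 259)))))) (l (nat_lit 0) (nat_lit 284) (nat_lit 313)))) (n (nat_lit 284) (b (b (n (nat_lit 283) (b (n (nat_lit 258) (b (l (nat_lit 3) (nat_lit 257) (nat_lit 257)) (l (nat_lit 3) (nat_lit 258) (nat_lit 259)))) (l (nat_lit 0) (nat_lit 283) (nat_lit 311)))) (n (nat_lit 283) (b (n (nat_lit 308) (b (l (nat_lit 2) (nat_lit 283) (nat_lit 309)) (l (nat_lit 2) (nat_lit 282) (nat_lit 307)))) (l (nat_lit 0) (nat_lit 283) (nat_lit 311))))) (n (nat_lit 309) (b (n (nat_lit 259) (b (n (nat_lit 310) (b (n (nat_lit 234) (b (l (nat_lit 4) (nat_lit 234) (nat_lit 335)) (l (nat_lit 4) (nat_lit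 209) (nat_lit 209)))) (l (nat_lit 2) (nat_lit 284) (nat_lit 288)))) (l (nat_lit 3) (nat_lit 258) (nat_lit 258)))) (l (nat_lit 2) (nat_lit 283) (nat_lit 308))))))))) (n (nat_lit 288) (b (b (r (nat_lit 3)) (n (nat_lit 263) (b (n (nat_lit 337) (b (n (nat_lit 238) (b (l (nat_lit 6) (nat_lit 212) (nat_lit 213)) (l (nat_lit 5) (nat_lit 237) (nat_lit 262)))) (l (nat_lit 5) (nat_lit 262) (nat_lit 362)))) (n (nat_lit 264) (b (n (nat_lit 265) (b (l (nat_lit 1) (nat_lit 261) (nat_lit 289)) (l (nat_lit 2) (nat_lit 262) (nat_lit 266)))) (l (nat_lit 1) (nat_lit 260) (nat_lit 285))))))) (b (n (nat_lit 263) (b (n (nat_lit 264) (b (n (nat_lit 265) (b (l (nat_lit 2) (nat_lit 261) (nat_lit 262)) (l (nat_lit 2) (nat_lit 262) (nat_lit 266)))) (l (nat_lit 1) (nat_lit 260) (nat_lit 285)))) (n (nat_lit 238) (b (n (nat_lit 337) (b (l (nat_lit 6) (nat_lit 237) (nat_lit 313)) (l (nat_lit 5) (nat_lit 262) (nat_lit 362)))) (l (nat_lit 6) (nat_lit 212) (nat_lit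 213)))))) (n (nat_lit 289) (b (n (nat_lit 285) (b (n (nat_lit 314) (b (l (nat_lit 0) (nat_lit 286) (nat_lit 315)) (l (nat_lit 0) (nat_lit 285) (nat_lit 313)))) (n (nat_lit 260) (b (l (nat_lit 3) (nat_lit 260) (nat_lit 261)) (l (nat_lit 3) (nat_lit 259) (nat_lit 259)))))) (n (nat_lit 311) (b (l (nat_lit 2) (nat_lit 285) (nat_lit 310)) (l (nat_lit 2) (nat_lit 286) (nat_lit 290)))))))))))) (r (nat_lit 4))))
    (envOK_cons p3063 (envOK_cons p5431 (envOK_cons p5433 (envOK_cons p5450 (envOK_cons p5686 envOK_nil))))) (by decide +kernel)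

theorem p5722 : Fam (nat_lit 14) (nat_lit 8343699607727673214248874617415937021077234590683750281279490000787534250410375654793883418624) (nat_lit 29086463808831199105514018276193751575701203316025857997045527504096369971715710739471401409212610949581769461297587765116928) (nat_lit 29086463808831199105514018276193751575701203316025857997045527504096369971715710739471401409212610949581769461297587765116928) :=
  chk_sound (Env.cons (nat_lit 8) (nat_lit 279968101115925134047353499319930152181142708231565782546248918899963984685054368582985341452834308096) (nat_lit 26442239854866187913400038420424076345466214585943994962730578188198344802716823383997683030028551990322878313530065353179136) (Env.cons (nat_lit 5) (nat_lit 139984046386113011821513927631682756847530231060389816355094287076735219651487445306377147898390380544) (nat_lit 139984050557962932245487310478459590025540078890745840084871540760756448615402645069946584514605088768)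 (Env.cons (nat_lit 9) (nat_lit 279968101115925258378188539194579849854479624837417753751645750713458448287393430371677367127217537024) (nat_lit 2644223953965015889199670343605907071320827247424103543680572966728647747539060294371412434694473747213087207561565671784448) Env.nil)))
    (n (nat_lit 337) (b (b (b (r (nat_lit 0)) (n (nat_lit 362) (b (b (n (nat_lit 361) (b (n (nat_lit 363) (b (n (nat_lit 336) (b (n (nat_lit 335) (b (l (nat_lit 3) (nat_lit 335) (nat_lit 364)) (l (nat_lit 0) (nat_lit 334) (nat_lit 334)))) (l (nat_lit 6) (nat_lit 261) (nat_lit 262)))) (l (nat_lit 4) (nat_lit 287) (nat_lit 388)))) (l (nat_lit 6) (nat_lit 286) (nat_lit 386)))) (n (nat_lit 387) (b (n (nat_lit 288) (b (l (nat_lit 5) (nat_lit 262) (nat_lit 263)) (l (nat_lit 5) (nat_lit 287) (nat_lit 313)))) (n (nat_lit 386) (b (l (nat_lit 6) (nat_lit 311) (nat_lit 411)) (l (nat_lit 6) (nat_lit 286) (nat_lit 361))))))) (n (nat_lit 387) (b (n (nat_lit 288) (b (l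 (nat_lit 5) (nat_lit 262) (nat_lit 263)) (l (nat_lit 5) (nat_lit 287) (nat_lit 313)))) (n (nat_lit 388) (b (l (nat_lit 4) (nat_lit 312) (nat_lit 413)) (l (nat_lit 4) (nat_lit 287) (nat_lit 363))))))))) (b (n (nat_lit 362) (b (b (n (nat_lit 387) (b (n (nat_lit 288) (b (l (nat_lit 5) (nat_lit 262) (nat_lit 263)) (l (nat_lit 5) (nat_lit 287) (nat_lit 313)))) (n (nat_lit 388) (b (l (nat_lit 4) (nat_lit 312) (nat_lit 413)) (l (nat_lit 4) (nat_lit 287) (nat_lit 363)))))) (n (nat_lit 387) (b (n (nat_lit 286) (b (l (nat_lit 7) (nat_lit 261) (nat_lit 261)) (l (nat_lit 7) (nat_lit 286) (nat_lit 311)))) (n (nat_lit 388) (b (l (nat_lit 4) (nat_lit 312) (nat_lit 413)) (l (nat_lit 4) (nat_lit 287) (nat_lit 363))))))) (n (nat_lit 262) (b (n (nat_lit 261) (b (l (nat_lit 7) (nat_lit 261) (nat_lit 286)) (l (nat_lit 7) (nat_lit 236) (nat_lit 236)))) (n (nat_lit 263) (b (l (nat_lit 5) (nat_lit 237) (nat_lit 238)) (l (nat_lit 5) (nat_lit 262) (nat_lit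 288)))))))) (n (nat_lit 362) (b (b (n (nat_lit 387) (b (n (nat_lit 388) (b (l (nat_lit 4) (nat_lit 312) (nat_lit 413)) (l (nat_lit 4) (nat_lit 287) (nat_lit 363)))) (n (nat_lit 386) (b (l (nat_lit 6) (nat_lit 311) (nat_lit 411)) (l (nat_lit 6) (nat_lit 286) (nat_lit 361)))))) (n (nat_lit 262) (b (n (nat_lit 261) (b (l (nat_lit 7) (nat_lit 261) (nat_lit 286)) (l (nat_lit 7) (nat_lit 236) (nat_lit 236)))) (n (nat_lit 361) (b (l (nat_lit 6) (nat_lit 286) (nat_lit 386)) (l (nat_lit 6) (nat_lit 261) (nat_lit 336))))))) (n (nat_lit 387) (b (n (nat_lit 286) (b (l (nat_lit 7) (nat_lit 261) (nat_lit 261)) (l (nat_lit 7) (nat_lit 286) (nat_lit 311)))) (n (nat_lit 388) (b (l (nat_lit 4) (nat_lit 312) (nat_lit 413)) (l (nat_lit 4) (nat_lit 287) (nat_lit 363)))))))))) (n (nat_lit 263) (b (b (n (nat_lit 262) (b (n (nat_lit 264) (b (b (n (nat_lit 265) (b (n (nat_lit 266) (b (n (nat_lit 291) (b (l (nat_lit 0) (nat_lit 262) (nat_lit 290)) (l (nat_lit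 0) (nat_lit 263) (nat_lit 292)))) (n (nat_lit 241) (b (l (nat_lit 1) (nat_lit 238) (nat_lit 242)) (l (nat_lit 1) (nat_lit 237) (nat_lit 240)))))) (l (nat_lit 2) (nat_lit 261) (nat_lit 286)))) (n (nat_lit 261) (b (n (nat_lit 265) (b (n (nat_lit 240) (b (l (nat_lit 1) (nat_lit 236) (nat_lit 239)) (l (nat_lit 1) (nat_lit 237) (nat_lit 241)))) (n (nat_lit 290) (b (l (nat_lit 0) (nat_lit 262) (nat_lit 291)) (l (nat_lit 0) (nat_lit 261) (nat_lit 289)))))) (l (nat_lit 7) (nat_lit 236) (nat_lit 236))))) (n (nat_lit 261) (b (n (nat_lit 336) (b (r (nat_lit 1)) (l (nat_lit 6) (nat_lit 261) (nat_lit 361)))) (l (nat_lit 7) (nat_lit 236) (nat_lit 236)))))) (l (nat_lit 5) (nat_lit 237) (nat_lit 238)))) (n (nat_lit 288) (b (n (nat_lit 238) (b (l (nat_lit 6) (nat_lit 237) (nat_lit 313)) (l (nat_lit 6) (nat_lit 212) (nat_lit 213)))) (n (nat_lit 286) (b (b (n (nat_lit 289) (b (n (nat_lit 311) (b (l (nat_lit 2) (nat_lit 285) (nat_lit 310)) (l (nat_lit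 2) (nat_lit 286) (nat_lit 290)))) (n (nat_lit 264) (b (l (nat_lit 1) (nat_lit 261) (nat_lit 265)) (l (nat_lit 1) (nat_lit 260) (nat_lit 285)))))) (n (nat_lit 261) (b (n (nat_lit 236) (b (l (nat_lit 4) (nat_lit 236) (nat_lit 311)) (l (nat_lit 4) (nat_lit 211) (nat_lit 211)))) (n (nat_lit 260) (b (n (nat_lit 259) (b (l (nat_lit 3) (nat_lit 259) (nat_lit 285)) (l (nat_lit 0) (nat_lit 258) (nat_lit 258)))) (l (nat_lit 3) (nat_lit 260) (nat_lit 289))))))) (b (n (nat_lit 289) (b (n (nat_lit 261) (b (n (nat_lit 236) (b (l (nat_lit 4) (nat_lit 236) (nat_lit 311)) (l (nat_lit 4) (nat_lit 211) (nat_lit 211)))) (l (nat_lit 3) (nat_lit 260) (nat_lit 260)))) (n (nat_lit 290) (b (n (nat_lit 265) (b (l (nat_lit 1) (nat_lit 261) (nat_lit 264)) (l (nat_lit 1) (nat_lit 262) (nat_lit 266)))) (n (nat_lit 315) (b (l (nat_lit 0) (nat_lit 287) (nat_lit 316)) (l (nat_lit 0) (nat_lit 286) (nat_lit 314)))))))) (n (nat_lit 285) (b (n (nat_lit 284) (b (n (nat_lit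 259) (b (l (nat_lit 3) (nat_lit 258) (nat_lit 258)) (l (nat_lit 3) (nat_lit 259) (nat_lit 260)))) (n (nat_lit 309) (b (l (nat_lit 2) (nat_lit 283) (nat_lit 308)) (l (nat_lit 2) (nat_lit 284) (nat_lit 310)))))) (l (nat_lit 1) (nat_lit 260) (nat_lit 264)))))))))) (b (n (nat_lit 238) (b (n (nat_lit 288) (b (l (nat_lit 6) (nat_lit 212) (nat_lit 213)) (l (nat_lit 6) (nat_lit 237) (nat_lit 313)))) (l (nat_lit 5) (nat_lit 237) (nat_lit 262)))) (n (nat_lit 261) (b (b (b (n (nat_lit 262) (b (n (nat_lit 260) (b (n (nat_lit 288) (b (l (nat_lit 0) (nat_lit 260) (nat_lit 289)) (l (nat_lit 0) (nat_lit 259) (nat_lit 259)))) (n (nat_lit 336) (b (n (nat_lit 285) (b (n (nat_lit 235) (b (n (nat_lit 310) (b (n (nat_lit 334) (b (n (nat_lit 335) (b (l (nat_lit 6) (nat_lit 259) (nat_lit 359)) (l (nat_lit 1) (nat_lit 309) (nat_lit 313)))) (l (nat_lit 6) (nat_lit 234) (nat_lit 309)))) (l (nat_lit 4) (nat_lit 235) (nat_lit 311)))) (l (nat_lit 3) (nat_lit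 234) (nat_lit 234)))) (l (nat_lit 2) (nat_lit 259) (nat_lit 284)))) (l (nat_lit 6) (nat_lit 261) (nat_lit 361)))))) (l (nat_lit 7) (nat_lit 236) (nat_lit 236)))) (n (nat_lit 286) (b (n (nat_lit 236) (b (l (nat_lit 4) (nat_lit 236) (nat_lit 311)) (l (nat_lit 4) (nat_lit 211) (nat_lit 211)))) (n (nat_lit 285) (b (b (n (nat_lit 288) (b (n (nat_lit 260) (b (l (nat_lit 3) (nat_lit 260) (nat_lit 289)) (l (nat_lit 3) (nat_lit 259) (nat_lit 259)))) (l (nat_lit 1) (nat_lit 260) (nat_lit 264)))) (n (nat_lit 284) (b (n (nat_lit 283) (b (n (nat_lit 308) (b (l (nat_lit 2) (nat_lit 283) (nat_lit 309)) (l (nat_lit 2) (nat_lit 282) (nat_lit 307)))) (n (nat_lit 258) (b (l (nat_lit 3) (nat_lit 257) (nat_lit 257)) (l (nat_lit 3) (nat_lit 258) (nat_lit 259)))))) (l (nat_lit 0) (nat_lit 284) (nat_lit 313))))) (n (nat_lit 288) (b (n (nat_lit 313) (b (l (nat_lit 0) (nat_lit 284) (nat_lit 284)) (l (nat_lit 0) (nat_lit 285) (nat_lit 314)))) (l (nat_lit 1)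 (nat_lit 260) (nat_lit 264))))))))) (b (n (nat_lit 262) (b (n (nat_lit 264) (b (b (n (nat_lit 265) (b (n (nat_lit 240) (b (l (nat_lit 1) (nat_lit 236) (nat_lit 239)) (l (nat_lit 1) (nat_lit 237) (nat_lit 241)))) (n (nat_lit 290) (b (l (nat_lit 0) (nat_lit 262) (nat_lit 291)) (l (nat_lit 0) (nat_lit 261) (nat_lit 289)))))) (n (nat_lit 286) (b (l (nat_lit 2) (nat_lit 260) (nat_lit 285)) (l (nat_lit 2) (nat_lit 261) (nat_lit 265))))) (n (nat_lit 260) (b (n (nat_lit 285) (b (l (nat_lit 2) (nat_lit 259) (nat_lit 284)) (l (nat_lit 2) (nat_lit 260) (nat_lit 286)))) (n (nat_lit 289) (b (l (nat_lit 0) (nat_lit 261) (nat_lit 290)) (l (nat_lit 0) (nat_lit 260) (nat_lit 288)))))))) (l (nat_lit 7) (nat_lit 236) (nat_lit 236)))) (n (nat_lit 236) (b (n (nat_lit 286) (b (l (nat_lit 4) (nat_lit 236) (nat_lit 311)) (l (nat_lit 4) (nat_lit 211) (nat_lit 211)))) (l (nat_lit 7) (nat_lit 236) (nat_lit 262)))))) (n (nat_lit 262) (b (b (b (n (nat_lit 264)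 (b (n (nat_lit 336) (b (r (nat_lit 1)) (l (nat_lit 6) (nat_lit 261) (nat_lit 361)))) (n (nat_lit 265) (b (n (nat_lit 266) (b (n (nat_lit 291) (b (l (nat_lit 0) (nat_lit 262) (nat_lit 290)) (l (nat_lit 0) (nat_lit 263) (nat_lit 292)))) (l (nat_lit 2) (nat_lit 262) (nat_lit 288)))) (n (nat_lit 240) (b (l (nat_lit 1) (nat_lit 236) (nat_lit 239)) (l (nat_lit 1) (nat_lit 237) (nat_lit 241)))))))) (n (nat_lit 260) (b (n (nat_lit 288) (b (l (nat_lit 0) (nat_lit 260) (nat_lit 289)) (l (nat_lit 0) (nat_lit 259) (nat_lit 259)))) (n (nat_lit 336) (b (n (nat_lit 286) (b (n (nat_lit 264) (b (l (nat_lit 2) (nat_lit 260) (nat_lit 285)) (l (nat_lit 2) (nat_lit 261) (nat_lit 265)))) (n (nat_lit 235) (b (l (nat_lit 7) (nat_lit 235) (nat_lit 311)) (l (nat_lit 3) (nat_lit 234) (nat_lit 234)))))) (l (nat_lit 6) (nat_lit 261) (nat_lit 361))))))) (b (n (nat_lit 260) (b (b (n (nat_lit 288) (b (l (nat_lit 0) (nat_lit 260) (nat_lit 289)) (l (nat_lit 0) (nat_lit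 259) (nat_lit 259)))) (n (nat_lit 264) (b (n (nat_lit 265) (b (n (nat_lit 240) (b (l (nat_lit 1) (nat_lit 236) (nat_lit 239)) (l (nat_lit 1) (nat_lit 237) (nat_lit 241)))) (l (nat_lit 2) (nat_lit 261) (nat_lit 286)))) (n (nat_lit 289) (b (l (nat_lit 0) (nat_lit 261) (nat_lit 290)) (l (nat_lit 0) (nat_lit 260) (nat_lit 288))))))) (n (nat_lit 259) (b (n (nat_lit 258) (b (n (nat_lit 283) (b (l (nat_lit 2) (nat_lit 257) (nat_lit 282)) (l (nat_lit 2) (nat_lit 258) (nat_lit 284)))) (l (nat_lit 0) (nat_lit 258) (nat_lit 286)))) (n (nat_lit 234) (b (l (nat_lit 3) (nat_lit 234) (nat_lit 235)) (l (nat_lit 3) (nat_lit 233) (nat_lit 233)))))))) (n (nat_lit 260) (b (n (nat_lit 288) (b (l (nat_lit 0) (nat_lit 260) (nat_lit 289)) (l (nat_lit 0) (nat_lit 259) (nat_lit 259)))) (n (nat_lit 336) (b (n (nat_lit 285) (b (n (nat_lit 235) (b (n (nat_lit 310) (b (n (nat_lit 334) (b (n (nat_lit 335) (b (l (nat_lit 6) (nat_lit 259) (nat_lit 359)) (l (nat_lit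 1) (nat_lit 309) (nat_lit 313)))) (l (nat_lit 6) (nat_lit 234) (nat_lit 309)))) (l (nat_lit 4) (nat_lit 235) (nat_lit 311)))) (l (nat_lit 3) (nat_lit 234) (nat_lit 234)))) (l (nat_lit 2) (nat_lit 259) (nat_lit 284)))) (l (nat_lit 6) (nat_lit 261) (nat_lit 361)))))))) (b (b (n (nat_lit 336) (b (n (nat_lit 264) (b (n (nat_lit 265) (b (n (nat_lit 240) (b (l (nat_lit 1) (nat_lit 236) (nat_lit 239)) (l (nat_lit 1) (nat_lit 237) (nat_lit 241)))) (n (nat_lit 290) (b (l (nat_lit 0) (nat_lit 262) (nat_lit 291)) (l (nat_lit 0) (nat_lit 261) (nat_lit 289)))))) (r (nat_lit 1)))) (l (nat_lit 6) (nat_lit 261) (nat_lit 361)))) (n (nat_lit 286) (b (b (n (nat_lit 264) (b (l (nat_lit 2) (nat_lit 260) (nat_lit 285)) (l (nat_lit 2) (nat_lit 261) (nat_lit 265)))) (r (nat_lit 2))) (n (nat_lit 285) (b (n (nat_lit 336) (b (n (nat_lit 313) (b (n (nat_lit 335) (b (n (nat_lit 360) (b (l (nat_lit 5) (nat_lit 260) (nat_lit 310)) (l (nat_lit 6) (nat_lit 260)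 (nat_lit 311)))) (l (nat_lit 1) (nat_lit 309) (nat_lit 334)))) (n (nat_lit 314) (b (l (nat_lit 0) (nat_lit 285) (nat_lit 288)) (l (nat_lit 3) (nat_lit 286) (nat_lit 315)))))) (l (nat_lit 6) (nat_lit 261) (nat_lit 361)))) (l (nat_lit 1) (nat_lit 259) (nat_lit 284))))))) (n (nat_lit 264) (b (b (n (nat_lit 265) (b (n (nat_lit 240) (b (l (nat_lit 1) (nat_lit 236) (nat_lit 239)) (l (nat_lit 1) (nat_lit 237) (nat_lit 241)))) (n (nat_lit 290) (b (l (nat_lit 0) (nat_lit 262) (nat_lit 291)) (l (nat_lit 0) (nat_lit 261) (nat_lit 289)))))) (n (nat_lit 286) (b (l (nat_lit 2) (nat_lit 260) (nat_lit 285)) (l (nat_lit 2) (nat_lit 261) (nat_lit 265))))) (n (nat_lit 260) (b (n (nat_lit 285) (b (l (nat_lit 2) (nat_lit 259) (nat_lit 284)) (l (nat_lit 2) (nat_lit 260) (nat_lit 286)))) (n (nat_lit 289) (b (l (nat_lit 0) (nat_lit 261) (nat_lit 290)) (l (nat_lit 0) (nat_lit 260) (nat_lit 288))))))))))))))))))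
    (envOK_cons p5176 (envOK_cons p5242 (envOK_cons p4930 envOK_nil))) (by decide +kernel)

theorem p5733 : Fam (nat_lit 8) (nat_lit 8343699794223886867918865425684280076135049628354806830284884040961525585345187034493899243520) (nat_lit 236412045398266457420520334645131071459220200563267943144607193224534365559203534871644115177469829366504482450440192) (nat_lit 236412045398266457420520334645131071459220200563267943144607193224534365559203534871644115177469829366504482450440192) :=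
  chk_sound Env.nil
    (n (nat_lit 309) (b (b (n (nat_lit 284) (b (n (nat_lit 311) (b (n (nat_lit 336) (b (b (n (nat_lit 361) (b (l (nat_lit 5) (nat_lit 286) (nat_lit 386)) (l (nat_lit 7) (nat_lit 260) (nat_lit 260)))) (n (nat_lit 261) (b (n (nat_lit 334) (b (n (nat_lit 260) (b (l (nat_lit 7) (nat_lit 235) (nat_lit 235)) (l (nat_lit 5) (nat_lit 259) (nat_lit 359)))) (n (nat_lit 335) (b (l (nat_lit 6) (nat_lit 260) (nat_lit 360)) (l (nat_lit 1) (nat_lit 308) (nat_lit 333)))))) (n (nat_lit 236) (b (l (nat_lit 4) (nat_lit 236) (nat_lit 337)) (l (nat_lit 4) (nat_lit 211) (nat_lit 211))))))) (n (nat_lit 261) (b (n (nat_lit 361) (b (n (nat_lit 360) (b (l (nat_lit 6) (nat_lit 285) (nat_lit 385)) (l (nat_lit 6) (nat_lit 260) (nat_lit 335)))) (l (nat_lit 5) (nat_lit 286) (nat_lit 386)))) (n (nat_lit 236) (b (l (nat_lit 4) (nat_lit 236) (nat_lit 337)) (l (nat_lit 4) (nat_lit 211) (nat_lit 211)))))))) (l (nat_lit 0) (nat_lit 283) (nat_lit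 283)))) (l (nat_lit 2) (nat_lit 283) (nat_lit 308)))) (n (nat_lit 308) (b (n (nat_lit 310) (b (l (nat_lit 1) (nat_lit 282) (nat_lit 307)) (l (nat_lit 2) (nat_lit 284) (nat_lit 288)))) (l (nat_lit 2) (nat_lit 283) (nat_lit 284))))) (n (nat_lit 288) (b (n (nat_lit 289) (b (n (nat_lit 290) (b (n (nat_lit 315) (b (l (nat_lit 0) (nat_lit 287) (nat_lit 316)) (l (nat_lit 0) (nat_lit 286) (nat_lit 314)))) (l (nat_lit 2) (nat_lit 286) (nat_lit 311)))) (n (nat_lit 264) (b (l (nat_lit 1) (nat_lit 261) (nat_lit 265)) (l (nat_lit 1) (nat_lit 260) (nat_lit 263)))))) (l (nat_lit 2) (nat_lit 284) (nat_lit 310))))))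
    envOK_nil (by decide +kernel)

theorem p5748 : Fam (nat_lit 7) (nat_lit 435157831858563311885959467128468235087899131947679252760405979781514559885966703591424) (nat_lit 2348542687761871928585085739236790336748215384028234670763023735046918776303349366919117645931533861700763648) (nat_lit 2348542687761871928585085739236790336748215384028234670763023735046918776303349366919117645931533861700763648) :=
  chk_sound Env.nil
    (n (nat_lit 309) (b (b (n (nat_lit 284) (b (n (nat_lit 259) (b (n (nat_lit 260) (b (n (nat_lit 235) (b (l (nat_lit 5) (nat_lit 234) (nat_lit 334)) (l (nat_lit 6) (nat_lit 209) (nat_lit 210)))) (l (nat_lit 3) (nat_lit 259) (nat_lit 288)))) (l (nat_lit 3) (nat_lit 258) (nat_lit 258)))) (l (nat_lit 2) (nat_lit 283) (nat_lit 308)))) (n (nat_lit 288) (b (n (nat_lit 289) (b (n (nat_lit 264) (b (l (nat_lit 1) (nat_lit 261) (nat_lit 265)) (l (nat_lit 1) (nat_lit 260) (nat_lit 263)))) (n (nat_lit 260) (b (l (nat_lit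 3) (nat_lit 260) (nat_lit 261)) (l (nat_lit 3) (nat_lit 259) (nat_lit 259)))))) (l (nat_lit 2) (nat_lit 284) (nat_lit 310))))) (b (n (nat_lit 308) (b (n (nat_lit 310) (b (l (nat_lit 1) (nat_lit 282) (nat_lit 307)) (l (nat_lit 2) (nat_lit 284) (nat_lit 288)))) (l (nat_lit 2) (nat_lit 283) (nat_lit 284)))) (n (nat_lit 284) (b (n (nat_lit 259) (b (n (nat_lit 234) (b (b (n (nat_lit 209) (b (n (nat_lit 208) (b (l (nat_lit 7) (nat_lit 183) (nat_lit 183)) (l (nat_lit 7) (nat_lit 208) (nat_lit 233)))) (n (nat_lit 210) (b (l (nat_lit 5) (nat_lit 184) (nat_lit 185)) (l (nat_lit 5) (nat_lit 209) (nat_lit 235)))))) (n (nat_lit 310) (b (l (nat_lit 4) (nat_lit 209) (nat_lit 209)) (l (nat_lit 4) (nat_lit 234) (nat_lit 335))))) (n (nat_lit 334) (b (n (nat_lit 235) (b (l (nat_lit 5) (nat_lit 209) (nat_lit 210)) (l (nat_lit 5) (nat_lit 234) (nat_lit 260)))) (n (nat_lit 335) (b (l (nat_lit 4) (nat_lit 259) (nat_lit 360)) (l (nat_lit 4) (nat_lit 234)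 (nat_lit 310)))))))) (l (nat_lit 3) (nat_lit 258) (nat_lit 258)))) (l (nat_lit 2) (nat_lit 283) (nat_lit 308)))))))
    envOK_nil (by decide +kernel)

theorem p5751 : Fam (nat_lit 6) (nat_lit 8343699794223886867918865425684280076135049628354806830284884040961525585345187034493899243520) (nat_lit 4697085585499821128187221137209673137240359537535793180741824189611432894514213150577280883078600543224987648) (nat_lit 4697085585499821128187221137209673137240359537535793180741824189611432894514213150577280883078600543224987648) :=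
  chk_sound Env.nil
    (n (nat_lit 284) (b (b (n (nat_lit 311) (b (n (nat_lit 261) (b (n (nat_lit 236) (b (l (nat_lit 4) (nat_lit 236) (nat_lit 337)) (l (nat_lit 4) (nat_lit 211) (nat_lit 211)))) (n (nat_lit 260) (b (n (nat_lit 336) (b (l (nat_lit 7) (nat_lit 235) (nat_lit 235)) (l (nat_lit 7) (nat_lit 260) (nat_lit 361)))) (n (nat_lit 288) (b (l (nat_lit 3) (nat_lit 260) (nat_lit 289)) (l (nat_lit 3) (nat_lit 259) (nat_lit 259)))))))) (l (nat_lit 0) (nat_lit 283) (nat_lit 283)))) (n (nat_lit 288) (b (n (nat_lit 289) (b (n (nat_lit 311) (b (l (nat_lit 2) (nat_lit 285) (nat_lit 310)) (l (nat_lit 2) (nat_lit 286) (nat_lit 290)))) (n (nat_lit 264) (b (l (nat_lit 1) (nat_lit 261) (nat_lit 265)) (l (nat_lit 1) (nat_lit 260) (nat_lit 263)))))) (n (nat_lit 259) (b (l (nat_lit 3) (nat_lit 258) (nat_lit 258)) (l (nat_lit 3) (nat_lit 259) (nat_lit 260))))))) (b (n (nat_lit 283) (b (n (nat_lit 282) (b (n (nat_lit 307) (b (l (nat_lit 2) (nat_lit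 281) (nat_lit 306)) (l (nat_lit 2) (nat_lit 282) (nat_lit 308)))) (n (nat_lit 257) (b (l (nat_lit 3) (nat_lit 256) (nat_lit 256)) (l (nat_lit 3) (nat_lit 257) (nat_lit 258)))))) (l (nat_lit 0) (nat_lit 283) (nat_lit 311)))) (n (nat_lit 283) (b (b (n (nat_lit 282) (b (n (nat_lit 307) (b (l (nat_lit 2) (nat_lit 281) (nat_lit 306)) (l (nat_lit 2) (nat_lit 282) (nat_lit 308)))) (n (nat_lit 260) (b (n (nat_lit 259) (b (l (nat_lit 3) (nat_lit 259) (nat_lit 288)) (l (nat_lit 1) (nat_lit 256) (nat_lit 281)))) (l (nat_lit 1) (nat_lit 257) (nat_lit 261)))))) (n (nat_lit 258) (b (l (nat_lit 3) (nat_lit 257) (nat_lit 257)) (l (nat_lit 3) (nat_lit 258) (nat_lit 259))))) (n (nat_lit 282) (b (n (nat_lit 307) (b (l (nat_lit 2) (nat_lit 281) (nat_lit 306)) (l (nat_lit 2) (nat_lit 282) (nat_lit 308)))) (n (nat_lit 257) (b (l (nat_lit 3) (nat_lit 256) (nat_lit 256)) (l (nat_lit 3) (nat_lit 257) (nat_lit 258)))))))))))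
    envOK_nil (by decide +kernel)

theorem p5752 : Fam (nat_lit 7) (nat_lit 435157831858563311885959467128468235087899131947679252760405979781514559885966703591424) (nat_lit 197010039201871680741899974550101997957782907808075374799462194344975210642256745137957024986374312634051426105950208) (nat_lit 197010039201871680741899974550101997957782907808075374799462194344975210642256745137957024986374312634051426105950208) :=
  chk_sound Env.nil
    (n (nat_lit 288) (b (b (n (nat_lit 310) (b (n (nat_lit 260) (b (n (nat_lit 335) (b (b (n (nat_lit 360) (b (n (nat_lit 359) (b (l (nat_lit 6) (nat_lit 259) (nat_lit 334)) (l (nat_lit 6) (nat_lit 284) (nat_lit 384)))) (n (nat_lit 361) (b (l (nat_lit 4) (nat_lit 285) (nat_lit 386)) (l (nat_lit 4) (nat_lit 260) (nat_lit 336)))))) (n (nat_lit 235) (b (n (nat_lit 236) (b (l (nat_lit 5) (nat_lit 210) (nat_lit 211)) (l (nat_lit 5) (nat_lit 235) (nat_lit 261)))) (n (nat_lit 311) (b (l (nat_lit 4) (nat_lit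 235) (nat_lit 336)) (l (nat_lit 4) (nat_lit 210) (nat_lit 210))))))) (n (nat_lit 261) (b (l (nat_lit 5) (nat_lit 260) (nat_lit 360)) (l (nat_lit 5) (nat_lit 235) (nat_lit 236)))))) (l (nat_lit 3) (nat_lit 259) (nat_lit 259)))) (l (nat_lit 2) (nat_lit 284) (nat_lit 309)))) (n (nat_lit 289) (b (n (nat_lit 310) (b (l (nat_lit 2) (nat_lit 284) (nat_lit 309)) (l (nat_lit 2) (nat_lit 285) (nat_lit 311)))) (n (nat_lit 264) (b (l (nat_lit 1) (nat_lit 261) (nat_lit 265)) (l (nat_lit 1) (nat_lit 260) (nat_lit 263))))))) (n (nat_lit 289) (b (n (nat_lit 264) (b (l (nat_lit 1) (nat_lit 261) (nat_lit 265)) (l (nat_lit 1) (nat_lit 260) (nat_lit 263)))) (n (nat_lit 260) (b (l (nat_lit 3) (nat_lit 260) (nat_lit 261)) (l (nat_lit 3) (nat_lit 259) (nat_lit 259))))))))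
    envOK_nil (by decide +kernel)

theorem p5753 : Fam (nat_lit 6) (nat_lit 8343699794223886867918865425684280076135049628354806830284884040961525585345187034493899243520) (nat_lit 4697085620495831681750998865525659291694710240214469641036612182765974052517683268395059930392286964966490112) (nat_lit 4697085620495831681750998865525659291694710240214469641036612182765974052517683268395059930392286964966490112) :=
  chk_sound Env.nil
    (n (nat_lit 284) (b (b (n (nat_lit 311) (b (n (nat_lit 261) (b (n (nat_lit 236) (b (l (nat_lit 4) (nat_lit 236) (nat_lit 337)) (l (nat_lit 4) (nat_lit 211) (nat_lit 211)))) (n (nat_lit 260) (b (n (nat_lit 336) (b (l (nat_lit 7) (nat_lit 235) (nat_lit 235)) (l (nat_lit 7) (nat_lit 260) (nat_lit 361)))) (n (nat_lit 288) (b (l (nat_lit 3) (nat_lit 260) (nat_lit 289)) (l (nat_lit 3) (nat_lit 259) (nat_lit 259)))))))) (l (nat_lit 0) (nat_lit 283) (nat_lit 283)))) (n (nat_lit 283) (b (n (nat_lit 282) (b (n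 (nat_lit 307) (b (l (nat_lit 2) (nat_lit 281) (nat_lit 306)) (l (nat_lit 2) (nat_lit 282) (nat_lit 308)))) (n (nat_lit 257) (b (l (nat_lit 3) (nat_lit 256) (nat_lit 256)) (l (nat_lit 3) (nat_lit 257) (nat_lit 258)))))) (l (nat_lit 0) (nat_lit 283) (nat_lit 311))))) (n (nat_lit 259) (b (n (nat_lit 260) (b (n (nat_lit 309) (b (n (nat_lit 235) (b (l (nat_lit 5) (nat_lit 234) (nat_lit 334)) (l (nat_lit 6) (nat_lit 209) (nat_lit 210)))) (l (nat_lit 2) (nat_lit 283) (nat_lit 308)))) (l (nat_lit 3) (nat_lit 259) (nat_lit 288)))) (l (nat_lit 3) (nat_lit 258) (nat_lit 258))))))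
    envOK_nil (by decide +kernel)

theorem p5768 : Fam (nat_lit 7) (nat_lit 69992033622680891239511589078857155461222698135126036320312511004480996958797842556121990157091995648) (nat_lit 6610562170228913645485396175703847358801758002548858378211637428553624025253430850050168802136972507089824113180214040723456) (nat_lit 6610562170228913645485396175703847358801758002548858378211637428553624025253430850050168802136972507089824113180214040723456) :=
  chk_sound Env.nil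
    (n (nat_lit 360) (b (b (n (nat_lit 385) (b (n (nat_lit 384) (b (l (nat_lit 6) (nat_lit 284) (nat_lit 359)) (l (nat_lit 6) (nat_lit 309) (nat_lit 409)))) (n (nat_lit 284) (b (l (nat_lit 7) (nat_lit 284) (nat_lit 309)) (l (nat_lit 7) (nat_lit 259) (nat_lit 259)))))) (n (nat_lit 385) (b (n (nat_lit 386) (b (l (nat_lit 4) (nat_lit 310) (nat_lit 411)) (l (nat_lit 4) (nat_lit 285) (nat_lit 361)))) (n (nat_lit 284) (b (l (nat_lit 7) (nat_lit 284) (nat_lit 309)) (l (nat_lit 7) (nat_lit 259) (nat_lit 259))))))) (n (nat_lit 359) (b (n (nat_lit 361) (b (n (nat_lit 362) (b (b (n (nat_lit 388) (b (n (nat_lit 363) (b (l (nat_lit 4) (nat_lit 287) (nat_lit 337)) (l (nat_lit 0) (nat_lit 360) (nat_lit 389)))) (l (nat_lit 0) (nat_lit 359) (nat_lit 387)))) (n (nat_lit 358) (b (n (nat_lit 336) (b (l (nat_lit 1) (nat_lit 333) (nat_lit 337)) (l (nat_lit 1) (nat_lit 332) (nat_lit 357)))) (n (nat_lit 333) (b (l (nat_lit 3) (nat_lit 332) (nat_lit 332))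 (l (nat_lit 3) (nat_lit 333) (nat_lit 334))))))) (n (nat_lit 334) (b (l (nat_lit 3) (nat_lit 334) (nat_lit 363)) (l (nat_lit 3) (nat_lit 333) (nat_lit 333)))))) (l (nat_lit 4) (nat_lit 285) (nat_lit 386)))) (l (nat_lit 6) (nat_lit 284) (nat_lit 384))))))
    envOK_nil (by decide +kernel)

theorem p5775 : Fam (nat_lit 5) (nat_lit 69992025278981283511838374829982538045285677057891445636562229724990996171263592145746335363208577024) (nat_lit 157608031831205910142700148653704673192519176901022494341233686094429676155433020007154725717586878508228285529325568) (nat_lit 157608031831205910142700148653704673192519176901022494341233686094429676155433020007154725717586878508228285529325568) :=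
  chk_sound Env.nil
    (n (nat_lit 260) (b (b (n (nat_lit 360) (b (n (nat_lit 361) (b (l (nat_lit 4) (nat_lit 285) (nat_lit 386)) (l (nat_lit 4) (nat_lit 260) (nat_lit 336)))) (n (nat_lit 259) (b (l (nat_lit 7) (nat_lit 259) (nat_lit 284)) (l (nat_lit 7) (nat_lit 234) (nat_lit 234)))))) (n (nat_lit 235) (b (n (nat_lit 234) (b (l (nat_lit 7) (nat_lit 234) (nat_lit 259)) (l (nat_lit 7) (nat_lit 209) (nat_lit 209)))) (n (nat_lit 236) (b (l (nat_lit 5) (nat_lit 210) (nat_lit 211)) (l (nat_lit 5) (nat_lit 235) (nat_lit 261))))))) (b (n (nat_lit 235) (b (n (nat_lit 210) (b (n (nat_lit 309) (b (l (nat_lit 6) (nat_lit 209) (nat_lit 284)) (l (nat_lit 6) (nat_lit 234) (nat_lit 334)))) (n (nat_lit 209) (b (l (nat_lit 7) (nat_lit 184) (nat_lit 184)) (l (nat_lit 7) (nat_lit 209) (nat_lit 234)))))) (n (nat_lit 236) (b (l (nat_lit 5) (nat_lit 210) (nat_lit 211)) (l (nat_lit 5) (nat_lit 235) (nat_lit 261)))))) (n (nat_lit 284) (b (n (nat_lit 360)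 (b (n (nat_lit 361) (b (l (nat_lit 4) (nat_lit 285) (nat_lit 386)) (l (nat_lit 4) (nat_lit 260) (nat_lit 336)))) (l (nat_lit 7) (nat_lit 259) (nat_lit 259)))) (n (nat_lit 235) (b (n (nat_lit 309) (b (l (nat_lit 6) (nat_lit 209) (nat_lit 210)) (l (nat_lit 6) (nat_lit 234) (nat_lit 334)))) (n (nat_lit 236) (b (l (nat_lit 5) (nat_lit 210) (nat_lit 211)) (l (nat_lit 5) (nat_lit 235) (nat_lit 261)))))))))))
    envOK_nil (by decide +kernel)

theorem p5793 : Fam (nat_lit 7) (nat_lit 14601473940531000817595548963941203676769530458354449894228319421030202268348534636489264332800) (nat_lit 177450869678515989890550487772628333966567678698691038136536432437310375324487199977110655928224264921570422786174705452134262898688) (nat_lit 177450869678515989890550487772628333966567678698691038136536432437310375324487199977110655928224264921570422786174705452134262898688) :=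
  chk_sound Env.nil
    (n (nat_lit 260) (b (b (n (nat_lit 235) (b (n (nat_lit 210) (b (n (nat_lit 211) (b (l (nat_lit 5) (nat_lit 210) (nat_lit 236)) (l (nat_lit 5) (nat_lit 185) (nat_lit 186)))) (n (nat_lit 209) (b (l (nat_lit 7) (nat_lit 184) (nat_lit 184)) (l (nat_lit 7) (nat_lit 209) (nat_lit 234)))))) (l (nat_lit 4) (nat_lit 235) (nat_lit 336)))) (n (nat_lit 335) (b (n (nat_lit 235) (b (n (nat_lit 234) (b (l (nat_lit 7) (nat_lit 234) (nat_lit 259)) (l (nat_lit 7) (nat_lit 209) (nat_lit 209)))) (n (nat_lit 236) (b (l (nat_lit 5) (nat_lit 210) (nat_lit 211)) (l (nat_lit 5) (nat_lit 235) (nat_lit 261)))))) (n (nat_lit 334) (b (l (nat_lit 2) (nat_lit 309) (nat_lit 313)) (l (nat_lit 6) (nat_lit 259) (nat_lit 359))))))) (n (nat_lit 335) (b (b (n (nat_lit 334) (b (n (nat_lit 336) (b (l (nat_lit 1) (nat_lit 308) (nat_lit 333)) (l (nat_lit 4) (nat_lit 260) (nat_lit 361)))) (l (nat_lit 2) (nat_lit 309) (nat_lit 313)))) (n (nat_lit 334)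 (b (l (nat_lit 2) (nat_lit 309) (nat_lit 313)) (l (nat_lit 6) (nat_lit 259) (nat_lit 359))))) (n (nat_lit 360) (b (b (n (nat_lit 361) (b (l (nat_lit 4) (nat_lit 285) (nat_lit 386)) (l (nat_lit 4) (nat_lit 260) (nat_lit 336)))) (n (nat_lit 385) (b (n (nat_lit 410) (b (n (nat_lit 411) (b (l (nat_lit 4) (nat_lit 335) (nat_lit 436)) (l (nat_lit 4) (nat_lit 310) (nat_lit 386)))) (l (nat_lit 5) (nat_lit 310) (nat_lit 336)))) (n (nat_lit 384) (b (l (nat_lit 6) (nat_lit 284) (nat_lit 359)) (l (nat_lit 6) (nat_lit 309) (nat_lit 409))))))) (b (n (nat_lit 385) (b (n (nat_lit 336) (b (l (nat_lit 4) (nat_lit 260) (nat_lit 361)) (l (nat_lit 5) (nat_lit 310) (nat_lit 410)))) (n (nat_lit 384) (b (l (nat_lit 6) (nat_lit 284) (nat_lit 359)) (l (nat_lit 6) (nat_lit 309) (nat_lit 409)))))) (n (nat_lit 385) (b (n (nat_lit 384) (b (l (nat_lit 6) (nat_lit 284) (nat_lit 359)) (l (nat_lit 6) (nat_lit 309) (nat_lit 409)))) (n (nat_lit 386) (b (l (nat_lit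 4) (nat_lit 310) (nat_lit 411)) (l (nat_lit 4) (nat_lit 285) (nat_lit 361)))))))))))))
    envOK_nil (by decide +kernel)

theorem p5805 : Fam (nat_lit 5) (nat_lit 31288872845159324489976646851659172627160974576936856208444976022315285210944600313243671461888) (nat_lit 7839106862534785052980241437307607754229386953599098195986389492555164081384414714979639086990416150528) (nat_lit 7839106862534785052980241437307607754229386953599098195986389492555164081384414714979639086990416150528) :=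
  chk_sound Env.nil
    (n (nat_lit 314) (b (b (n (nat_lit 315) (b (n (nat_lit 288) (b (l (nat_lit 1) (nat_lit 285) (nat_lit 289)) (l (nat_lit 3) (nat_lit 287) (nat_lit 316)))) (n (nat_lit 340) (b (l (nat_lit 0) (nat_lit 312) (nat_lit 341)) (l (nat_lit 0) (nat_lit 311) (nat_lit 339)))))) (n (nat_lit 315) (b (n (nat_lit 316) (b (n (nat_lit 291) (b (l (nat_lit 1) (nat_lit 288) (nat_lit 292)) (l (nat_lit 1) (nat_lit 287) (nat_lit 290)))) (l (nat_lit 3) (nat_lit 287) (nat_lit 288)))) (n (nat_lit 340) (b (l (nat_lit 0) (nat_lit 312) (nat_lit 341)) (l (nat_lit 0) (nat_lit 311) (nat_lit 339))))))) (b (n (nat_lit 289) (b (l (nat_lit 1) (nat_lit 286) (nat_lit 290)) (l (nat_lit 1) (nat_lit 285) (nat_lit 288)))) (n (nat_lit 315) (b (n (nat_lit 290) (b (l (nat_lit 1) (nat_lit 286) (nat_lit 289)) (l (nat_lit 1) (nat_lit 287) (nat_lit 291)))) (n (nat_lit 340) (b (l (nat_lit 0) (nat_lit 312) (nat_lit 341)) (l (nat_lit 0) (nat_lit 311) (nat_lit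 339)))))))))
    envOK_nil (by decide +kernel)

theorem p5856 : Fam (nat_lit 12) (nat_lit 8343699669893077765472204886838718039429839603240769130947954680845531362055312781360555360256) (nat_lit 177450869678518196402926695869969669573972737953253680422315185128227752830705123106857233807899995259912432012446043330881377009664) (nat_lit 177450869678518196402926695869969669573972737953253680422315185128227752830705123106857233807899995259912432012446043330881377009664) :=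
  chk_sound (Env.cons (nat_lit 7) (nat_lit 69992033622680891239511589078857155461222698135126036320312511004480996958797842556121990157091995648) (nat_lit 6610562170228913645485396175703847358801758002548858378211637428553624025253430850050168802136972507089824113180214040723456) (Env.cons (nat_lit 5) (nat_lit 69992025278981283511838374829982538045285677057891445636562229724990996171263592145746335363208577024) (nat_lit 157608031831205910142700148653704673192519176901022494341233686094429676155433020007154725717586878508228285529325568) (Env.cons (nat_lit 7) (nat_lit 14601473940531000817595548963941203676769530458354449894228319421030202268348534636489264332800) (nat_lit 177450869678515989890550487772628333966567678698691038136536432437310375324487199977110655928224264921570422786174705452134262898688) (Env.cons (nat_lit 5) (nat_lit 31288872845159324489976646851659172627160974576936856208444976022315285210944600313243671461888) (nat_lit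 7839106862534785052980241437307607754229386953599098195986389492555164081384414714979639086990416150528) (Env.cons (nat_lit 9) (nat_lit 2085924901931920156235646451413111032405068786677463222639627150445908193923938040308545093632) (nat_lit 39402009719208458361065757443869893497066257920364817350485466085192091021632730893198953814072338695419274507321344) Env.nil)))))
    (n (nat_lit 310) (b (b (b (n (nat_lit 335) (b (b (b (n (nat_lit 260) (b (b (n (nat_lit 235) (b (n (nat_lit 334) (b (l (nat_lit 6) (nat_lit 259) (nat_lit 359)) (l (nat_lit 6) (nat_lit 234) (nat_lit 309)))) (n (nat_lit 236) (b (l (nat_lit 5) (nat_lit 210) (nat_lit 211)) (l (nat_lit 5) (nat_lit 235) (nat_lit 261)))))) (n (nat_lit 360) (b (n (nat_lit 359) (b (l (nat_lit 6) (nat_lit 259) (nat_lit 334)) (l (nat_lit 6) (nat_lit 284) (nat_lit 384)))) (n (nat_lit 361) (b (l (nat_lit 4) (nat_lit 285) (nat_lit 386)) (l (nat_lit 4) (nat_lit 260) (nat_lit 336))))))) (n (nat_lit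 235) (b (n (nat_lit 336) (b (l (nat_lit 4) (nat_lit 235) (nat_lit 311)) (l (nat_lit 4) (nat_lit 260) (nat_lit 361)))) (n (nat_lit 236) (b (l (nat_lit 5) (nat_lit 210) (nat_lit 211)) (l (nat_lit 5) (nat_lit 235) (nat_lit 261)))))))) (r (nat_lit 0))) (b (r (nat_lit 1)) (n (nat_lit 260) (b (b (n (nat_lit 360) (b (n (nat_lit 259) (b (l (nat_lit 7) (nat_lit 259) (nat_lit 284)) (l (nat_lit 7) (nat_lit 234) (nat_lit 234)))) (n (nat_lit 359) (b (l (nat_lit 6) (nat_lit 259) (nat_lit 334)) (l (nat_lit 6) (nat_lit 284) (nat_lit 384)))))) (n (nat_lit 235) (b (n (nat_lit 334) (b (l (nat_lit 6) (nat_lit 259) (nat_lit 359)) (l (nat_lit 6) (nat_lit 234) (nat_lit 309)))) (n (nat_lit 236) (b (l (nat_lit 5) (nat_lit 210) (nat_lit 211)) (l (nat_lit 5) (nat_lit 235) (nat_lit 261))))))) (n (nat_lit 235) (b (n (nat_lit 234) (b (l (nat_lit 7) (nat_lit 234) (nat_lit 259)) (l (nat_lit 7) (nat_lit 209) (nat_lit 209)))) (n (nat_lit 236) (b (l (nat_lit 5) (nat_lit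 210) (nat_lit 211)) (l (nat_lit 5) (nat_lit 235) (nat_lit 261)))))))))) (b (b (n (nat_lit 360) (b (b (n (nat_lit 385) (b (n (nat_lit 384) (b (l (nat_lit 6) (nat_lit 284) (nat_lit 359)) (l (nat_lit 6) (nat_lit 309) (nat_lit 409)))) (n (nat_lit 386) (b (l (nat_lit 4) (nat_lit 310) (nat_lit 411)) (l (nat_lit 4) (nat_lit 285) (nat_lit 361)))))) (n (nat_lit 260) (b (n (nat_lit 259) (b (l (nat_lit 7) (nat_lit 259) (nat_lit 284)) (l (nat_lit 7) (nat_lit 234) (nat_lit 234)))) (n (nat_lit 361) (b (l (nat_lit 4) (nat_lit 285) (nat_lit 386)) (l (nat_lit 4) (nat_lit 260) (nat_lit 336))))))) (n (nat_lit 385) (b (n (nat_lit 384) (b (l (nat_lit 6) (nat_lit 284) (nat_lit 359)) (l (nat_lit 6) (nat_lit 309) (nat_lit 409)))) (n (nat_lit 284) (b (l (nat_lit 7) (nat_lit 284) (nat_lit 309)) (l (nat_lit 7) (nat_lit 259) (nat_lit 259)))))))) (n (nat_lit 260) (b (n (nat_lit 235) (b (n (nat_lit 234) (b (l (nat_lit 7) (nat_lit 234) (nat_lit 259)) (l (nat_lit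 7) (nat_lit 209) (nat_lit 209)))) (n (nat_lit 236) (b (l (nat_lit 5) (nat_lit 210) (nat_lit 211)) (l (nat_lit 5) (nat_lit 235) (nat_lit 261)))))) (n (nat_lit 360) (b (n (nat_lit 359) (b (l (nat_lit 6) (nat_lit 259) (nat_lit 334)) (l (nat_lit 6) (nat_lit 284) (nat_lit 384)))) (n (nat_lit 361) (b (l (nat_lit 4) (nat_lit 285) (nat_lit 386)) (l (nat_lit 4) (nat_lit 260) (nat_lit 336))))))))) (n (nat_lit 260) (b (n (nat_lit 235) (b (n (nat_lit 234) (b (l (nat_lit 7) (nat_lit 234) (nat_lit 259)) (l (nat_lit 7) (nat_lit 209) (nat_lit 209)))) (n (nat_lit 236) (b (l (nat_lit 5) (nat_lit 210) (nat_lit 211)) (l (nat_lit 5) (nat_lit 235) (nat_lit 261)))))) (n (nat_lit 334) (b (n (nat_lit 336) (b (n (nat_lit 309) (b (n (nat_lit 308) (b (l (nat_lit 3) (nat_lit 308) (nat_lit 337)) (l (nat_lit 0) (nat_lit 307) (nat_lit 307)))) (n (nat_lit 311) (b (l (nat_lit 1) (nat_lit 308) (nat_lit 333)) (l (nat_lit 1) (nat_lit 284) (nat_lit 288)))))) (l (nat_lit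 4) (nat_lit 260) (nat_lit 361)))) (l (nat_lit 6) (nat_lit 259) (nat_lit 359))))))))) (n (nat_lit 311) (b (b (r (nat_lit 2)) (n (nat_lit 288) (b (n (nat_lit 289) (b (l (nat_lit 1) (nat_lit 285) (nat_lit 313)) (l (nat_lit 2) (nat_lit 286) (nat_lit 290)))) (l (nat_lit 1) (nat_lit 284) (nat_lit 309))))) (n (nat_lit 309) (b (n (nat_lit 334) (b (n (nat_lit 260) (b (n (nat_lit 359) (b (l (nat_lit 5) (nat_lit 284) (nat_lit 384)) (l (nat_lit 6) (nat_lit 259) (nat_lit 335)))) (l (nat_lit 6) (nat_lit 234) (nat_lit 235)))) (l (nat_lit 2) (nat_lit 308) (nat_lit 333)))) (l (nat_lit 1) (nat_lit 284) (nat_lit 288))))))) (b (n (nat_lit 311) (b (b (r (nat_lit 2)) (n (nat_lit 313) (b (r (nat_lit 3)) (l (nat_lit 3) (nat_lit 284) (nat_lit 284))))) (n (nat_lit 260) (b (b (n (nat_lit 235) (b (n (nat_lit 210) (b (n (nat_lit 211) (b (l (nat_lit 5) (nat_lit 210) (nat_lit 236)) (l (nat_lit 5) (nat_lit 185) (nat_lit 186)))) (n (nat_lit 209) (b (l (nat_lit 7)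 (nat_lit 184) (nat_lit 184)) (l (nat_lit 7) (nat_lit 209) (nat_lit 234)))))) (l (nat_lit 4) (nat_lit 235) (nat_lit 336)))) (n (nat_lit 335) (b (b (n (nat_lit 334) (b (n (nat_lit 333) (b (l (nat_lit 1) (nat_lit 308) (nat_lit 336)) (l (nat_lit 1) (nat_lit 307) (nat_lit 332)))) (l (nat_lit 6) (nat_lit 259) (nat_lit 359)))) (n (nat_lit 360) (b (n (nat_lit 259) (b (l (nat_lit 7) (nat_lit 259) (nat_lit 284)) (l (nat_lit 7) (nat_lit 234) (nat_lit 234)))) (n (nat_lit 359) (b (l (nat_lit 6) (nat_lit 259) (nat_lit 334)) (l (nat_lit 6) (nat_lit 284) (nat_lit 384))))))) (n (nat_lit 360) (b (n (nat_lit 361) (b (l (nat_lit 4) (nat_lit 285) (nat_lit 386)) (l (nat_lit 4) (nat_lit 260) (nat_lit 336)))) (n (nat_lit 259) (b (l (nat_lit 7) (nat_lit 259) (nat_lit 284)) (l (nat_lit 7) (nat_lit 234) (nat_lit 234))))))))) (b (n (nat_lit 336) (b (n (nat_lit 361) (b (l (nat_lit 4) (nat_lit 260) (nat_lit 335)) (l (nat_lit 5) (nat_lit 286) (nat_lit 386))))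 (l (nat_lit 4) (nat_lit 235) (nat_lit 235)))) (r (nat_lit 4))))))) (n (nat_lit 311) (b (b (n (nat_lit 313) (b (n (nat_lit 314) (b (n (nat_lit 315) (b (n (nat_lit 336) (b (l (nat_lit 2) (nat_lit 310) (nat_lit 335)) (l (nat_lit 2) (nat_lit 311) (nat_lit 337)))) (n (nat_lit 340) (b (l (nat_lit 0) (nat_lit 312) (nat_lit 341)) (l (nat_lit 0) (nat_lit 311) (nat_lit 339)))))) (n (nat_lit 289) (b (l (nat_lit 1) (nat_lit 286) (nat_lit 290)) (l (nat_lit 1) (nat_lit 285) (nat_lit 288)))))) (l (nat_lit 3) (nat_lit 284) (nat_lit 284)))) (n (nat_lit 284) (b (n (nat_lit 283) (b (l (nat_lit 0) (nat_lit 282) (nat_lit 282)) (l (nat_lit 3) (nat_lit 283) (nat_lit 309)))) (l (nat_lit 3) (nat_lit 284) (nat_lit 313))))) (b (n (nat_lit 288) (b (n (nat_lit 289) (b (l (nat_lit 1) (nat_lit 285) (nat_lit 313)) (l (nat_lit 2) (nat_lit 286) (nat_lit 290)))) (l (nat_lit 1) (nat_lit 284) (nat_lit 309)))) (n (nat_lit 309) (b (n (nat_lit 336) (b (n (nat_lit 361)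 (b (n (nat_lit 260) (b (l (nat_lit 4) (nat_lit 260) (nat_lit 335)) (l (nat_lit 4) (nat_lit 235) (nat_lit 235)))) (l (nat_lit 7) (nat_lit 285) (nat_lit 386)))) (n (nat_lit 283) (b (n (nat_lit 308) (b (l (nat_lit 3) (nat_lit 282) (nat_lit 282)) (l (nat_lit 0) (nat_lit 308) (nat_lit 337)))) (l (nat_lit 3) (nat_lit 283) (nat_lit 284)))))) (l (nat_lit 1) (nat_lit 284) (nat_lit 288))))))))) (b (n (nat_lit 311) (b (b (n (nat_lit 309) (b (n (nat_lit 308) (b (n (nat_lit 283) (b (l (nat_lit 3) (nat_lit 283) (nat_lit 284)) (l (nat_lit 3) (nat_lit 282) (nat_lit 282)))) (n (nat_lit 333) (b (l (nat_lit 2) (nat_lit 307) (nat_lit 332)) (l (nat_lit 2) (nat_lit 308) (nat_lit 334)))))) (l (nat_lit 1) (nat_lit 284) (nat_lit 288)))) (n (nat_lit 284) (b (n (nat_lit 283) (b (l (nat_lit 0) (nat_lit 282) (nat_lit 282)) (l (nat_lit 3) (nat_lit 283) (nat_lit 309)))) (l (nat_lit 3) (nat_lit 284) (nat_lit 313))))) (b (n (nat_lit 288) (b (n (nat_lit 289) (b (l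 (nat_lit 1) (nat_lit 285) (nat_lit 313)) (l (nat_lit 2) (nat_lit 286) (nat_lit 290)))) (l (nat_lit 1) (nat_lit 284) (nat_lit 309)))) (n (nat_lit 313) (b (r (nat_lit 3)) (l (nat_lit 3) (nat_lit 284) (nat_lit 284))))))) (n (nat_lit 335) (b (b (b (n (nat_lit 361) (b (b (n (nat_lit 386) (b (n (nat_lit 336) (b (l (nat_lit 7) (nat_lit 310) (nat_lit 411)) (l (nat_lit 4) (nat_lit 260) (nat_lit 260)))) (l (nat_lit 4) (nat_lit 285) (nat_lit 360)))) (n (nat_lit 260) (b (n (nat_lit 235) (b (n (nat_lit 334) (b (l (nat_lit 6) (nat_lit 259) (nat_lit 359)) (l (nat_lit 6) (nat_lit 234) (nat_lit 309)))) (n (nat_lit 236) (b (l (nat_lit 5) (nat_lit 210) (nat_lit 211)) (l (nat_lit 5) (nat_lit 235) (nat_lit 261)))))) (l (nat_lit 4) (nat_lit 260) (nat_lit 336))))) (b (n (nat_lit 360) (b (n (nat_lit 334) (b (n (nat_lit 333) (b (n (nat_lit 362) (b (l (nat_lit 0) (nat_lit 333) (nat_lit 336)) (l (nat_lit 3) (nat_lit 334) (nat_lit 363)))) (l (nat_lit 0) (nat_lit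 332) (nat_lit 332)))) (n (nat_lit 385) (b (n (nat_lit 309) (b (l (nat_lit 7) (nat_lit 284) (nat_lit 284)) (l (nat_lit 7) (nat_lit 309) (nat_lit 410)))) (n (nat_lit 384) (b (l (nat_lit 6) (nat_lit 284) (nat_lit 359)) (l (nat_lit 6) (nat_lit 309) (nat_lit 409)))))))) (l (nat_lit 4) (nat_lit 285) (nat_lit 386)))) (n (nat_lit 360) (b (n (nat_lit 359) (b (n (nat_lit 334) (b (n (nat_lit 333) (b (l (nat_lit 3) (nat_lit 333) (nat_lit 362)) (l (nat_lit 0) (nat_lit 332) (nat_lit 332)))) (l (nat_lit 6) (nat_lit 259) (nat_lit 260)))) (l (nat_lit 6) (nat_lit 284) (nat_lit 384)))) (l (nat_lit 4) (nat_lit 285) (nat_lit 386))))))) (r (nat_lit 0))) (b (r (nat_lit 1)) (n (nat_lit 260) (b (b (n (nat_lit 360) (b (n (nat_lit 259) (b (l (nat_lit 7) (nat_lit 259) (nat_lit 284)) (l (nat_lit 7) (nat_lit 234) (nat_lit 234)))) (n (nat_lit 359) (b (l (nat_lit 6) (nat_lit 259) (nat_lit 334)) (l (nat_lit 6) (nat_lit 284) (nat_lit 384)))))) (n (nat_lit 235) (b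 (n (nat_lit 334) (b (l (nat_lit 6) (nat_lit 259) (nat_lit 359)) (l (nat_lit 6) (nat_lit 234) (nat_lit 309)))) (n (nat_lit 236) (b (l (nat_lit 5) (nat_lit 210) (nat_lit 211)) (l (nat_lit 5) (nat_lit 235) (nat_lit 261))))))) (n (nat_lit 235) (b (n (nat_lit 234) (b (l (nat_lit 7) (nat_lit 234) (nat_lit 259)) (l (nat_lit 7) (nat_lit 209) (nat_lit 209)))) (n (nat_lit 236) (b (l (nat_lit 5) (nat_lit 210) (nat_lit 211)) (l (nat_lit 5) (nat_lit 235) (nat_lit 261)))))))))) (b (b (n (nat_lit 360) (b (b (n (nat_lit 385) (b (n (nat_lit 384) (b (l (nat_lit 6) (nat_lit 284) (nat_lit 359)) (l (nat_lit 6) (nat_lit 309) (nat_lit 409)))) (n (nat_lit 386) (b (l (nat_lit 4) (nat_lit 310) (nat_lit 411)) (l (nat_lit 4) (nat_lit 285) (nat_lit 361)))))) (n (nat_lit 260) (b (n (nat_lit 259) (b (l (nat_lit 7) (nat_lit 259) (nat_lit 284)) (l (nat_lit 7) (nat_lit 234) (nat_lit 234)))) (n (nat_lit 361) (b (l (nat_lit 4) (nat_lit 285) (nat_lit 386)) (l (nat_lit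 4) (nat_lit 260) (nat_lit 336))))))) (n (nat_lit 385) (b (n (nat_lit 384) (b (l (nat_lit 6) (nat_lit 284) (nat_lit 359)) (l (nat_lit 6) (nat_lit 309) (nat_lit 409)))) (n (nat_lit 284) (b (l (nat_lit 7) (nat_lit 284) (nat_lit 309)) (l (nat_lit 7) (nat_lit 259) (nat_lit 259)))))))) (n (nat_lit 260) (b (n (nat_lit 235) (b (n (nat_lit 234) (b (l (nat_lit 7) (nat_lit 234) (nat_lit 259)) (l (nat_lit 7) (nat_lit 209) (nat_lit 209)))) (n (nat_lit 236) (b (l (nat_lit 5) (nat_lit 210) (nat_lit 211)) (l (nat_lit 5) (nat_lit 235) (nat_lit 261)))))) (n (nat_lit 360) (b (n (nat_lit 359) (b (l (nat_lit 6) (nat_lit 259) (nat_lit 334)) (l (nat_lit 6) (nat_lit 284) (nat_lit 384)))) (n (nat_lit 361) (b (l (nat_lit 4) (nat_lit 285) (nat_lit 386)) (l (nat_lit 4) (nat_lit 260) (nat_lit 336))))))))) (n (nat_lit 260) (b (b (n (nat_lit 235) (b (n (nat_lit 334) (b (l (nat_lit 6) (nat_lit 259) (nat_lit 359)) (l (nat_lit 6) (nat_lit 234) (nat_lit 309)))) (n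 (nat_lit 236) (b (l (nat_lit 5) (nat_lit 210) (nat_lit 211)) (l (nat_lit 5) (nat_lit 235) (nat_lit 261)))))) (n (nat_lit 235) (b (n (nat_lit 234) (b (l (nat_lit 7) (nat_lit 234) (nat_lit 259)) (l (nat_lit 7) (nat_lit 209) (nat_lit 209)))) (n (nat_lit 236) (b (l (nat_lit 5) (nat_lit 210) (nat_lit 211)) (l (nat_lit 5) (nat_lit 235) (nat_lit 261))))))) (n (nat_lit 334) (b (n (nat_lit 336) (b (n (nat_lit 259) (b (n (nat_lit 337) (b (n (nat_lit 333) (b (b (n (nat_lit 308) (b (l (nat_lit 3) (nat_lit 308) (nat_lit 309)) (l (nat_lit 3) (nat_lit 307) (nat_lit 307)))) (n (nat_lit 332) (b (n (nat_lit 331) (b (n (nat_lit 306) (b (l (nat_lit 3) (nat_lit 306) (nat_lit 307)) (l (nat_lit 3) (nat_lit 305) (nat_lit 305)))) (l (nat_lit 1) (nat_lit 306) (nat_lit 309)))) (n (nat_lit 357) (b (l (nat_lit 2) (nat_lit 331) (nat_lit 356)) (l (nat_lit 2) (nat_lit 332) (nat_lit 358))))))) (b (n (nat_lit 309) (b (n (nat_lit 358) (b (l (nat_lit 6) (nat_lit 258)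 (nat_lit 284)) (l (nat_lit 2) (nat_lit 332) (nat_lit 357)))) (l (nat_lit 3) (nat_lit 308) (nat_lit 308)))) (n (nat_lit 332) (b (n (nat_lit 357) (b (l (nat_lit 2) (nat_lit 331) (nat_lit 356)) (l (nat_lit 2) (nat_lit 332) (nat_lit 358)))) (n (nat_lit 307) (b (l (nat_lit 3) (nat_lit 306) (nat_lit 306)) (l (nat_lit 3) (nat_lit 307) (nat_lit 308))))))))) (l (nat_lit 1) (nat_lit 309) (nat_lit 313)))) (l (nat_lit 7) (nat_lit 234) (nat_lit 234)))) (l (nat_lit 4) (nat_lit 260) (nat_lit 361)))) (l (nat_lit 6) (nat_lit 259) (nat_lit 359))))))))))))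
    (envOK_cons p5768 (envOK_cons p5775 (envOK_cons p5793 (envOK_cons p5805 (envOK_cons p3292 envOK_nil))))) (by decide +kernel)

theorem p5902 : Fam (nat_lit 8) (nat_lit 10429624633990400620257753810615483313051753263468725550936291861100412036302843821625698156544) (nat_lit 6610562170228913645485396175703847358895006115396882207205115586004023504412307117874379763777682510419573515781883427815424) (nat_lit 6610562170228913645485396175703847358895006115396882207205115586004023504412307117874379763777682510419573515781883427815424) :=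
  chk_sound Env.nil
    (n (nat_lit 335) (b (b (n (nat_lit 360) (b (n (nat_lit 385) (b (n (nat_lit 384) (b (l (nat_lit 6) (nat_lit 284) (nat_lit 359)) (l (nat_lit 6) (nat_lit 309) (nat_lit 409)))) (n (nat_lit 386) (b (l (nat_lit 4) (nat_lit 310) (nat_lit 411)) (l (nat_lit 4) (nat_lit 285) (nat_lit 361)))))) (l (nat_lit 5) (nat_lit 260) (nat_lit 261)))) (n (nat_lit 260) (b (b (n (nat_lit 235) (b (n (nat_lit 334) (b (l (nat_lit 6) (nat_lit 259) (nat_lit 359)) (l (nat_lit 6) (nat_lit 234) (nat_lit 309)))) (n (nat_lit 234) (b (l (nat_lit 7) (nat_lit 234) (nat_lit 259)) (l (nat_lit 7) (nat_lit 209) (nat_lit 209)))))) (n (nat_lit 259) (b (n (nat_lit 261) (b (l (nat_lit 5) (nat_lit 235) (nat_lit 236)) (l (nat_lit 0) (nat_lit 258) (nat_lit 258)))) (l (nat_lit 7) (nat_lit 234) (nat_lit 234))))) (n (nat_lit 235) (b (n (nat_lit 334) (b (l (nat_lit 6) (nat_lit 259) (nat_lit 359)) (l (nat_lit 6) (nat_lit 234) (nat_lit 309)))) (n (nat_lit 236)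 (b (l (nat_lit 5) (nat_lit 210) (nat_lit 211)) (l (nat_lit 5) (nat_lit 235) (nat_lit 261))))))))) (b (n (nat_lit 261) (b (n (nat_lit 236) (b (l (nat_lit 6) (nat_lit 210) (nat_lit 211)) (l (nat_lit 5) (nat_lit 235) (nat_lit 260)))) (l (nat_lit 5) (nat_lit 260) (nat_lit 360)))) (n (nat_lit 361) (b (b (n (nat_lit 360) (b (n (nat_lit 359) (b (n (nat_lit 334) (b (n (nat_lit 333) (b (l (nat_lit 3) (nat_lit 333) (nat_lit 362)) (l (nat_lit 0) (nat_lit 332) (nat_lit 332)))) (l (nat_lit 6) (nat_lit 259) (nat_lit 260)))) (l (nat_lit 6) (nat_lit 284) (nat_lit 384)))) (l (nat_lit 4) (nat_lit 285) (nat_lit 386)))) (n (nat_lit 260) (b (n (nat_lit 235) (b (n (nat_lit 334) (b (l (nat_lit 6) (nat_lit 259) (nat_lit 359)) (l (nat_lit 6) (nat_lit 234) (nat_lit 309)))) (n (nat_lit 234) (b (l (nat_lit 7) (nat_lit 234) (nat_lit 259)) (l (nat_lit 7) (nat_lit 209) (nat_lit 209)))))) (l (nat_lit 4) (nat_lit 260) (nat_lit 336))))) (b (n (nat_lit 386) (b (n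 (nat_lit 336) (b (l (nat_lit 7) (nat_lit 310) (nat_lit 411)) (l (nat_lit 4) (nat_lit 260) (nat_lit 260)))) (l (nat_lit 4) (nat_lit 285) (nat_lit 360)))) (n (nat_lit 360) (b (n (nat_lit 359) (b (n (nat_lit 362) (b (b (n (nat_lit 388) (b (n (nat_lit 363) (b (l (nat_lit 4) (nat_lit 287) (nat_lit 337)) (l (nat_lit 0) (nat_lit 360) (nat_lit 389)))) (l (nat_lit 0) (nat_lit 359) (nat_lit 387)))) (n (nat_lit 358) (b (n (nat_lit 336) (b (l (nat_lit 1) (nat_lit 333) (nat_lit 337)) (l (nat_lit 1) (nat_lit 332) (nat_lit 357)))) (n (nat_lit 333) (b (l (nat_lit 3) (nat_lit 332) (nat_lit 332)) (l (nat_lit 3) (nat_lit 333) (nat_lit 334))))))) (n (nat_lit 334) (b (l (nat_lit 3) (nat_lit 334) (nat_lit 363)) (l (nat_lit 3) (nat_lit 333) (nat_lit 333)))))) (l (nat_lit 6) (nat_lit 284) (nat_lit 384)))) (l (nat_lit 4) (nat_lit 285) (nat_lit 386))))))))))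
    envOK_nil (by decide +kernel)

theorem p5911 : Fam (nat_lit 10) (nat_lit 8343699669893077765472204886838718039429839603240769130947954680845531362055312781360555360256) (nat_lit 177450869678518196402926549078214764976629357035310107207503679738675684549513217022694380974002382282996865398812753933537535590400) (nat_lit 177450869678518196402926549078214764976629357035310107207503679738675684549513217022694380974002382282996865398812753933537535590400) :=
  chk_sound (Env.cons (nat_lit 8) (nat_lit 10429624633990400620257753810615483313051753263468725550936291861100412036302843821625698156544) (nat_lit 6610562170228913645485396175703847358895006115396882207205115586004023504412307117874379763777682510419573515781883427815424) (Env.cons (nat_lit 7) (nat_lit 14601473940531000817595548963941203676769530458354449894228319421030202268348534636489264332800) (nat_lit 177450869678515989890550487772628333966567678698691038136536432437310375324487199977110655928224264921570422786174705452134262898688)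 (Env.cons (nat_lit 5) (nat_lit 2085925274924345610902200270890670365384938723013050668330660580544866232472216673098502504448) (nat_lit 6610559963716537584179792246784722185258742564139743884321200277833391615765956395126232875782203456935809163056215756898304) Env.nil)))
    (n (nat_lit 310) (b (b (b (n (nat_lit 335) (b (b (n (nat_lit 260) (b (b (n (nat_lit 360) (b (n (nat_lit 261) (b (l (nat_lit 5) (nat_lit 235) (nat_lit 236)) (l (nat_lit 5) (nat_lit 260) (nat_lit 286)))) (n (nat_lit 359) (b (l (nat_lit 6) (nat_lit 259) (nat_lit 334)) (l (nat_lit 6) (nat_lit 284) (nat_lit 384)))))) (n (nat_lit 235) (b (n (nat_lit 334) (b (l (nat_lit 6) (nat_lit 259) (nat_lit 359)) (l (nat_lit 6) (nat_lit 234) (nat_lit 309)))) (n (nat_lit 234) (b (l (nat_lit 7) (nat_lit 234) (nat_lit 259)) (l (nat_lit 7) (nat_lit 209) (nat_lit 209))))))) (n (nat_lit 235) (b (n (nat_lit 234) (b (l (nat_lit 7) (nat_lit 234) (nat_lit 259)) (l (nat_lit 7) (nat_lit 209)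 (nat_lit 209)))) (n (nat_lit 236) (b (l (nat_lit 5) (nat_lit 210) (nat_lit 211)) (l (nat_lit 5) (nat_lit 235) (nat_lit 261)))))))) (n (nat_lit 260) (b (b (n (nat_lit 360) (b (n (nat_lit 261) (b (l (nat_lit 5) (nat_lit 235) (nat_lit 236)) (l (nat_lit 5) (nat_lit 260) (nat_lit 286)))) (n (nat_lit 361) (b (l (nat_lit 4) (nat_lit 285) (nat_lit 386)) (l (nat_lit 4) (nat_lit 260) (nat_lit 336)))))) (n (nat_lit 235) (b (n (nat_lit 234) (b (l (nat_lit 7) (nat_lit 234) (nat_lit 259)) (l (nat_lit 7) (nat_lit 209) (nat_lit 209)))) (n (nat_lit 236) (b (l (nat_lit 5) (nat_lit 210) (nat_lit 211)) (l (nat_lit 5) (nat_lit 235) (nat_lit 261))))))) (n (nat_lit 235) (b (n (nat_lit 234) (b (l (nat_lit 7) (nat_lit 234) (nat_lit 259)) (l (nat_lit 7) (nat_lit 209) (nat_lit 209)))) (n (nat_lit 336) (b (l (nat_lit 4) (nat_lit 235) (nat_lit 311)) (l (nat_lit 4) (nat_lit 260) (nat_lit 361))))))))) (b (n (nat_lit 334) (b (n (nat_lit 359) (b (n (nat_lit 384)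 (b (l (nat_lit 5) (nat_lit 309) (nat_lit 409)) (l (nat_lit 5) (nat_lit 284) (nat_lit 309)))) (l (nat_lit 6) (nat_lit 259) (nat_lit 260)))) (n (nat_lit 311) (b (n (nat_lit 333) (b (l (nat_lit 1) (nat_lit 308) (nat_lit 336)) (l (nat_lit 1) (nat_lit 307) (nat_lit 332)))) (l (nat_lit 2) (nat_lit 309) (nat_lit 313)))))) (n (nat_lit 360) (b (b (n (nat_lit 359) (b (n (nat_lit 361) (b (n (nat_lit 362) (b (b (n (nat_lit 388) (b (n (nat_lit 363) (b (l (nat_lit 4) (nat_lit 287) (nat_lit 337)) (l (nat_lit 0) (nat_lit 360) (nat_lit 389)))) (l (nat_lit 0) (nat_lit 359) (nat_lit 387)))) (n (nat_lit 358) (b (n (nat_lit 336) (b (l (nat_lit 1) (nat_lit 333) (nat_lit 337)) (l (nat_lit 1) (nat_lit 332) (nat_lit 357)))) (n (nat_lit 333) (b (l (nat_lit 3) (nat_lit 332) (nat_lit 332)) (l (nat_lit 3) (nat_lit 333) (nat_lit 334))))))) (n (nat_lit 334) (b (l (nat_lit 3) (nat_lit 334) (nat_lit 363)) (l (nat_lit 3) (nat_lit 333) (nat_lit 333)))))) (l (nat_lit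 4) (nat_lit 285) (nat_lit 386)))) (l (nat_lit 6) (nat_lit 284) (nat_lit 384)))) (n (nat_lit 385) (b (n (nat_lit 386) (b (l (nat_lit 4) (nat_lit 310) (nat_lit 411)) (l (nat_lit 4) (nat_lit 285) (nat_lit 361)))) (n (nat_lit 286) (b (l (nat_lit 5) (nat_lit 285) (nat_lit 311)) (l (nat_lit 5) (nat_lit 260) (nat_lit 261))))))) (n (nat_lit 385) (b (n (nat_lit 286) (b (l (nat_lit 5) (nat_lit 285) (nat_lit 311)) (l (nat_lit 5) (nat_lit 260) (nat_lit 261)))) (n (nat_lit 384) (b (l (nat_lit 6) (nat_lit 284) (nat_lit 359)) (l (nat_lit 6) (nat_lit 309) (nat_lit 409))))))))))) (n (nat_lit 260) (b (b (b (n (nat_lit 335) (b (b (n (nat_lit 360) (b (n (nat_lit 359) (b (l (nat_lit 6) (nat_lit 259) (nat_lit 334)) (l (nat_lit 6) (nat_lit 284) (nat_lit 384)))) (n (nat_lit 361) (b (l (nat_lit 4) (nat_lit 285) (nat_lit 386)) (l (nat_lit 4) (nat_lit 260) (nat_lit 336)))))) (n (nat_lit 286) (b (n (nat_lit 261) (b (l (nat_lit 5) (nat_lit 260) (nat_lit 360))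 (l (nat_lit 5) (nat_lit 235) (nat_lit 236)))) (n (nat_lit 259) (b (l (nat_lit 7) (nat_lit 234) (nat_lit 234)) (l (nat_lit 3) (nat_lit 259) (nat_lit 288))))))) (n (nat_lit 286) (b (n (nat_lit 313) (b (n (nat_lit 334) (b (l (nat_lit 2) (nat_lit 309) (nat_lit 311)) (l (nat_lit 6) (nat_lit 259) (nat_lit 359)))) (n (nat_lit 314) (b (l (nat_lit 0) (nat_lit 285) (nat_lit 288)) (l (nat_lit 3) (nat_lit 286) (nat_lit 315)))))) (n (nat_lit 259) (b (n (nat_lit 261) (b (l (nat_lit 5) (nat_lit 235) (nat_lit 236)) (l (nat_lit 0) (nat_lit 258) (nat_lit 258)))) (l (nat_lit 7) (nat_lit 234) (nat_lit 234)))))))) (n (nat_lit 259) (b (n (nat_lit 286) (b (n (nat_lit 258) (b (l (nat_lit 0) (nat_lit 258) (nat_lit 261)) (l (nat_lit 0) (nat_lit 257) (nat_lit 257)))) (l (nat_lit 3) (nat_lit 259) (nat_lit 288)))) (n (nat_lit 234) (b (n (nat_lit 209) (b (l (nat_lit 4) (nat_lit 184) (nat_lit 184)) (l (nat_lit 7) (nat_lit 209) (nat_lit 235)))) (l (nat_lit 7) (nat_lit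 234) (nat_lit 335))))))) (b (n (nat_lit 335) (b (b (n (nat_lit 235) (b (n (nat_lit 336) (b (l (nat_lit 4) (nat_lit 235) (nat_lit 311)) (l (nat_lit 4) (nat_lit 260) (nat_lit 361)))) (n (nat_lit 236) (b (l (nat_lit 5) (nat_lit 210) (nat_lit 211)) (l (nat_lit 5) (nat_lit 235) (nat_lit 261)))))) (n (nat_lit 360) (b (n (nat_lit 359) (b (l (nat_lit 6) (nat_lit 259) (nat_lit 334)) (l (nat_lit 6) (nat_lit 284) (nat_lit 384)))) (n (nat_lit 361) (b (l (nat_lit 4) (nat_lit 285) (nat_lit 386)) (l (nat_lit 4) (nat_lit 260) (nat_lit 336))))))) (n (nat_lit 360) (b (n (nat_lit 261) (b (l (nat_lit 5) (nat_lit 235) (nat_lit 236)) (l (nat_lit 5) (nat_lit 260) (nat_lit 286)))) (n (nat_lit 359) (b (l (nat_lit 6) (nat_lit 259) (nat_lit 334)) (l (nat_lit 6) (nat_lit 284) (nat_lit 384)))))))) (n (nat_lit 335) (b (n (nat_lit 360) (b (n (nat_lit 359) (b (l (nat_lit 6) (nat_lit 259) (nat_lit 334)) (l (nat_lit 6) (nat_lit 284) (nat_lit 384)))) (n (nat_lit 361)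 (b (l (nat_lit 4) (nat_lit 285) (nat_lit 386)) (l (nat_lit 4) (nat_lit 260) (nat_lit 336)))))) (n (nat_lit 235) (b (n (nat_lit 234) (b (l (nat_lit 7) (nat_lit 234) (nat_lit 259)) (l (nat_lit 7) (nat_lit 209) (nat_lit 209)))) (n (nat_lit 236) (b (l (nat_lit 5) (nat_lit 210) (nat_lit 211)) (l (nat_lit 5) (nat_lit 235) (nat_lit 261)))))))))) (n (nat_lit 235) (b (b (n (nat_lit 210) (b (n (nat_lit 211) (b (l (nat_lit 5) (nat_lit 210) (nat_lit 236)) (l (nat_lit 5) (nat_lit 185) (nat_lit 186)))) (n (nat_lit 209) (b (l (nat_lit 7) (nat_lit 184) (nat_lit 184)) (l (nat_lit 7) (nat_lit 209) (nat_lit 234)))))) (n (nat_lit 210) (b (n (nat_lit 311) (b (l (nat_lit 4) (nat_lit 235) (nat_lit 336)) (l (nat_lit 4) (nat_lit 210) (nat_lit 286)))) (n (nat_lit 211) (b (l (nat_lit 5) (nat_lit 210) (nat_lit 236)) (l (nat_lit 5) (nat_lit 185) (nat_lit 186))))))) (b (n (nat_lit 210) (b (n (nat_lit 311) (b (l (nat_lit 4) (nat_lit 235) (nat_lit 336)) (l (nat_lit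 4) (nat_lit 210) (nat_lit 286)))) (n (nat_lit 209) (b (l (nat_lit 7) (nat_lit 184) (nat_lit 184)) (l (nat_lit 7) (nat_lit 209) (nat_lit 234)))))) (n (nat_lit 236) (b (n (nat_lit 234) (b (n (nat_lit 288) (b (n (nat_lit 259) (b (n (nat_lit 237) (b (l (nat_lit 2) (nat_lit 234) (nat_lit 238)) (l (nat_lit 2) (nat_lit 233) (nat_lit 258)))) (l (nat_lit 3) (nat_lit 259) (nat_lit 286)))) (n (nat_lit 311) (b (n (nat_lit 289) (b (l (nat_lit 1) (nat_lit 285) (nat_lit 313)) (l (nat_lit 2) (nat_lit 286) (nat_lit 290)))) (l (nat_lit 4) (nat_lit 235) (nat_lit 336)))))) (l (nat_lit 7) (nat_lit 209) (nat_lit 209)))) (l (nat_lit 5) (nat_lit 210) (nat_lit 211)))))))))) (b (n (nat_lit 286) (b (b (n (nat_lit 335) (b (b (n (nat_lit 360) (b (n (nat_lit 385) (b (n (nat_lit 384) (b (l (nat_lit 6) (nat_lit 284) (nat_lit 359)) (l (nat_lit 6) (nat_lit 309) (nat_lit 409)))) (n (nat_lit 386) (b (l (nat_lit 4) (nat_lit 310) (nat_lit 411)) (l (nat_lit 4) (nat_lit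 285) (nat_lit 361)))))) (l (nat_lit 5) (nat_lit 260) (nat_lit 261)))) (n (nat_lit 261) (b (n (nat_lit 236) (b (l (nat_lit 6) (nat_lit 210) (nat_lit 211)) (l (nat_lit 5) (nat_lit 235) (nat_lit 260)))) (l (nat_lit 5) (nat_lit 260) (nat_lit 360))))) (b (n (nat_lit 260) (b (n (nat_lit 360) (b (n (nat_lit 359) (b (l (nat_lit 6) (nat_lit 259) (nat_lit 334)) (l (nat_lit 6) (nat_lit 284) (nat_lit 384)))) (n (nat_lit 361) (b (l (nat_lit 4) (nat_lit 285) (nat_lit 386)) (l (nat_lit 4) (nat_lit 260) (nat_lit 336)))))) (n (nat_lit 259) (b (l (nat_lit 7) (nat_lit 234) (nat_lit 234)) (l (nat_lit 3) (nat_lit 259) (nat_lit 288)))))) (n (nat_lit 260) (b (n (nat_lit 334) (b (n (nat_lit 313) (b (n (nat_lit 314) (b (l (nat_lit 0) (nat_lit 285) (nat_lit 288)) (l (nat_lit 3) (nat_lit 286) (nat_lit 315)))) (n (nat_lit 336) (b (l (nat_lit 4) (nat_lit 260) (nat_lit 361)) (l (nat_lit 1) (nat_lit 309) (nat_lit 337)))))) (l (nat_lit 6) (nat_lit 259) (nat_lit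 359)))) (n (nat_lit 259) (b (n (nat_lit 261) (b (l (nat_lit 5) (nat_lit 235) (nat_lit 236)) (l (nat_lit 0) (nat_lit 258) (nat_lit 258)))) (l (nat_lit 7) (nat_lit 234) (nat_lit 234))))))))) (n (nat_lit 288) (b (n (nat_lit 289) (b (n (nat_lit 314) (b (l (nat_lit 0) (nat_lit 286) (nat_lit 315)) (l (nat_lit 0) (nat_lit 285) (nat_lit 313)))) (n (nat_lit 264) (b (l (nat_lit 1) (nat_lit 261) (nat_lit 265)) (l (nat_lit 1) (nat_lit 260) (nat_lit 263)))))) (l (nat_lit 2) (nat_lit 284) (nat_lit 309))))) (r (nat_lit 0)))) (n (nat_lit 288) (b (b (n (nat_lit 289) (b (b (n (nat_lit 311) (b (l (nat_lit 2) (nat_lit 286) (nat_lit 290)) (l (nat_lit 1) (nat_lit 285) (nat_lit 313)))) (n (nat_lit 286) (b (n (nat_lit 314) (b (l (nat_lit 0) (nat_lit 286) (nat_lit 315)) (l (nat_lit 0) (nat_lit 285) (nat_lit 313)))) (n (nat_lit 264) (b (l (nat_lit 1) (nat_lit 261) (nat_lit 265)) (l (nat_lit 1) (nat_lit 260) (nat_lit 263))))))) (n (nat_lit 311) (b (l (nat_lit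 2) (nat_lit 286) (nat_lit 290)) (l (nat_lit 2) (nat_lit 285) (nat_lit 286)))))) (n (nat_lit 311) (b (n (nat_lit 289) (b (l (nat_lit 1) (nat_lit 285) (nat_lit 313)) (l (nat_lit 2) (nat_lit 286) (nat_lit 290)))) (l (nat_lit 1) (nat_lit 284) (nat_lit 309))))) (b (n (nat_lit 309) (b (l (nat_lit 1) (nat_lit 284) (nat_lit 311)) (l (nat_lit 2) (nat_lit 284) (nat_lit 286)))) (n (nat_lit 286) (b (n (nat_lit 289) (b (n (nat_lit 314) (b (l (nat_lit 0) (nat_lit 286) (nat_lit 315)) (l (nat_lit 0) (nat_lit 285) (nat_lit 313)))) (n (nat_lit 264) (b (l (nat_lit 1) (nat_lit 261) (nat_lit 265)) (l (nat_lit 1) (nat_lit 260) (nat_lit 263)))))) (l (nat_lit 2) (nat_lit 284) (nat_lit 309))))))))) (b (n (nat_lit 311) (b (b (r (nat_lit 1)) (n (nat_lit 288) (b (n (nat_lit 289) (b (l (nat_lit 1) (nat_lit 285) (nat_lit 313)) (l (nat_lit 2) (nat_lit 286) (nat_lit 290)))) (l (nat_lit 1) (nat_lit 284) (nat_lit 309))))) (n (nat_lit 309) (b (n (nat_lit 334) (b (n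 (nat_lit 260) (b (n (nat_lit 359) (b (l (nat_lit 5) (nat_lit 284) (nat_lit 384)) (l (nat_lit 6) (nat_lit 259) (nat_lit 335)))) (l (nat_lit 6) (nat_lit 234) (nat_lit 235)))) (l (nat_lit 2) (nat_lit 308) (nat_lit 333)))) (l (nat_lit 1) (nat_lit 284) (nat_lit 288)))))) (n (nat_lit 286) (b (b (r (nat_lit 0)) (n (nat_lit 309) (b (n (nat_lit 308) (b (l (nat_lit 1) (nat_lit 283) (nat_lit 311)) (l (nat_lit 1) (nat_lit 282) (nat_lit 307)))) (l (nat_lit 2) (nat_lit 284) (nat_lit 288))))) (r (nat_lit 2)))))))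
    (envOK_cons p5902 (envOK_cons p5793 (envOK_cons p3134 envOK_nil))) (by decide +kernel)

theorem p5944 : Fam (nat_lit 13) (nat_lit 8343699607727673214248874617415937021077234590683750281279490000787534250410375654793883418624) (nat_lit 177450869678518196402926695869969669573972738081469931058925702156002696833249944059641655641804346856360321094749395936956282568704) (nat_lit 177450869678518196402926695869969669573972738081469931058925702156002696833249944059641655641804346856360321094749395936956282568704) :=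
  chk_sound (Env.cons (nat_lit 8) (nat_lit 8343699794223886867918865425684280076135049628354806830284884040961525585345187034493899243520) (nat_lit 236412045398266457420520334645131071459220200563267943144607193224534365559203534871644115177469829366504482450440192) (Env.cons (nat_lit 7) (nat_lit 435157831858563311885959467128468235087899131947679252760405979781514559885966703591424) (nat_lit 2348542687761871928585085739236790336748215384028234670763023735046918776303349366919117645931533861700763648) (Env.cons (nat_lit 6) (nat_lit 8343699794223886867918865425684280076135049628354806830284884040961525585345187034493899243520) (nat_lit 4697085585499821128187221137209673137240359537535793180741824189611432894514213150577280883078600543224987648) (Env.cons (nat_lit 7) (nat_lit 8343699794223886867918865425684280076135049628354806830284884040961525585345187034493899243520) (nat_lit 4109949642340265163313853752426009928809800722169624750487107186613452218315169299022169853682200382795677696)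 (Env.cons (nat_lit 7) (nat_lit 435157831858563311885959467128468235087899131947679252760405979781514559885966703591424) (nat_lit 197010039201871680741899974550101997957782907808075374799462194344975210642256745137957024986374312634051426105950208) (Env.cons (nat_lit 6) (nat_lit 8343699794223886867918865425684280076135049628354806830284884040961525585345187034493899243520) (nat_lit 4697085620495831681750998865525659291694710240214469641036612182765974052517683268395059930392286964966490112) (Env.cons (nat_lit 12) (nat_lit 8343699669893077765472204886838718039429839603240769130947954680845531362055312781360555360256) (nat_lit 177450869678518196402926695869969669573972737953253680422315185128227752830705123106857233807899995259912432012446043330881377009664) (Env.cons (nat_lit 6) (nat_lit 8343699794223886867918865425684280076135049628354806830284884040961525585345187034493899243520) (nat_lit 3522813979148917087648045566234958242467862249715103740773207108104557623646511869072097157416895237253496832)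 (Env.cons (nat_lit 10) (nat_lit 8343699669893077765472204886838718039429839603240769130947954680845531362055312781360555360256) (nat_lit 177450869678518196402926549078214764976629357035310107207503679738675684549513217022694380974002382282996865398812753933537535590400) Env.nil)))))))))
    (n (nat_lit 285) (b (b (b (b (n (nat_lit 286) (b (b (b (r (nat_lit 0)) (r (nat_lit 1))) (b (r (nat_lit 2)) (r (nat_lit 3)))) (b (b (r (nat_lit 4)) (n (nat_lit 284) (b (b (n (nat_lit 283) (b (n (nat_lit 258) (b (l (nat_lit 3) (nat_lit 257) (nat_lit 257)) (l (nat_lit 3) (nat_lit 258) (nat_lit 259)))) (l (nat_lit 0) (nat_lit 283) (nat_lit 311)))) (n (nat_lit 283) (b (n (nat_lit 308) (b (l (nat_lit 2) (nat_lit 283) (nat_lit 309)) (l (nat_lit 2) (nat_lit 282) (nat_lit 307)))) (l (nat_lit 0) (nat_lit 283) (nat_lit 311))))) (n (nat_lit 309) (b (n (nat_lit 259) (b (n (nat_lit 310) (b (n (nat_lit 234) (b (l (nat_lit 4) (nat_lit 234) (nat_lit 335)) (l (nat_lit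 4) (nat_lit 209) (nat_lit 209)))) (l (nat_lit 2) (nat_lit 284) (nat_lit 288)))) (l (nat_lit 3) (nat_lit 258) (nat_lit 258)))) (l (nat_lit 2) (nat_lit 283) (nat_lit 308))))))) (r (nat_lit 5))))) (n (nat_lit 286) (b (b (n (nat_lit 288) (b (b (n (nat_lit 289) (b (n (nat_lit 310) (b (l (nat_lit 2) (nat_lit 284) (nat_lit 309)) (l (nat_lit 2) (nat_lit 285) (nat_lit 311)))) (n (nat_lit 264) (b (l (nat_lit 1) (nat_lit 261) (nat_lit 265)) (l (nat_lit 1) (nat_lit 260) (nat_lit 263)))))) (n (nat_lit 263) (b (n (nat_lit 238) (b (n (nat_lit 337) (b (l (nat_lit 6) (nat_lit 237) (nat_lit 313)) (l (nat_lit 5) (nat_lit 262) (nat_lit 362)))) (l (nat_lit 6) (nat_lit 212) (nat_lit 213)))) (l (nat_lit 1) (nat_lit 260) (nat_lit 264))))) (n (nat_lit 289) (b (n (nat_lit 310) (b (l (nat_lit 2) (nat_lit 284) (nat_lit 309)) (l (nat_lit 2) (nat_lit 285) (nat_lit 311)))) (n (nat_lit 314) (b (l (nat_lit 0) (nat_lit 286) (nat_lit 315)) (l (nat_lit 0) (nat_lit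 285) (nat_lit 313)))))))) (n (nat_lit 284) (b (n (nat_lit 283) (b (n (nat_lit 308) (b (l (nat_lit 2) (nat_lit 283) (nat_lit 309)) (l (nat_lit 2) (nat_lit 282) (nat_lit 307)))) (l (nat_lit 0) (nat_lit 283) (nat_lit 311)))) (l (nat_lit 0) (nat_lit 284) (nat_lit 313))))) (b (n (nat_lit 313) (b (n (nat_lit 314) (b (l (nat_lit 0) (nat_lit 285) (nat_lit 288)) (l (nat_lit 3) (nat_lit 286) (nat_lit 315)))) (l (nat_lit 0) (nat_lit 284) (nat_lit 284)))) (r (nat_lit 0)))))) (b (n (nat_lit 286) (b (b (r (nat_lit 4)) (n (nat_lit 288) (b (b (n (nat_lit 289) (b (n (nat_lit 310) (b (l (nat_lit 2) (nat_lit 284) (nat_lit 309)) (l (nat_lit 2) (nat_lit 285) (nat_lit 311)))) (n (nat_lit 264) (b (l (nat_lit 1) (nat_lit 261) (nat_lit 265)) (l (nat_lit 1) (nat_lit 260) (nat_lit 263)))))) (n (nat_lit 263) (b (n (nat_lit 238) (b (n (nat_lit 337) (b (l (nat_lit 6) (nat_lit 237) (nat_lit 313)) (l (nat_lit 5) (nat_lit 262) (nat_lit 362)))) (l (nat_lit 6) (nat_lit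 212) (nat_lit 213)))) (l (nat_lit 1) (nat_lit 260) (nat_lit 264))))) (n (nat_lit 289) (b (n (nat_lit 310) (b (l (nat_lit 2) (nat_lit 284) (nat_lit 309)) (l (nat_lit 2) (nat_lit 285) (nat_lit 311)))) (n (nat_lit 314) (b (l (nat_lit 0) (nat_lit 286) (nat_lit 315)) (l (nat_lit 0) (nat_lit 285) (nat_lit 313))))))))) (b (n (nat_lit 284) (b (n (nat_lit 283) (b (n (nat_lit 258) (b (l (nat_lit 3) (nat_lit 257) (nat_lit 257)) (l (nat_lit 3) (nat_lit 258) (nat_lit 259)))) (l (nat_lit 0) (nat_lit 283) (nat_lit 311)))) (l (nat_lit 0) (nat_lit 284) (nat_lit 313)))) (n (nat_lit 288) (b (b (n (nat_lit 289) (b (n (nat_lit 260) (b (l (nat_lit 3) (nat_lit 260) (nat_lit 261)) (l (nat_lit 3) (nat_lit 259) (nat_lit 259)))) (n (nat_lit 314) (b (l (nat_lit 0) (nat_lit 286) (nat_lit 315)) (l (nat_lit 0) (nat_lit 285) (nat_lit 313)))))) (n (nat_lit 263) (b (n (nat_lit 238) (b (n (nat_lit 337) (b (l (nat_lit 6) (nat_lit 237) (nat_lit 313)) (l (nat_lit 5)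 (nat_lit 262) (nat_lit 362)))) (l (nat_lit 6) (nat_lit 212) (nat_lit 213)))) (l (nat_lit 1) (nat_lit 260) (nat_lit 264))))) (n (nat_lit 289) (b (n (nat_lit 264) (b (l (nat_lit 1) (nat_lit 261) (nat_lit 265)) (l (nat_lit 1) (nat_lit 260) (nat_lit 263)))) (n (nat_lit 260) (b (l (nat_lit 3) (nat_lit 260) (nat_lit 261)) (l (nat_lit 3) (nat_lit 259) (nat_lit 259))))))))))) (n (nat_lit 286) (b (b (n (nat_lit 284) (b (n (nat_lit 283) (b (n (nat_lit 308) (b (l (nat_lit 2) (nat_lit 283) (nat_lit 309)) (l (nat_lit 2) (nat_lit 282) (nat_lit 307)))) (n (nat_lit 258) (b (l (nat_lit 3) (nat_lit 257) (nat_lit 257)) (l (nat_lit 3) (nat_lit 258) (nat_lit 259)))))) (l (nat_lit 0) (nat_lit 284) (nat_lit 313)))) (n (nat_lit 288) (b (b (n (nat_lit 289) (b (n (nat_lit 260) (b (l (nat_lit 3) (nat_lit 260) (nat_lit 261)) (l (nat_lit 3) (nat_lit 259) (nat_lit 259)))) (n (nat_lit 314) (b (l (nat_lit 0) (nat_lit 286) (nat_lit 315)) (l (nat_lit 0) (nat_lit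 285) (nat_lit 313)))))) (n (nat_lit 263) (b (n (nat_lit 238) (b (n (nat_lit 337) (b (l (nat_lit 6) (nat_lit 237) (nat_lit 313)) (l (nat_lit 5) (nat_lit 262) (nat_lit 362)))) (l (nat_lit 6) (nat_lit 212) (nat_lit 213)))) (l (nat_lit 1) (nat_lit 260) (nat_lit 264))))) (n (nat_lit 289) (b (n (nat_lit 264) (b (l (nat_lit 1) (nat_lit 261) (nat_lit 265)) (l (nat_lit 1) (nat_lit 260) (nat_lit 263)))) (n (nat_lit 260) (b (l (nat_lit 3) (nat_lit 260) (nat_lit 261)) (l (nat_lit 3) (nat_lit 259) (nat_lit 259))))))))) (b (n (nat_lit 313) (b (n (nat_lit 314) (b (l (nat_lit 0) (nat_lit 285) (nat_lit 288)) (l (nat_lit 3) (nat_lit 286) (nat_lit 315)))) (l (nat_lit 0) (nat_lit 284) (nat_lit 284)))) (r (nat_lit 1))))))) (b (b (r (nat_lit 6)) (n (nat_lit 286) (b (b (n (nat_lit 288) (b (b (n (nat_lit 289) (b (n (nat_lit 260) (b (l (nat_lit 3) (nat_lit 260) (nat_lit 261)) (l (nat_lit 3) (nat_lit 259) (nat_lit 259)))) (n (nat_lit 314) (b (l (nat_lit 0)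 (nat_lit 286) (nat_lit 315)) (l (nat_lit 0) (nat_lit 285) (nat_lit 313)))))) (n (nat_lit 263) (b (n (nat_lit 238) (b (n (nat_lit 337) (b (l (nat_lit 6) (nat_lit 237) (nat_lit 313)) (l (nat_lit 5) (nat_lit 262) (nat_lit 362)))) (l (nat_lit 6) (nat_lit 212) (nat_lit 213)))) (l (nat_lit 1) (nat_lit 260) (nat_lit 264))))) (n (nat_lit 289) (b (n (nat_lit 264) (b (l (nat_lit 1) (nat_lit 261) (nat_lit 265)) (l (nat_lit 1) (nat_lit 260) (nat_lit 263)))) (n (nat_lit 260) (b (l (nat_lit 3) (nat_lit 260) (nat_lit 261)) (l (nat_lit 3) (nat_lit 259) (nat_lit 259)))))))) (n (nat_lit 313) (b (n (nat_lit 314) (b (l (nat_lit 3) (nat_lit 285) (nat_lit 311)) (l (nat_lit 3) (nat_lit 286) (nat_lit 315)))) (l (nat_lit 0) (nat_lit 284) (nat_lit 284))))) (r (nat_lit 2))))) (b (n (nat_lit 286) (b (b (r (nat_lit 5)) (n (nat_lit 284) (b (n (nat_lit 283) (b (n (nat_lit 308) (b (l (nat_lit 2) (nat_lit 283) (nat_lit 309)) (l (nat_lit 2) (nat_lit 282) (nat_lit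 307)))) (l (nat_lit 0) (nat_lit 283) (nat_lit 311)))) (l (nat_lit 0) (nat_lit 284) (nat_lit 313))))) (n (nat_lit 288) (b (b (n (nat_lit 289) (b (n (nat_lit 260) (b (l (nat_lit 3) (nat_lit 260) (nat_lit 261)) (l (nat_lit 3) (nat_lit 259) (nat_lit 259)))) (n (nat_lit 314) (b (l (nat_lit 0) (nat_lit 286) (nat_lit 315)) (l (nat_lit 0) (nat_lit 285) (nat_lit 313)))))) (n (nat_lit 263) (b (n (nat_lit 238) (b (n (nat_lit 337) (b (l (nat_lit 6) (nat_lit 237) (nat_lit 313)) (l (nat_lit 5) (nat_lit 262) (nat_lit 362)))) (l (nat_lit 6) (nat_lit 212) (nat_lit 213)))) (l (nat_lit 1) (nat_lit 260) (nat_lit 264))))) (n (nat_lit 289) (b (n (nat_lit 264) (b (l (nat_lit 1) (nat_lit 261) (nat_lit 265)) (l (nat_lit 1) (nat_lit 260) (nat_lit 263)))) (n (nat_lit 260) (b (l (nat_lit 3) (nat_lit 260) (nat_lit 261)) (l (nat_lit 3) (nat_lit 259) (nat_lit 259)))))))))) (n (nat_lit 286) (b (b (b (n (nat_lit 284) (b (b (n (nat_lit 283) (b (n (nat_lit 258) (b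 (l (nat_lit 3) (nat_lit 257) (nat_lit 257)) (l (nat_lit 3) (nat_lit 258) (nat_lit 259)))) (l (nat_lit 0) (nat_lit 283) (nat_lit 311)))) (n (nat_lit 283) (b (n (nat_lit 308) (b (l (nat_lit 2) (nat_lit 283) (nat_lit 309)) (l (nat_lit 2) (nat_lit 282) (nat_lit 307)))) (l (nat_lit 0) (nat_lit 283) (nat_lit 311))))) (n (nat_lit 309) (b (n (nat_lit 259) (b (n (nat_lit 310) (b (n (nat_lit 234) (b (l (nat_lit 4) (nat_lit 234) (nat_lit 335)) (l (nat_lit 4) (nat_lit 209) (nat_lit 209)))) (l (nat_lit 2) (nat_lit 284) (nat_lit 288)))) (l (nat_lit 3) (nat_lit 258) (nat_lit 258)))) (l (nat_lit 2) (nat_lit 283) (nat_lit 308)))))) (r (nat_lit 7))) (b (n (nat_lit 284) (b (n (nat_lit 283) (b (n (nat_lit 258) (b (l (nat_lit 3) (nat_lit 257) (nat_lit 257)) (l (nat_lit 3) (nat_lit 258) (nat_lit 259)))) (l (nat_lit 0) (nat_lit 283) (nat_lit 311)))) (l (nat_lit 0) (nat_lit 284) (nat_lit 313)))) (n (nat_lit 284) (b (n (nat_lit 283) (b (n (nat_lit 308) (b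 (l (nat_lit 2) (nat_lit 283) (nat_lit 309)) (l (nat_lit 2) (nat_lit 282) (nat_lit 307)))) (n (nat_lit 258) (b (l (nat_lit 3) (nat_lit 257) (nat_lit 257)) (l (nat_lit 3) (nat_lit 258) (nat_lit 259)))))) (l (nat_lit 0) (nat_lit 284) (nat_lit 313)))))) (n (nat_lit 284) (b (n (nat_lit 283) (b (n (nat_lit 308) (b (l (nat_lit 2) (nat_lit 283) (nat_lit 309)) (l (nat_lit 2) (nat_lit 282) (nat_lit 307)))) (l (nat_lit 0) (nat_lit 283) (nat_lit 311)))) (l (nat_lit 0) (nat_lit 284) (nat_lit 313))))))))) (b (b (n (nat_lit 286) (b (b (n (nat_lit 284) (b (b (n (nat_lit 283) (b (n (nat_lit 258) (b (l (nat_lit 3) (nat_lit 257) (nat_lit 257)) (l (nat_lit 3) (nat_lit 258) (nat_lit 259)))) (l (nat_lit 0) (nat_lit 283) (nat_lit 311)))) (n (nat_lit 283) (b (n (nat_lit 308) (b (l (nat_lit 2) (nat_lit 283) (nat_lit 309)) (l (nat_lit 2) (nat_lit 282) (nat_lit 307)))) (l (nat_lit 0) (nat_lit 283) (nat_lit 311))))) (n (nat_lit 309) (b (n (nat_lit 259) (b (n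 (nat_lit 310) (b (n (nat_lit 234) (b (l (nat_lit 4) (nat_lit 234) (nat_lit 335)) (l (nat_lit 4) (nat_lit 209) (nat_lit 209)))) (l (nat_lit 2) (nat_lit 284) (nat_lit 288)))) (l (nat_lit 3) (nat_lit 258) (nat_lit 258)))) (l (nat_lit 2) (nat_lit 283) (nat_lit 308)))))) (n (nat_lit 288) (b (b (n (nat_lit 289) (b (n (nat_lit 310) (b (l (nat_lit 2) (nat_lit 284) (nat_lit 309)) (l (nat_lit 2) (nat_lit 285) (nat_lit 311)))) (n (nat_lit 264) (b (l (nat_lit 1) (nat_lit 261) (nat_lit 265)) (l (nat_lit 1) (nat_lit 260) (nat_lit 263)))))) (n (nat_lit 263) (b (n (nat_lit 238) (b (n (nat_lit 337) (b (l (nat_lit 6) (nat_lit 237) (nat_lit 313)) (l (nat_lit 5) (nat_lit 262) (nat_lit 362)))) (l (nat_lit 6) (nat_lit 212) (nat_lit 213)))) (l (nat_lit 1) (nat_lit 260) (nat_lit 264))))) (n (nat_lit 289) (b (n (nat_lit 310) (b (l (nat_lit 2) (nat_lit 284) (nat_lit 309)) (l (nat_lit 2) (nat_lit 285) (nat_lit 311)))) (n (nat_lit 314) (b (l (nat_lit 0) (nat_lit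 286) (nat_lit 315)) (l (nat_lit 0) (nat_lit 285) (nat_lit 313))))))))) (b (n (nat_lit 284) (b (n (nat_lit 283) (b (n (nat_lit 258) (b (l (nat_lit 3) (nat_lit 257) (nat_lit 257)) (l (nat_lit 3) (nat_lit 258) (nat_lit 259)))) (l (nat_lit 0) (nat_lit 283) (nat_lit 311)))) (l (nat_lit 0) (nat_lit 284) (nat_lit 313)))) (n (nat_lit 284) (b (n (nat_lit 283) (b (n (nat_lit 308) (b (l (nat_lit 2) (nat_lit 283) (nat_lit 309)) (l (nat_lit 2) (nat_lit 282) (nat_lit 307)))) (n (nat_lit 258) (b (l (nat_lit 3) (nat_lit 257) (nat_lit 257)) (l (nat_lit 3) (nat_lit 258) (nat_lit 259)))))) (l (nat_lit 0) (nat_lit 284) (nat_lit 313))))))) (r (nat_lit 8))) (n (nat_lit 284) (b (b (b (n (nat_lit 286) (b (b (n (nat_lit 259) (b (n (nat_lit 309) (b (n (nat_lit 334) (b (n (nat_lit 310) (b (n (nat_lit 333) (b (l (nat_lit 2) (nat_lit 308) (nat_lit 311)) (l (nat_lit 6) (nat_lit 258) (nat_lit 358)))) (n (nat_lit 335) (b (l (nat_lit 4) (nat_lit 234) (nat_lit 234))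 (l (nat_lit 4) (nat_lit 259) (nat_lit 360)))))) (n (nat_lit 260) (b (l (nat_lit 5) (nat_lit 234) (nat_lit 235)) (l (nat_lit 5) (nat_lit 259) (nat_lit 359)))))) (l (nat_lit 2) (nat_lit 283) (nat_lit 308)))) (l (nat_lit 3) (nat_lit 258) (nat_lit 258)))) (n (nat_lit 283) (b (n (nat_lit 308) (b (l (nat_lit 2) (nat_lit 283) (nat_lit 309)) (l (nat_lit 2) (nat_lit 282) (nat_lit 307)))) (n (nat_lit 258) (b (l (nat_lit 3) (nat_lit 257) (nat_lit 257)) (l (nat_lit 3) (nat_lit 258) (nat_lit 259))))))) (b (n (nat_lit 283) (b (n (nat_lit 258) (b (l (nat_lit 3) (nat_lit 257) (nat_lit 257)) (l (nat_lit 3) (nat_lit 258) (nat_lit 259)))) (l (nat_lit 0) (nat_lit 283) (nat_lit 311)))) (n (nat_lit 283) (b (n (nat_lit 308) (b (l (nat_lit 2) (nat_lit 283) (nat_lit 309)) (l (nat_lit 2) (nat_lit 282) (nat_lit 307)))) (l (nat_lit 0) (nat_lit 283) (nat_lit 311))))))) (n (nat_lit 286) (b (n (nat_lit 259) (b (n (nat_lit 309) (b (n (nat_lit 334) (b (n (nat_lit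 310) (b (n (nat_lit 333) (b (l (nat_lit 2) (nat_lit 308) (nat_lit 311)) (l (nat_lit 6) (nat_lit 258) (nat_lit 358)))) (n (nat_lit 335) (b (l (nat_lit 4) (nat_lit 234) (nat_lit 234)) (l (nat_lit 4) (nat_lit 259) (nat_lit 360)))))) (n (nat_lit 260) (b (l (nat_lit 5) (nat_lit 234) (nat_lit 235)) (l (nat_lit 5) (nat_lit 259) (nat_lit 359)))))) (l (nat_lit 2) (nat_lit 283) (nat_lit 308)))) (l (nat_lit 3) (nat_lit 258) (nat_lit 258)))) (l (nat_lit 0) (nat_lit 284) (nat_lit 313))))) (b (n (nat_lit 286) (b (n (nat_lit 283) (b (n (nat_lit 308) (b (l (nat_lit 2) (nat_lit 283) (nat_lit 309)) (l (nat_lit 2) (nat_lit 282) (nat_lit 307)))) (n (nat_lit 258) (b (l (nat_lit 3) (nat_lit 257) (nat_lit 257)) (l (nat_lit 3) (nat_lit 258) (nat_lit 259)))))) (l (nat_lit 0) (nat_lit 284) (nat_lit 313)))) (n (nat_lit 286) (b (n (nat_lit 283) (b (n (nat_lit 258) (b (l (nat_lit 3) (nat_lit 257) (nat_lit 257)) (l (nat_lit 3) (nat_lit 258) (nat_lit 259)))) (l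 (nat_lit 0) (nat_lit 283) (nat_lit 311)))) (l (nat_lit 0) (nat_lit 284) (nat_lit 313)))))) (b (n (nat_lit 286) (b (n (nat_lit 283) (b (n (nat_lit 308) (b (l (nat_lit 2) (nat_lit 283) (nat_lit 309)) (l (nat_lit 2) (nat_lit 282) (nat_lit 307)))) (l (nat_lit 0) (nat_lit 283) (nat_lit 311)))) (l (nat_lit 0) (nat_lit 284) (nat_lit 313)))) (n (nat_lit 310) (b (b (n (nat_lit 335) (b (b (n (nat_lit 360) (b (b (n (nat_lit 260) (b (n (nat_lit 361) (b (l (nat_lit 4) (nat_lit 285) (nat_lit 386)) (l (nat_lit 4) (nat_lit 260) (nat_lit 336)))) (n (nat_lit 359) (b (l (nat_lit 6) (nat_lit 259) (nat_lit 334)) (l (nat_lit 6) (nat_lit 284) (nat_lit 384)))))) (n (nat_lit 385) (b (n (nat_lit 386) (b (l (nat_lit 4) (nat_lit 310) (nat_lit 411)) (l (nat_lit 4) (nat_lit 285) (nat_lit 361)))) (l (nat_lit 7) (nat_lit 284) (nat_lit 309))))) (n (nat_lit 385) (b (n (nat_lit 384) (b (l (nat_lit 6) (nat_lit 284) (nat_lit 359)) (l (nat_lit 6) (nat_lit 309) (nat_lit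 409)))) (l (nat_lit 7) (nat_lit 284) (nat_lit 309)))))) (n (nat_lit 360) (b (n (nat_lit 385) (b (n (nat_lit 384) (b (l (nat_lit 6) (nat_lit 284) (nat_lit 359)) (l (nat_lit 6) (nat_lit 309) (nat_lit 409)))) (n (nat_lit 386) (b (l (nat_lit 4) (nat_lit 310) (nat_lit 411)) (l (nat_lit 4) (nat_lit 285) (nat_lit 361)))))) (l (nat_lit 7) (nat_lit 259) (nat_lit 259))))) (b (n (nat_lit 259) (b (n (nat_lit 234) (b (l (nat_lit 4) (nat_lit 209) (nat_lit 209)) (l (nat_lit 7) (nat_lit 234) (nat_lit 260)))) (l (nat_lit 7) (nat_lit 259) (nat_lit 360)))) (n (nat_lit 260) (b (b (n (nat_lit 235) (b (n (nat_lit 234) (b (l (nat_lit 7) (nat_lit 234) (nat_lit 259)) (l (nat_lit 7) (nat_lit 209) (nat_lit 209)))) (n (nat_lit 236) (b (l (nat_lit 5) (nat_lit 210) (nat_lit 211)) (l (nat_lit 5) (nat_lit 235) (nat_lit 261)))))) (n (nat_lit 235) (b (n (nat_lit 334) (b (l (nat_lit 6) (nat_lit 259) (nat_lit 359)) (l (nat_lit 6) (nat_lit 234) (nat_lit 309)))) (n (nat_lit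 236) (b (l (nat_lit 5) (nat_lit 210) (nat_lit 211)) (l (nat_lit 5) (nat_lit 235) (nat_lit 261))))))) (n (nat_lit 259) (b (n (nat_lit 334) (b (n (nat_lit 336) (b (n (nat_lit 333) (b (b (n (nat_lit 358) (b (l (nat_lit 2) (nat_lit 332) (nat_lit 357)) (l (nat_lit 6) (nat_lit 258) (nat_lit 309)))) (n (nat_lit 308) (b (n (nat_lit 337) (b (l (nat_lit 3) (nat_lit 308) (nat_lit 309)) (l (nat_lit 1) (nat_lit 309) (nat_lit 313)))) (l (nat_lit 3) (nat_lit 307) (nat_lit 307))))) (n (nat_lit 358) (b (n (nat_lit 308) (b (l (nat_lit 5) (nat_lit 258) (nat_lit 283)) (l (nat_lit 3) (nat_lit 307) (nat_lit 307)))) (l (nat_lit 2) (nat_lit 332) (nat_lit 357)))))) (l (nat_lit 4) (nat_lit 260) (nat_lit 361)))) (l (nat_lit 6) (nat_lit 259) (nat_lit 359)))) (l (nat_lit 7) (nat_lit 234) (nat_lit 234))))))))) (n (nat_lit 335) (b (b (n (nat_lit 360) (b (n (nat_lit 385) (b (n (nat_lit 384) (b (l (nat_lit 6) (nat_lit 284) (nat_lit 359)) (l (nat_lit 6) (nat_lit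 309) (nat_lit 409)))) (n (nat_lit 386) (b (l (nat_lit 4) (nat_lit 310) (nat_lit 411)) (l (nat_lit 4) (nat_lit 285) (nat_lit 361)))))) (l (nat_lit 7) (nat_lit 259) (nat_lit 259)))) (n (nat_lit 334) (b (n (nat_lit 359) (b (n (nat_lit 384) (b (l (nat_lit 5) (nat_lit 309) (nat_lit 409)) (l (nat_lit 6) (nat_lit 284) (nat_lit 360)))) (l (nat_lit 6) (nat_lit 259) (nat_lit 260)))) (n (nat_lit 311) (b (n (nat_lit 333) (b (l (nat_lit 1) (nat_lit 308) (nat_lit 336)) (l (nat_lit 1) (nat_lit 307) (nat_lit 332)))) (l (nat_lit 3) (nat_lit 284) (nat_lit 313))))))) (b (n (nat_lit 259) (b (n (nat_lit 234) (b (l (nat_lit 4) (nat_lit 209) (nat_lit 209)) (l (nat_lit 7) (nat_lit 234) (nat_lit 260)))) (l (nat_lit 7) (nat_lit 259) (nat_lit 360)))) (n (nat_lit 311) (b (n (nat_lit 260) (b (n (nat_lit 235) (b (n (nat_lit 234) (b (l (nat_lit 7) (nat_lit 234) (nat_lit 259)) (l (nat_lit 7) (nat_lit 209) (nat_lit 209)))) (n (nat_lit 236) (b (l (nat_lit 5) (nat_lit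 210) (nat_lit 211)) (l (nat_lit 5) (nat_lit 235) (nat_lit 261)))))) (n (nat_lit 336) (b (n (nat_lit 334) (b (l (nat_lit 6) (nat_lit 259) (nat_lit 359)) (l (nat_lit 1) (nat_lit 308) (nat_lit 333)))) (l (nat_lit 4) (nat_lit 260) (nat_lit 361)))))) (l (nat_lit 3) (nat_lit 284) (nat_lit 313)))))))) (b (n (nat_lit 311) (b (n (nat_lit 283) (b (l (nat_lit 0) (nat_lit 282) (nat_lit 282)) (l (nat_lit 3) (nat_lit 283) (nat_lit 309)))) (l (nat_lit 3) (nat_lit 284) (nat_lit 313)))) (n (nat_lit 335) (b (b (n (nat_lit 360) (b (b (n (nat_lit 260) (b (n (nat_lit 361) (b (l (nat_lit 4) (nat_lit 285) (nat_lit 386)) (l (nat_lit 4) (nat_lit 260) (nat_lit 336)))) (n (nat_lit 359) (b (l (nat_lit 6) (nat_lit 259) (nat_lit 334)) (l (nat_lit 6) (nat_lit 284) (nat_lit 384)))))) (n (nat_lit 385) (b (n (nat_lit 386) (b (l (nat_lit 4) (nat_lit 310) (nat_lit 411)) (l (nat_lit 4) (nat_lit 285) (nat_lit 361)))) (l (nat_lit 7) (nat_lit 284) (nat_lit 309))))) (n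 (nat_lit 385) (b (n (nat_lit 384) (b (l (nat_lit 6) (nat_lit 284) (nat_lit 359)) (l (nat_lit 6) (nat_lit 309) (nat_lit 409)))) (l (nat_lit 7) (nat_lit 284) (nat_lit 309)))))) (n (nat_lit 360) (b (n (nat_lit 385) (b (n (nat_lit 384) (b (l (nat_lit 6) (nat_lit 284) (nat_lit 359)) (l (nat_lit 6) (nat_lit 309) (nat_lit 409)))) (n (nat_lit 386) (b (l (nat_lit 4) (nat_lit 310) (nat_lit 411)) (l (nat_lit 4) (nat_lit 285) (nat_lit 361)))))) (l (nat_lit 7) (nat_lit 259) (nat_lit 259))))) (b (n (nat_lit 259) (b (n (nat_lit 234) (b (l (nat_lit 4) (nat_lit 209) (nat_lit 209)) (l (nat_lit 7) (nat_lit 234) (nat_lit 260)))) (l (nat_lit 7) (nat_lit 259) (nat_lit 360)))) (n (nat_lit 260) (b (n (nat_lit 235) (b (n (nat_lit 234) (b (l (nat_lit 7) (nat_lit 234) (nat_lit 259)) (l (nat_lit 7) (nat_lit 209) (nat_lit 209)))) (n (nat_lit 236) (b (l (nat_lit 5) (nat_lit 210) (nat_lit 211)) (l (nat_lit 5) (nat_lit 235) (nat_lit 261)))))) (n (nat_lit 334) (b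 (n (nat_lit 311) (b (n (nat_lit 283) (b (l (nat_lit 0) (nat_lit 282) (nat_lit 282)) (l (nat_lit 3) (nat_lit 283) (nat_lit 309)))) (n (nat_lit 336) (b (l (nat_lit 1) (nat_lit 308) (nat_lit 333)) (l (nat_lit 4) (nat_lit 260) (nat_lit 361)))))) (l (nat_lit 6) (nat_lit 259) (nat_lit 359))))))))))))))))))
    (envOK_cons p5733 (envOK_cons p5748 (envOK_cons p5751 (envOK_cons p3063 (envOK_cons p5752 (envOK_cons p5753 (envOK_cons p5856 (envOK_cons p2811 (envOK_cons p5911 envOK_nil))))))))) (by decide +kernel)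

theorem p6001 : Fam (nat_lit 7) (nat_lit 8343700105050909624035516772798185167898074691139901078627207441251511143569872667327258951680) (nat_lit 112730047332761641159205870915855064737826263299873834030322087940453402203702701708808283762520326833761681408) (nat_lit 112730047332761641159205870915855064737826263299873834030322087940453402203702701708808283762520326833761681408) :=
  chk_sound Env.nil
    (n (nat_lit 289) (b (b (n (nat_lit 290) (b (b (n (nat_lit 286) (b (n (nat_lit 315) (b (l (nat_lit 0) (nat_lit 287) (nat_lit 316)) (l (nat_lit 0) (nat_lit 286) (nat_lit 314)))) (n (nat_lit 265) (b (l (nat_lit 1) (nat_lit 261) (nat_lit 264)) (l (nat_lit 1) (nat_lit 262) (nat_lit 266)))))) (n (nat_lit 291) (b (n (nat_lit 316) (b (l (nat_lit 0) (nat_lit 288) (nat_lit 317)) (l (nat_lit 0) (nat_lit 287) (nat_lit 315)))) (l (nat_lit 2) (nat_lit 287) (nat_lit 313))))) (n (nat_lit 291) (b (n (nat_lit 266) (b (l (nat_lit 1) (nat_lit 263)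 (nat_lit 267)) (l (nat_lit 1) (nat_lit 262) (nat_lit 265)))) (l (nat_lit 2) (nat_lit 287) (nat_lit 313)))))) (n (nat_lit 311) (b (n (nat_lit 310) (b (l (nat_lit 1) (nat_lit 285) (nat_lit 313)) (l (nat_lit 1) (nat_lit 284) (nat_lit 309)))) (l (nat_lit 2) (nat_lit 286) (nat_lit 290))))) (b (n (nat_lit 311) (b (n (nat_lit 310) (b (l (nat_lit 1) (nat_lit 284) (nat_lit 309)) (l (nat_lit 2) (nat_lit 285) (nat_lit 286)))) (l (nat_lit 2) (nat_lit 286) (nat_lit 290)))) (n (nat_lit 286) (b (b (n (nat_lit 285) (b (n (nat_lit 264) (b (l (nat_lit 1) (nat_lit 261) (nat_lit 265)) (l (nat_lit 1) (nat_lit 260) (nat_lit 263)))) (n (nat_lit 310) (b (l (nat_lit 2) (nat_lit 284) (nat_lit 309)) (l (nat_lit 2) (nat_lit 285) (nat_lit 311)))))) (n (nat_lit 285) (b (n (nat_lit 313) (b (l (nat_lit 0) (nat_lit 284) (nat_lit 284)) (l (nat_lit 0) (nat_lit 285) (nat_lit 314)))) (n (nat_lit 264) (b (l (nat_lit 1) (nat_lit 261) (nat_lit 265)) (l (nat_lit 1) (nat_lit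 260) (nat_lit 263))))))) (b (n (nat_lit 285) (b (n (nat_lit 313) (b (l (nat_lit 0) (nat_lit 284) (nat_lit 284)) (l (nat_lit 0) (nat_lit 285) (nat_lit 314)))) (n (nat_lit 310) (b (l (nat_lit 2) (nat_lit 284) (nat_lit 309)) (l (nat_lit 2) (nat_lit 285) (nat_lit 311)))))) (n (nat_lit 314) (b (n (nat_lit 339) (b (b (n (nat_lit 340) (b (n (nat_lit 264) (b (l (nat_lit 1) (nat_lit 261) (nat_lit 265)) (l (nat_lit 4) (nat_lit 264) (nat_lit 365)))) (n (nat_lit 311) (b (l (nat_lit 0) (nat_lit 311) (nat_lit 313)) (l (nat_lit 2) (nat_lit 285) (nat_lit 310)))))) (n (nat_lit 263) (b (n (nat_lit 264) (b (l (nat_lit 1) (nat_lit 261) (nat_lit 265)) (l (nat_lit 7) (nat_lit 238) (nat_lit 238)))) (l (nat_lit 7) (nat_lit 263) (nat_lit 364))))) (n (nat_lit 263) (b (n (nat_lit 238) (b (l (nat_lit 4) (nat_lit 238) (nat_lit 313)) (l (nat_lit 6) (nat_lit 212) (nat_lit 213)))) (l (nat_lit 7) (nat_lit 263) (nat_lit 364)))))) (l (nat_lit 0) (nat_lit 286) (nat_lit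 315))))))))))
    envOK_nil (by decide +kernel)

theorem p6044 : Fam (nat_lit 10) (nat_lit 8343699607727673214248874617415937021077234590683750281279490000787534250410375654793883418624) (nat_lit 6619537316948034207651541673248629258055133757849905074968184196854157094293018016176120134715469659997267797290778624) (nat_lit 6619537316948034207651541673248629258055133757849905074968184196854157094293018016176120134715469659997267797290778624) :=
  chk_sound (Env.cons (nat_lit 7) (nat_lit 8343700105050909624035516772798185167898074691139901078627207441251511143569872667327258951680) (nat_lit 1399840996814932118032166912122570481166651294631108714951023853140514222830667535454175908454664765440) (Env.cons (nat_lit 7) (nat_lit 8343700105050909624035516772798185167898074691139901078627207441251511143569872667327258951680) (nat_lit 112730047332761641159205870915855064737826263299873834030322087940453402203702701708808283762520326833761681408)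 Env.nil))
    (n (nat_lit 288) (b (b (b (n (nat_lit 289) (b (b (n (nat_lit 315) (b (b (n (nat_lit 290) (b (n (nat_lit 265) (b (n (nat_lit 264) (b (n (nat_lit 340) (b (l (nat_lit 7) (nat_lit 264) (nat_lit 365)) (l (nat_lit 7) (nat_lit 239) (nat_lit 239)))) (l (nat_lit 1) (nat_lit 261) (nat_lit 286)))) (l (nat_lit 1) (nat_lit 262) (nat_lit 266)))) (l (nat_lit 0) (nat_lit 287) (nat_lit 316)))) (n (nat_lit 286) (b (n (nat_lit 285) (b (n (nat_lit 260) (b (l (nat_lit 3) (nat_lit 260) (nat_lit 261)) (l (nat_lit 3) (nat_lit 259) (nat_lit 259)))) (n (nat_lit 264) (b (l (nat_lit 1) (nat_lit 261) (nat_lit 265)) (l (nat_lit 1) (nat_lit 260) (nat_lit 263)))))) (l (nat_lit 0) (nat_lit 286) (nat_lit 314))))) (b (n (nat_lit 316) (b (n (nat_lit 314) (b (l (nat_lit 3) (nat_lit 288) (nat_lit 317)) (l (nat_lit 0) (nat_lit 286) (nat_lit 286)))) (l (nat_lit 0) (nat_lit 287) (nat_lit 290)))) (n (nat_lit 290) (b (n (nat_lit 265) (b (n (nat_lit 340) (b (b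 (n (nat_lit 365) (b (n (nat_lit 366) (b (l (nat_lit 4) (nat_lit 265) (nat_lit 341)) (l (nat_lit 4) (nat_lit 290) (nat_lit 391)))) (n (nat_lit 364) (b (l (nat_lit 6) (nat_lit 289) (nat_lit 389)) (l (nat_lit 6) (nat_lit 264) (nat_lit 339)))))) (n (nat_lit 264) (b (l (nat_lit 7) (nat_lit 264) (nat_lit 365)) (l (nat_lit 7) (nat_lit 239) (nat_lit 239))))) (n (nat_lit 240) (b (n (nat_lit 339) (b (l (nat_lit 6) (nat_lit 264) (nat_lit 364)) (l (nat_lit 6) (nat_lit 239) (nat_lit 314)))) (n (nat_lit 239) (b (l (nat_lit 7) (nat_lit 214) (nat_lit 214)) (l (nat_lit 7) (nat_lit 239) (nat_lit 264)))))))) (l (nat_lit 1) (nat_lit 262) (nat_lit 266)))) (l (nat_lit 0) (nat_lit 287) (nat_lit 316))))))) (n (nat_lit 290) (b (n (nat_lit 291) (b (n (nat_lit 316) (b (l (nat_lit 0) (nat_lit 288) (nat_lit 317)) (l (nat_lit 0) (nat_lit 287) (nat_lit 315)))) (n (nat_lit 266) (b (l (nat_lit 1) (nat_lit 263) (nat_lit 267)) (l (nat_lit 1) (nat_lit 262) (nat_lit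 265)))))) (l (nat_lit 2) (nat_lit 286) (nat_lit 311))))) (b (n (nat_lit 286) (b (b (n (nat_lit 285) (b (n (nat_lit 264) (b (l (nat_lit 1) (nat_lit 261) (nat_lit 265)) (l (nat_lit 1) (nat_lit 260) (nat_lit 263)))) (n (nat_lit 310) (b (l (nat_lit 2) (nat_lit 284) (nat_lit 309)) (l (nat_lit 2) (nat_lit 285) (nat_lit 311)))))) (n (nat_lit 261) (b (n (nat_lit 236) (b (n (nat_lit 311) (b (l (nat_lit 4) (nat_lit 236) (nat_lit 337)) (l (nat_lit 2) (nat_lit 285) (nat_lit 310)))) (l (nat_lit 4) (nat_lit 211) (nat_lit 211)))) (l (nat_lit 3) (nat_lit 260) (nat_lit 260))))) (n (nat_lit 285) (b (n (nat_lit 260) (b (l (nat_lit 3) (nat_lit 260) (nat_lit 261)) (l (nat_lit 3) (nat_lit 259) (nat_lit 259)))) (n (nat_lit 264) (b (l (nat_lit 1) (nat_lit 261) (nat_lit 265)) (l (nat_lit 1) (nat_lit 260) (nat_lit 263)))))))) (n (nat_lit 311) (b (n (nat_lit 310) (b (l (nat_lit 1) (nat_lit 284) (nat_lit 309)) (l (nat_lit 2) (nat_lit 285) (nat_lit 286)))) (l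 (nat_lit 2) (nat_lit 286) (nat_lit 290))))))) (r (nat_lit 0))) (b (n (nat_lit 286) (b (b (n (nat_lit 285) (b (b (n (nat_lit 284) (b (n (nat_lit 259) (b (l (nat_lit 3) (nat_lit 258) (nat_lit 258)) (l (nat_lit 3) (nat_lit 259) (nat_lit 260)))) (n (nat_lit 309) (b (l (nat_lit 2) (nat_lit 283) (nat_lit 308)) (l (nat_lit 2) (nat_lit 284) (nat_lit 310)))))) (n (nat_lit 310) (b (n (nat_lit 335) (b (b (n (nat_lit 334) (b (n (nat_lit 313) (b (l (nat_lit 0) (nat_lit 285) (nat_lit 314)) (l (nat_lit 2) (nat_lit 309) (nat_lit 311)))) (n (nat_lit 260) (b (l (nat_lit 3) (nat_lit 259) (nat_lit 259)) (l (nat_lit 6) (nat_lit 259) (nat_lit 359)))))) (n (nat_lit 261) (b (n (nat_lit 260) (b (l (nat_lit 3) (nat_lit 259) (nat_lit 259)) (l (nat_lit 5) (nat_lit 235) (nat_lit 236)))) (l (nat_lit 5) (nat_lit 260) (nat_lit 360))))) (n (nat_lit 261) (b (n (nat_lit 236) (b (l (nat_lit 6) (nat_lit 210) (nat_lit 211)) (l (nat_lit 6) (nat_lit 235) (nat_lit 311))))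 (l (nat_lit 5) (nat_lit 260) (nat_lit 360)))))) (l (nat_lit 2) (nat_lit 284) (nat_lit 309))))) (n (nat_lit 313) (b (l (nat_lit 0) (nat_lit 284) (nat_lit 284)) (l (nat_lit 0) (nat_lit 285) (nat_lit 314)))))) (n (nat_lit 263) (b (n (nat_lit 264) (b (n (nat_lit 265) (b (l (nat_lit 2) (nat_lit 261) (nat_lit 262)) (l (nat_lit 2) (nat_lit 262) (nat_lit 266)))) (l (nat_lit 1) (nat_lit 260) (nat_lit 285)))) (n (nat_lit 238) (b (n (nat_lit 337) (b (l (nat_lit 6) (nat_lit 237) (nat_lit 313)) (l (nat_lit 5) (nat_lit 262) (nat_lit 362)))) (l (nat_lit 6) (nat_lit 212) (nat_lit 213))))))) (b (n (nat_lit 337) (b (b (n (nat_lit 362) (b (n (nat_lit 387) (b (l (nat_lit 5) (nat_lit 287) (nat_lit 313)) (l (nat_lit 7) (nat_lit 286) (nat_lit 311)))) (l (nat_lit 7) (nat_lit 261) (nat_lit 261)))) (n (nat_lit 362) (b (n (nat_lit 387) (b (l (nat_lit 5) (nat_lit 287) (nat_lit 313)) (l (nat_lit 7) (nat_lit 286) (nat_lit 311)))) (l (nat_lit 5) (nat_lit 262)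 (nat_lit 263))))) (b (n (nat_lit 362) (b (l (nat_lit 5) (nat_lit 262) (nat_lit 263)) (l (nat_lit 7) (nat_lit 261) (nat_lit 261)))) (n (nat_lit 238) (b (b (n (nat_lit 263) (b (l (nat_lit 6) (nat_lit 237) (nat_lit 313)) (l (nat_lit 5) (nat_lit 237) (nat_lit 262)))) (n (nat_lit 236) (b (b (n (nat_lit 237) (b (b (n (nat_lit 262) (b (l (nat_lit 5) (nat_lit 212) (nat_lit 213)) (l (nat_lit 7) (nat_lit 211) (nat_lit 211)))) (n (nat_lit 235) (b (b (n (nat_lit 239) (b (n (nat_lit 210) (b (l (nat_lit 3) (nat_lit 210) (nat_lit 211)) (l (nat_lit 3) (nat_lit 209) (nat_lit 209)))) (n (nat_lit 214) (b (l (nat_lit 1) (nat_lit 211) (nat_lit 215)) (l (nat_lit 1) (nat_lit 210) (nat_lit 213)))))) (n (nat_lit 234) (b (n (nat_lit 259) (b (l (nat_lit 2) (nat_lit 233) (nat_lit 258)) (l (nat_lit 2) (nat_lit 234) (nat_lit 260)))) (n (nat_lit 213) (b (l (nat_lit 1) (nat_lit 210) (nat_lit 214)) (l (nat_lit 1) (nat_lit 209) (nat_lit 212))))))) (n (nat_lit 234)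 (b (n (nat_lit 209) (b (l (nat_lit 3) (nat_lit 209) (nat_lit 210)) (l (nat_lit 3) (nat_lit 208) (nat_lit 208)))) (n (nat_lit 259) (b (l (nat_lit 2) (nat_lit 233) (nat_lit 258)) (l (nat_lit 2) (nat_lit 234) (nat_lit 260))))))))) (b (n (nat_lit 262) (b (n (nat_lit 212) (b (l (nat_lit 4) (nat_lit 212) (nat_lit 313)) (l (nat_lit 6) (nat_lit 211) (nat_lit 311)))) (l (nat_lit 7) (nat_lit 211) (nat_lit 211)))) (n (nat_lit 262) (b (n (nat_lit 212) (b (l (nat_lit 4) (nat_lit 212) (nat_lit 313)) (l (nat_lit 6) (nat_lit 211) (nat_lit 311)))) (l (nat_lit 5) (nat_lit 212) (nat_lit 213))))))) (n (nat_lit 261) (b (l (nat_lit 7) (nat_lit 236) (nat_lit 262)) (l (nat_lit 4) (nat_lit 211) (nat_lit 211))))) (b (n (nat_lit 261) (b (l (nat_lit 7) (nat_lit 236) (nat_lit 262)) (l (nat_lit 4) (nat_lit 236) (nat_lit 311)))) (n (nat_lit 261) (b (l (nat_lit 4) (nat_lit 236) (nat_lit 311)) (l (nat_lit 4) (nat_lit 211) (nat_lit 211)))))))) (b (n (nat_lit 263)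 (b (l (nat_lit 6) (nat_lit 237) (nat_lit 313)) (l (nat_lit 6) (nat_lit 212) (nat_lit 213)))) (n (nat_lit 263) (b (l (nat_lit 5) (nat_lit 237) (nat_lit 262)) (l (nat_lit 6) (nat_lit 212) (nat_lit 213)))))))))) (n (nat_lit 285) (b (n (nat_lit 284) (b (n (nat_lit 259) (b (l (nat_lit 3) (nat_lit 258) (nat_lit 258)) (l (nat_lit 3) (nat_lit 259) (nat_lit 260)))) (n (nat_lit 309) (b (l (nat_lit 2) (nat_lit 283) (nat_lit 308)) (l (nat_lit 2) (nat_lit 284) (nat_lit 310)))))) (n (nat_lit 263) (b (n (nat_lit 337) (b (n (nat_lit 238) (b (l (nat_lit 6) (nat_lit 212) (nat_lit 213)) (l (nat_lit 5) (nat_lit 237) (nat_lit 262)))) (l (nat_lit 5) (nat_lit 262) (nat_lit 362)))) (l (nat_lit 1) (nat_lit 260) (nat_lit 264))))))))) (r (nat_lit 1)))) (b (n (nat_lit 289) (b (b (n (nat_lit 286) (b (b (n (nat_lit 261) (b (n (nat_lit 236) (b (n (nat_lit 311) (b (l (nat_lit 4) (nat_lit 236) (nat_lit 337)) (l (nat_lit 2) (nat_lit 285) (nat_lit 310)))) (l (nat_lit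 4) (nat_lit 211) (nat_lit 211)))) (l (nat_lit 3) (nat_lit 260) (nat_lit 260)))) (n (nat_lit 285) (b (n (nat_lit 313) (b (l (nat_lit 0) (nat_lit 284) (nat_lit 284)) (l (nat_lit 0) (nat_lit 285) (nat_lit 314)))) (n (nat_lit 310) (b (l (nat_lit 2) (nat_lit 284) (nat_lit 309)) (l (nat_lit 2) (nat_lit 285) (nat_lit 311))))))) (n (nat_lit 285) (b (n (nat_lit 313) (b (l (nat_lit 0) (nat_lit 284) (nat_lit 284)) (l (nat_lit 0) (nat_lit 285) (nat_lit 314)))) (n (nat_lit 260) (b (l (nat_lit 3) (nat_lit 260) (nat_lit 261)) (l (nat_lit 3) (nat_lit 259) (nat_lit 259)))))))) (n (nat_lit 290) (b (n (nat_lit 291) (b (n (nat_lit 316) (b (l (nat_lit 0) (nat_lit 288) (nat_lit 317)) (l (nat_lit 0) (nat_lit 287) (nat_lit 315)))) (n (nat_lit 262) (b (l (nat_lit 3) (nat_lit 262) (nat_lit 263)) (l (nat_lit 3) (nat_lit 261) (nat_lit 261)))))) (l (nat_lit 2) (nat_lit 286) (nat_lit 311))))) (b (n (nat_lit 311) (b (n (nat_lit 310) (b (l (nat_lit 1) (nat_lit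 285) (nat_lit 313)) (l (nat_lit 1) (nat_lit 284) (nat_lit 309)))) (l (nat_lit 2) (nat_lit 286) (nat_lit 290)))) (n (nat_lit 290) (b (b (n (nat_lit 286) (b (n (nat_lit 315) (b (l (nat_lit 0) (nat_lit 287) (nat_lit 316)) (l (nat_lit 0) (nat_lit 286) (nat_lit 314)))) (n (nat_lit 261) (b (l (nat_lit 3) (nat_lit 261) (nat_lit 262)) (l (nat_lit 3) (nat_lit 260) (nat_lit 260)))))) (n (nat_lit 291) (b (n (nat_lit 316) (b (l (nat_lit 0) (nat_lit 288) (nat_lit 317)) (l (nat_lit 0) (nat_lit 287) (nat_lit 315)))) (l (nat_lit 2) (nat_lit 287) (nat_lit 313))))) (n (nat_lit 291) (b (n (nat_lit 262) (b (l (nat_lit 3) (nat_lit 262) (nat_lit 263)) (l (nat_lit 3) (nat_lit 261) (nat_lit 261)))) (l (nat_lit 2) (nat_lit 287) (nat_lit 313))))))))) (n (nat_lit 262) (b (b (b (n (nat_lit 237) (b (b (n (nat_lit 212) (b (n (nat_lit 213) (b (l (nat_lit 5) (nat_lit 187) (nat_lit 188)) (l (nat_lit 5) (nat_lit 212) (nat_lit 238)))) (n (nat_lit 211) (b (l (nat_lit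 7) (nat_lit 211) (nat_lit 236)) (l (nat_lit 7) (nat_lit 186) (nat_lit 186)))))) (n (nat_lit 212) (b (n (nat_lit 211) (b (l (nat_lit 7) (nat_lit 211) (nat_lit 236)) (l (nat_lit 7) (nat_lit 186) (nat_lit 186)))) (l (nat_lit 4) (nat_lit 212) (nat_lit 313))))) (b (n (nat_lit 212) (b (n (nat_lit 213) (b (l (nat_lit 5) (nat_lit 187) (nat_lit 188)) (l (nat_lit 5) (nat_lit 212) (nat_lit 238)))) (l (nat_lit 4) (nat_lit 212) (nat_lit 313)))) (n (nat_lit 238) (b (n (nat_lit 236) (b (n (nat_lit 263) (b (n (nat_lit 239) (b (n (nat_lit 214) (b (l (nat_lit 1) (nat_lit 211) (nat_lit 215)) (l (nat_lit 5) (nat_lit 213) (nat_lit 313)))) (n (nat_lit 240) (b (l (nat_lit 2) (nat_lit 236) (nat_lit 261)) (l (nat_lit 2) (nat_lit 237) (nat_lit 241)))))) (n (nat_lit 235) (b (l (nat_lit 0) (nat_lit 235) (nat_lit 264)) (l (nat_lit 0) (nat_lit 234) (nat_lit 234)))))) (l (nat_lit 7) (nat_lit 211) (nat_lit 211)))) (l (nat_lit 5) (nat_lit 212) (nat_lit 213)))))))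 (n (nat_lit 237) (b (b (n (nat_lit 263) (b (n (nat_lit 337) (b (l (nat_lit 5) (nat_lit 237) (nat_lit 238)) (l (nat_lit 5) (nat_lit 262) (nat_lit 362)))) (n (nat_lit 212) (b (l (nat_lit 4) (nat_lit 212) (nat_lit 313)) (l (nat_lit 4) (nat_lit 187) (nat_lit 187)))))) (n (nat_lit 212) (b (n (nat_lit 187) (b (n (nat_lit 186) (b (l (nat_lit 7) (nat_lit 186) (nat_lit 211)) (l (nat_lit 7) (nat_lit 161) (nat_lit 161)))) (n (nat_lit 188) (b (l (nat_lit 5) (nat_lit 187) (nat_lit 213)) (l (nat_lit 5) (nat_lit 162) (nat_lit 163)))))) (l (nat_lit 4) (nat_lit 212) (nat_lit 313))))) (n (nat_lit 238) (b (n (nat_lit 263) (b (n (nat_lit 236) (b (n (nat_lit 264) (b (l (nat_lit 3) (nat_lit 236) (nat_lit 265)) (l (nat_lit 0) (nat_lit 235) (nat_lit 235)))) (l (nat_lit 7) (nat_lit 211) (nat_lit 211)))) (l (nat_lit 5) (nat_lit 237) (nat_lit 337)))) (l (nat_lit 5) (nat_lit 212) (nat_lit 213))))))) (b (n (nat_lit 237) (b (b (n (nat_lit 263) (b (n (nat_lit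 337) (b (l (nat_lit 5) (nat_lit 237) (nat_lit 238)) (l (nat_lit 5) (nat_lit 262) (nat_lit 362)))) (n (nat_lit 212) (b (l (nat_lit 4) (nat_lit 212) (nat_lit 313)) (l (nat_lit 4) (nat_lit 187) (nat_lit 187)))))) (n (nat_lit 212) (b (n (nat_lit 187) (b (n (nat_lit 186) (b (l (nat_lit 7) (nat_lit 186) (nat_lit 211)) (l (nat_lit 7) (nat_lit 161) (nat_lit 161)))) (l (nat_lit 4) (nat_lit 187) (nat_lit 263)))) (n (nat_lit 213) (b (l (nat_lit 5) (nat_lit 187) (nat_lit 188)) (l (nat_lit 5) (nat_lit 212) (nat_lit 238))))))) (b (n (nat_lit 212) (b (n (nat_lit 187) (b (n (nat_lit 186) (b (l (nat_lit 7) (nat_lit 186) (nat_lit 211)) (l (nat_lit 7) (nat_lit 161) (nat_lit 161)))) (n (nat_lit 188) (b (l (nat_lit 5) (nat_lit 187) (nat_lit 213)) (l (nat_lit 5) (nat_lit 162) (nat_lit 163)))))) (l (nat_lit 4) (nat_lit 212) (nat_lit 313)))) (n (nat_lit 238) (b (n (nat_lit 263) (b (n (nat_lit 239) (b (n (nat_lit 214) (b (n (nat_lit 189) (b (l (nat_lit 6)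 (nat_lit 163) (nat_lit 164)) (l (nat_lit 6) (nat_lit 188) (nat_lit 264)))) (l (nat_lit 5) (nat_lit 213) (nat_lit 313)))) (n (nat_lit 240) (b (l (nat_lit 2) (nat_lit 236) (nat_lit 261)) (l (nat_lit 2) (nat_lit 237) (nat_lit 241)))))) (l (nat_lit 5) (nat_lit 237) (nat_lit 337)))) (l (nat_lit 5) (nat_lit 212) (nat_lit 213))))))) (n (nat_lit 237) (b (b (n (nat_lit 212) (b (n (nat_lit 211) (b (l (nat_lit 7) (nat_lit 211) (nat_lit 236)) (l (nat_lit 7) (nat_lit 186) (nat_lit 186)))) (l (nat_lit 4) (nat_lit 212) (nat_lit 313)))) (n (nat_lit 212) (b (n (nat_lit 213) (b (l (nat_lit 5) (nat_lit 187) (nat_lit 188)) (l (nat_lit 5) (nat_lit 212) (nat_lit 238)))) (l (nat_lit 4) (nat_lit 212) (nat_lit 313))))) (n (nat_lit 236) (b (n (nat_lit 238) (b (n (nat_lit 261) (b (n (nat_lit 260) (b (l (nat_lit 2) (nat_lit 235) (nat_lit 239)) (l (nat_lit 1) (nat_lit 234) (nat_lit 259)))) (l (nat_lit 7) (nat_lit 236) (nat_lit 337)))) (l (nat_lit 5) (nat_lit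 212) (nat_lit 213)))) (l (nat_lit 7) (nat_lit 211) (nat_lit 211)))))))) (b (n (nat_lit 261) (b (n (nat_lit 260) (b (n (nat_lit 289) (b (l (nat_lit 0) (nat_lit 260) (nat_lit 263)) (l (nat_lit 3) (nat_lit 261) (nat_lit 290)))) (l (nat_lit 0) (nat_lit 259) (nat_lit 259)))) (n (nat_lit 236) (b (n (nat_lit 211) (b (l (nat_lit 4) (nat_lit 186) (nat_lit 186)) (l (nat_lit 7) (nat_lit 211) (nat_lit 237)))) (l (nat_lit 7) (nat_lit 236) (nat_lit 337)))))) (n (nat_lit 263) (b (b (n (nat_lit 238) (b (l (nat_lit 5) (nat_lit 237) (nat_lit 337)) (l (nat_lit 6) (nat_lit 212) (nat_lit 213)))) (n (nat_lit 261) (b (n (nat_lit 289) (b (l (nat_lit 3) (nat_lit 261) (nat_lit 290)) (l (nat_lit 0) (nat_lit 260) (nat_lit 260)))) (n (nat_lit 337) (b (l (nat_lit 5) (nat_lit 262) (nat_lit 362)) (l (nat_lit 7) (nat_lit 236) (nat_lit 236))))))) (n (nat_lit 238) (b (n (nat_lit 261) (b (b (n (nat_lit 264) (b (n (nat_lit 239) (b (n (nat_lit 214) (b (l (nat_lit 5)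 (nat_lit 213) (nat_lit 313)) (l (nat_lit 6) (nat_lit 188) (nat_lit 189)))) (l (nat_lit 1) (nat_lit 236) (nat_lit 240)))) (n (nat_lit 290) (b (n (nat_lit 265) (b (l (nat_lit 0) (nat_lit 262) (nat_lit 291)) (l (nat_lit 2) (nat_lit 262) (nat_lit 266)))) (l (nat_lit 3) (nat_lit 261) (nat_lit 289)))))) (n (nat_lit 260) (b (l (nat_lit 0) (nat_lit 259) (nat_lit 259)) (l (nat_lit 1) (nat_lit 235) (nat_lit 239))))) (n (nat_lit 289) (b (l (nat_lit 3) (nat_lit 261) (nat_lit 290)) (l (nat_lit 0) (nat_lit 260) (nat_lit 260)))))) (l (nat_lit 6) (nat_lit 212) (nat_lit 213))))))))))))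
    (envOK_cons p5016 (envOK_cons p6001 envOK_nil)) (by decide +kernel)

theorem p6110 : Fam (nat_lit 12) (nat_lit 8343699732058482316695535156261499057782444615797787980616419360903528473700249907927227301888) (nat_lit 236412119377360894445170435112865325944942406102464347748081225121160085101826628978682383515908896327942228011909120) (nat_lit 236412119377360894445170435112865325944942406102464347748081225121160085101826628978682383515908896327942228011909120) :=
  chk_sound (Env.cons (nat_lit 6) (nat_lit 12515549411591509821373311926123905531615851886025625421919235001181301375615563482190825127936) (nat_lit 236412044223994886065325561901140152263502658284019762379072833460542063384547548226833240016548509317927608881512448) (Env.cons (nat_lit 6) (nat_lit 12515549411591509821373311926123905531615851886025625421919235001181301375615563482190825127936) (nat_lit 78804014741331803668611259763588119437356557608442921056242758188025940502534234339012571334738980780843595349360640)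 Env.nil))
    (n (nat_lit 311) (b (b (b (n (nat_lit 236) (b (b (n (nat_lit 310) (b (b (n (nat_lit 309) (b (l (nat_lit 1) (nat_lit 284) (nat_lit 288)) (l (nat_lit 1) (nat_lit 283) (nat_lit 308)))) (n (nat_lit 289) (b (n (nat_lit 313) (b (n (nat_lit 314) (b (l (nat_lit 3) (nat_lit 286) (nat_lit 315)) (l (nat_lit 1) (nat_lit 286) (nat_lit 290)))) (n (nat_lit 335) (b (l (nat_lit 6) (nat_lit 235) (nat_lit 261)) (l (nat_lit 2) (nat_lit 309) (nat_lit 334)))))) (l (nat_lit 2) (nat_lit 285) (nat_lit 288))))) (n (nat_lit 334) (b (n (nat_lit 335) (b (l (nat_lit 6) (nat_lit 235) (nat_lit 261)) (l (nat_lit 2) (nat_lit 309) (nat_lit 313)))) (n (nat_lit 309) (b (l (nat_lit 2) (nat_lit 308) (nat_lit 333)) (l (nat_lit 1) (nat_lit 283) (nat_lit 308)))))))) (n (nat_lit 237) (b (b (n (nat_lit 212) (b (l (nat_lit 5) (nat_lit 211) (nat_lit 261)) (l (nat_lit 6) (nat_lit 211) (nat_lit 262)))) (n (nat_lit 262) (b (l (nat_lit 7) (nat_lit 211) (nat_lit 211))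 (l (nat_lit 6) (nat_lit 211) (nat_lit 212))))) (b (n (nat_lit 261) (b (l (nat_lit 5) (nat_lit 211) (nat_lit 212)) (l (nat_lit 4) (nat_lit 211) (nat_lit 211)))) (n (nat_lit 211) (b (l (nat_lit 7) (nat_lit 211) (nat_lit 262)) (l (nat_lit 4) (nat_lit 211) (nat_lit 261)))))))) (n (nat_lit 237) (b (b (n (nat_lit 262) (b (n (nat_lit 238) (b (n (nat_lit 235) (b (n (nat_lit 234) (b (n (nat_lit 209) (b (l (nat_lit 3) (nat_lit 209) (nat_lit 210)) (l (nat_lit 3) (nat_lit 208) (nat_lit 208)))) (n (nat_lit 259) (b (l (nat_lit 2) (nat_lit 233) (nat_lit 258)) (l (nat_lit 2) (nat_lit 234) (nat_lit 260)))))) (n (nat_lit 264) (b (n (nat_lit 239) (b (n (nat_lit 215) (b (n (nat_lit 289) (b (n (nat_lit 288) (b (l (nat_lit 2) (nat_lit 286) (nat_lit 290)) (l (nat_lit 2) (nat_lit 285) (nat_lit 310)))) (n (nat_lit 240) (b (l (nat_lit 5) (nat_lit 214) (nat_lit 314)) (l (nat_lit 1) (nat_lit 212) (nat_lit 216)))))) (l (nat_lit 1) (nat_lit 211) (nat_lit 214))))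 (l (nat_lit 0) (nat_lit 236) (nat_lit 265)))) (l (nat_lit 0) (nat_lit 235) (nat_lit 263)))))) (l (nat_lit 5) (nat_lit 212) (nat_lit 213)))) (l (nat_lit 6) (nat_lit 211) (nat_lit 212)))) (n (nat_lit 288) (b (n (nat_lit 310) (b (l (nat_lit 1) (nat_lit 284) (nat_lit 309)) (l (nat_lit 2) (nat_lit 285) (nat_lit 289)))) (n (nat_lit 238) (b (b (n (nat_lit 263) (b (n (nat_lit 313) (b (n (nat_lit 314) (b (l (nat_lit 4) (nat_lit 238) (nat_lit 339)) (l (nat_lit 3) (nat_lit 286) (nat_lit 315)))) (l (nat_lit 7) (nat_lit 212) (nat_lit 212)))) (l (nat_lit 6) (nat_lit 212) (nat_lit 213)))) (n (nat_lit 235) (b (b (n (nat_lit 239) (b (n (nat_lit 210) (b (l (nat_lit 3) (nat_lit 210) (nat_lit 211)) (l (nat_lit 3) (nat_lit 209) (nat_lit 209)))) (n (nat_lit 214) (b (l (nat_lit 1) (nat_lit 211) (nat_lit 215)) (l (nat_lit 1) (nat_lit 210) (nat_lit 213)))))) (n (nat_lit 234) (b (n (nat_lit 259) (b (l (nat_lit 2) (nat_lit 233) (nat_lit 258)) (l (nat_lit 2)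 (nat_lit 234) (nat_lit 260)))) (n (nat_lit 213) (b (l (nat_lit 1) (nat_lit 210) (nat_lit 214)) (l (nat_lit 1) (nat_lit 209) (nat_lit 212))))))) (n (nat_lit 234) (b (n (nat_lit 209) (b (l (nat_lit 3) (nat_lit 209) (nat_lit 210)) (l (nat_lit 3) (nat_lit 208) (nat_lit 208)))) (n (nat_lit 259) (b (l (nat_lit 2) (nat_lit 233) (nat_lit 258)) (l (nat_lit 2) (nat_lit 234) (nat_lit 260))))))))) (b (n (nat_lit 239) (b (b (n (nat_lit 263) (b (n (nat_lit 313) (b (l (nat_lit 5) (nat_lit 213) (nat_lit 214)) (l (nat_lit 7) (nat_lit 212) (nat_lit 212)))) (n (nat_lit 264) (b (l (nat_lit 0) (nat_lit 235) (nat_lit 235)) (l (nat_lit 0) (nat_lit 236) (nat_lit 265)))))) (n (nat_lit 240) (b (n (nat_lit 211) (b (l (nat_lit 3) (nat_lit 211) (nat_lit 212)) (l (nat_lit 3) (nat_lit 210) (nat_lit 210)))) (n (nat_lit 215) (b (l (nat_lit 1) (nat_lit 211) (nat_lit 214)) (l (nat_lit 1) (nat_lit 212) (nat_lit 216))))))) (n (nat_lit 235) (b (n (nat_lit 210) (b (l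 (nat_lit 3) (nat_lit 210) (nat_lit 211)) (l (nat_lit 3) (nat_lit 209) (nat_lit 209)))) (n (nat_lit 264) (b (l (nat_lit 0) (nat_lit 236) (nat_lit 265)) (l (nat_lit 0) (nat_lit 235) (nat_lit 263)))))))) (n (nat_lit 263) (b (n (nat_lit 264) (b (n (nat_lit 265) (b (l (nat_lit 0) (nat_lit 236) (nat_lit 239)) (l (nat_lit 2) (nat_lit 262) (nat_lit 266)))) (l (nat_lit 0) (nat_lit 235) (nat_lit 235)))) (l (nat_lit 6) (nat_lit 212) (nat_lit 213)))))))))) (b (n (nat_lit 262) (b (l (nat_lit 7) (nat_lit 211) (nat_lit 211)) (l (nat_lit 6) (nat_lit 211) (nat_lit 212)))) (n (nat_lit 262) (b (n (nat_lit 238) (b (n (nat_lit 235) (b (n (nat_lit 234) (b (n (nat_lit 209) (b (l (nat_lit 3) (nat_lit 209) (nat_lit 210)) (l (nat_lit 3) (nat_lit 208) (nat_lit 208)))) (n (nat_lit 259) (b (l (nat_lit 2) (nat_lit 233) (nat_lit 258)) (l (nat_lit 2) (nat_lit 234) (nat_lit 260)))))) (n (nat_lit 264) (b (n (nat_lit 239) (b (n (nat_lit 215) (b (n (nat_lit 289) (b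 (n (nat_lit 288) (b (l (nat_lit 2) (nat_lit 286) (nat_lit 290)) (l (nat_lit 2) (nat_lit 285) (nat_lit 310)))) (n (nat_lit 240) (b (l (nat_lit 5) (nat_lit 214) (nat_lit 314)) (l (nat_lit 1) (nat_lit 212) (nat_lit 216)))))) (l (nat_lit 1) (nat_lit 211) (nat_lit 214)))) (l (nat_lit 0) (nat_lit 236) (nat_lit 265)))) (l (nat_lit 0) (nat_lit 235) (nat_lit 263)))))) (l (nat_lit 5) (nat_lit 212) (nat_lit 213)))) (l (nat_lit 7) (nat_lit 211) (nat_lit 211))))))))) (n (nat_lit 310) (b (b (n (nat_lit 309) (b (n (nat_lit 334) (b (n (nat_lit 284) (b (n (nat_lit 335) (b (n (nat_lit 259) (b (l (nat_lit 4) (nat_lit 259) (nat_lit 360)) (l (nat_lit 4) (nat_lit 234) (nat_lit 234)))) (l (nat_lit 2) (nat_lit 309) (nat_lit 313)))) (l (nat_lit 3) (nat_lit 283) (nat_lit 283)))) (l (nat_lit 2) (nat_lit 308) (nat_lit 333)))) (l (nat_lit 1) (nat_lit 283) (nat_lit 308)))) (n (nat_lit 288) (b (l (nat_lit 2) (nat_lit 285) (nat_lit 289)) (l (nat_lit 1) (nat_lit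 284) (nat_lit 309))))) (n (nat_lit 314) (b (b (n (nat_lit 313) (b (n (nat_lit 335) (b (l (nat_lit 2) (nat_lit 309) (nat_lit 334)) (l (nat_lit 2) (nat_lit 310) (nat_lit 336)))) (l (nat_lit 3) (nat_lit 286) (nat_lit 315)))) (n (nat_lit 313) (b (n (nat_lit 289) (b (l (nat_lit 1) (nat_lit 286) (nat_lit 290)) (l (nat_lit 1) (nat_lit 285) (nat_lit 288)))) (n (nat_lit 335) (b (l (nat_lit 2) (nat_lit 309) (nat_lit 334)) (l (nat_lit 2) (nat_lit 310) (nat_lit 336))))))) (b (n (nat_lit 289) (b (n (nat_lit 313) (b (l (nat_lit 3) (nat_lit 286) (nat_lit 315)) (l (nat_lit 1) (nat_lit 286) (nat_lit 290)))) (l (nat_lit 2) (nat_lit 285) (nat_lit 288)))) (n (nat_lit 289) (b (n (nat_lit 264) (b (b (b (n (nat_lit 263) (b (n (nat_lit 262) (b (n (nat_lit 237) (b (l (nat_lit 6) (nat_lit 236) (nat_lit 336)) (l (nat_lit 6) (nat_lit 211) (nat_lit 212)))) (l (nat_lit 2) (nat_lit 261) (nat_lit 265)))) (n (nat_lit 238) (b (n (nat_lit 213) (b (l (nat_lit 4) (nat_lit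 188) (nat_lit 188)) (l (nat_lit 7) (nat_lit 213) (nat_lit 239)))) (l (nat_lit 7) (nat_lit 238) (nat_lit 339)))))) (n (nat_lit 265) (b (n (nat_lit 240) (b (n (nat_lit 215) (b (l (nat_lit 6) (nat_lit 189) (nat_lit 190)) (l (nat_lit 6) (nat_lit 214) (nat_lit 290)))) (l (nat_lit 5) (nat_lit 239) (nat_lit 339)))) (n (nat_lit 262) (b (n (nat_lit 237) (b (l (nat_lit 6) (nat_lit 236) (nat_lit 336)) (l (nat_lit 6) (nat_lit 211) (nat_lit 212)))) (l (nat_lit 2) (nat_lit 261) (nat_lit 263))))))) (b (n (nat_lit 239) (b (b (n (nat_lit 339) (b (n (nat_lit 340) (b (l (nat_lit 4) (nat_lit 239) (nat_lit 315)) (l (nat_lit 4) (nat_lit 264) (nat_lit 365)))) (n (nat_lit 240) (b (l (nat_lit 5) (nat_lit 239) (nat_lit 265)) (l (nat_lit 5) (nat_lit 214) (nat_lit 215)))))) (n (nat_lit 214) (b (n (nat_lit 215) (b (l (nat_lit 5) (nat_lit 214) (nat_lit 240)) (l (nat_lit 5) (nat_lit 189) (nat_lit 190)))) (n (nat_lit 213) (b (l (nat_lit 7) (nat_lit 188) (nat_lit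 188)) (l (nat_lit 7) (nat_lit 213) (nat_lit 238))))))) (n (nat_lit 214) (b (n (nat_lit 315) (b (l (nat_lit 4) (nat_lit 239) (nat_lit 340)) (l (nat_lit 4) (nat_lit 214) (nat_lit 290)))) (n (nat_lit 213) (b (l (nat_lit 7) (nat_lit 188) (nat_lit 188)) (l (nat_lit 7) (nat_lit 213) (nat_lit 238)))))))) (n (nat_lit 239) (b (b (n (nat_lit 339) (b (n (nat_lit 238) (b (l (nat_lit 7) (nat_lit 238) (nat_lit 263)) (l (nat_lit 7) (nat_lit 213) (nat_lit 213)))) (n (nat_lit 340) (b (l (nat_lit 4) (nat_lit 239) (nat_lit 315)) (l (nat_lit 4) (nat_lit 264) (nat_lit 365)))))) (n (nat_lit 214) (b (n (nat_lit 315) (b (l (nat_lit 4) (nat_lit 239) (nat_lit 340)) (l (nat_lit 4) (nat_lit 214) (nat_lit 290)))) (n (nat_lit 215) (b (l (nat_lit 5) (nat_lit 214) (nat_lit 240)) (l (nat_lit 5) (nat_lit 189) (nat_lit 190))))))) (n (nat_lit 214) (b (n (nat_lit 215) (b (l (nat_lit 5) (nat_lit 214) (nat_lit 240)) (l (nat_lit 5) (nat_lit 189) (nat_lit 190)))) (n (nat_lit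 213) (b (l (nat_lit 7) (nat_lit 188) (nat_lit 188)) (l (nat_lit 7) (nat_lit 213) (nat_lit 238)))))))))) (n (nat_lit 239) (b (b (n (nat_lit 214) (b (n (nat_lit 315) (b (l (nat_lit 4) (nat_lit 239) (nat_lit 340)) (l (nat_lit 4) (nat_lit 214) (nat_lit 290)))) (n (nat_lit 215) (b (l (nat_lit 5) (nat_lit 214) (nat_lit 240)) (l (nat_lit 5) (nat_lit 189) (nat_lit 190)))))) (n (nat_lit 240) (b (n (nat_lit 262) (b (n (nat_lit 336) (b (l (nat_lit 5) (nat_lit 261) (nat_lit 361)) (l (nat_lit 6) (nat_lit 236) (nat_lit 237)))) (n (nat_lit 263) (b (n (nat_lit 238) (b (l (nat_lit 2) (nat_lit 237) (nat_lit 241)) (l (nat_lit 7) (nat_lit 213) (nat_lit 213)))) (l (nat_lit 2) (nat_lit 261) (nat_lit 265)))))) (l (nat_lit 5) (nat_lit 214) (nat_lit 215))))) (n (nat_lit 214) (b (n (nat_lit 315) (b (l (nat_lit 4) (nat_lit 239) (nat_lit 340)) (l (nat_lit 4) (nat_lit 214) (nat_lit 290)))) (n (nat_lit 213) (b (l (nat_lit 7) (nat_lit 188) (nat_lit 188)) (l (nat_lit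 7) (nat_lit 213) (nat_lit 238)))))))))) (l (nat_lit 2) (nat_lit 285) (nat_lit 288)))))))))) (b (r (nat_lit 0)) (r (nat_lit 1)))) (n (nat_lit 261) (b (b (b (n (nat_lit 262) (b (b (n (nat_lit 260) (b (n (nat_lit 288) (b (l (nat_lit 3) (nat_lit 260) (nat_lit 289)) (l (nat_lit 0) (nat_lit 259) (nat_lit 259)))) (n (nat_lit 336) (b (l (nat_lit 5) (nat_lit 261) (nat_lit 361)) (l (nat_lit 7) (nat_lit 235) (nat_lit 235)))))) (n (nat_lit 237) (b (l (nat_lit 6) (nat_lit 236) (nat_lit 336)) (l (nat_lit 6) (nat_lit 211) (nat_lit 212))))) (n (nat_lit 237) (b (n (nat_lit 238) (b (n (nat_lit 260) (b (n (nat_lit 239) (b (l (nat_lit 1) (nat_lit 235) (nat_lit 263)) (l (nat_lit 2) (nat_lit 236) (nat_lit 240)))) (l (nat_lit 1) (nat_lit 234) (nat_lit 259)))) (l (nat_lit 5) (nat_lit 212) (nat_lit 213)))) (l (nat_lit 6) (nat_lit 211) (nat_lit 212)))))) (n (nat_lit 236) (b (n (nat_lit 237) (b (n (nat_lit 262) (b (n (nat_lit 235) (b (n (nat_lit 263) (b (l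 (nat_lit 3) (nat_lit 235) (nat_lit 264)) (l (nat_lit 0) (nat_lit 234) (nat_lit 234)))) (l (nat_lit 7) (nat_lit 210) (nat_lit 210)))) (l (nat_lit 6) (nat_lit 236) (nat_lit 336)))) (l (nat_lit 5) (nat_lit 211) (nat_lit 212)))) (l (nat_lit 4) (nat_lit 211) (nat_lit 211))))) (b (n (nat_lit 236) (b (n (nat_lit 237) (b (n (nat_lit 262) (b (n (nat_lit 260) (b (n (nat_lit 238) (b (l (nat_lit 2) (nat_lit 235) (nat_lit 239)) (l (nat_lit 5) (nat_lit 212) (nat_lit 213)))) (n (nat_lit 259) (b (l (nat_lit 0) (nat_lit 258) (nat_lit 258)) (l (nat_lit 0) (nat_lit 259) (nat_lit 288)))))) (l (nat_lit 6) (nat_lit 236) (nat_lit 336)))) (l (nat_lit 5) (nat_lit 211) (nat_lit 212)))) (l (nat_lit 4) (nat_lit 211) (nat_lit 211)))) (n (nat_lit 236) (b (n (nat_lit 235) (b (n (nat_lit 260) (b (n (nat_lit 259) (b (n (nat_lit 237) (b (l (nat_lit 2) (nat_lit 234) (nat_lit 238)) (l (nat_lit 5) (nat_lit 211) (nat_lit 212)))) (l (nat_lit 0) (nat_lit 258) (nat_lit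 258)))) (l (nat_lit 7) (nat_lit 235) (nat_lit 336)))) (l (nat_lit 7) (nat_lit 210) (nat_lit 210)))) (l (nat_lit 4) (nat_lit 211) (nat_lit 211)))))) (b (n (nat_lit 260) (b (n (nat_lit 259) (b (n (nat_lit 288) (b (l (nat_lit 0) (nat_lit 259) (nat_lit 262)) (l (nat_lit 3) (nat_lit 260) (nat_lit 289)))) (l (nat_lit 0) (nat_lit 258) (nat_lit 258)))) (n (nat_lit 235) (b (n (nat_lit 210) (b (l (nat_lit 4) (nat_lit 185) (nat_lit 185)) (l (nat_lit 7) (nat_lit 210) (nat_lit 236)))) (l (nat_lit 7) (nat_lit 235) (nat_lit 336)))))) (n (nat_lit 236) (b (n (nat_lit 237) (b (n (nat_lit 238) (b (b (n (nat_lit 260) (b (n (nat_lit 262) (b (l (nat_lit 1) (nat_lit 234) (nat_lit 259)) (l (nat_lit 5) (nat_lit 212) (nat_lit 213)))) (l (nat_lit 2) (nat_lit 235) (nat_lit 239)))) (n (nat_lit 235) (b (n (nat_lit 213) (b (l (nat_lit 1) (nat_lit 210) (nat_lit 214)) (l (nat_lit 5) (nat_lit 212) (nat_lit 262)))) (l (nat_lit 7) (nat_lit 210) (nat_lit 210))))) (n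 (nat_lit 235) (b (n (nat_lit 260) (b (l (nat_lit 2) (nat_lit 235) (nat_lit 239)) (l (nat_lit 2) (nat_lit 234) (nat_lit 259)))) (l (nat_lit 7) (nat_lit 210) (nat_lit 210)))))) (l (nat_lit 5) (nat_lit 211) (nat_lit 212)))) (l (nat_lit 4) (nat_lit 211) (nat_lit 211)))))))))
    (envOK_cons p2896 (envOK_cons p3006 envOK_nil)) (by decide +kernel)

theorem p6143 : Fam (nat_lit 11) (nat_lit 8343700291547123277705507581066528222955889728810957627632601481425502478504684047027274776576) (nat_lit 6610559963716565766690803030848703981054644707239394068822027385830999624027481937055570288561784505320477009205023194742784) (nat_lit 6610559963716565766690803030848703981054644707239394068822027385830999624027481937055570288561784505320477009205023194742784) :=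
  chk_sound Env.nil
    (n (nat_lit 313) (b (n (nat_lit 263) (b (n (nat_lit 238) (b (n (nat_lit 310) (b (n (nat_lit 335) (b (b (n (nat_lit 360) (b (n (nat_lit 385) (b (n (nat_lit 384) (b (l (nat_lit 6) (nat_lit 284) (nat_lit 359)) (l (nat_lit 6) (nat_lit 309) (nat_lit 409)))) (n (nat_lit 386) (b (l (nat_lit 4) (nat_lit 310) (nat_lit 411)) (l (nat_lit 4) (nat_lit 285) (nat_lit 361)))))) (l (nat_lit 5) (nat_lit 260) (nat_lit 261)))) (n (nat_lit 237) (b (n (nat_lit 311) (b (n (nat_lit 236) (b (n (nat_lit 262) (b (l (nat_lit 6) (nat_lit 236) (nat_lit 336)) (l (nat_lit 7) (nat_lit 211) (nat_lit 211)))) (l (nat_lit 6) (nat_lit 235) (nat_lit 261)))) (l (nat_lit 2) (nat_lit 309) (nat_lit 334)))) (l (nat_lit 7) (nat_lit 212) (nat_lit 212))))) (n (nat_lit 360) (b (b (n (nat_lit 311) (b (l (nat_lit 5) (nat_lit 285) (nat_lit 385)) (l (nat_lit 2) (nat_lit 309) (nat_lit 334)))) (n (nat_lit 385) (b (n (nat_lit 384) (b (l (nat_lit 6) (nat_lit 284)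 (nat_lit 359)) (l (nat_lit 6) (nat_lit 309) (nat_lit 409)))) (n (nat_lit 386) (b (l (nat_lit 4) (nat_lit 310) (nat_lit 411)) (l (nat_lit 4) (nat_lit 285) (nat_lit 361))))))) (n (nat_lit 361) (b (n (nat_lit 334) (b (n (nat_lit 362) (b (n (nat_lit 359) (b (l (nat_lit 3) (nat_lit 333) (nat_lit 333)) (l (nat_lit 6) (nat_lit 284) (nat_lit 384)))) (l (nat_lit 3) (nat_lit 334) (nat_lit 363)))) (l (nat_lit 2) (nat_lit 309) (nat_lit 311)))) (l (nat_lit 4) (nat_lit 285) (nat_lit 386)))))))) (l (nat_lit 2) (nat_lit 284) (nat_lit 309)))) (l (nat_lit 6) (nat_lit 212) (nat_lit 213)))) (l (nat_lit 1) (nat_lit 260) (nat_lit 264)))) (l (nat_lit 0) (nat_lit 285) (nat_lit 314))))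
    envOK_nil (by decide +kernel)

theorem p6170 : Fam (nat_lit 14) (nat_lit 8343699607727673214248874617415937021077234590683750281279490000787534250410375654793883418624) (nat_lit 6610561224580877368497125027815428084384376276394269332774831542506794597660876600383428617212738800977239002672488253489152) (nat_lit 6610561224580877368497125027815428084384376276394269332774831542506794597660876600383428617212738800977239002672488253489152) :=
  chk_sound (Env.cons (nat_lit 9) (nat_lit 8343699732058482316695535156261499057782444615797787980616419360903528473700249907927227301888) (nat_lit 236412045398266186201313389016539291038525713508811464275578527414553148935683738542739092361397137862882444785483776) (Env.cons (nat_lit 12) (nat_lit 8343699732058482316695535156261499057782444615797787980616419360903528473700249907927227301888) (nat_lit 236412119377360894445170435112865325944942406102464347748081225121160085101826628978682383515908896327942228011909120)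 (Env.cons (nat_lit 11) (nat_lit 8343700291547123277705507581066528222955889728810957627632601481425502478504684047027274776576) (nat_lit 6610559963716565766690803030848703981054644707239394068822027385830999624027481937055570288561784505320477009205023194742784) (Env.cons (nat_lit 7) (nat_lit 8343700229381718726482177311643747204603284716253938777964136801367505366859746920460602834944) (nat_lit 1260864240558393394315375143549211562452707195944530120148503437717383830745257490329890796448335797155866948378034176) (Env.cons (nat_lit 5) (nat_lit 8343700291547123277705507581066528222955889728810957627632601481425502478504684047027274776576) (nat_lit 525653067516168051094186730489978604072995288212179784571862305870255777528227067611508977434624) (Env.cons (nat_lit 8) (nat_lit 8343699732058482316695535156261499057782444615797787980616419360903528473700249907927227301888) (nat_lit 236412044223994868567388338417752840608582132876567184603627922732666487311623619079831626074244855892978367828328448)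 (Env.cons (nat_lit 8) (nat_lit 8343699732058482316695535156261499057782444615797787980616419360903528473700249907927227301888) (nat_lit 236412044223994868567788835992955890278626675670839697997614432776612556709990809562689446937253538786865550016380928) (Env.cons (nat_lit 6) (nat_lit 8343699794223886867918865425684280076135049628354806830284884040961525585345187034493899243520) (nat_lit 3522813979148917087648045566234958242467862249715103740773207108104557623646511869072097157416895237253496832) (Env.cons (nat_lit 7) (nat_lit 435157831858563311885959467128468235087899131947679252760405979781514559885966703591424) (nat_lit 2348542687761871928585085739236790336748215384028234670763023735046918776303349366919117645931533861700763648) (Env.cons (nat_lit 7) (nat_lit 8343699794223886867918865425684280076135049628354806830284884040961525585345187034493899243520) (nat_lit 4109949642340265163313853752426009928809800722169624750487107186613452218315169299022169853682200382795677696)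 (Env.cons (nat_lit 7) (nat_lit 435157831858563311885959467128468235087899131947679252760405979781514559885966703591424) (nat_lit 197010039201871680741899974550101997957782907808075374799462194344975210642256745137957024986374312634051426105950208) Env.nil)))))))))))
    (n (nat_lit 286) (b (b (b (b (r (nat_lit 0)) (r (nat_lit 1))) (b (n (nat_lit 288) (b (b (b (n (nat_lit 285) (b (b (b (n (nat_lit 310) (b (n (nat_lit 260) (b (n (nat_lit 335) (b (b (n (nat_lit 360) (b (n (nat_lit 359) (b (l (nat_lit 6) (nat_lit 259) (nat_lit 334)) (l (nat_lit 6) (nat_lit 284) (nat_lit 384)))) (n (nat_lit 361) (b (l (nat_lit 4) (nat_lit 285) (nat_lit 386)) (l (nat_lit 4) (nat_lit 260) (nat_lit 336)))))) (n (nat_lit 235) (b (n (nat_lit 236) (b (l (nat_lit 5) (nat_lit 210) (nat_lit 211)) (l (nat_lit 5) (nat_lit 235) (nat_lit 261)))) (n (nat_lit 311) (b (l (nat_lit 4) (nat_lit 235) (nat_lit 336)) (l (nat_lit 4) (nat_lit 210) (nat_lit 210))))))) (n (nat_lit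 261) (b (l (nat_lit 5) (nat_lit 260) (nat_lit 360)) (l (nat_lit 5) (nat_lit 235) (nat_lit 236)))))) (l (nat_lit 3) (nat_lit 259) (nat_lit 259)))) (l (nat_lit 2) (nat_lit 284) (nat_lit 309)))) (n (nat_lit 263) (b (n (nat_lit 313) (b (n (nat_lit 238) (b (n (nat_lit 237) (b (n (nat_lit 260) (b (n (nat_lit 239) (b (n (nat_lit 261) (b (l (nat_lit 2) (nat_lit 235) (nat_lit 236)) (l (nat_lit 1) (nat_lit 235) (nat_lit 262)))) (l (nat_lit 5) (nat_lit 213) (nat_lit 214)))) (l (nat_lit 3) (nat_lit 259) (nat_lit 259)))) (l (nat_lit 7) (nat_lit 212) (nat_lit 212)))) (l (nat_lit 6) (nat_lit 212) (nat_lit 213)))) (l (nat_lit 0) (nat_lit 285) (nat_lit 314)))) (l (nat_lit 1) (nat_lit 260) (nat_lit 264))))) (b (n (nat_lit 313) (b (n (nat_lit 263) (b (n (nat_lit 238) (b (n (nat_lit 310) (b (n (nat_lit 237) (b (n (nat_lit 260) (b (n (nat_lit 235) (b (n (nat_lit 234) (b (n (nat_lit 236) (b (l (nat_lit 5) (nat_lit 210) (nat_lit 211)) (l (nat_lit 0) (nat_lit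 234) (nat_lit 262)))) (l (nat_lit 7) (nat_lit 209) (nat_lit 209)))) (n (nat_lit 311) (b (l (nat_lit 4) (nat_lit 235) (nat_lit 336)) (l (nat_lit 4) (nat_lit 210) (nat_lit 210)))))) (l (nat_lit 3) (nat_lit 259) (nat_lit 259)))) (l (nat_lit 7) (nat_lit 212) (nat_lit 212)))) (l (nat_lit 2) (nat_lit 284) (nat_lit 309)))) (l (nat_lit 6) (nat_lit 212) (nat_lit 213)))) (l (nat_lit 1) (nat_lit 260) (nat_lit 264)))) (l (nat_lit 0) (nat_lit 285) (nat_lit 314)))) (n (nat_lit 313) (b (n (nat_lit 310) (b (n (nat_lit 311) (b (n (nat_lit 335) (b (n (nat_lit 360) (b (l (nat_lit 5) (nat_lit 285) (nat_lit 385)) (l (nat_lit 5) (nat_lit 260) (nat_lit 261)))) (l (nat_lit 2) (nat_lit 309) (nat_lit 334)))) (n (nat_lit 336) (b (n (nat_lit 260) (b (l (nat_lit 4) (nat_lit 235) (nat_lit 235)) (l (nat_lit 3) (nat_lit 259) (nat_lit 259)))) (n (nat_lit 361) (b (l (nat_lit 5) (nat_lit 261) (nat_lit 262)) (l (nat_lit 5) (nat_lit 286) (nat_lit 386)))))))) (l (nat_lit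 2) (nat_lit 284) (nat_lit 309)))) (l (nat_lit 0) (nat_lit 285) (nat_lit 314)))))) (r (nat_lit 2)))) (n (nat_lit 289) (b (n (nat_lit 285) (b (n (nat_lit 314) (b (l (nat_lit 0) (nat_lit 286) (nat_lit 315)) (l (nat_lit 0) (nat_lit 285) (nat_lit 313)))) (n (nat_lit 260) (b (l (nat_lit 3) (nat_lit 260) (nat_lit 261)) (l (nat_lit 3) (nat_lit 259) (nat_lit 259)))))) (n (nat_lit 311) (b (l (nat_lit 2) (nat_lit 285) (nat_lit 310)) (l (nat_lit 2) (nat_lit 286) (nat_lit 290))))))) (b (n (nat_lit 289) (b (b (n (nat_lit 290) (b (n (nat_lit 265) (b (l (nat_lit 1) (nat_lit 261) (nat_lit 264)) (l (nat_lit 1) (nat_lit 262) (nat_lit 266)))) (n (nat_lit 315) (b (l (nat_lit 0) (nat_lit 287) (nat_lit 316)) (l (nat_lit 0) (nat_lit 286) (nat_lit 314)))))) (n (nat_lit 285) (b (n (nat_lit 314) (b (l (nat_lit 0) (nat_lit 286) (nat_lit 315)) (l (nat_lit 0) (nat_lit 285) (nat_lit 313)))) (n (nat_lit 260) (b (l (nat_lit 3) (nat_lit 260) (nat_lit 261)) (l (nat_lit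 3) (nat_lit 259) (nat_lit 259))))))) (n (nat_lit 285) (b (n (nat_lit 260) (b (l (nat_lit 3) (nat_lit 260) (nat_lit 261)) (l (nat_lit 3) (nat_lit 259) (nat_lit 259)))) (n (nat_lit 264) (b (l (nat_lit 1) (nat_lit 261) (nat_lit 265)) (l (nat_lit 1) (nat_lit 260) (nat_lit 263)))))))) (n (nat_lit 289) (b (n (nat_lit 285) (b (n (nat_lit 260) (b (l (nat_lit 3) (nat_lit 260) (nat_lit 261)) (l (nat_lit 3) (nat_lit 259) (nat_lit 259)))) (n (nat_lit 264) (b (l (nat_lit 1) (nat_lit 261) (nat_lit 265)) (l (nat_lit 1) (nat_lit 260) (nat_lit 263)))))) (n (nat_lit 311) (b (l (nat_lit 2) (nat_lit 285) (nat_lit 310)) (l (nat_lit 2) (nat_lit 286) (nat_lit 290)))))))) (r (nat_lit 3)))) (n (nat_lit 285) (b (b (n (nat_lit 288) (b (b (n (nat_lit 289) (b (n (nat_lit 290) (b (n (nat_lit 265) (b (l (nat_lit 1) (nat_lit 261) (nat_lit 264)) (l (nat_lit 1) (nat_lit 262) (nat_lit 266)))) (l (nat_lit 2) (nat_lit 286) (nat_lit 311)))) (n (nat_lit 314) (b (l (nat_lit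 0) (nat_lit 286) (nat_lit 315)) (l (nat_lit 0) (nat_lit 285) (nat_lit 313)))))) (n (nat_lit 289) (b (n (nat_lit 264) (b (l (nat_lit 1) (nat_lit 261) (nat_lit 265)) (l (nat_lit 1) (nat_lit 260) (nat_lit 263)))) (n (nat_lit 260) (b (l (nat_lit 3) (nat_lit 260) (nat_lit 261)) (l (nat_lit 3) (nat_lit 259) (nat_lit 259))))))) (b (n (nat_lit 289) (b (n (nat_lit 260) (b (l (nat_lit 3) (nat_lit 260) (nat_lit 261)) (l (nat_lit 3) (nat_lit 259) (nat_lit 259)))) (n (nat_lit 314) (b (l (nat_lit 0) (nat_lit 286) (nat_lit 315)) (l (nat_lit 0) (nat_lit 285) (nat_lit 313)))))) (n (nat_lit 263) (b (n (nat_lit 313) (b (n (nat_lit 238) (b (n (nat_lit 237) (b (n (nat_lit 260) (b (n (nat_lit 239) (b (n (nat_lit 261) (b (l (nat_lit 2) (nat_lit 235) (nat_lit 236)) (l (nat_lit 1) (nat_lit 235) (nat_lit 262)))) (l (nat_lit 5) (nat_lit 213) (nat_lit 214)))) (l (nat_lit 3) (nat_lit 259) (nat_lit 259)))) (l (nat_lit 7) (nat_lit 212) (nat_lit 212)))) (l (nat_lit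 6) (nat_lit 212) (nat_lit 213)))) (l (nat_lit 0) (nat_lit 285) (nat_lit 314)))) (l (nat_lit 1) (nat_lit 260) (nat_lit 264))))))) (n (nat_lit 284) (b (b (n (nat_lit 288) (b (n (nat_lit 259) (b (l (nat_lit 3) (nat_lit 258) (nat_lit 258)) (l (nat_lit 3) (nat_lit 259) (nat_lit 260)))) (n (nat_lit 263) (b (l (nat_lit 1) (nat_lit 259) (nat_lit 262)) (l (nat_lit 1) (nat_lit 260) (nat_lit 264)))))) (n (nat_lit 283) (b (n (nat_lit 262) (b (l (nat_lit 1) (nat_lit 259) (nat_lit 263)) (l (nat_lit 1) (nat_lit 258) (nat_lit 261)))) (l (nat_lit 0) (nat_lit 283) (nat_lit 311))))) (n (nat_lit 283) (b (n (nat_lit 258) (b (l (nat_lit 3) (nat_lit 257) (nat_lit 257)) (l (nat_lit 3) (nat_lit 258) (nat_lit 259)))) (l (nat_lit 0) (nat_lit 283) (nat_lit 311))))))) (b (n (nat_lit 284) (b (n (nat_lit 283) (b (n (nat_lit 262) (b (l (nat_lit 1) (nat_lit 259) (nat_lit 263)) (l (nat_lit 1) (nat_lit 258) (nat_lit 261)))) (n (nat_lit 258) (b (l (nat_lit 3) (nat_lit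 257) (nat_lit 257)) (l (nat_lit 3) (nat_lit 258) (nat_lit 259)))))) (l (nat_lit 0) (nat_lit 284) (nat_lit 313)))) (n (nat_lit 313) (b (n (nat_lit 314) (b (l (nat_lit 3) (nat_lit 285) (nat_lit 311)) (l (nat_lit 3) (nat_lit 286) (nat_lit 315)))) (l (nat_lit 0) (nat_lit 284) (nat_lit 284))))))))) (b (b (n (nat_lit 285) (b (b (n (nat_lit 288) (b (b (r (nat_lit 4)) (n (nat_lit 289) (b (n (nat_lit 310) (b (l (nat_lit 2) (nat_lit 284) (nat_lit 309)) (l (nat_lit 2) (nat_lit 285) (nat_lit 311)))) (n (nat_lit 264) (b (l (nat_lit 1) (nat_lit 261) (nat_lit 265)) (l (nat_lit 1) (nat_lit 260) (nat_lit 263))))))) (b (n (nat_lit 289) (b (n (nat_lit 310) (b (l (nat_lit 2) (nat_lit 284) (nat_lit 309)) (l (nat_lit 2) (nat_lit 285) (nat_lit 311)))) (n (nat_lit 314) (b (l (nat_lit 0) (nat_lit 286) (nat_lit 315)) (l (nat_lit 0) (nat_lit 285) (nat_lit 313)))))) (r (nat_lit 2))))) (n (nat_lit 284) (b (b (n (nat_lit 288) (b (n (nat_lit 309) (b (l (nat_lit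 2) (nat_lit 283) (nat_lit 308)) (l (nat_lit 2) (nat_lit 284) (nat_lit 310)))) (n (nat_lit 263) (b (l (nat_lit 1) (nat_lit 259) (nat_lit 262)) (l (nat_lit 1) (nat_lit 260) (nat_lit 264)))))) (n (nat_lit 283) (b (n (nat_lit 308) (b (l (nat_lit 2) (nat_lit 283) (nat_lit 309)) (l (nat_lit 2) (nat_lit 282) (nat_lit 307)))) (l (nat_lit 0) (nat_lit 283) (nat_lit 311))))) (n (nat_lit 283) (b (n (nat_lit 262) (b (l (nat_lit 1) (nat_lit 259) (nat_lit 263)) (l (nat_lit 1) (nat_lit 258) (nat_lit 261)))) (l (nat_lit 0) (nat_lit 283) (nat_lit 311))))))) (b (n (nat_lit 284) (b (n (nat_lit 283) (b (n (nat_lit 308) (b (l (nat_lit 2) (nat_lit 283) (nat_lit 309)) (l (nat_lit 2) (nat_lit 282) (nat_lit 307)))) (n (nat_lit 262) (b (l (nat_lit 1) (nat_lit 259) (nat_lit 263)) (l (nat_lit 1) (nat_lit 258) (nat_lit 261)))))) (l (nat_lit 0) (nat_lit 284) (nat_lit 313)))) (n (nat_lit 313) (b (n (nat_lit 314) (b (l (nat_lit 3) (nat_lit 285) (nat_lit 311)) (l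 (nat_lit 3) (nat_lit 286) (nat_lit 315)))) (l (nat_lit 0) (nat_lit 284) (nat_lit 284))))))) (n (nat_lit 285) (b (b (n (nat_lit 313) (b (n (nat_lit 314) (b (l (nat_lit 3) (nat_lit 285) (nat_lit 311)) (l (nat_lit 3) (nat_lit 286) (nat_lit 315)))) (l (nat_lit 0) (nat_lit 284) (nat_lit 284)))) (n (nat_lit 284) (b (b (n (nat_lit 288) (b (n (nat_lit 309) (b (l (nat_lit 2) (nat_lit 283) (nat_lit 308)) (l (nat_lit 2) (nat_lit 284) (nat_lit 310)))) (n (nat_lit 263) (b (l (nat_lit 1) (nat_lit 259) (nat_lit 262)) (l (nat_lit 1) (nat_lit 260) (nat_lit 264)))))) (n (nat_lit 283) (b (n (nat_lit 308) (b (l (nat_lit 2) (nat_lit 283) (nat_lit 309)) (l (nat_lit 2) (nat_lit 282) (nat_lit 307)))) (n (nat_lit 258) (b (l (nat_lit 3) (nat_lit 257) (nat_lit 257)) (l (nat_lit 3) (nat_lit 258) (nat_lit 259))))))) (n (nat_lit 288) (b (n (nat_lit 259) (b (l (nat_lit 3) (nat_lit 258) (nat_lit 258)) (l (nat_lit 3) (nat_lit 259) (nat_lit 260)))) (n (nat_lit 263)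 (b (l (nat_lit 1) (nat_lit 259) (nat_lit 262)) (l (nat_lit 1) (nat_lit 260) (nat_lit 264))))))))) (n (nat_lit 288) (b (b (r (nat_lit 4)) (n (nat_lit 289) (b (n (nat_lit 310) (b (l (nat_lit 2) (nat_lit 284) (nat_lit 309)) (l (nat_lit 2) (nat_lit 285) (nat_lit 311)))) (n (nat_lit 264) (b (l (nat_lit 1) (nat_lit 261) (nat_lit 265)) (l (nat_lit 1) (nat_lit 260) (nat_lit 263))))))) (b (n (nat_lit 289) (b (n (nat_lit 310) (b (l (nat_lit 2) (nat_lit 284) (nat_lit 309)) (l (nat_lit 2) (nat_lit 285) (nat_lit 311)))) (n (nat_lit 314) (b (l (nat_lit 0) (nat_lit 286) (nat_lit 315)) (l (nat_lit 0) (nat_lit 285) (nat_lit 313)))))) (n (nat_lit 313) (b (n (nat_lit 263) (b (n (nat_lit 238) (b (n (nat_lit 310) (b (n (nat_lit 237) (b (n (nat_lit 260) (b (n (nat_lit 235) (b (n (nat_lit 234) (b (n (nat_lit 236) (b (l (nat_lit 5) (nat_lit 210) (nat_lit 211)) (l (nat_lit 0) (nat_lit 234) (nat_lit 262)))) (l (nat_lit 7) (nat_lit 209) (nat_lit 209)))) (n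 (nat_lit 311) (b (l (nat_lit 4) (nat_lit 235) (nat_lit 336)) (l (nat_lit 4) (nat_lit 210) (nat_lit 210)))))) (l (nat_lit 3) (nat_lit 259) (nat_lit 259)))) (l (nat_lit 7) (nat_lit 212) (nat_lit 212)))) (l (nat_lit 2) (nat_lit 284) (nat_lit 309)))) (l (nat_lit 6) (nat_lit 212) (nat_lit 213)))) (l (nat_lit 1) (nat_lit 260) (nat_lit 264)))) (l (nat_lit 0) (nat_lit 285) (nat_lit 314)))))))))) (b (r (nat_lit 5)) (r (nat_lit 6))))) (b (b (n (nat_lit 285) (b (b (n (nat_lit 284) (b (n (nat_lit 283) (b (n (nat_lit 308) (b (l (nat_lit 2) (nat_lit 283) (nat_lit 309)) (l (nat_lit 2) (nat_lit 282) (nat_lit 307)))) (n (nat_lit 262) (b (l (nat_lit 1) (nat_lit 259) (nat_lit 263)) (l (nat_lit 1) (nat_lit 258) (nat_lit 261)))))) (l (nat_lit 0) (nat_lit 284) (nat_lit 313)))) (n (nat_lit 284) (b (b (n (nat_lit 288) (b (n (nat_lit 259) (b (l (nat_lit 3) (nat_lit 258) (nat_lit 258)) (l (nat_lit 3) (nat_lit 259) (nat_lit 260)))) (n (nat_lit 309) (b (l (nat_lit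 2) (nat_lit 283) (nat_lit 308)) (l (nat_lit 2) (nat_lit 284) (nat_lit 310)))))) (n (nat_lit 283) (b (n (nat_lit 308) (b (l (nat_lit 2) (nat_lit 283) (nat_lit 309)) (l (nat_lit 2) (nat_lit 282) (nat_lit 307)))) (n (nat_lit 262) (b (l (nat_lit 1) (nat_lit 259) (nat_lit 263)) (l (nat_lit 1) (nat_lit 258) (nat_lit 261))))))) (n (nat_lit 283) (b (n (nat_lit 262) (b (l (nat_lit 1) (nat_lit 259) (nat_lit 263)) (l (nat_lit 1) (nat_lit 258) (nat_lit 261)))) (n (nat_lit 258) (b (l (nat_lit 3) (nat_lit 257) (nat_lit 257)) (l (nat_lit 3) (nat_lit 258) (nat_lit 259))))))))) (b (n (nat_lit 313) (b (n (nat_lit 314) (b (l (nat_lit 0) (nat_lit 285) (nat_lit 288)) (l (nat_lit 3) (nat_lit 286) (nat_lit 315)))) (l (nat_lit 0) (nat_lit 284) (nat_lit 284)))) (n (nat_lit 288) (b (b (r (nat_lit 4)) (n (nat_lit 289) (b (n (nat_lit 264) (b (l (nat_lit 1) (nat_lit 261) (nat_lit 265)) (l (nat_lit 1) (nat_lit 260) (nat_lit 263)))) (n (nat_lit 260) (b (l (nat_lit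 3) (nat_lit 260) (nat_lit 261)) (l (nat_lit 3) (nat_lit 259) (nat_lit 259))))))) (b (n (nat_lit 289) (b (n (nat_lit 260) (b (l (nat_lit 3) (nat_lit 260) (nat_lit 261)) (l (nat_lit 3) (nat_lit 259) (nat_lit 259)))) (n (nat_lit 314) (b (l (nat_lit 0) (nat_lit 286) (nat_lit 315)) (l (nat_lit 0) (nat_lit 285) (nat_lit 313)))))) (n (nat_lit 263) (b (n (nat_lit 260) (b (n (nat_lit 238) (b (n (nat_lit 261) (b (n (nat_lit 313) (b (n (nat_lit 239) (b (l (nat_lit 5) (nat_lit 213) (nat_lit 214)) (l (nat_lit 1) (nat_lit 235) (nat_lit 262)))) (l (nat_lit 0) (nat_lit 285) (nat_lit 314)))) (n (nat_lit 310) (b (n (nat_lit 236) (b (l (nat_lit 5) (nat_lit 235) (nat_lit 335)) (l (nat_lit 4) (nat_lit 211) (nat_lit 211)))) (l (nat_lit 2) (nat_lit 284) (nat_lit 309)))))) (l (nat_lit 6) (nat_lit 212) (nat_lit 213)))) (l (nat_lit 3) (nat_lit 259) (nat_lit 259)))) (l (nat_lit 1) (nat_lit 260) (nat_lit 264)))))))))) (n (nat_lit 285) (b (b (r (nat_lit 7))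 (n (nat_lit 288) (b (b (n (nat_lit 289) (b (n (nat_lit 310) (b (l (nat_lit 2) (nat_lit 284) (nat_lit 309)) (l (nat_lit 2) (nat_lit 285) (nat_lit 311)))) (n (nat_lit 264) (b (l (nat_lit 1) (nat_lit 261) (nat_lit 265)) (l (nat_lit 1) (nat_lit 260) (nat_lit 263)))))) (n (nat_lit 284) (b (n (nat_lit 259) (b (l (nat_lit 3) (nat_lit 258) (nat_lit 258)) (l (nat_lit 3) (nat_lit 259) (nat_lit 260)))) (n (nat_lit 309) (b (l (nat_lit 2) (nat_lit 283) (nat_lit 308)) (l (nat_lit 2) (nat_lit 284) (nat_lit 310))))))) (n (nat_lit 289) (b (n (nat_lit 264) (b (l (nat_lit 1) (nat_lit 261) (nat_lit 265)) (l (nat_lit 1) (nat_lit 260) (nat_lit 263)))) (n (nat_lit 260) (b (l (nat_lit 3) (nat_lit 260) (nat_lit 261)) (l (nat_lit 3) (nat_lit 259) (nat_lit 259))))))))) (b (n (nat_lit 313) (b (n (nat_lit 314) (b (l (nat_lit 3) (nat_lit 285) (nat_lit 311)) (l (nat_lit 3) (nat_lit 286) (nat_lit 315)))) (l (nat_lit 0) (nat_lit 284) (nat_lit 284)))) (n (nat_lit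 313) (b (n (nat_lit 314) (b (l (nat_lit 0) (nat_lit 285) (nat_lit 288)) (l (nat_lit 3) (nat_lit 286) (nat_lit 315)))) (l (nat_lit 0) (nat_lit 284) (nat_lit 284)))))))) (n (nat_lit 285) (b (b (b (r (nat_lit 8)) (r (nat_lit 9))) (b (r (nat_lit 10)) (n (nat_lit 284) (b (b (n (nat_lit 288) (b (n (nat_lit 309) (b (l (nat_lit 2) (nat_lit 283) (nat_lit 308)) (l (nat_lit 2) (nat_lit 284) (nat_lit 310)))) (n (nat_lit 263) (b (l (nat_lit 1) (nat_lit 259) (nat_lit 262)) (l (nat_lit 1) (nat_lit 260) (nat_lit 264)))))) (n (nat_lit 283) (b (n (nat_lit 308) (b (l (nat_lit 2) (nat_lit 283) (nat_lit 309)) (l (nat_lit 2) (nat_lit 282) (nat_lit 307)))) (l (nat_lit 0) (nat_lit 283) (nat_lit 311))))) (n (nat_lit 283) (b (n (nat_lit 262) (b (l (nat_lit 1) (nat_lit 259) (nat_lit 263)) (l (nat_lit 1) (nat_lit 258) (nat_lit 261)))) (l (nat_lit 0) (nat_lit 283) (nat_lit 311)))))))) (n (nat_lit 284) (b (b (n (nat_lit 288) (b (n (nat_lit 259) (b (l (nat_lit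 3) (nat_lit 258) (nat_lit 258)) (l (nat_lit 3) (nat_lit 259) (nat_lit 260)))) (n (nat_lit 263) (b (l (nat_lit 1) (nat_lit 259) (nat_lit 262)) (l (nat_lit 1) (nat_lit 260) (nat_lit 264)))))) (n (nat_lit 283) (b (n (nat_lit 262) (b (l (nat_lit 1) (nat_lit 259) (nat_lit 263)) (l (nat_lit 1) (nat_lit 258) (nat_lit 261)))) (l (nat_lit 0) (nat_lit 283) (nat_lit 311))))) (n (nat_lit 283) (b (n (nat_lit 258) (b (l (nat_lit 3) (nat_lit 257) (nat_lit 257)) (l (nat_lit 3) (nat_lit 258) (nat_lit 259)))) (l (nat_lit 0) (nat_lit 283) (nat_lit 311)))))))))))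
    (envOK_cons p2924 (envOK_cons p6110 (envOK_cons p6143 (envOK_cons p5450 (envOK_cons p2751 (envOK_cons p5431 (envOK_cons p5433 (envOK_cons p2811 (envOK_cons p5748 (envOK_cons p3063 (envOK_cons p5752 envOK_nil))))))))))) (by decide +kernel)

theorem p6196 : Fam (nat_lit 9) (nat_lit 8343699607727680624942806661535541427661473058897445755372987037270742228065517362009341952000) (nat_lit 279968117803324504916225664098590378427817667165718938769383109245623873186953274318702937809484775424) (nat_lit 279968117803324504916225664098590378427817667165718938769383109245623873186953274318702937809484775424) :=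
  chk_sound Env.nil
    (n (nat_lit 236) (b (n (nat_lit 261) (b (n (nat_lit 235) (b (b (n (nat_lit 259) (b (n (nat_lit 234) (b (l (nat_lit 2) (nat_lit 233) (nat_lit 258)) (l (nat_lit 0) (nat_lit 233) (nat_lit 233)))) (n (nat_lit 212) (b (n (nat_lit 187) (b (l (nat_lit 6) (nat_lit 161) (nat_lit 162)) (l (nat_lit 6) (nat_lit 186) (nat_lit 286)))) (n (nat_lit 288) (b (l (nat_lit 4) (nat_lit 212) (nat_lit 313)) (l (nat_lit 0) (nat_lit 259) (nat_lit 260)))))))) (n (nat_lit 234) (b (n (nat_lit 238) (b (n (nat_lit 239) (b (l (nat_lit 2) (nat_lit 235) (nat_lit 260)) (l (nat_lit 2) (nat_lit 236) (nat_lit 240)))) (n (nat_lit 209) (b (l (nat_lit 3) (nat_lit 209) (nat_lit 210)) (l (nat_lit 3) (nat_lit 208) (nat_lit 208)))))) (l (nat_lit 0) (nat_lit 233) (nat_lit 233))))) (b (n (nat_lit 260) (b (n (nat_lit 210) (b (n (nat_lit 185) (b (l (nat_lit 4) (nat_lit 185) (nat_lit 286)) (l (nat_lit 4) (nat_lit 160) (nat_lit 160)))) (n (nat_lit 238) (b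 (l (nat_lit 3) (nat_lit 209) (nat_lit 209)) (l (nat_lit 2) (nat_lit 235) (nat_lit 239)))))) (n (nat_lit 259) (b (l (nat_lit 0) (nat_lit 259) (nat_lit 288)) (l (nat_lit 1) (nat_lit 233) (nat_lit 258)))))) (n (nat_lit 234) (b (n (nat_lit 209) (b (n (nat_lit 210) (b (n (nat_lit 259) (b (n (nat_lit 185) (b (l (nat_lit 5) (nat_lit 184) (nat_lit 284)) (l (nat_lit 6) (nat_lit 159) (nat_lit 160)))) (l (nat_lit 2) (nat_lit 233) (nat_lit 258)))) (l (nat_lit 3) (nat_lit 209) (nat_lit 238)))) (l (nat_lit 3) (nat_lit 208) (nat_lit 208)))) (l (nat_lit 0) (nat_lit 233) (nat_lit 233))))))) (l (nat_lit 7) (nat_lit 236) (nat_lit 337)))) (l (nat_lit 7) (nat_lit 211) (nat_lit 211))))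
    envOK_nil (by decide +kernel)

theorem p6215 : Fam (nat_lit 5) (nat_lit 1864962143947393619270919937659121190932736668099332959002736011874633490303440455204864) (nat_lit 3650370443343008157737034629643526367243551604811095750131785147795528555558238143026816876544) (nat_lit 3650370443343008157737034629643526367243551604811095750131785147795528555558238143026816876544) :=
  chk_sound Env.nil
    (n (nat_lit 285) (b (b (n (nat_lit 284) (b (n (nat_lit 261) (b (l (nat_lit 3) (nat_lit 260) (nat_lit 260)) (l (nat_lit 1) (nat_lit 258) (nat_lit 283)))) (n (nat_lit 309) (b (l (nat_lit 2) (nat_lit 283) (nat_lit 308)) (l (nat_lit 2) (nat_lit 284) (nat_lit 310)))))) (n (nat_lit 284) (b (n (nat_lit 283) (b (n (nat_lit 258) (b (l (nat_lit 3) (nat_lit 257) (nat_lit 257)) (l (nat_lit 3) (nat_lit 258) (nat_lit 259)))) (l (nat_lit 1) (nat_lit 258) (nat_lit 261)))) (n (nat_lit 309) (b (l (nat_lit 2) (nat_lit 283) (nat_lit 308)) (l (nat_lit 2)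 (nat_lit 284) (nat_lit 310))))))) (b (n (nat_lit 260) (b (l (nat_lit 3) (nat_lit 260) (nat_lit 261)) (l (nat_lit 3) (nat_lit 259) (nat_lit 259)))) (n (nat_lit 284) (b (n (nat_lit 259) (b (l (nat_lit 3) (nat_lit 258) (nat_lit 258)) (l (nat_lit 3) (nat_lit 259) (nat_lit 260)))) (n (nat_lit 309) (b (l (nat_lit 2) (nat_lit 283) (nat_lit 308)) (l (nat_lit 2) (nat_lit 284) (nat_lit 310)))))))))
    envOK_nil (by decide +kernel)

theorem p6334 : Fam (nat_lit 16) (nat_lit 8343699607727680624942585805652444129620275146709852890558508601783632775695752161234180374528) (nat_lit 157608226760248294458039842992921766632428913892006404182516060941538804019928721994697661339176750363826228941553664) (nat_lit 157608226760248294458039842992921766632428913892006404182516060941538804019928721994697661339176750363826228941553664) :=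
  chk_sound (Env.cons (nat_lit 9) (nat_lit 8343699607727680624942806661535541427661473058897445755372987037270742228065517362009341952000) (nat_lit 279968117803324504916225664098590378427817667165718938769383109245623873186953274318702937809484775424) (Env.cons (nat_lit 5) (nat_lit 1864962143947393619270919937659121190932736668099332959002736011874633490303440455204864) (nat_lit 3650370443343008157737034629643526367243551604811095750131785147795528555558238143026816876544) Env.nil))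
    (n (nat_lit 237) (b (b (b (r (nat_lit 0)) (n (nat_lit 261) (b (b (n (nat_lit 337) (b (n (nat_lit 362) (b (n (nat_lit 361) (b (l (nat_lit 6) (nat_lit 286) (nat_lit 386)) (l (nat_lit 6) (nat_lit 261) (nat_lit 336)))) (l (nat_lit 7) (nat_lit 261) (nat_lit 286)))) (l (nat_lit 7) (nat_lit 236) (nat_lit 236)))) (n (nat_lit 288) (b (n (nat_lit 212) (b (n (nat_lit 213) (b (l (nat_lit 5) (nat_lit 187) (nat_lit 188)) (l (nat_lit 5) (nat_lit 212) (nat_lit 238)))) (l (nat_lit 4) (nat_lit 212) (nat_lit 313)))) (n (nat_lit 289) (b (n (nat_lit 260) (b (l (nat_lit 3) (nat_lit 260) (nat_lit 286)) (l (nat_lit 0) (nat_lit 259) (nat_lit 259)))) (l (nat_lit 3) (nat_lit 261) (nat_lit 290))))))) (n (nat_lit 238) (b (n (nat_lit 236) (b (n (nat_lit 260) (b (l (nat_lit 2) (nat_lit 235) (nat_lit 239)) (l (nat_lit 1) (nat_lit 234) (nat_lit 259)))) (l (nat_lit 7) (nat_lit 236) (nat_lit 337)))) (l (nat_lit 5) (nat_lit 212) (nat_lit 213))))))) (b (n (nat_lit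 236) (b (n (nat_lit 238) (b (n (nat_lit 261) (b (n (nat_lit 260) (b (l (nat_lit 2) (nat_lit 235) (nat_lit 239)) (l (nat_lit 1) (nat_lit 234) (nat_lit 259)))) (l (nat_lit 7) (nat_lit 236) (nat_lit 337)))) (l (nat_lit 5) (nat_lit 212) (nat_lit 213)))) (l (nat_lit 7) (nat_lit 211) (nat_lit 211)))) (n (nat_lit 212) (b (b (n (nat_lit 211) (b (l (nat_lit 7) (nat_lit 211) (nat_lit 236)) (l (nat_lit 7) (nat_lit 186) (nat_lit 186)))) (n (nat_lit 187) (b (n (nat_lit 186) (b (l (nat_lit 7) (nat_lit 186) (nat_lit 211)) (l (nat_lit 7) (nat_lit 161) (nat_lit 161)))) (n (nat_lit 188) (b (l (nat_lit 5) (nat_lit 187) (nat_lit 213)) (l (nat_lit 5) (nat_lit 162) (nat_lit 163))))))) (n (nat_lit 187) (b (n (nat_lit 188) (b (l (nat_lit 5) (nat_lit 187) (nat_lit 213)) (l (nat_lit 5) (nat_lit 162) (nat_lit 163)))) (n (nat_lit 261) (b (n (nat_lit 236) (b (l (nat_lit 7) (nat_lit 236) (nat_lit 337)) (l (nat_lit 6) (nat_lit 161) (nat_lit 162)))) (l (nat_lit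 6) (nat_lit 186) (nat_lit 286)))))))))) (b (n (nat_lit 212) (b (n (nat_lit 213) (b (l (nat_lit 5) (nat_lit 187) (nat_lit 188)) (l (nat_lit 5) (nat_lit 212) (nat_lit 238)))) (n (nat_lit 211) (b (l (nat_lit 7) (nat_lit 211) (nat_lit 236)) (l (nat_lit 7) (nat_lit 186) (nat_lit 186)))))) (n (nat_lit 288) (b (b (n (nat_lit 289) (b (b (n (nat_lit 290) (b (n (nat_lit 291) (b (n (nat_lit 266) (b (l (nat_lit 1) (nat_lit 263) (nat_lit 267)) (l (nat_lit 1) (nat_lit 262) (nat_lit 265)))) (l (nat_lit 2) (nat_lit 287) (nat_lit 313)))) (l (nat_lit 3) (nat_lit 261) (nat_lit 261)))) (n (nat_lit 290) (b (b (n (nat_lit 286) (b (n (nat_lit 315) (b (l (nat_lit 0) (nat_lit 287) (nat_lit 316)) (l (nat_lit 0) (nat_lit 286) (nat_lit 314)))) (n (nat_lit 265) (b (l (nat_lit 1) (nat_lit 261) (nat_lit 264)) (l (nat_lit 1) (nat_lit 262) (nat_lit 266)))))) (n (nat_lit 291) (b (n (nat_lit 316) (b (l (nat_lit 0) (nat_lit 288) (nat_lit 317)) (l (nat_lit 0) (nat_lit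 287) (nat_lit 315)))) (l (nat_lit 2) (nat_lit 287) (nat_lit 313))))) (n (nat_lit 291) (b (n (nat_lit 266) (b (l (nat_lit 1) (nat_lit 263) (nat_lit 267)) (l (nat_lit 1) (nat_lit 262) (nat_lit 265)))) (l (nat_lit 2) (nat_lit 287) (nat_lit 313))))))) (b (n (nat_lit 261) (b (n (nat_lit 260) (b (l (nat_lit 3) (nat_lit 260) (nat_lit 286)) (l (nat_lit 0) (nat_lit 259) (nat_lit 259)))) (l (nat_lit 3) (nat_lit 261) (nat_lit 290)))) (n (nat_lit 286) (b (b (r (nat_lit 1)) (n (nat_lit 314) (b (n (nat_lit 285) (b (n (nat_lit 284) (b (n (nat_lit 283) (b (n (nat_lit 258) (b (l (nat_lit 3) (nat_lit 257) (nat_lit 257)) (l (nat_lit 3) (nat_lit 258) (nat_lit 259)))) (l (nat_lit 1) (nat_lit 258) (nat_lit 261)))) (n (nat_lit 309) (b (l (nat_lit 2) (nat_lit 283) (nat_lit 308)) (l (nat_lit 2) (nat_lit 284) (nat_lit 310)))))) (l (nat_lit 0) (nat_lit 285) (nat_lit 313)))) (l (nat_lit 0) (nat_lit 286) (nat_lit 315))))) (b (n (nat_lit 285) (b (n (nat_lit 284)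 (b (n (nat_lit 259) (b (l (nat_lit 3) (nat_lit 258) (nat_lit 258)) (l (nat_lit 3) (nat_lit 259) (nat_lit 260)))) (n (nat_lit 309) (b (l (nat_lit 2) (nat_lit 283) (nat_lit 308)) (l (nat_lit 2) (nat_lit 284) (nat_lit 310)))))) (n (nat_lit 314) (b (l (nat_lit 0) (nat_lit 286) (nat_lit 315)) (l (nat_lit 0) (nat_lit 285) (nat_lit 313)))))) (n (nat_lit 212) (b (n (nat_lit 261) (b (l (nat_lit 6) (nat_lit 186) (nat_lit 187)) (l (nat_lit 3) (nat_lit 260) (nat_lit 260)))) (l (nat_lit 4) (nat_lit 212) (nat_lit 313)))))))))) (n (nat_lit 289) (b (b (n (nat_lit 290) (b (n (nat_lit 291) (b (n (nat_lit 266) (b (l (nat_lit 1) (nat_lit 263) (nat_lit 267)) (l (nat_lit 1) (nat_lit 262) (nat_lit 265)))) (l (nat_lit 2) (nat_lit 287) (nat_lit 313)))) (l (nat_lit 3) (nat_lit 261) (nat_lit 261)))) (n (nat_lit 290) (b (b (n (nat_lit 286) (b (n (nat_lit 315) (b (l (nat_lit 0) (nat_lit 287) (nat_lit 316)) (l (nat_lit 0) (nat_lit 286) (nat_lit 314)))) (n (nat_lit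 265) (b (l (nat_lit 1) (nat_lit 261) (nat_lit 264)) (l (nat_lit 1) (nat_lit 262) (nat_lit 266)))))) (n (nat_lit 291) (b (n (nat_lit 316) (b (l (nat_lit 0) (nat_lit 288) (nat_lit 317)) (l (nat_lit 0) (nat_lit 287) (nat_lit 315)))) (l (nat_lit 2) (nat_lit 287) (nat_lit 313))))) (n (nat_lit 291) (b (n (nat_lit 266) (b (l (nat_lit 1) (nat_lit 263) (nat_lit 267)) (l (nat_lit 1) (nat_lit 262) (nat_lit 265)))) (l (nat_lit 2) (nat_lit 287) (nat_lit 313))))))) (b (n (nat_lit 261) (b (n (nat_lit 260) (b (l (nat_lit 3) (nat_lit 260) (nat_lit 286)) (l (nat_lit 0) (nat_lit 259) (nat_lit 259)))) (l (nat_lit 3) (nat_lit 261) (nat_lit 290)))) (n (nat_lit 286) (b (b (n (nat_lit 285) (b (n (nat_lit 284) (b (n (nat_lit 259) (b (l (nat_lit 3) (nat_lit 258) (nat_lit 258)) (l (nat_lit 3) (nat_lit 259) (nat_lit 260)))) (n (nat_lit 309) (b (l (nat_lit 2) (nat_lit 283) (nat_lit 308)) (l (nat_lit 2) (nat_lit 284) (nat_lit 310)))))) (n (nat_lit 314) (b (l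 (nat_lit 0) (nat_lit 286) (nat_lit 315)) (l (nat_lit 0) (nat_lit 285) (nat_lit 313)))))) (n (nat_lit 314) (b (n (nat_lit 264) (b (n (nat_lit 239) (b (b (n (nat_lit 240) (b (n (nat_lit 238) (b (l (nat_lit 2) (nat_lit 236) (nat_lit 261)) (l (nat_lit 7) (nat_lit 213) (nat_lit 213)))) (l (nat_lit 5) (nat_lit 214) (nat_lit 215)))) (n (nat_lit 214) (b (n (nat_lit 213) (b (l (nat_lit 7) (nat_lit 188) (nat_lit 188)) (l (nat_lit 7) (nat_lit 213) (nat_lit 238)))) (l (nat_lit 6) (nat_lit 213) (nat_lit 313))))) (n (nat_lit 214) (b (n (nat_lit 215) (b (l (nat_lit 5) (nat_lit 214) (nat_lit 240)) (l (nat_lit 5) (nat_lit 189) (nat_lit 190)))) (l (nat_lit 6) (nat_lit 213) (nat_lit 313)))))) (l (nat_lit 1) (nat_lit 261) (nat_lit 265)))) (l (nat_lit 0) (nat_lit 286) (nat_lit 315))))) (r (nat_lit 1)))))))) (b (n (nat_lit 212) (b (n (nat_lit 187) (b (n (nat_lit 186) (b (l (nat_lit 7) (nat_lit 186) (nat_lit 211)) (l (nat_lit 7) (nat_lit 161) (nat_lit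 161)))) (n (nat_lit 188) (b (l (nat_lit 5) (nat_lit 187) (nat_lit 213)) (l (nat_lit 5) (nat_lit 162) (nat_lit 163)))))) (l (nat_lit 4) (nat_lit 212) (nat_lit 313)))) (n (nat_lit 261) (b (b (n (nat_lit 212) (b (n (nat_lit 187) (b (n (nat_lit 186) (b (l (nat_lit 7) (nat_lit 186) (nat_lit 211)) (l (nat_lit 7) (nat_lit 161) (nat_lit 161)))) (l (nat_lit 6) (nat_lit 186) (nat_lit 286)))) (n (nat_lit 213) (b (l (nat_lit 5) (nat_lit 187) (nat_lit 188)) (l (nat_lit 5) (nat_lit 212) (nat_lit 238)))))) (n (nat_lit 289) (b (n (nat_lit 260) (b (l (nat_lit 3) (nat_lit 260) (nat_lit 286)) (l (nat_lit 0) (nat_lit 259) (nat_lit 259)))) (l (nat_lit 3) (nat_lit 261) (nat_lit 290))))) (n (nat_lit 240) (b (b (n (nat_lit 238) (b (l (nat_lit 5) (nat_lit 212) (nat_lit 213)) (l (nat_lit 2) (nat_lit 236) (nat_lit 239)))) (n (nat_lit 213) (b (n (nat_lit 212) (b (n (nat_lit 215) (b (n (nat_lit 186) (b (n (nat_lit 187) (b (l (nat_lit 3) (nat_lit 186) (nat_lit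 214)) (l (nat_lit 7) (nat_lit 161) (nat_lit 161)))) (l (nat_lit 7) (nat_lit 186) (nat_lit 211)))) (n (nat_lit 290) (b (n (nat_lit 265) (b (b (n (nat_lit 190) (b (n (nat_lit 165) (b (n (nat_lit 166) (b (l (nat_lit 5) (nat_lit 165) (nat_lit 191)) (l (nat_lit 5) (nat_lit 140) (nat_lit 141)))) (n (nat_lit 164) (b (l (nat_lit 7) (nat_lit 139) (nat_lit 139)) (l (nat_lit 7) (nat_lit 164) (nat_lit 189)))))) (n (nat_lit 291) (b (l (nat_lit 4) (nat_lit 190) (nat_lit 266)) (l (nat_lit 4) (nat_lit 215) (nat_lit 316)))))) (n (nat_lit 190) (b (n (nat_lit 165) (b (n (nat_lit 164) (b (l (nat_lit 7) (nat_lit 139) (nat_lit 139)) (l (nat_lit 7) (nat_lit 164) (nat_lit 189)))) (n (nat_lit 266) (b (l (nat_lit 4) (nat_lit 165) (nat_lit 241)) (l (nat_lit 4) (nat_lit 190) (nat_lit 291)))))) (n (nat_lit 191) (b (l (nat_lit 5) (nat_lit 190) (nat_lit 216)) (l (nat_lit 5) (nat_lit 165) (nat_lit 166))))))) (b (n (nat_lit 315) (b (n (nat_lit 340) (b (n (nat_lit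 241) (b (l (nat_lit 5) (nat_lit 240) (nat_lit 266)) (l (nat_lit 5) (nat_lit 215) (nat_lit 216)))) (n (nat_lit 339) (b (l (nat_lit 6) (nat_lit 264) (nat_lit 364)) (l (nat_lit 6) (nat_lit 239) (nat_lit 314)))))) (n (nat_lit 316) (b (l (nat_lit 4) (nat_lit 240) (nat_lit 341)) (l (nat_lit 4) (nat_lit 215) (nat_lit 291)))))) (n (nat_lit 315) (b (n (nat_lit 340) (b (n (nat_lit 341) (b (l (nat_lit 4) (nat_lit 240) (nat_lit 316)) (l (nat_lit 4) (nat_lit 265) (nat_lit 366)))) (n (nat_lit 339) (b (l (nat_lit 6) (nat_lit 264) (nat_lit 364)) (l (nat_lit 6) (nat_lit 239) (nat_lit 314)))))) (n (nat_lit 216) (b (l (nat_lit 5) (nat_lit 190) (nat_lit 191)) (l (nat_lit 5) (nat_lit 215) (nat_lit 241))))))))) (l (nat_lit 3) (nat_lit 261) (nat_lit 289)))))) (l (nat_lit 5) (nat_lit 187) (nat_lit 188)))) (l (nat_lit 5) (nat_lit 212) (nat_lit 238))))) (b (n (nat_lit 290) (b (n (nat_lit 265) (b (b (b (n (nat_lit 315) (b (b (n (nat_lit 340) (b (n (nat_lit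 241) (b (l (nat_lit 5) (nat_lit 240) (nat_lit 266)) (l (nat_lit 5) (nat_lit 215) (nat_lit 216)))) (n (nat_lit 339) (b (l (nat_lit 6) (nat_lit 264) (nat_lit 364)) (l (nat_lit 6) (nat_lit 239) (nat_lit 314)))))) (n (nat_lit 340) (b (n (nat_lit 239) (b (l (nat_lit 7) (nat_lit 214) (nat_lit 214)) (l (nat_lit 7) (nat_lit 239) (nat_lit 264)))) (n (nat_lit 339) (b (l (nat_lit 6) (nat_lit 264) (nat_lit 364)) (l (nat_lit 6) (nat_lit 239) (nat_lit 314))))))) (n (nat_lit 215) (b (n (nat_lit 216) (b (l (nat_lit 5) (nat_lit 190) (nat_lit 191)) (l (nat_lit 5) (nat_lit 215) (nat_lit 241)))) (n (nat_lit 214) (b (l (nat_lit 7) (nat_lit 214) (nat_lit 239)) (l (nat_lit 7) (nat_lit 189) (nat_lit 189)))))))) (n (nat_lit 315) (b (b (n (nat_lit 340) (b (n (nat_lit 341) (b (l (nat_lit 4) (nat_lit 240) (nat_lit 316)) (l (nat_lit 4) (nat_lit 265) (nat_lit 366)))) (n (nat_lit 339) (b (l (nat_lit 6) (nat_lit 264) (nat_lit 364)) (l (nat_lit 6) (nat_lit 239)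 (nat_lit 314)))))) (n (nat_lit 215) (b (n (nat_lit 214) (b (l (nat_lit 7) (nat_lit 214) (nat_lit 239)) (l (nat_lit 7) (nat_lit 189) (nat_lit 189)))) (n (nat_lit 316) (b (l (nat_lit 4) (nat_lit 240) (nat_lit 341)) (l (nat_lit 4) (nat_lit 215) (nat_lit 291))))))) (n (nat_lit 340) (b (n (nat_lit 239) (b (l (nat_lit 7) (nat_lit 214) (nat_lit 214)) (l (nat_lit 7) (nat_lit 239) (nat_lit 264)))) (n (nat_lit 339) (b (l (nat_lit 6) (nat_lit 264) (nat_lit 364)) (l (nat_lit 6) (nat_lit 239) (nat_lit 314))))))))) (b (n (nat_lit 315) (b (b (n (nat_lit 215) (b (n (nat_lit 316) (b (l (nat_lit 4) (nat_lit 240) (nat_lit 341)) (l (nat_lit 4) (nat_lit 215) (nat_lit 291)))) (n (nat_lit 216) (b (l (nat_lit 5) (nat_lit 190) (nat_lit 191)) (l (nat_lit 5) (nat_lit 215) (nat_lit 241)))))) (n (nat_lit 340) (b (n (nat_lit 341) (b (l (nat_lit 4) (nat_lit 240) (nat_lit 316)) (l (nat_lit 4) (nat_lit 265) (nat_lit 366)))) (n (nat_lit 339) (b (l (nat_lit 6) (nat_lit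 264) (nat_lit 364)) (l (nat_lit 6) (nat_lit 239) (nat_lit 314))))))) (n (nat_lit 340) (b (n (nat_lit 241) (b (l (nat_lit 5) (nat_lit 240) (nat_lit 266)) (l (nat_lit 5) (nat_lit 215) (nat_lit 216)))) (n (nat_lit 339) (b (l (nat_lit 6) (nat_lit 264) (nat_lit 364)) (l (nat_lit 6) (nat_lit 239) (nat_lit 314)))))))) (n (nat_lit 215) (b (b (n (nat_lit 190) (b (n (nat_lit 291) (b (l (nat_lit 4) (nat_lit 190) (nat_lit 266)) (l (nat_lit 4) (nat_lit 215) (nat_lit 316)))) (n (nat_lit 189) (b (l (nat_lit 7) (nat_lit 164) (nat_lit 164)) (l (nat_lit 7) (nat_lit 189) (nat_lit 214)))))) (n (nat_lit 190) (b (n (nat_lit 291) (b (l (nat_lit 4) (nat_lit 190) (nat_lit 266)) (l (nat_lit 4) (nat_lit 215) (nat_lit 316)))) (n (nat_lit 191) (b (l (nat_lit 5) (nat_lit 190) (nat_lit 216)) (l (nat_lit 5) (nat_lit 165) (nat_lit 166))))))) (n (nat_lit 216) (b (n (nat_lit 214) (b (n (nat_lit 217) (b (n (nat_lit 218) (b (n (nat_lit 193) (b (l (nat_lit 1) (nat_lit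 190) (nat_lit 194)) (l (nat_lit 1) (nat_lit 189) (nat_lit 192)))) (l (nat_lit 2) (nat_lit 214) (nat_lit 239)))) (n (nat_lit 213) (b (n (nat_lit 188) (b (l (nat_lit 3) (nat_lit 187) (nat_lit 187)) (l (nat_lit 5) (nat_lit 187) (nat_lit 212)))) (n (nat_lit 242) (b (l (nat_lit 0) (nat_lit 214) (nat_lit 243)) (l (nat_lit 0) (nat_lit 213) (nat_lit 241)))))))) (l (nat_lit 7) (nat_lit 189) (nat_lit 189)))) (l (nat_lit 5) (nat_lit 190) (nat_lit 191)))))))) (n (nat_lit 315) (b (b (n (nat_lit 340) (b (n (nat_lit 241) (b (l (nat_lit 5) (nat_lit 240) (nat_lit 266)) (l (nat_lit 5) (nat_lit 215) (nat_lit 216)))) (n (nat_lit 339) (b (l (nat_lit 6) (nat_lit 264) (nat_lit 364)) (l (nat_lit 6) (nat_lit 239) (nat_lit 314)))))) (n (nat_lit 340) (b (n (nat_lit 239) (b (l (nat_lit 7) (nat_lit 214) (nat_lit 214)) (l (nat_lit 7) (nat_lit 239) (nat_lit 264)))) (n (nat_lit 341) (b (l (nat_lit 4) (nat_lit 240) (nat_lit 316)) (l (nat_lit 4) (nat_lit 265) (nat_lit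 366))))))) (n (nat_lit 316) (b (n (nat_lit 241) (b (n (nat_lit 239) (b (n (nat_lit 242) (b (b (n (nat_lit 243) (b (n (nat_lit 218) (b (l (nat_lit 1) (nat_lit 215) (nat_lit 219)) (l (nat_lit 1) (nat_lit 214) (nat_lit 217)))) (l (nat_lit 2) (nat_lit 239) (nat_lit 264)))) (n (nat_lit 217) (b (n (nat_lit 267) (b (n (nat_lit 291) (b (l (nat_lit 6) (nat_lit 216) (nat_lit 292)) (l (nat_lit 5) (nat_lit 216) (nat_lit 266)))) (l (nat_lit 0) (nat_lit 239) (nat_lit 268)))) (l (nat_lit 1) (nat_lit 214) (nat_lit 218))))) (n (nat_lit 243) (b (n (nat_lit 268) (b (l (nat_lit 0) (nat_lit 240) (nat_lit 269)) (l (nat_lit 0) (nat_lit 239) (nat_lit 267)))) (l (nat_lit 2) (nat_lit 239) (nat_lit 264)))))) (l (nat_lit 7) (nat_lit 214) (nat_lit 214)))) (l (nat_lit 5) (nat_lit 215) (nat_lit 216)))) (l (nat_lit 4) (nat_lit 240) (nat_lit 341)))))))) (l (nat_lit 3) (nat_lit 261) (nat_lit 289)))) (n (nat_lit 290) (b (n (nat_lit 239) (b (n (nat_lit 265) (b (b (n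 (nat_lit 214) (b (n (nat_lit 189) (b (l (nat_lit 4) (nat_lit 189) (nat_lit 264)) (l (nat_lit 4) (nat_lit 164) (nat_lit 164)))) (l (nat_lit 7) (nat_lit 214) (nat_lit 315)))) (n (nat_lit 315) (b (n (nat_lit 340) (b (n (nat_lit 339) (b (l (nat_lit 6) (nat_lit 264) (nat_lit 364)) (l (nat_lit 6) (nat_lit 239) (nat_lit 314)))) (l (nat_lit 7) (nat_lit 239) (nat_lit 264)))) (n (nat_lit 215) (b (n (nat_lit 316) (b (l (nat_lit 4) (nat_lit 240) (nat_lit 341)) (l (nat_lit 4) (nat_lit 215) (nat_lit 291)))) (n (nat_lit 216) (b (l (nat_lit 5) (nat_lit 190) (nat_lit 191)) (l (nat_lit 5) (nat_lit 215) (nat_lit 241))))))))) (n (nat_lit 215) (b (b (n (nat_lit 190) (b (n (nat_lit 291) (b (l (nat_lit 4) (nat_lit 190) (nat_lit 266)) (l (nat_lit 4) (nat_lit 215) (nat_lit 316)))) (n (nat_lit 189) (b (l (nat_lit 7) (nat_lit 164) (nat_lit 164)) (l (nat_lit 7) (nat_lit 189) (nat_lit 214)))))) (n (nat_lit 190) (b (n (nat_lit 291) (b (l (nat_lit 4) (nat_lit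 190) (nat_lit 266)) (l (nat_lit 4) (nat_lit 215) (nat_lit 316)))) (n (nat_lit 191) (b (l (nat_lit 5) (nat_lit 190) (nat_lit 216)) (l (nat_lit 5) (nat_lit 165) (nat_lit 166))))))) (b (n (nat_lit 190) (b (n (nat_lit 191) (b (l (nat_lit 5) (nat_lit 190) (nat_lit 216)) (l (nat_lit 5) (nat_lit 165) (nat_lit 166)))) (n (nat_lit 189) (b (l (nat_lit 7) (nat_lit 164) (nat_lit 164)) (l (nat_lit 7) (nat_lit 189) (nat_lit 214)))))) (n (nat_lit 216) (b (n (nat_lit 217) (b (n (nat_lit 214) (b (n (nat_lit 242) (b (n (nat_lit 291) (b (n (nat_lit 192) (b (n (nat_lit 266) (b (l (nat_lit 5) (nat_lit 191) (nat_lit 241)) (l (nat_lit 6) (nat_lit 191) (nat_lit 267)))) (l (nat_lit 1) (nat_lit 189) (nat_lit 193)))) (l (nat_lit 4) (nat_lit 215) (nat_lit 316)))) (l (nat_lit 0) (nat_lit 214) (nat_lit 243)))) (l (nat_lit 7) (nat_lit 189) (nat_lit 189)))) (l (nat_lit 2) (nat_lit 214) (nat_lit 218)))) (l (nat_lit 5) (nat_lit 190) (nat_lit 191))))))))) (l (nat_lit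 2) (nat_lit 236) (nat_lit 238)))) (l (nat_lit 3) (nat_lit 261) (nat_lit 289)))))))))))))))
    (envOK_cons p6196 (envOK_cons p6215 envOK_nil)) (by decide +kernel)

theorem p6346 : Fam (nat_lit 5) (nat_lit 248661645994994738033578025730446822135325960183470178473967357916399910405417801351168) (nat_lit 15665682182197810742085776641666251542359450108175867336149880464978688285595985281810432) (nat_lit 15665682182197810742085776641666251542359450108175867336149880464978688285595985281810432) :=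
  chk_sound Env.nil
    (n (nat_lit 264) (b (b (n (nat_lit 265) (b (n (nat_lit 240) (b (l (nat_lit 1) (nat_lit 236) (nat_lit 239)) (l (nat_lit 1) (nat_lit 237) (nat_lit 241)))) (n (nat_lit 288) (b (l (nat_lit 0) (nat_lit 260) (nat_lit 289)) (l (nat_lit 2) (nat_lit 262) (nat_lit 266)))))) (n (nat_lit 265) (b (n (nat_lit 266) (b (n (nat_lit 291) (b (l (nat_lit 0) (nat_lit 262) (nat_lit 290)) (l (nat_lit 0) (nat_lit 263) (nat_lit 292)))) (l (nat_lit 2) (nat_lit 262) (nat_lit 288)))) (n (nat_lit 240) (b (l (nat_lit 1) (nat_lit 236) (nat_lit 239)) (l (nat_lit 1) (nat_lit 237) (nat_lit 241))))))) (b (n (nat_lit 289) (b (l (nat_lit 0) (nat_lit 261) (nat_lit 290)) (l (nat_lit 0) (nat_lit 260) (nat_lit 288)))) (n (nat_lit 265) (b (n (nat_lit 240) (b (l (nat_lit 1) (nat_lit 236) (nat_lit 239)) (l (nat_lit 1) (nat_lit 237) (nat_lit 241)))) (n (nat_lit 290) (b (l (nat_lit 0) (nat_lit 262) (nat_lit 291)) (l (nat_lit 0) (nat_lit 261) (nat_lit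 289)))))))))
    envOK_nil (by decide +kernel)

theorem p6395 : Fam (nat_lit 16) (nat_lit 8343699607727680624942585805652444129620275146709852890558508601783632775695752161234180374528) (nat_lit 21153801083276590988789825171181952467096609391535219589395273371438121511577728540535577871537181980445026305453239698456576) (nat_lit 21153801083276590988789825171181952467096609391535219589395273371438121511577728540535577871537181980445026305453239698456576) :=
  chk_sound (Env.cons (nat_lit 5) (nat_lit 248661645994994738033578025730446822135325960183470178473967357916399910405417801351168) (nat_lit 15665682182197810742085776641666251542359450108175867336149880464978688285595985281810432) Env.nil)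
    (n (nat_lit 261) (b (b (n (nat_lit 337) (b (n (nat_lit 362) (b (n (nat_lit 387) (b (n (nat_lit 288) (b (l (nat_lit 5) (nat_lit 262) (nat_lit 263)) (l (nat_lit 5) (nat_lit 287) (nat_lit 313)))) (n (nat_lit 388) (b (l (nat_lit 4) (nat_lit 312) (nat_lit 413)) (l (nat_lit 4) (nat_lit 287) (nat_lit 363)))))) (n (nat_lit 361) (b (l (nat_lit 6) (nat_lit 286) (nat_lit 386)) (l (nat_lit 6) (nat_lit 261) (nat_lit 336)))))) (l (nat_lit 7) (nat_lit 236) (nat_lit 236)))) (n (nat_lit 236) (b (n (nat_lit 211) (b (l (nat_lit 4) (nat_lit 211) (nat_lit 286)) (l (nat_lit 4) (nat_lit 186) (nat_lit 186)))) (l (nat_lit 7) (nat_lit 236) (nat_lit 337))))) (b (n (nat_lit 260) (b (b (n (nat_lit 288) (b (n (nat_lit 289) (b (l (nat_lit 0) (nat_lit 260) (nat_lit 263)) (l (nat_lit 3) (nat_lit 261) (nat_lit 290)))) (l (nat_lit 0) (nat_lit 259) (nat_lit 259)))) (n (nat_lit 259) (b (b (n (nat_lit 263) (b (n (nat_lit 234) (b (l (nat_lit 3) (nat_lit 234) (nat_lit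 235)) (l (nat_lit 3) (nat_lit 233) (nat_lit 233)))) (n (nat_lit 284) (b (l (nat_lit 2) (nat_lit 258) (nat_lit 283)) (l (nat_lit 2) (nat_lit 259) (nat_lit 285)))))) (n (nat_lit 258) (b (n (nat_lit 283) (b (l (nat_lit 2) (nat_lit 257) (nat_lit 282)) (l (nat_lit 2) (nat_lit 258) (nat_lit 284)))) (l (nat_lit 0) (nat_lit 258) (nat_lit 286))))) (n (nat_lit 258) (b (n (nat_lit 233) (b (l (nat_lit 3) (nat_lit 233) (nat_lit 234)) (l (nat_lit 3) (nat_lit 232) (nat_lit 232)))) (l (nat_lit 0) (nat_lit 258) (nat_lit 286))))))) (b (n (nat_lit 259) (b (n (nat_lit 258) (b (n (nat_lit 283) (b (l (nat_lit 2) (nat_lit 257) (nat_lit 282)) (l (nat_lit 2) (nat_lit 258) (nat_lit 284)))) (n (nat_lit 233) (b (l (nat_lit 3) (nat_lit 233) (nat_lit 234)) (l (nat_lit 3) (nat_lit 232) (nat_lit 232)))))) (l (nat_lit 0) (nat_lit 259) (nat_lit 288)))) (n (nat_lit 263) (b (b (r (nat_lit 0)) (n (nat_lit 285) (b (n (nat_lit 264) (b (n (nat_lit 265) (b (n (nat_lit 266)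 (b (n (nat_lit 291) (b (l (nat_lit 0) (nat_lit 262) (nat_lit 290)) (l (nat_lit 0) (nat_lit 263) (nat_lit 292)))) (l (nat_lit 2) (nat_lit 262) (nat_lit 288)))) (n (nat_lit 240) (b (l (nat_lit 1) (nat_lit 236) (nat_lit 239)) (l (nat_lit 1) (nat_lit 237) (nat_lit 241)))))) (l (nat_lit 2) (nat_lit 260) (nat_lit 286)))) (l (nat_lit 2) (nat_lit 259) (nat_lit 284))))) (b (n (nat_lit 264) (b (n (nat_lit 265) (b (n (nat_lit 240) (b (l (nat_lit 1) (nat_lit 236) (nat_lit 239)) (l (nat_lit 1) (nat_lit 237) (nat_lit 241)))) (n (nat_lit 290) (b (l (nat_lit 0) (nat_lit 262) (nat_lit 291)) (l (nat_lit 0) (nat_lit 261) (nat_lit 289)))))) (n (nat_lit 285) (b (l (nat_lit 2) (nat_lit 259) (nat_lit 284)) (l (nat_lit 2) (nat_lit 260) (nat_lit 286)))))) (n (nat_lit 285) (b (n (nat_lit 288) (b (n (nat_lit 310) (b (b (n (nat_lit 337) (b (n (nat_lit 335) (b (b (n (nat_lit 360) (b (n (nat_lit 359) (b (l (nat_lit 6) (nat_lit 259) (nat_lit 334)) (l (nat_lit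 6) (nat_lit 284) (nat_lit 384)))) (l (nat_lit 5) (nat_lit 260) (nat_lit 286)))) (n (nat_lit 336) (b (n (nat_lit 334) (b (l (nat_lit 1) (nat_lit 309) (nat_lit 313)) (l (nat_lit 6) (nat_lit 259) (nat_lit 359)))) (l (nat_lit 6) (nat_lit 261) (nat_lit 361))))) (n (nat_lit 361) (b (n (nat_lit 360) (b (l (nat_lit 4) (nat_lit 285) (nat_lit 386)) (l (nat_lit 5) (nat_lit 260) (nat_lit 286)))) (l (nat_lit 6) (nat_lit 261) (nat_lit 336)))))) (l (nat_lit 5) (nat_lit 262) (nat_lit 362)))) (n (nat_lit 334) (b (n (nat_lit 235) (b (l (nat_lit 6) (nat_lit 234) (nat_lit 309)) (l (nat_lit 3) (nat_lit 234) (nat_lit 234)))) (n (nat_lit 335) (b (n (nat_lit 337) (b (n (nat_lit 336) (b (l (nat_lit 1) (nat_lit 309) (nat_lit 313)) (l (nat_lit 6) (nat_lit 261) (nat_lit 361)))) (l (nat_lit 5) (nat_lit 262) (nat_lit 362)))) (l (nat_lit 6) (nat_lit 259) (nat_lit 359))))))) (b (n (nat_lit 235) (b (n (nat_lit 309) (b (l (nat_lit 6) (nat_lit 234) (nat_lit 334))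 (l (nat_lit 2) (nat_lit 284) (nat_lit 286)))) (l (nat_lit 3) (nat_lit 234) (nat_lit 234)))) (n (nat_lit 286) (b (n (nat_lit 361) (b (b (n (nat_lit 335) (b (l (nat_lit 5) (nat_lit 260) (nat_lit 360)) (l (nat_lit 4) (nat_lit 260) (nat_lit 336)))) (n (nat_lit 337) (b (l (nat_lit 5) (nat_lit 262) (nat_lit 362)) (l (nat_lit 6) (nat_lit 261) (nat_lit 336))))) (n (nat_lit 362) (b (n (nat_lit 360) (b (n (nat_lit 363) (b (b (n (nat_lit 364) (b (n (nat_lit 365) (b (n (nat_lit 340) (b (l (nat_lit 1) (nat_lit 336) (nat_lit 339)) (l (nat_lit 1) (nat_lit 337) (nat_lit 341)))) (n (nat_lit 390) (b (l (nat_lit 0) (nat_lit 362) (nat_lit 391)) (l (nat_lit 0) (nat_lit 361) (nat_lit 389)))))) (n (nat_lit 385) (b (l (nat_lit 2) (nat_lit 360) (nat_lit 386)) (l (nat_lit 2) (nat_lit 359) (nat_lit 384)))))) (n (nat_lit 359) (b (n (nat_lit 388) (b (l (nat_lit 0) (nat_lit 360) (nat_lit 389)) (l (nat_lit 0) (nat_lit 359) (nat_lit 387)))) (n (nat_lit 384) (b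 (l (nat_lit 2) (nat_lit 359) (nat_lit 385)) (l (nat_lit 2) (nat_lit 358) (nat_lit 383))))))) (b (n (nat_lit 359) (b (b (n (nat_lit 384) (b (l (nat_lit 2) (nat_lit 359) (nat_lit 385)) (l (nat_lit 2) (nat_lit 358) (nat_lit 383)))) (n (nat_lit 358) (b (n (nat_lit 357) (b (n (nat_lit 382) (b (l (nat_lit 2) (nat_lit 357) (nat_lit 383)) (l (nat_lit 2) (nat_lit 356) (nat_lit 381)))) (n (nat_lit 332) (b (l (nat_lit 3) (nat_lit 331) (nat_lit 331)) (l (nat_lit 3) (nat_lit 332) (nat_lit 333)))))) (n (nat_lit 387) (b (l (nat_lit 0) (nat_lit 358) (nat_lit 386)) (l (nat_lit 0) (nat_lit 359) (nat_lit 388))))))) (n (nat_lit 386) (b (n (nat_lit 385) (b (l (nat_lit 2) (nat_lit 359) (nat_lit 384)) (l (nat_lit 2) (nat_lit 360) (nat_lit 364)))) (n (nat_lit 387) (b (l (nat_lit 0) (nat_lit 359) (nat_lit 388)) (l (nat_lit 0) (nat_lit 358) (nat_lit 358)))))))) (n (nat_lit 364) (b (b (n (nat_lit 389) (b (l (nat_lit 0) (nat_lit 360) (nat_lit 388)) (l (nat_lit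 0) (nat_lit 361) (nat_lit 390)))) (n (nat_lit 365) (b (n (nat_lit 340) (b (l (nat_lit 1) (nat_lit 336) (nat_lit 339)) (l (nat_lit 1) (nat_lit 337) (nat_lit 341)))) (n (nat_lit 387) (b (n (nat_lit 388) (b (l (nat_lit 0) (nat_lit 359) (nat_lit 359)) (l (nat_lit 2) (nat_lit 362) (nat_lit 366)))) (l (nat_lit 2) (nat_lit 361) (nat_lit 386))))))) (n (nat_lit 365) (b (n (nat_lit 340) (b (l (nat_lit 1) (nat_lit 336) (nat_lit 339)) (l (nat_lit 1) (nat_lit 337) (nat_lit 341)))) (n (nat_lit 390) (b (l (nat_lit 0) (nat_lit 362) (nat_lit 391)) (l (nat_lit 0) (nat_lit 361) (nat_lit 389))))))))))) (l (nat_lit 5) (nat_lit 260) (nat_lit 335)))) (l (nat_lit 7) (nat_lit 261) (nat_lit 337)))))) (l (nat_lit 2) (nat_lit 284) (nat_lit 309))))))) (l (nat_lit 0) (nat_lit 260) (nat_lit 289)))) (l (nat_lit 2) (nat_lit 259) (nat_lit 284)))))))))) (n (nat_lit 260) (b (b (n (nat_lit 288) (b (n (nat_lit 289) (b (l (nat_lit 0) (nat_lit 260) (nat_lit 263)) (l (nat_lit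 3) (nat_lit 261) (nat_lit 290)))) (l (nat_lit 0) (nat_lit 259) (nat_lit 259)))) (n (nat_lit 259) (b (b (n (nat_lit 263) (b (n (nat_lit 234) (b (l (nat_lit 3) (nat_lit 234) (nat_lit 235)) (l (nat_lit 3) (nat_lit 233) (nat_lit 233)))) (n (nat_lit 284) (b (l (nat_lit 2) (nat_lit 258) (nat_lit 283)) (l (nat_lit 2) (nat_lit 259) (nat_lit 285)))))) (n (nat_lit 258) (b (n (nat_lit 283) (b (l (nat_lit 2) (nat_lit 257) (nat_lit 282)) (l (nat_lit 2) (nat_lit 258) (nat_lit 284)))) (l (nat_lit 0) (nat_lit 258) (nat_lit 286))))) (n (nat_lit 258) (b (n (nat_lit 233) (b (l (nat_lit 3) (nat_lit 233) (nat_lit 234)) (l (nat_lit 3) (nat_lit 232) (nat_lit 232)))) (l (nat_lit 0) (nat_lit 258) (nat_lit 286))))))) (b (n (nat_lit 259) (b (n (nat_lit 258) (b (n (nat_lit 283) (b (l (nat_lit 2) (nat_lit 257) (nat_lit 282)) (l (nat_lit 2) (nat_lit 258) (nat_lit 284)))) (n (nat_lit 233) (b (l (nat_lit 3) (nat_lit 233) (nat_lit 234)) (l (nat_lit 3) (nat_lit 232)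 (nat_lit 232)))))) (l (nat_lit 0) (nat_lit 259) (nat_lit 288)))) (n (nat_lit 263) (b (b (r (nat_lit 0)) (n (nat_lit 285) (b (n (nat_lit 264) (b (n (nat_lit 265) (b (n (nat_lit 266) (b (n (nat_lit 291) (b (l (nat_lit 0) (nat_lit 262) (nat_lit 290)) (l (nat_lit 0) (nat_lit 263) (nat_lit 292)))) (l (nat_lit 2) (nat_lit 262) (nat_lit 288)))) (n (nat_lit 240) (b (l (nat_lit 1) (nat_lit 236) (nat_lit 239)) (l (nat_lit 1) (nat_lit 237) (nat_lit 241)))))) (l (nat_lit 2) (nat_lit 260) (nat_lit 286)))) (l (nat_lit 2) (nat_lit 259) (nat_lit 284))))) (b (n (nat_lit 264) (b (n (nat_lit 265) (b (n (nat_lit 240) (b (l (nat_lit 1) (nat_lit 236) (nat_lit 239)) (l (nat_lit 1) (nat_lit 237) (nat_lit 241)))) (n (nat_lit 290) (b (l (nat_lit 0) (nat_lit 262) (nat_lit 291)) (l (nat_lit 0) (nat_lit 261) (nat_lit 289)))))) (n (nat_lit 285) (b (l (nat_lit 2) (nat_lit 259) (nat_lit 284)) (l (nat_lit 2) (nat_lit 260) (nat_lit 286)))))) (n (nat_lit 285) (b (n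 (nat_lit 310) (b (b (n (nat_lit 309) (b (n (nat_lit 235) (b (l (nat_lit 3) (nat_lit 234) (nat_lit 234)) (l (nat_lit 6) (nat_lit 234) (nat_lit 334)))) (n (nat_lit 288) (b (l (nat_lit 0) (nat_lit 260) (nat_lit 289)) (l (nat_lit 2) (nat_lit 284) (nat_lit 286)))))) (n (nat_lit 236) (b (n (nat_lit 235) (b (l (nat_lit 5) (nat_lit 210) (nat_lit 211)) (l (nat_lit 3) (nat_lit 234) (nat_lit 234)))) (l (nat_lit 5) (nat_lit 235) (nat_lit 335))))) (n (nat_lit 236) (b (n (nat_lit 211) (b (l (nat_lit 7) (nat_lit 211) (nat_lit 237)) (l (nat_lit 6) (nat_lit 210) (nat_lit 286)))) (l (nat_lit 5) (nat_lit 235) (nat_lit 335)))))) (l (nat_lit 2) (nat_lit 259) (nat_lit 284)))))))))))))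
    (envOK_cons p6346 envOK_nil) (by decide +kernel)

theorem p6571 : Fam (nat_lit 17) (nat_lit 8343699732058489727389246344498006166325485171823890589895437961899626998985626414367524257792) (nat_lit 6461929293336754494122786031520207607740464255711359231572704563724269344066739845294435600639938969996229270671720448) (nat_lit 6461929293336754494122786031520207607740464255711359231572704563724269344066739845294435600639938969996229270671720448) :=
  chk_sound Env.nil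
    (n (nat_lit 237) (b (b (b (n (nat_lit 212) (b (b (n (nat_lit 187) (b (n (nat_lit 186) (b (l (nat_lit 7) (nat_lit 186) (nat_lit 211)) (l (nat_lit 7) (nat_lit 161) (nat_lit 161)))) (n (nat_lit 288) (b (l (nat_lit 4) (nat_lit 187) (nat_lit 263)) (l (nat_lit 4) (nat_lit 212) (nat_lit 313)))))) (n (nat_lit 288) (b (n (nat_lit 261) (b (n (nat_lit 260) (b (l (nat_lit 0) (nat_lit 259) (nat_lit 259)) (l (nat_lit 3) (nat_lit 260) (nat_lit 289)))) (l (nat_lit 6) (nat_lit 186) (nat_lit 187)))) (l (nat_lit 4) (nat_lit 212) (nat_lit 313))))) (b (n (nat_lit 187) (b (n (nat_lit 186) (b (l (nat_lit 7) (nat_lit 186) (nat_lit 211)) (l (nat_lit 7) (nat_lit 161) (nat_lit 161)))) (l (nat_lit 6) (nat_lit 186) (nat_lit 261)))) (n (nat_lit 337) (b (b (n (nat_lit 288) (b (n (nat_lit 263) (b (l (nat_lit 5) (nat_lit 237) (nat_lit 238)) (l (nat_lit 5) (nat_lit 262) (nat_lit 362)))) (l (nat_lit 4) (nat_lit 212) (nat_lit 313)))) (n (nat_lit 362) (b (n (nat_lit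 361) (b (l (nat_lit 6) (nat_lit 286) (nat_lit 386)) (l (nat_lit 6) (nat_lit 261) (nat_lit 336)))) (l (nat_lit 7) (nat_lit 261) (nat_lit 261))))) (n (nat_lit 288) (b (n (nat_lit 265) (b (b (n (nat_lit 263) (b (l (nat_lit 5) (nat_lit 237) (nat_lit 238)) (l (nat_lit 2) (nat_lit 261) (nat_lit 264)))) (n (nat_lit 289) (b (n (nat_lit 261) (b (l (nat_lit 3) (nat_lit 260) (nat_lit 260)) (l (nat_lit 3) (nat_lit 261) (nat_lit 290)))) (l (nat_lit 1) (nat_lit 261) (nat_lit 264))))) (n (nat_lit 238) (b (n (nat_lit 240) (b (n (nat_lit 211) (b (l (nat_lit 7) (nat_lit 186) (nat_lit 186)) (l (nat_lit 3) (nat_lit 211) (nat_lit 239)))) (n (nat_lit 290) (b (b (n (nat_lit 289) (b (l (nat_lit 1) (nat_lit 262) (nat_lit 266)) (l (nat_lit 3) (nat_lit 261) (nat_lit 261)))) (n (nat_lit 215) (b (b (n (nat_lit 315) (b (n (nat_lit 316) (b (l (nat_lit 4) (nat_lit 240) (nat_lit 341)) (l (nat_lit 4) (nat_lit 215) (nat_lit 291)))) (n (nat_lit 216) (b (l (nat_lit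 5) (nat_lit 190) (nat_lit 191)) (l (nat_lit 5) (nat_lit 215) (nat_lit 241)))))) (n (nat_lit 190) (b (n (nat_lit 191) (b (l (nat_lit 5) (nat_lit 190) (nat_lit 216)) (l (nat_lit 5) (nat_lit 165) (nat_lit 166)))) (n (nat_lit 189) (b (l (nat_lit 7) (nat_lit 164) (nat_lit 164)) (l (nat_lit 7) (nat_lit 189) (nat_lit 214))))))) (n (nat_lit 190) (b (n (nat_lit 291) (b (l (nat_lit 4) (nat_lit 190) (nat_lit 266)) (l (nat_lit 4) (nat_lit 215) (nat_lit 316)))) (n (nat_lit 189) (b (l (nat_lit 7) (nat_lit 164) (nat_lit 164)) (l (nat_lit 7) (nat_lit 189) (nat_lit 214))))))))) (n (nat_lit 289) (b (n (nat_lit 314) (b (l (nat_lit 6) (nat_lit 214) (nat_lit 215)) (l (nat_lit 0) (nat_lit 286) (nat_lit 315)))) (l (nat_lit 3) (nat_lit 261) (nat_lit 261)))))))) (l (nat_lit 5) (nat_lit 237) (nat_lit 263)))))) (l (nat_lit 4) (nat_lit 212) (nat_lit 313))))))))) (n (nat_lit 212) (b (n (nat_lit 187) (b (n (nat_lit 186) (b (l (nat_lit 7) (nat_lit 186) (nat_lit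 211)) (l (nat_lit 7) (nat_lit 161) (nat_lit 161)))) (n (nat_lit 288) (b (l (nat_lit 4) (nat_lit 187) (nat_lit 263)) (l (nat_lit 4) (nat_lit 212) (nat_lit 313)))))) (n (nat_lit 213) (b (l (nat_lit 5) (nat_lit 187) (nat_lit 188)) (l (nat_lit 5) (nat_lit 212) (nat_lit 238))))))) (b (n (nat_lit 337) (b (n (nat_lit 362) (b (n (nat_lit 361) (b (l (nat_lit 6) (nat_lit 286) (nat_lit 386)) (l (nat_lit 6) (nat_lit 261) (nat_lit 336)))) (l (nat_lit 7) (nat_lit 261) (nat_lit 261)))) (n (nat_lit 238) (b (l (nat_lit 5) (nat_lit 237) (nat_lit 263)) (l (nat_lit 5) (nat_lit 212) (nat_lit 213)))))) (n (nat_lit 212) (b (n (nat_lit 187) (b (n (nat_lit 186) (b (l (nat_lit 7) (nat_lit 186) (nat_lit 211)) (l (nat_lit 7) (nat_lit 161) (nat_lit 161)))) (l (nat_lit 6) (nat_lit 186) (nat_lit 261)))) (n (nat_lit 213) (b (l (nat_lit 5) (nat_lit 187) (nat_lit 188)) (l (nat_lit 5) (nat_lit 212) (nat_lit 238)))))))) (n (nat_lit 212) (b (b (n (nat_lit 187) (b (n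 (nat_lit 186) (b (l (nat_lit 7) (nat_lit 186) (nat_lit 211)) (l (nat_lit 7) (nat_lit 161) (nat_lit 161)))) (n (nat_lit 188) (b (l (nat_lit 5) (nat_lit 187) (nat_lit 213)) (l (nat_lit 5) (nat_lit 162) (nat_lit 163)))))) (n (nat_lit 288) (b (n (nat_lit 261) (b (n (nat_lit 260) (b (l (nat_lit 0) (nat_lit 259) (nat_lit 259)) (l (nat_lit 3) (nat_lit 260) (nat_lit 289)))) (l (nat_lit 6) (nat_lit 186) (nat_lit 187)))) (l (nat_lit 4) (nat_lit 212) (nat_lit 313))))) (n (nat_lit 265) (b (b (b (n (nat_lit 313) (b (n (nat_lit 315) (b (n (nat_lit 290) (b (b (n (nat_lit 264) (b (n (nat_lit 239) (b (n (nat_lit 214) (b (l (nat_lit 4) (nat_lit 189) (nat_lit 189)) (l (nat_lit 7) (nat_lit 214) (nat_lit 240)))) (l (nat_lit 7) (nat_lit 239) (nat_lit 340)))) (l (nat_lit 2) (nat_lit 261) (nat_lit 263)))) (n (nat_lit 340) (b (b (n (nat_lit 240) (b (n (nat_lit 341) (b (l (nat_lit 4) (nat_lit 240) (nat_lit 316)) (l (nat_lit 4) (nat_lit 265) (nat_lit 366))))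 (n (nat_lit 241) (b (l (nat_lit 5) (nat_lit 240) (nat_lit 266)) (l (nat_lit 5) (nat_lit 215) (nat_lit 216)))))) (n (nat_lit 365) (b (n (nat_lit 366) (b (l (nat_lit 4) (nat_lit 265) (nat_lit 341)) (l (nat_lit 4) (nat_lit 290) (nat_lit 391)))) (n (nat_lit 364) (b (l (nat_lit 6) (nat_lit 289) (nat_lit 389)) (l (nat_lit 6) (nat_lit 264) (nat_lit 339))))))) (n (nat_lit 365) (b (n (nat_lit 266) (b (l (nat_lit 5) (nat_lit 265) (nat_lit 291)) (l (nat_lit 5) (nat_lit 240) (nat_lit 241)))) (n (nat_lit 364) (b (l (nat_lit 6) (nat_lit 289) (nat_lit 389)) (l (nat_lit 6) (nat_lit 264) (nat_lit 339))))))))) (b (n (nat_lit 340) (b (n (nat_lit 365) (b (n (nat_lit 266) (b (l (nat_lit 5) (nat_lit 265) (nat_lit 291)) (l (nat_lit 5) (nat_lit 240) (nat_lit 241)))) (n (nat_lit 366) (b (l (nat_lit 4) (nat_lit 265) (nat_lit 341)) (l (nat_lit 4) (nat_lit 290) (nat_lit 391)))))) (n (nat_lit 264) (b (l (nat_lit 2) (nat_lit 261) (nat_lit 263)) (l (nat_lit 7)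 (nat_lit 239) (nat_lit 239)))))) (n (nat_lit 264) (b (n (nat_lit 240) (b (b (n (nat_lit 215) (b (n (nat_lit 316) (b (l (nat_lit 4) (nat_lit 240) (nat_lit 341)) (l (nat_lit 4) (nat_lit 215) (nat_lit 291)))) (n (nat_lit 216) (b (l (nat_lit 5) (nat_lit 190) (nat_lit 191)) (l (nat_lit 5) (nat_lit 215) (nat_lit 241)))))) (n (nat_lit 215) (b (n (nat_lit 214) (b (l (nat_lit 7) (nat_lit 214) (nat_lit 239)) (l (nat_lit 7) (nat_lit 189) (nat_lit 189)))) (n (nat_lit 316) (b (l (nat_lit 4) (nat_lit 240) (nat_lit 341)) (l (nat_lit 4) (nat_lit 215) (nat_lit 291))))))) (b (n (nat_lit 215) (b (n (nat_lit 216) (b (l (nat_lit 5) (nat_lit 190) (nat_lit 191)) (l (nat_lit 5) (nat_lit 215) (nat_lit 241)))) (n (nat_lit 214) (b (l (nat_lit 7) (nat_lit 214) (nat_lit 239)) (l (nat_lit 7) (nat_lit 189) (nat_lit 189)))))) (n (nat_lit 241) (b (n (nat_lit 242) (b (n (nat_lit 239) (b (n (nat_lit 267) (b (n (nat_lit 316) (b (n (nat_lit 217) (b (n (nat_lit 291)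 (b (l (nat_lit 6) (nat_lit 216) (nat_lit 292)) (l (nat_lit 5) (nat_lit 216) (nat_lit 266)))) (l (nat_lit 1) (nat_lit 214) (nat_lit 218)))) (l (nat_lit 4) (nat_lit 240) (nat_lit 341)))) (l (nat_lit 0) (nat_lit 239) (nat_lit 268)))) (l (nat_lit 7) (nat_lit 214) (nat_lit 214)))) (l (nat_lit 2) (nat_lit 239) (nat_lit 243)))) (l (nat_lit 5) (nat_lit 215) (nat_lit 216))))))) (l (nat_lit 2) (nat_lit 261) (nat_lit 263))))))) (l (nat_lit 3) (nat_lit 286) (nat_lit 314)))) (l (nat_lit 4) (nat_lit 212) (nat_lit 288)))) (n (nat_lit 213) (b (n (nat_lit 211) (b (n (nat_lit 240) (b (b (n (nat_lit 290) (b (n (nat_lit 288) (b (n (nat_lit 289) (b (l (nat_lit 1) (nat_lit 262) (nat_lit 266)) (l (nat_lit 3) (nat_lit 261) (nat_lit 261)))) (l (nat_lit 4) (nat_lit 212) (nat_lit 313)))) (n (nat_lit 214) (b (n (nat_lit 189) (b (l (nat_lit 7) (nat_lit 189) (nat_lit 215)) (l (nat_lit 1) (nat_lit 186) (nat_lit 190)))) (l (nat_lit 0) (nat_lit 211) (nat_lit 239))))))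 (n (nat_lit 214) (b (n (nat_lit 215) (b (n (nat_lit 190) (b (l (nat_lit 1) (nat_lit 186) (nat_lit 189)) (l (nat_lit 1) (nat_lit 187) (nat_lit 191)))) (l (nat_lit 0) (nat_lit 212) (nat_lit 241)))) (l (nat_lit 0) (nat_lit 211) (nat_lit 239))))) (n (nat_lit 315) (b (b (n (nat_lit 290) (b (n (nat_lit 340) (b (n (nat_lit 341) (b (l (nat_lit 4) (nat_lit 240) (nat_lit 316)) (l (nat_lit 4) (nat_lit 265) (nat_lit 366)))) (n (nat_lit 241) (b (l (nat_lit 5) (nat_lit 240) (nat_lit 266)) (l (nat_lit 5) (nat_lit 215) (nat_lit 216)))))) (n (nat_lit 314) (b (l (nat_lit 3) (nat_lit 286) (nat_lit 313)) (l (nat_lit 6) (nat_lit 239) (nat_lit 339)))))) (n (nat_lit 290) (b (b (n (nat_lit 340) (b (n (nat_lit 341) (b (l (nat_lit 4) (nat_lit 240) (nat_lit 316)) (l (nat_lit 4) (nat_lit 265) (nat_lit 366)))) (n (nat_lit 241) (b (l (nat_lit 5) (nat_lit 240) (nat_lit 266)) (l (nat_lit 5) (nat_lit 215) (nat_lit 216)))))) (n (nat_lit 288) (b (n (nat_lit 289) (b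 (l (nat_lit 1) (nat_lit 262) (nat_lit 266)) (l (nat_lit 3) (nat_lit 261) (nat_lit 261)))) (l (nat_lit 4) (nat_lit 212) (nat_lit 313))))) (n (nat_lit 288) (b (n (nat_lit 316) (b (l (nat_lit 4) (nat_lit 240) (nat_lit 341)) (l (nat_lit 0) (nat_lit 287) (nat_lit 289)))) (l (nat_lit 4) (nat_lit 212) (nat_lit 313))))))) (b (n (nat_lit 313) (b (l (nat_lit 3) (nat_lit 286) (nat_lit 314)) (l (nat_lit 4) (nat_lit 212) (nat_lit 288)))) (n (nat_lit 290) (b (b (n (nat_lit 340) (b (n (nat_lit 341) (b (l (nat_lit 4) (nat_lit 240) (nat_lit 316)) (l (nat_lit 4) (nat_lit 265) (nat_lit 366)))) (n (nat_lit 339) (b (l (nat_lit 6) (nat_lit 264) (nat_lit 364)) (l (nat_lit 6) (nat_lit 239) (nat_lit 314)))))) (n (nat_lit 340) (b (n (nat_lit 241) (b (l (nat_lit 5) (nat_lit 240) (nat_lit 266)) (l (nat_lit 5) (nat_lit 215) (nat_lit 216)))) (n (nat_lit 339) (b (l (nat_lit 6) (nat_lit 264) (nat_lit 364)) (l (nat_lit 6) (nat_lit 239) (nat_lit 314))))))) (b (n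 (nat_lit 340) (b (n (nat_lit 341) (b (l (nat_lit 4) (nat_lit 240) (nat_lit 316)) (l (nat_lit 4) (nat_lit 265) (nat_lit 366)))) (n (nat_lit 241) (b (l (nat_lit 5) (nat_lit 240) (nat_lit 266)) (l (nat_lit 5) (nat_lit 215) (nat_lit 216)))))) (n (nat_lit 316) (b (n (nat_lit 289) (b (n (nat_lit 317) (b (n (nat_lit 241) (b (n (nat_lit 342) (b (n (nat_lit 314) (b (l (nat_lit 0) (nat_lit 314) (nat_lit 343)) (l (nat_lit 6) (nat_lit 239) (nat_lit 339)))) (n (nat_lit 266) (b (n (nat_lit 267) (b (l (nat_lit 2) (nat_lit 264) (nat_lit 268)) (l (nat_lit 7) (nat_lit 241) (nat_lit 292)))) (l (nat_lit 4) (nat_lit 241) (nat_lit 291)))))) (l (nat_lit 5) (nat_lit 215) (nat_lit 216)))) (l (nat_lit 3) (nat_lit 289) (nat_lit 318)))) (l (nat_lit 0) (nat_lit 287) (nat_lit 288)))) (l (nat_lit 4) (nat_lit 240) (nat_lit 341)))))))))))) (l (nat_lit 7) (nat_lit 186) (nat_lit 186)))) (l (nat_lit 5) (nat_lit 187) (nat_lit 188))))) (b (n (nat_lit 264) (b (n (nat_lit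 213) (b (n (nat_lit 211) (b (n (nat_lit 289) (b (n (nat_lit 214) (b (b (n (nat_lit 239) (b (n (nat_lit 290) (b (l (nat_lit 4) (nat_lit 214) (nat_lit 315)) (l (nat_lit 4) (nat_lit 189) (nat_lit 189)))) (l (nat_lit 0) (nat_lit 211) (nat_lit 240)))) (n (nat_lit 190) (b (n (nat_lit 215) (b (l (nat_lit 6) (nat_lit 189) (nat_lit 240)) (l (nat_lit 1) (nat_lit 187) (nat_lit 191)))) (l (nat_lit 1) (nat_lit 186) (nat_lit 189))))) (b (n (nat_lit 190) (b (n (nat_lit 215) (b (l (nat_lit 5) (nat_lit 189) (nat_lit 239)) (l (nat_lit 1) (nat_lit 187) (nat_lit 191)))) (l (nat_lit 1) (nat_lit 186) (nat_lit 189)))) (n (nat_lit 215) (b (b (n (nat_lit 190) (b (l (nat_lit 5) (nat_lit 189) (nat_lit 239)) (l (nat_lit 1) (nat_lit 187) (nat_lit 191)))) (n (nat_lit 240) (b (l (nat_lit 0) (nat_lit 211) (nat_lit 239)) (l (nat_lit 0) (nat_lit 212) (nat_lit 241))))) (n (nat_lit 240) (b (l (nat_lit 0) (nat_lit 212) (nat_lit 241)) (l (nat_lit 6) (nat_lit 189) (nat_lit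 190))))))))) (l (nat_lit 1) (nat_lit 261) (nat_lit 288)))) (l (nat_lit 7) (nat_lit 186) (nat_lit 186)))) (l (nat_lit 5) (nat_lit 187) (nat_lit 188)))) (l (nat_lit 2) (nat_lit 261) (nat_lit 263)))) (n (nat_lit 288) (b (n (nat_lit 264) (b (l (nat_lit 1) (nat_lit 261) (nat_lit 289)) (l (nat_lit 2) (nat_lit 261) (nat_lit 263)))) (l (nat_lit 4) (nat_lit 212) (nat_lit 313)))))) (n (nat_lit 264) (b (n (nat_lit 213) (b (n (nat_lit 211) (b (n (nat_lit 240) (b (b (b (n (nat_lit 215) (b (b (n (nat_lit 190) (b (n (nat_lit 165) (b (n (nat_lit 164) (b (l (nat_lit 7) (nat_lit 139) (nat_lit 139)) (l (nat_lit 7) (nat_lit 164) (nat_lit 189)))) (l (nat_lit 6) (nat_lit 164) (nat_lit 239)))) (n (nat_lit 290) (b (n (nat_lit 191) (b (l (nat_lit 5) (nat_lit 190) (nat_lit 216)) (l (nat_lit 5) (nat_lit 165) (nat_lit 166)))) (n (nat_lit 291) (b (l (nat_lit 4) (nat_lit 190) (nat_lit 266)) (l (nat_lit 4) (nat_lit 215) (nat_lit 316)))))))) (n (nat_lit 315) (b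 (n (nat_lit 314) (b (n (nat_lit 289) (b (l (nat_lit 5) (nat_lit 239) (nat_lit 339)) (l (nat_lit 5) (nat_lit 214) (nat_lit 239)))) (l (nat_lit 3) (nat_lit 286) (nat_lit 313)))) (n (nat_lit 290) (b (n (nat_lit 316) (b (l (nat_lit 4) (nat_lit 240) (nat_lit 341)) (l (nat_lit 4) (nat_lit 215) (nat_lit 291)))) (n (nat_lit 216) (b (l (nat_lit 5) (nat_lit 190) (nat_lit 191)) (l (nat_lit 5) (nat_lit 215) (nat_lit 241))))))))) (b (n (nat_lit 289) (b (n (nat_lit 314) (b (l (nat_lit 5) (nat_lit 239) (nat_lit 339)) (l (nat_lit 6) (nat_lit 214) (nat_lit 290)))) (l (nat_lit 6) (nat_lit 189) (nat_lit 190)))) (n (nat_lit 289) (b (n (nat_lit 314) (b (l (nat_lit 5) (nat_lit 239) (nat_lit 339)) (l (nat_lit 5) (nat_lit 214) (nat_lit 239)))) (l (nat_lit 6) (nat_lit 189) (nat_lit 190))))))) (n (nat_lit 214) (b (n (nat_lit 190) (b (n (nat_lit 215) (b (l (nat_lit 6) (nat_lit 189) (nat_lit 289)) (l (nat_lit 1) (nat_lit 187) (nat_lit 191)))) (l (nat_lit 1)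 (nat_lit 186) (nat_lit 189)))) (l (nat_lit 0) (nat_lit 211) (nat_lit 239))))) (b (n (nat_lit 214) (b (n (nat_lit 215) (b (n (nat_lit 190) (b (l (nat_lit 1) (nat_lit 186) (nat_lit 189)) (l (nat_lit 1) (nat_lit 187) (nat_lit 191)))) (l (nat_lit 0) (nat_lit 212) (nat_lit 241)))) (l (nat_lit 0) (nat_lit 211) (nat_lit 239)))) (n (nat_lit 215) (b (b (n (nat_lit 289) (b (n (nat_lit 314) (b (l (nat_lit 5) (nat_lit 239) (nat_lit 339)) (l (nat_lit 6) (nat_lit 214) (nat_lit 290)))) (l (nat_lit 6) (nat_lit 189) (nat_lit 190)))) (n (nat_lit 214) (b (n (nat_lit 190) (b (l (nat_lit 1) (nat_lit 186) (nat_lit 189)) (l (nat_lit 1) (nat_lit 187) (nat_lit 191)))) (l (nat_lit 0) (nat_lit 212) (nat_lit 241))))) (n (nat_lit 290) (b (n (nat_lit 214) (b (l (nat_lit 7) (nat_lit 189) (nat_lit 189)) (l (nat_lit 0) (nat_lit 212) (nat_lit 241)))) (n (nat_lit 314) (b (n (nat_lit 315) (b (l (nat_lit 6) (nat_lit 239) (nat_lit 339)) (l (nat_lit 3) (nat_lit 286) (nat_lit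 313)))) (l (nat_lit 6) (nat_lit 214) (nat_lit 289)))))))))) (n (nat_lit 315) (b (b (n (nat_lit 314) (b (n (nat_lit 339) (b (l (nat_lit 5) (nat_lit 239) (nat_lit 289)) (l (nat_lit 6) (nat_lit 239) (nat_lit 290)))) (l (nat_lit 3) (nat_lit 286) (nat_lit 313)))) (n (nat_lit 314) (b (n (nat_lit 239) (b (n (nat_lit 289) (b (l (nat_lit 4) (nat_lit 239) (nat_lit 340)) (l (nat_lit 5) (nat_lit 239) (nat_lit 339)))) (l (nat_lit 0) (nat_lit 211) (nat_lit 214)))) (l (nat_lit 3) (nat_lit 286) (nat_lit 313))))) (n (nat_lit 290) (b (b (n (nat_lit 340) (b (n (nat_lit 341) (b (l (nat_lit 4) (nat_lit 240) (nat_lit 316)) (l (nat_lit 4) (nat_lit 265) (nat_lit 366)))) (n (nat_lit 241) (b (l (nat_lit 5) (nat_lit 240) (nat_lit 266)) (l (nat_lit 5) (nat_lit 215) (nat_lit 216)))))) (n (nat_lit 239) (b (l (nat_lit 7) (nat_lit 239) (nat_lit 340)) (l (nat_lit 0) (nat_lit 211) (nat_lit 214))))) (n (nat_lit 239) (b (n (nat_lit 241) (b (n (nat_lit 242) (b (n (nat_lit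 267) (b (n (nat_lit 316) (b (n (nat_lit 217) (b (n (nat_lit 291) (b (l (nat_lit 6) (nat_lit 216) (nat_lit 292)) (l (nat_lit 5) (nat_lit 216) (nat_lit 266)))) (l (nat_lit 1) (nat_lit 214) (nat_lit 218)))) (l (nat_lit 4) (nat_lit 240) (nat_lit 341)))) (l (nat_lit 0) (nat_lit 239) (nat_lit 268)))) (l (nat_lit 2) (nat_lit 239) (nat_lit 243)))) (l (nat_lit 5) (nat_lit 215) (nat_lit 216)))) (l (nat_lit 0) (nat_lit 211) (nat_lit 214)))))))))) (l (nat_lit 7) (nat_lit 186) (nat_lit 186)))) (l (nat_lit 5) (nat_lit 187) (nat_lit 188)))) (l (nat_lit 2) (nat_lit 261) (nat_lit 263))))))))))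
    envOK_nil (by decide +kernel)

theorem p6573 : Fam (nat_lit 19) (nat_lit 8343699607727673214248874617415937021077234590683750281279490000787534250410375654793883418624) (nat_lit 21153801083276590988816702109123487059962403622946253771320793936829799159608159588050984377835527682829726194155096601788416) (nat_lit 21153801083276590988816702109123487059962403622946253771320793936829799159608159588050984377835527682829726194155096601788416) :=
  chk_sound (Env.cons (nat_lit 16) (nat_lit 8343699607727680624942585805652444129620275146709852890558508601783632775695752161234180374528) (nat_lit 157608226760248294458039842992921766632428913892006404182516060941538804019928721994697661339176750363826228941553664) (Env.cons (nat_lit 16) (nat_lit 8343699607727680624942585805652444129620275146709852890558508601783632775695752161234180374528) (nat_lit 21153801083276590988789825171181952467096609391535219589395273371438121511577728540535577871537181980445026305453239698456576)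 (Env.cons (nat_lit 9) (nat_lit 8343699607727680624942806661535541427661473058897445755372987037270742228065517362009341952000) (nat_lit 279968117803324504916225664098590378427817667165718938769383109245623873186953274318702937809484775424) (Env.cons (nat_lit 7) (nat_lit 8343699607727680624942585805652444129620275146709852890558508601783632775695752161234180374528) (nat_lit 157608038876833833444263029783032670729703827483368046340969130616306621566713904734844692161835655087817878589669376) (Env.cons (nat_lit 6) (nat_lit 8343699607727680624942585805652444129620275146709852890558508601783632775695752161234180374528) (nat_lit 9394170611063450714882271889968436333678150340908590158019546254001835093388456938033698592067858035539705856) (Env.cons (nat_lit 7) (nat_lit 8343699607727680624942585805652444129620275146709852890558508601783632775695752161234180374528) (nat_lit 25031098947514064961058834603483540366059378360555813626614798578031084148840885899971694428160)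 (Env.cons (nat_lit 7) (nat_lit 8343699607727680624942585805652444129620275146709852890558508601783632775695752161234180374528) (nat_lit 279968101115925258378398817632140903410289992633796097190334692882124225205544356079551562103616700416) (Env.cons (nat_lit 5) (nat_lit 8343700291547123277705507581066528222955889728810957627632601481425502478504684047027274776576) (nat_lit 525653067516168051094186730489978604072995288212179784571862305870255777528227067611508977434624) (Env.cons (nat_lit 17) (nat_lit 8343699732058489727389246344498006166325485171823890589895437961899626998985626414367524257792) (nat_lit 6461929293336754494122786031520207607740464255711359231572704563724269344066739845294435600639938969996229270671720448) Env.nil)))))))))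
    (n (nat_lit 262) (b (b (b (r (nat_lit 0)) (r (nat_lit 1))) (b (n (nat_lit 237) (b (b (b (n (nat_lit 212) (b (b (n (nat_lit 288) (b (n (nat_lit 263) (b (n (nat_lit 337) (b (l (nat_lit 5) (nat_lit 237) (nat_lit 238)) (l (nat_lit 5) (nat_lit 262) (nat_lit 362)))) (l (nat_lit 4) (nat_lit 187) (nat_lit 187)))) (l (nat_lit 4) (nat_lit 212) (nat_lit 313)))) (n (nat_lit 187) (b (n (nat_lit 162) (b (n (nat_lit 163) (b (l (nat_lit 5) (nat_lit 162) (nat_lit 188)) (l (nat_lit 5) (nat_lit 137) (nat_lit 138)))) (n (nat_lit 161) (b (l (nat_lit 7) (nat_lit 136) (nat_lit 136)) (l (nat_lit 7) (nat_lit 161) (nat_lit 186)))))) (n (nat_lit 288) (b (l (nat_lit 4) (nat_lit 187) (nat_lit 263)) (l (nat_lit 4) (nat_lit 212) (nat_lit 313))))))) (n (nat_lit 213) (b (l (nat_lit 5) (nat_lit 187) (nat_lit 188)) (l (nat_lit 5) (nat_lit 212) (nat_lit 238)))))) (n (nat_lit 212) (b (n (nat_lit 213) (b (l (nat_lit 5) (nat_lit 187) (nat_lit 188)) (l (nat_lit 5)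 (nat_lit 212) (nat_lit 238)))) (n (nat_lit 187) (b (n (nat_lit 162) (b (n (nat_lit 261) (b (l (nat_lit 6) (nat_lit 186) (nat_lit 286)) (l (nat_lit 6) (nat_lit 161) (nat_lit 236)))) (n (nat_lit 161) (b (l (nat_lit 7) (nat_lit 136) (nat_lit 136)) (l (nat_lit 7) (nat_lit 161) (nat_lit 186)))))) (n (nat_lit 288) (b (l (nat_lit 4) (nat_lit 187) (nat_lit 263)) (l (nat_lit 4) (nat_lit 212) (nat_lit 313))))))))) (b (r (nat_lit 2)) (n (nat_lit 236) (b (n (nat_lit 238) (b (n (nat_lit 261) (b (n (nat_lit 260) (b (l (nat_lit 2) (nat_lit 235) (nat_lit 239)) (l (nat_lit 1) (nat_lit 234) (nat_lit 259)))) (l (nat_lit 7) (nat_lit 236) (nat_lit 337)))) (l (nat_lit 5) (nat_lit 212) (nat_lit 213)))) (l (nat_lit 7) (nat_lit 211) (nat_lit 211)))))) (n (nat_lit 212) (b (b (n (nat_lit 211) (b (l (nat_lit 7) (nat_lit 211) (nat_lit 236)) (l (nat_lit 7) (nat_lit 186) (nat_lit 186)))) (n (nat_lit 187) (b (n (nat_lit 186) (b (l (nat_lit 7) (nat_lit 186) (nat_lit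 211)) (l (nat_lit 7) (nat_lit 161) (nat_lit 161)))) (n (nat_lit 188) (b (l (nat_lit 5) (nat_lit 187) (nat_lit 213)) (l (nat_lit 5) (nat_lit 162) (nat_lit 163))))))) (n (nat_lit 187) (b (n (nat_lit 188) (b (l (nat_lit 5) (nat_lit 187) (nat_lit 213)) (l (nat_lit 5) (nat_lit 162) (nat_lit 163)))) (n (nat_lit 261) (b (n (nat_lit 236) (b (l (nat_lit 7) (nat_lit 236) (nat_lit 337)) (l (nat_lit 6) (nat_lit 161) (nat_lit 162)))) (l (nat_lit 6) (nat_lit 186) (nat_lit 286)))))))))) (r (nat_lit 3)))) (b (b (r (nat_lit 4)) (r (nat_lit 5))) (b (r (nat_lit 6)) (n (nat_lit 286) (b (b (b (n (nat_lit 285) (b (b (n (nat_lit 284) (b (n (nat_lit 283) (b (n (nat_lit 308) (b (l (nat_lit 2) (nat_lit 283) (nat_lit 309)) (l (nat_lit 2) (nat_lit 282) (nat_lit 307)))) (l (nat_lit 1) (nat_lit 258) (nat_lit 261)))) (l (nat_lit 0) (nat_lit 284) (nat_lit 313)))) (n (nat_lit 284) (b (b (n (nat_lit 288) (b (n (nat_lit 259) (b (l (nat_lit 3) (nat_lit 258) (nat_lit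 258)) (l (nat_lit 3) (nat_lit 259) (nat_lit 260)))) (n (nat_lit 309) (b (l (nat_lit 2) (nat_lit 283) (nat_lit 308)) (l (nat_lit 2) (nat_lit 284) (nat_lit 310)))))) (n (nat_lit 283) (b (n (nat_lit 258) (b (l (nat_lit 3) (nat_lit 257) (nat_lit 257)) (l (nat_lit 3) (nat_lit 258) (nat_lit 259)))) (l (nat_lit 1) (nat_lit 258) (nat_lit 261))))) (n (nat_lit 283) (b (n (nat_lit 308) (b (l (nat_lit 2) (nat_lit 283) (nat_lit 309)) (l (nat_lit 2) (nat_lit 282) (nat_lit 307)))) (l (nat_lit 1) (nat_lit 258) (nat_lit 261))))))) (b (n (nat_lit 313) (b (n (nat_lit 314) (b (l (nat_lit 0) (nat_lit 285) (nat_lit 288)) (l (nat_lit 3) (nat_lit 286) (nat_lit 315)))) (l (nat_lit 0) (nat_lit 284) (nat_lit 284)))) (n (nat_lit 288) (b (b (b (n (nat_lit 260) (b (n (nat_lit 289) (b (n (nat_lit 290) (b (n (nat_lit 291) (b (n (nat_lit 316) (b (l (nat_lit 0) (nat_lit 288) (nat_lit 317)) (l (nat_lit 0) (nat_lit 287) (nat_lit 315)))) (l (nat_lit 2) (nat_lit 287)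 (nat_lit 313)))) (n (nat_lit 265) (b (l (nat_lit 1) (nat_lit 261) (nat_lit 264)) (l (nat_lit 1) (nat_lit 262) (nat_lit 266)))))) (l (nat_lit 3) (nat_lit 260) (nat_lit 261)))) (l (nat_lit 3) (nat_lit 259) (nat_lit 259)))) (r (nat_lit 7))) (b (n (nat_lit 289) (b (n (nat_lit 290) (b (n (nat_lit 265) (b (l (nat_lit 1) (nat_lit 261) (nat_lit 264)) (l (nat_lit 1) (nat_lit 262) (nat_lit 266)))) (n (nat_lit 315) (b (l (nat_lit 0) (nat_lit 287) (nat_lit 316)) (l (nat_lit 0) (nat_lit 286) (nat_lit 314)))))) (n (nat_lit 260) (b (l (nat_lit 3) (nat_lit 260) (nat_lit 261)) (l (nat_lit 3) (nat_lit 259) (nat_lit 259)))))) (n (nat_lit 289) (b (n (nat_lit 260) (b (l (nat_lit 3) (nat_lit 260) (nat_lit 261)) (l (nat_lit 3) (nat_lit 259) (nat_lit 259)))) (n (nat_lit 314) (b (l (nat_lit 0) (nat_lit 286) (nat_lit 315)) (l (nat_lit 0) (nat_lit 285) (nat_lit 313)))))))) (n (nat_lit 263) (b (n (nat_lit 238) (b (n (nat_lit 239) (b (n (nat_lit 313) (b (l (nat_lit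 0) (nat_lit 285) (nat_lit 314)) (l (nat_lit 5) (nat_lit 213) (nat_lit 214)))) (n (nat_lit 260) (b (l (nat_lit 1) (nat_lit 235) (nat_lit 261)) (l (nat_lit 3) (nat_lit 259) (nat_lit 259)))))) (l (nat_lit 6) (nat_lit 212) (nat_lit 213)))) (l (nat_lit 1) (nat_lit 260) (nat_lit 264))))))))) (n (nat_lit 285) (b (b (n (nat_lit 284) (b (n (nat_lit 283) (b (n (nat_lit 308) (b (l (nat_lit 2) (nat_lit 283) (nat_lit 309)) (l (nat_lit 2) (nat_lit 282) (nat_lit 307)))) (l (nat_lit 1) (nat_lit 258) (nat_lit 261)))) (l (nat_lit 0) (nat_lit 284) (nat_lit 313)))) (n (nat_lit 284) (b (b (n (nat_lit 288) (b (n (nat_lit 259) (b (l (nat_lit 3) (nat_lit 258) (nat_lit 258)) (l (nat_lit 3) (nat_lit 259) (nat_lit 260)))) (n (nat_lit 309) (b (l (nat_lit 2) (nat_lit 283) (nat_lit 308)) (l (nat_lit 2) (nat_lit 284) (nat_lit 310)))))) (n (nat_lit 283) (b (n (nat_lit 258) (b (l (nat_lit 3) (nat_lit 257) (nat_lit 257)) (l (nat_lit 3) (nat_lit 258) (nat_lit 259))))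 (l (nat_lit 1) (nat_lit 258) (nat_lit 261))))) (n (nat_lit 283) (b (n (nat_lit 308) (b (l (nat_lit 2) (nat_lit 283) (nat_lit 309)) (l (nat_lit 2) (nat_lit 282) (nat_lit 307)))) (l (nat_lit 1) (nat_lit 258) (nat_lit 261))))))) (b (n (nat_lit 313) (b (n (nat_lit 314) (b (l (nat_lit 0) (nat_lit 285) (nat_lit 288)) (l (nat_lit 3) (nat_lit 286) (nat_lit 315)))) (l (nat_lit 0) (nat_lit 284) (nat_lit 284)))) (n (nat_lit 288) (b (b (n (nat_lit 260) (b (n (nat_lit 289) (b (n (nat_lit 263) (b (n (nat_lit 290) (b (n (nat_lit 315) (b (l (nat_lit 0) (nat_lit 287) (nat_lit 316)) (l (nat_lit 0) (nat_lit 286) (nat_lit 314)))) (l (nat_lit 3) (nat_lit 262) (nat_lit 291)))) (n (nat_lit 337) (b (l (nat_lit 5) (nat_lit 237) (nat_lit 238)) (l (nat_lit 5) (nat_lit 262) (nat_lit 362)))))) (l (nat_lit 3) (nat_lit 260) (nat_lit 261)))) (l (nat_lit 3) (nat_lit 259) (nat_lit 259)))) (n (nat_lit 337) (b (b (n (nat_lit 362) (b (n (nat_lit 361) (b (l (nat_lit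 6) (nat_lit 286) (nat_lit 386)) (l (nat_lit 6) (nat_lit 261) (nat_lit 336)))) (n (nat_lit 313) (b (l (nat_lit 5) (nat_lit 287) (nat_lit 387)) (l (nat_lit 0) (nat_lit 285) (nat_lit 314)))))) (n (nat_lit 263) (b (l (nat_lit 5) (nat_lit 237) (nat_lit 238)) (l (nat_lit 5) (nat_lit 262) (nat_lit 362))))) (n (nat_lit 237) (b (n (nat_lit 313) (b (l (nat_lit 0) (nat_lit 285) (nat_lit 314)) (l (nat_lit 4) (nat_lit 212) (nat_lit 212)))) (n (nat_lit 238) (b (l (nat_lit 5) (nat_lit 237) (nat_lit 263)) (l (nat_lit 5) (nat_lit 212) (nat_lit 213))))))))) (b (n (nat_lit 289) (b (n (nat_lit 260) (b (l (nat_lit 3) (nat_lit 260) (nat_lit 261)) (l (nat_lit 3) (nat_lit 259) (nat_lit 259)))) (n (nat_lit 314) (b (l (nat_lit 0) (nat_lit 286) (nat_lit 315)) (l (nat_lit 0) (nat_lit 285) (nat_lit 313)))))) (n (nat_lit 260) (b (n (nat_lit 237) (b (b (n (nat_lit 337) (b (n (nat_lit 238) (b (l (nat_lit 5) (nat_lit 237) (nat_lit 263)) (l (nat_lit 5) (nat_lit 212)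 (nat_lit 213)))) (n (nat_lit 261) (b (l (nat_lit 7) (nat_lit 261) (nat_lit 362)) (l (nat_lit 3) (nat_lit 260) (nat_lit 289)))))) (n (nat_lit 212) (b (n (nat_lit 213) (b (l (nat_lit 5) (nat_lit 187) (nat_lit 188)) (l (nat_lit 5) (nat_lit 212) (nat_lit 238)))) (l (nat_lit 4) (nat_lit 212) (nat_lit 313))))) (n (nat_lit 261) (b (n (nat_lit 212) (b (l (nat_lit 6) (nat_lit 186) (nat_lit 187)) (l (nat_lit 4) (nat_lit 212) (nat_lit 313)))) (l (nat_lit 3) (nat_lit 260) (nat_lit 289)))))) (l (nat_lit 3) (nat_lit 259) (nat_lit 259))))))))))) (b (n (nat_lit 285) (b (b (n (nat_lit 284) (b (n (nat_lit 283) (b (n (nat_lit 308) (b (l (nat_lit 2) (nat_lit 283) (nat_lit 309)) (l (nat_lit 2) (nat_lit 282) (nat_lit 307)))) (l (nat_lit 1) (nat_lit 258) (nat_lit 261)))) (l (nat_lit 0) (nat_lit 284) (nat_lit 313)))) (n (nat_lit 284) (b (b (n (nat_lit 288) (b (n (nat_lit 259) (b (l (nat_lit 3) (nat_lit 258) (nat_lit 258)) (l (nat_lit 3) (nat_lit 259) (nat_lit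 260)))) (n (nat_lit 309) (b (l (nat_lit 2) (nat_lit 283) (nat_lit 308)) (l (nat_lit 2) (nat_lit 284) (nat_lit 310)))))) (n (nat_lit 283) (b (n (nat_lit 258) (b (l (nat_lit 3) (nat_lit 257) (nat_lit 257)) (l (nat_lit 3) (nat_lit 258) (nat_lit 259)))) (l (nat_lit 1) (nat_lit 258) (nat_lit 261))))) (n (nat_lit 283) (b (n (nat_lit 308) (b (l (nat_lit 2) (nat_lit 283) (nat_lit 309)) (l (nat_lit 2) (nat_lit 282) (nat_lit 307)))) (l (nat_lit 1) (nat_lit 258) (nat_lit 261))))))) (b (n (nat_lit 313) (b (n (nat_lit 314) (b (l (nat_lit 0) (nat_lit 285) (nat_lit 288)) (l (nat_lit 3) (nat_lit 286) (nat_lit 315)))) (l (nat_lit 0) (nat_lit 284) (nat_lit 284)))) (n (nat_lit 288) (b (b (n (nat_lit 260) (b (n (nat_lit 289) (b (n (nat_lit 290) (b (n (nat_lit 291) (b (n (nat_lit 316) (b (l (nat_lit 0) (nat_lit 288) (nat_lit 317)) (l (nat_lit 0) (nat_lit 287) (nat_lit 315)))) (l (nat_lit 2) (nat_lit 287) (nat_lit 313)))) (n (nat_lit 265) (b (l (nat_lit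 1) (nat_lit 261) (nat_lit 264)) (l (nat_lit 1) (nat_lit 262) (nat_lit 266)))))) (l (nat_lit 3) (nat_lit 260) (nat_lit 261)))) (l (nat_lit 3) (nat_lit 259) (nat_lit 259)))) (r (nat_lit 7))) (b (n (nat_lit 289) (b (n (nat_lit 290) (b (n (nat_lit 265) (b (l (nat_lit 1) (nat_lit 261) (nat_lit 264)) (l (nat_lit 1) (nat_lit 262) (nat_lit 266)))) (n (nat_lit 315) (b (l (nat_lit 0) (nat_lit 287) (nat_lit 316)) (l (nat_lit 0) (nat_lit 286) (nat_lit 314)))))) (n (nat_lit 260) (b (l (nat_lit 3) (nat_lit 260) (nat_lit 261)) (l (nat_lit 3) (nat_lit 259) (nat_lit 259)))))) (n (nat_lit 313) (b (n (nat_lit 310) (b (n (nat_lit 260) (b (n (nat_lit 335) (b (b (n (nat_lit 334) (b (n (nat_lit 336) (b (l (nat_lit 4) (nat_lit 260) (nat_lit 361)) (l (nat_lit 1) (nat_lit 309) (nat_lit 337)))) (l (nat_lit 6) (nat_lit 259) (nat_lit 359)))) (n (nat_lit 360) (b (n (nat_lit 361) (b (l (nat_lit 4) (nat_lit 285) (nat_lit 386)) (l (nat_lit 4) (nat_lit 260) (nat_lit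 336)))) (l (nat_lit 5) (nat_lit 260) (nat_lit 261))))) (n (nat_lit 360) (b (n (nat_lit 359) (b (l (nat_lit 6) (nat_lit 259) (nat_lit 334)) (l (nat_lit 6) (nat_lit 284) (nat_lit 384)))) (l (nat_lit 5) (nat_lit 260) (nat_lit 261)))))) (l (nat_lit 3) (nat_lit 259) (nat_lit 259)))) (l (nat_lit 2) (nat_lit 284) (nat_lit 309)))) (l (nat_lit 0) (nat_lit 285) (nat_lit 314)))))))))) (n (nat_lit 263) (b (n (nat_lit 285) (b (n (nat_lit 264) (b (l (nat_lit 1) (nat_lit 260) (nat_lit 288)) (l (nat_lit 2) (nat_lit 261) (nat_lit 265)))) (l (nat_lit 1) (nat_lit 259) (nat_lit 284)))) (n (nat_lit 238) (b (n (nat_lit 213) (b (l (nat_lit 6) (nat_lit 187) (nat_lit 188)) (l (nat_lit 5) (nat_lit 212) (nat_lit 237)))) (l (nat_lit 5) (nat_lit 237) (nat_lit 337)))))))) (b (n (nat_lit 263) (b (n (nat_lit 264) (b (n (nat_lit 285) (b (l (nat_lit 2) (nat_lit 260) (nat_lit 261)) (l (nat_lit 1) (nat_lit 259) (nat_lit 284)))) (l (nat_lit 2) (nat_lit 261) (nat_lit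 265)))) (n (nat_lit 238) (b (n (nat_lit 213) (b (l (nat_lit 6) (nat_lit 187) (nat_lit 188)) (l (nat_lit 5) (nat_lit 212) (nat_lit 237)))) (l (nat_lit 5) (nat_lit 237) (nat_lit 337)))))) (r (nat_lit 8)))))))))
    (envOK_cons p6334 (envOK_cons p6395 (envOK_cons p6196 (envOK_cons p5148 (envOK_cons p5125 (envOK_cons p5222 (envOK_cons p5166 (envOK_cons p2751 (envOK_cons p6571 envOK_nil))))))))) (by decide +kernel)

theorem p6581 : Fam (nat_lit 6) (nat_lit 14601474127027214471265539772209546731827345496025506443233713461204193603283346016189280157696) (nat_lit 236412044223995174782423058442941194454982021196576571227962906387975993572174075358895037510769192674595509526069248) (nat_lit 236412044223995174782423058442941194454982021196576571227962906387975993572174075358895037510769192674595509526069248) :=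
  chk_sound Env.nil
    (n (nat_lit 284) (b (b (n (nat_lit 309) (b (n (nat_lit 334) (b (n (nat_lit 335) (b (n (nat_lit 259) (b (l (nat_lit 4) (nat_lit 259) (nat_lit 360)) (l (nat_lit 4) (nat_lit 234) (nat_lit 234)))) (l (nat_lit 2) (nat_lit 309) (nat_lit 313)))) (l (nat_lit 2) (nat_lit 308) (nat_lit 333)))) (l (nat_lit 3) (nat_lit 283) (nat_lit 283)))) (n (nat_lit 336) (b (n (nat_lit 313) (b (n (nat_lit 335) (b (l (nat_lit 2) (nat_lit 310) (nat_lit 314)) (l (nat_lit 2) (nat_lit 309) (nat_lit 334)))) (l (nat_lit 3) (nat_lit 284) (nat_lit 285)))) (n (nat_lit 262) (b (n (nat_lit 361) (b (l (nat_lit 5) (nat_lit 286) (nat_lit 386)) (l (nat_lit 6) (nat_lit 261) (nat_lit 337)))) (l (nat_lit 6) (nat_lit 236) (nat_lit 237))))))) (b (n (nat_lit 283) (b (n (nat_lit 285) (b (l (nat_lit 0) (nat_lit 282) (nat_lit 282)) (l (nat_lit 3) (nat_lit 284) (nat_lit 313)))) (l (nat_lit 3) (nat_lit 283) (nat_lit 309)))) (n (nat_lit 309) (b (n (nat_lit 335)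 (b (n (nat_lit 360) (b (n (nat_lit 259) (b (l (nat_lit 4) (nat_lit 234) (nat_lit 234)) (l (nat_lit 7) (nat_lit 259) (nat_lit 285)))) (l (nat_lit 7) (nat_lit 284) (nat_lit 385)))) (n (nat_lit 308) (b (n (nat_lit 336) (b (l (nat_lit 0) (nat_lit 308) (nat_lit 337)) (l (nat_lit 0) (nat_lit 307) (nat_lit 307)))) (n (nat_lit 333) (b (l (nat_lit 2) (nat_lit 307) (nat_lit 332)) (l (nat_lit 2) (nat_lit 308) (nat_lit 334)))))))) (l (nat_lit 3) (nat_lit 283) (nat_lit 283)))))))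
    envOK_nil (by decide +kernel)

theorem p6610 : Fam (nat_lit 5) (nat_lit 279968105287774813580388414691418110280056290608013608800188969481798225958925795783675422156729090048) (nat_lit 177450897442867506523146427734411336485097347540996328318968751565522377230874749266536219337801476957860303385123011611274791354368) (nat_lit 177450897442867506523146427734411336485097347540996328318968751565522377230874749266536219337801476957860303385123011611274791354368) :=
  chk_sound Env.nil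
    (n (nat_lit 362) (b (b (n (nat_lit 361) (b (l (nat_lit 6) (nat_lit 286) (nat_lit 386)) (l (nat_lit 6) (nat_lit 261) (nat_lit 336)))) (n (nat_lit 387) (b (n (nat_lit 388) (b (l (nat_lit 4) (nat_lit 312) (nat_lit 413)) (l (nat_lit 4) (nat_lit 287) (nat_lit 363)))) (n (nat_lit 336) (b (l (nat_lit 6) (nat_lit 261) (nat_lit 361)) (l (nat_lit 7) (nat_lit 311) (nat_lit 412))))))) (b (n (nat_lit 387) (b (n (nat_lit 412) (b (n (nat_lit 411) (b (l (nat_lit 6) (nat_lit 336) (nat_lit 436)) (l (nat_lit 6) (nat_lit 311) (nat_lit 386)))) (l (nat_lit 7) (nat_lit 311) (nat_lit 336)))) (n (nat_lit 388) (b (l (nat_lit 4) (nat_lit 312) (nat_lit 413)) (l (nat_lit 4) (nat_lit 287) (nat_lit 363)))))) (n (nat_lit 387) (b (n (nat_lit 388) (b (l (nat_lit 4) (nat_lit 312) (nat_lit 413)) (l (nat_lit 4) (nat_lit 287) (nat_lit 363)))) (n (nat_lit 386) (b (l (nat_lit 6) (nat_lit 311) (nat_lit 411)) (l (nat_lit 6) (nat_lit 286) (nat_lit 361)))))))))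
    envOK_nil (by decide +kernel)

theorem p6628 : Fam (nat_lit 8) (nat_lit 12515549287260700718926651387278343494910641860911587722582305641065307152325689229057481244672) (nat_lit 177450897442867506523146427734481328628752567133475346007760012199825816275258456256256464871177984806975245084623088188487960100864) (nat_lit 177450897442867506523146427734481328628752567133475346007760012199825816275258456256256464871177984806975245084623088188487960100864) :=
  chk_sound (Env.cons (nat_lit 5) (nat_lit 279968105287774813580388414691418110280056290608013608800188969481798225958925795783675422156729090048) (nat_lit 177450897442867506523146427734411336485097347540996328318968751565522377230874749266536219337801476957860303385123011611274791354368) Env.nil)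
    (n (nat_lit 262) (b (b (n (nat_lit 237) (b (b (n (nat_lit 212) (b (n (nat_lit 213) (b (l (nat_lit 5) (nat_lit 187) (nat_lit 188)) (l (nat_lit 5) (nat_lit 212) (nat_lit 238)))) (l (nat_lit 6) (nat_lit 211) (nat_lit 286)))) (n (nat_lit 212) (b (n (nat_lit 211) (b (l (nat_lit 7) (nat_lit 211) (nat_lit 236)) (l (nat_lit 7) (nat_lit 186) (nat_lit 186)))) (l (nat_lit 6) (nat_lit 211) (nat_lit 286))))) (n (nat_lit 236) (b (n (nat_lit 238) (b (n (nat_lit 261) (b (n (nat_lit 260) (b (l (nat_lit 2) (nat_lit 235) (nat_lit 239)) (l (nat_lit 1) (nat_lit 234) (nat_lit 259)))) (l (nat_lit 7) (nat_lit 236) (nat_lit 337)))) (l (nat_lit 5) (nat_lit 212) (nat_lit 213)))) (l (nat_lit 7) (nat_lit 211) (nat_lit 211)))))) (n (nat_lit 336) (b (n (nat_lit 361) (b (l (nat_lit 5) (nat_lit 286) (nat_lit 386)) (l (nat_lit 5) (nat_lit 261) (nat_lit 286)))) (l (nat_lit 6) (nat_lit 236) (nat_lit 237))))) (b (n (nat_lit 237) (b (n (nat_lit 212) (b (n (nat_lit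 213) (b (l (nat_lit 5) (nat_lit 187) (nat_lit 188)) (l (nat_lit 5) (nat_lit 212) (nat_lit 238)))) (n (nat_lit 211) (b (l (nat_lit 7) (nat_lit 211) (nat_lit 236)) (l (nat_lit 7) (nat_lit 186) (nat_lit 186)))))) (l (nat_lit 6) (nat_lit 236) (nat_lit 336)))) (n (nat_lit 337) (b (b (r (nat_lit 0)) (n (nat_lit 261) (b (n (nat_lit 362) (b (n (nat_lit 387) (b (n (nat_lit 412) (b (n (nat_lit 411) (b (l (nat_lit 6) (nat_lit 336) (nat_lit 436)) (l (nat_lit 6) (nat_lit 311) (nat_lit 386)))) (l (nat_lit 7) (nat_lit 311) (nat_lit 336)))) (n (nat_lit 388) (b (l (nat_lit 4) (nat_lit 312) (nat_lit 413)) (l (nat_lit 4) (nat_lit 287) (nat_lit 363)))))) (l (nat_lit 7) (nat_lit 261) (nat_lit 286)))) (l (nat_lit 7) (nat_lit 236) (nat_lit 236))))) (b (n (nat_lit 362) (b (n (nat_lit 387) (b (n (nat_lit 388) (b (l (nat_lit 4) (nat_lit 312) (nat_lit 413)) (l (nat_lit 4) (nat_lit 287) (nat_lit 363)))) (n (nat_lit 386) (b (l (nat_lit 6) (nat_lit 311) (nat_lit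 411)) (l (nat_lit 6) (nat_lit 286) (nat_lit 361)))))) (n (nat_lit 261) (b (l (nat_lit 7) (nat_lit 261) (nat_lit 286)) (l (nat_lit 7) (nat_lit 236) (nat_lit 236)))))) (n (nat_lit 336) (b (n (nat_lit 310) (b (b (n (nat_lit 309) (b (l (nat_lit 0) (nat_lit 308) (nat_lit 308)) (l (nat_lit 1) (nat_lit 284) (nat_lit 288)))) (n (nat_lit 260) (b (b (n (nat_lit 313) (b (n (nat_lit 314) (b (l (nat_lit 2) (nat_lit 310) (nat_lit 335)) (l (nat_lit 2) (nat_lit 311) (nat_lit 315)))) (n (nat_lit 285) (b (l (nat_lit 4) (nat_lit 235) (nat_lit 235)) (l (nat_lit 3) (nat_lit 284) (nat_lit 284)))))) (n (nat_lit 261) (b (n (nat_lit 235) (b (l (nat_lit 7) (nat_lit 235) (nat_lit 286)) (l (nat_lit 4) (nat_lit 235) (nat_lit 285)))) (l (nat_lit 7) (nat_lit 236) (nat_lit 236))))) (n (nat_lit 288) (b (n (nat_lit 261) (b (l (nat_lit 0) (nat_lit 259) (nat_lit 259)) (l (nat_lit 7) (nat_lit 236) (nat_lit 236)))) (n (nat_lit 289) (b (l (nat_lit 1) (nat_lit 285) (nat_lit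 313)) (l (nat_lit 2) (nat_lit 286) (nat_lit 290))))))))) (n (nat_lit 309) (b (n (nat_lit 313) (b (n (nat_lit 314) (b (l (nat_lit 2) (nat_lit 310) (nat_lit 335)) (l (nat_lit 2) (nat_lit 311) (nat_lit 315)))) (n (nat_lit 284) (b (l (nat_lit 3) (nat_lit 283) (nat_lit 283)) (l (nat_lit 3) (nat_lit 284) (nat_lit 285)))))) (l (nat_lit 0) (nat_lit 308) (nat_lit 308)))))) (l (nat_lit 6) (nat_lit 261) (nat_lit 361))))))))))
    (envOK_cons p6610 envOK_nil) (by decide +kernel)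

theorem p6662 : Fam (nat_lit 9) (nat_lit 12515549287260700718926651387278343494910641860911587722582305641065307152325689229057481244672) (nat_lit 177450897442867506523148776277116596362563457764542847302619633267505952612018138307347984231358287169520357606771417222567130300416) (nat_lit 177450897442867506523148776277116596362563457764542847302619633267505952612018138307347984231358287169520357606771417222567130300416) :=
  chk_sound (Env.cons (nat_lit 5) (nat_lit 279968105287774813580388414691418110280056290608013608800188969481798225958925795783675422156729090048) (nat_lit 177450897442867506523146427734411336485097347540996328318968751565522377230874749266536219337801476957860303385123011611274791354368) Env.nil)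
    (n (nat_lit 262) (b (b (n (nat_lit 237) (b (b (n (nat_lit 212) (b (n (nat_lit 213) (b (l (nat_lit 5) (nat_lit 187) (nat_lit 188)) (l (nat_lit 5) (nat_lit 212) (nat_lit 238)))) (l (nat_lit 6) (nat_lit 211) (nat_lit 286)))) (n (nat_lit 212) (b (n (nat_lit 211) (b (l (nat_lit 7) (nat_lit 211) (nat_lit 236)) (l (nat_lit 7) (nat_lit 186) (nat_lit 186)))) (l (nat_lit 6) (nat_lit 211) (nat_lit 286))))) (n (nat_lit 236) (b (n (nat_lit 238) (b (n (nat_lit 261) (b (n (nat_lit 260) (b (l (nat_lit 2) (nat_lit 235) (nat_lit 239)) (l (nat_lit 1) (nat_lit 234) (nat_lit 259)))) (l (nat_lit 7) (nat_lit 236) (nat_lit 337)))) (l (nat_lit 5) (nat_lit 212) (nat_lit 213)))) (l (nat_lit 7) (nat_lit 211) (nat_lit 211)))))) (n (nat_lit 336) (b (n (nat_lit 361) (b (l (nat_lit 5) (nat_lit 286) (nat_lit 386)) (l (nat_lit 5) (nat_lit 261) (nat_lit 286)))) (l (nat_lit 6) (nat_lit 236) (nat_lit 237))))) (b (n (nat_lit 237) (b (n (nat_lit 212) (b (n (nat_lit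 213) (b (l (nat_lit 5) (nat_lit 187) (nat_lit 188)) (l (nat_lit 5) (nat_lit 212) (nat_lit 238)))) (n (nat_lit 211) (b (l (nat_lit 7) (nat_lit 211) (nat_lit 236)) (l (nat_lit 7) (nat_lit 186) (nat_lit 186)))))) (l (nat_lit 6) (nat_lit 236) (nat_lit 336)))) (n (nat_lit 337) (b (b (r (nat_lit 0)) (n (nat_lit 261) (b (n (nat_lit 362) (b (n (nat_lit 387) (b (n (nat_lit 412) (b (n (nat_lit 411) (b (l (nat_lit 6) (nat_lit 336) (nat_lit 436)) (l (nat_lit 6) (nat_lit 311) (nat_lit 386)))) (l (nat_lit 7) (nat_lit 311) (nat_lit 336)))) (n (nat_lit 388) (b (l (nat_lit 4) (nat_lit 312) (nat_lit 413)) (l (nat_lit 4) (nat_lit 287) (nat_lit 363)))))) (l (nat_lit 7) (nat_lit 261) (nat_lit 286)))) (l (nat_lit 7) (nat_lit 236) (nat_lit 236))))) (b (n (nat_lit 362) (b (n (nat_lit 387) (b (n (nat_lit 388) (b (l (nat_lit 4) (nat_lit 312) (nat_lit 413)) (l (nat_lit 4) (nat_lit 287) (nat_lit 363)))) (n (nat_lit 386) (b (l (nat_lit 6) (nat_lit 311) (nat_lit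 411)) (l (nat_lit 6) (nat_lit 286) (nat_lit 361)))))) (n (nat_lit 261) (b (l (nat_lit 7) (nat_lit 261) (nat_lit 286)) (l (nat_lit 7) (nat_lit 236) (nat_lit 236)))))) (n (nat_lit 336) (b (n (nat_lit 261) (b (n (nat_lit 309) (b (b (n (nat_lit 286) (b (n (nat_lit 335) (b (n (nat_lit 334) (b (l (nat_lit 3) (nat_lit 308) (nat_lit 308)) (l (nat_lit 1) (nat_lit 308) (nat_lit 333)))) (l (nat_lit 6) (nat_lit 260) (nat_lit 360)))) (n (nat_lit 260) (b (n (nat_lit 288) (b (l (nat_lit 3) (nat_lit 260) (nat_lit 289)) (l (nat_lit 0) (nat_lit 259) (nat_lit 259)))) (l (nat_lit 7) (nat_lit 235) (nat_lit 235)))))) (n (nat_lit 288) (b (n (nat_lit 289) (b (n (nat_lit 260) (b (l (nat_lit 3) (nat_lit 260) (nat_lit 286)) (l (nat_lit 0) (nat_lit 259) (nat_lit 259)))) (l (nat_lit 3) (nat_lit 261) (nat_lit 290)))) (l (nat_lit 1) (nat_lit 284) (nat_lit 310))))) (n (nat_lit 334) (b (b (n (nat_lit 333) (b (l (nat_lit 2) (nat_lit 308) (nat_lit 310)) (l (nat_lit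 1) (nat_lit 308) (nat_lit 335)))) (n (nat_lit 335) (b (l (nat_lit 3) (nat_lit 308) (nat_lit 308)) (l (nat_lit 1) (nat_lit 308) (nat_lit 333))))) (b (n (nat_lit 310) (b (l (nat_lit 2) (nat_lit 308) (nat_lit 333)) (l (nat_lit 0) (nat_lit 308) (nat_lit 308)))) (n (nat_lit 308) (b (l (nat_lit 3) (nat_lit 308) (nat_lit 335)) (l (nat_lit 0) (nat_lit 308) (nat_lit 310))))))))) (l (nat_lit 7) (nat_lit 236) (nat_lit 236)))) (l (nat_lit 6) (nat_lit 261) (nat_lit 361))))))))))
    (envOK_cons p6610 envOK_nil) (by decide +kernel)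

theorem p6702 : Fam (nat_lit 11) (nat_lit 12515549287260700718926651387278343494910641860911587722582305641065307152325689229057481244672) (nat_lit 177450897442867506523150537684053676787546567656913572920826176100845422986577174121844041502326640578602143055096465605668143890432) (nat_lit 177450897442867506523150537684053676787546567656913572920826176100845422986577174121844041502326640578602143055096465605668143890432) :=
  chk_sound (Env.cons (nat_lit 5) (nat_lit 279968105287774813580388414691418110280056290608013608800188969481798225958925795783675422156729090048) (nat_lit 177450897442867506523146427734411336485097347540996328318968751565522377230874749266536219337801476957860303385123011611274791354368) Env.nil)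
    (n (nat_lit 262) (b (b (n (nat_lit 237) (b (b (n (nat_lit 212) (b (n (nat_lit 213) (b (l (nat_lit 5) (nat_lit 187) (nat_lit 188)) (l (nat_lit 5) (nat_lit 212) (nat_lit 238)))) (l (nat_lit 6) (nat_lit 211) (nat_lit 286)))) (n (nat_lit 212) (b (n (nat_lit 211) (b (l (nat_lit 7) (nat_lit 211) (nat_lit 236)) (l (nat_lit 7) (nat_lit 186) (nat_lit 186)))) (l (nat_lit 6) (nat_lit 211) (nat_lit 286))))) (n (nat_lit 236) (b (n (nat_lit 238) (b (n (nat_lit 261) (b (n (nat_lit 260) (b (l (nat_lit 2) (nat_lit 235) (nat_lit 239)) (l (nat_lit 1) (nat_lit 234) (nat_lit 259)))) (l (nat_lit 7) (nat_lit 236) (nat_lit 337)))) (l (nat_lit 5) (nat_lit 212) (nat_lit 213)))) (l (nat_lit 7) (nat_lit 211) (nat_lit 211)))))) (n (nat_lit 336) (b (n (nat_lit 361) (b (l (nat_lit 5) (nat_lit 286) (nat_lit 386)) (l (nat_lit 5) (nat_lit 261) (nat_lit 286)))) (l (nat_lit 6) (nat_lit 236) (nat_lit 237))))) (b (n (nat_lit 237) (b (n (nat_lit 212) (b (n (nat_lit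 213) (b (l (nat_lit 5) (nat_lit 187) (nat_lit 188)) (l (nat_lit 5) (nat_lit 212) (nat_lit 238)))) (n (nat_lit 211) (b (l (nat_lit 7) (nat_lit 211) (nat_lit 236)) (l (nat_lit 7) (nat_lit 186) (nat_lit 186)))))) (l (nat_lit 6) (nat_lit 236) (nat_lit 336)))) (n (nat_lit 337) (b (b (r (nat_lit 0)) (n (nat_lit 261) (b (n (nat_lit 362) (b (n (nat_lit 387) (b (n (nat_lit 412) (b (n (nat_lit 411) (b (l (nat_lit 6) (nat_lit 336) (nat_lit 436)) (l (nat_lit 6) (nat_lit 311) (nat_lit 386)))) (l (nat_lit 7) (nat_lit 311) (nat_lit 336)))) (n (nat_lit 388) (b (l (nat_lit 4) (nat_lit 312) (nat_lit 413)) (l (nat_lit 4) (nat_lit 287) (nat_lit 363)))))) (l (nat_lit 7) (nat_lit 261) (nat_lit 286)))) (l (nat_lit 7) (nat_lit 236) (nat_lit 236))))) (b (n (nat_lit 362) (b (n (nat_lit 387) (b (n (nat_lit 388) (b (l (nat_lit 4) (nat_lit 312) (nat_lit 413)) (l (nat_lit 4) (nat_lit 287) (nat_lit 363)))) (n (nat_lit 386) (b (l (nat_lit 6) (nat_lit 311) (nat_lit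 411)) (l (nat_lit 6) (nat_lit 286) (nat_lit 361)))))) (n (nat_lit 261) (b (l (nat_lit 7) (nat_lit 261) (nat_lit 286)) (l (nat_lit 7) (nat_lit 236) (nat_lit 236)))))) (n (nat_lit 336) (b (n (nat_lit 261) (b (n (nat_lit 335) (b (b (n (nat_lit 286) (b (n (nat_lit 284) (b (n (nat_lit 260) (b (n (nat_lit 259) (b (l (nat_lit 2) (nat_lit 258) (nat_lit 283)) (l (nat_lit 0) (nat_lit 258) (nat_lit 258)))) (l (nat_lit 7) (nat_lit 235) (nat_lit 235)))) (n (nat_lit 313) (b (l (nat_lit 0) (nat_lit 284) (nat_lit 285)) (l (nat_lit 2) (nat_lit 310) (nat_lit 314)))))) (l (nat_lit 6) (nat_lit 260) (nat_lit 360)))) (n (nat_lit 334) (b (l (nat_lit 1) (nat_lit 308) (nat_lit 333)) (l (nat_lit 1) (nat_lit 309) (nat_lit 313))))) (n (nat_lit 334) (b (n (nat_lit 309) (b (n (nat_lit 359) (b (n (nat_lit 284) (b (n (nat_lit 283) (b (l (nat_lit 3) (nat_lit 283) (nat_lit 310)) (l (nat_lit 7) (nat_lit 258) (nat_lit 258)))) (n (nat_lit 360) (b (l (nat_lit 4) (nat_lit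 259) (nat_lit 259)) (l (nat_lit 6) (nat_lit 260) (nat_lit 286)))))) (l (nat_lit 2) (nat_lit 333) (nat_lit 358)))) (l (nat_lit 3) (nat_lit 308) (nat_lit 308)))) (l (nat_lit 1) (nat_lit 308) (nat_lit 333)))))) (l (nat_lit 7) (nat_lit 236) (nat_lit 236)))) (l (nat_lit 6) (nat_lit 261) (nat_lit 361))))))))))
    (envOK_cons p6610 envOK_nil) (by decide +kernel)

theorem p6703 : Fam (nat_lit 12) (nat_lit 8343699607727673214248874617415937021077234590683750281279490000787534250410375654793883418624) (nat_lit 177450898764979562309666324779169785491239935176560030795368948234397496044763202767650133238615828342393194428101231567049112682496) (nat_lit 177450898764979562309666324779169785491239935176560030795368948234397496044763202767650133238615828342393194428101231567049112682496) :=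
  chk_sound (Env.cons (nat_lit 6) (nat_lit 14601474127027214471265539772209546731827345496025506443233713461204193603283346016189280157696) (nat_lit 236412044223995174782423058442941194454982021196576571227962906387975993572174075358895037510769192674595509526069248) (Env.cons (nat_lit 5) (nat_lit 31288872845159324489976646851659172627160974576936856208444976022315285210944600313243671461888) (nat_lit 7839106862534785052980241437307607754229386953599098195986389492555164081384414714979639086990416150528) (Env.cons (nat_lit 8) (nat_lit 12515549287260700718926651387278343494910641860911587722582305641065307152325689229057481244672) (nat_lit 177450897442867506523146427734481328628752567133475346007760012199825816275258456256256464871177984806975245084623088188487960100864) (Env.cons (nat_lit 5) (nat_lit 279968105287774813580388414691418110280056290608013608800188969481798225958925795783675422156729090048) (nat_lit 177450897442867506523146427734411336485097347540996328318968751565522377230874749266536219337801476957860303385123011611274791354368)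 (Env.cons (nat_lit 9) (nat_lit 12515549287260700718926651387278343494910641860911587722582305641065307152325689229057481244672) (nat_lit 177450897442867506523148776277116596362563457764542847302619633267505952612018138307347984231358287169520357606771417222567130300416) (Env.cons (nat_lit 11) (nat_lit 12515549287260700718926651387278343494910641860911587722582305641065307152325689229057481244672) (nat_lit 177450897442867506523150537684053676787546567656913572920826176100845422986577174121844041502326640578602143055096465605668143890432) Env.nil))))))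
    (n (nat_lit 311) (b (b (b (b (n (nat_lit 310) (b (b (r (nat_lit 0)) (n (nat_lit 309) (b (n (nat_lit 308) (b (n (nat_lit 333) (b (l (nat_lit 2) (nat_lit 307) (nat_lit 332)) (l (nat_lit 2) (nat_lit 308) (nat_lit 334)))) (l (nat_lit 1) (nat_lit 283) (nat_lit 286)))) (l (nat_lit 1) (nat_lit 284) (nat_lit 288))))) (b (n (nat_lit 288) (b (n (nat_lit 289) (b (l (nat_lit 1) (nat_lit 285) (nat_lit 313)) (l (nat_lit 2) (nat_lit 286) (nat_lit 290)))) (l (nat_lit 1) (nat_lit 284) (nat_lit 309)))) (n (nat_lit 313) (b (b (n (nat_lit 314) (b (n (nat_lit 335) (b (l (nat_lit 2) (nat_lit 309) (nat_lit 334)) (l (nat_lit 2) (nat_lit 310) (nat_lit 336)))) (n (nat_lit 285) (b (l (nat_lit 3) (nat_lit 284) (nat_lit 284)) (l (nat_lit 3) (nat_lit 285) (nat_lit 286)))))) (r (nat_lit 1))) (n (nat_lit 285) (b (n (nat_lit 335) (b (n (nat_lit 288) (b (n (nat_lit 360) (b (b (n (nat_lit 385) (b (n (nat_lit 384) (b (l (nat_lit 6) (nat_lit 284) (nat_lit 359))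 (l (nat_lit 6) (nat_lit 309) (nat_lit 409)))) (n (nat_lit 386) (b (l (nat_lit 4) (nat_lit 310) (nat_lit 411)) (l (nat_lit 4) (nat_lit 285) (nat_lit 361)))))) (n (nat_lit 286) (b (l (nat_lit 5) (nat_lit 285) (nat_lit 385)) (l (nat_lit 5) (nat_lit 260) (nat_lit 261))))) (n (nat_lit 262) (b (b (n (nat_lit 236) (b (n (nat_lit 237) (b (l (nat_lit 4) (nat_lit 212) (nat_lit 212)) (l (nat_lit 7) (nat_lit 211) (nat_lit 211)))) (n (nat_lit 261) (b (l (nat_lit 7) (nat_lit 236) (nat_lit 337)) (l (nat_lit 5) (nat_lit 260) (nat_lit 286)))))) (n (nat_lit 237) (b (l (nat_lit 4) (nat_lit 212) (nat_lit 212)) (l (nat_lit 6) (nat_lit 236) (nat_lit 336))))) (n (nat_lit 361) (b (n (nat_lit 336) (b (l (nat_lit 5) (nat_lit 261) (nat_lit 286)) (l (nat_lit 6) (nat_lit 261) (nat_lit 337)))) (l (nat_lit 4) (nat_lit 285) (nat_lit 386)))))))) (l (nat_lit 1) (nat_lit 285) (nat_lit 289)))) (l (nat_lit 2) (nat_lit 309) (nat_lit 334)))) (l (nat_lit 3) (nat_lit 284)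 (nat_lit 284))))))))) (n (nat_lit 310) (b (b (n (nat_lit 309) (b (b (n (nat_lit 308) (b (n (nat_lit 283) (b (l (nat_lit 3) (nat_lit 283) (nat_lit 284)) (l (nat_lit 3) (nat_lit 282) (nat_lit 282)))) (l (nat_lit 1) (nat_lit 283) (nat_lit 286)))) (n (nat_lit 308) (b (n (nat_lit 333) (b (l (nat_lit 2) (nat_lit 307) (nat_lit 332)) (l (nat_lit 2) (nat_lit 308) (nat_lit 334)))) (l (nat_lit 1) (nat_lit 283) (nat_lit 286))))) (n (nat_lit 284) (b (n (nat_lit 285) (b (n (nat_lit 334) (b (n (nat_lit 260) (b (l (nat_lit 5) (nat_lit 259) (nat_lit 359)) (l (nat_lit 6) (nat_lit 234) (nat_lit 235)))) (l (nat_lit 2) (nat_lit 308) (nat_lit 333)))) (l (nat_lit 3) (nat_lit 284) (nat_lit 313)))) (l (nat_lit 3) (nat_lit 283) (nat_lit 283)))))) (n (nat_lit 309) (b (n (nat_lit 308) (b (n (nat_lit 333) (b (l (nat_lit 2) (nat_lit 307) (nat_lit 332)) (l (nat_lit 2) (nat_lit 308) (nat_lit 334)))) (l (nat_lit 1) (nat_lit 283) (nat_lit 286)))) (l (nat_lit 1) (nat_lit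 284) (nat_lit 288))))) (b (n (nat_lit 288) (b (n (nat_lit 289) (b (l (nat_lit 1) (nat_lit 285) (nat_lit 313)) (l (nat_lit 2) (nat_lit 286) (nat_lit 290)))) (l (nat_lit 1) (nat_lit 284) (nat_lit 309)))) (n (nat_lit 313) (b (b (n (nat_lit 285) (b (n (nat_lit 286) (b (n (nat_lit 261) (b (n (nat_lit 337) (b (l (nat_lit 4) (nat_lit 236) (nat_lit 236)) (l (nat_lit 7) (nat_lit 261) (nat_lit 362)))) (n (nat_lit 335) (b (l (nat_lit 2) (nat_lit 309) (nat_lit 334)) (l (nat_lit 5) (nat_lit 260) (nat_lit 360)))))) (l (nat_lit 3) (nat_lit 285) (nat_lit 314)))) (l (nat_lit 3) (nat_lit 284) (nat_lit 284)))) (r (nat_lit 1))) (n (nat_lit 285) (b (n (nat_lit 288) (b (n (nat_lit 335) (b (n (nat_lit 360) (b (n (nat_lit 260) (b (b (n (nat_lit 261) (b (l (nat_lit 5) (nat_lit 235) (nat_lit 236)) (l (nat_lit 5) (nat_lit 260) (nat_lit 286)))) (n (nat_lit 259) (b (l (nat_lit 7) (nat_lit 234) (nat_lit 234)) (l (nat_lit 3) (nat_lit 259) (nat_lit 286))))) (n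 (nat_lit 259) (b (n (nat_lit 261) (b (l (nat_lit 0) (nat_lit 259) (nat_lit 262)) (l (nat_lit 5) (nat_lit 235) (nat_lit 236)))) (l (nat_lit 7) (nat_lit 234) (nat_lit 234)))))) (n (nat_lit 385) (b (n (nat_lit 384) (b (l (nat_lit 6) (nat_lit 284) (nat_lit 359)) (l (nat_lit 6) (nat_lit 309) (nat_lit 409)))) (n (nat_lit 386) (b (l (nat_lit 4) (nat_lit 310) (nat_lit 411)) (l (nat_lit 4) (nat_lit 285) (nat_lit 361)))))))) (l (nat_lit 2) (nat_lit 309) (nat_lit 334)))) (l (nat_lit 1) (nat_lit 285) (nat_lit 289)))) (l (nat_lit 3) (nat_lit 284) (nat_lit 284)))))))))) (b (r (nat_lit 2)) (n (nat_lit 310) (b (b (n (nat_lit 313) (b (b (r (nat_lit 1)) (n (nat_lit 336) (b (n (nat_lit 262) (b (n (nat_lit 361) (b (l (nat_lit 5) (nat_lit 286) (nat_lit 386)) (l (nat_lit 6) (nat_lit 261) (nat_lit 337)))) (l (nat_lit 6) (nat_lit 236) (nat_lit 237)))) (n (nat_lit 335) (b (l (nat_lit 2) (nat_lit 310) (nat_lit 314)) (l (nat_lit 2) (nat_lit 309) (nat_lit 334)))))))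 (n (nat_lit 335) (b (n (nat_lit 285) (b (n (nat_lit 260) (b (b (n (nat_lit 336) (b (l (nat_lit 4) (nat_lit 260) (nat_lit 361)) (l (nat_lit 4) (nat_lit 235) (nat_lit 235)))) (n (nat_lit 259) (b (n (nat_lit 262) (b (n (nat_lit 288) (b (l (nat_lit 0) (nat_lit 259) (nat_lit 261)) (l (nat_lit 1) (nat_lit 285) (nat_lit 289)))) (n (nat_lit 336) (b (l (nat_lit 4) (nat_lit 260) (nat_lit 361)) (l (nat_lit 6) (nat_lit 236) (nat_lit 237)))))) (l (nat_lit 7) (nat_lit 234) (nat_lit 234))))) (n (nat_lit 235) (b (n (nat_lit 234) (b (l (nat_lit 7) (nat_lit 234) (nat_lit 259)) (l (nat_lit 7) (nat_lit 209) (nat_lit 209)))) (n (nat_lit 236) (b (l (nat_lit 5) (nat_lit 210) (nat_lit 211)) (l (nat_lit 5) (nat_lit 235) (nat_lit 261)))))))) (l (nat_lit 3) (nat_lit 284) (nat_lit 284)))) (l (nat_lit 2) (nat_lit 309) (nat_lit 334)))))) (n (nat_lit 309) (b (n (nat_lit 308) (b (n (nat_lit 283) (b (l (nat_lit 3) (nat_lit 283) (nat_lit 284)) (l (nat_lit 3) (nat_lit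 282) (nat_lit 282)))) (n (nat_lit 333) (b (l (nat_lit 2) (nat_lit 307) (nat_lit 332)) (l (nat_lit 2) (nat_lit 308) (nat_lit 334)))))) (l (nat_lit 1) (nat_lit 284) (nat_lit 288))))) (b (n (nat_lit 288) (b (n (nat_lit 289) (b (l (nat_lit 1) (nat_lit 285) (nat_lit 313)) (l (nat_lit 2) (nat_lit 286) (nat_lit 290)))) (l (nat_lit 1) (nat_lit 284) (nat_lit 309)))) (r (nat_lit 0))))))) (b (b (n (nat_lit 310) (b (b (n (nat_lit 309) (b (b (n (nat_lit 308) (b (n (nat_lit 283) (b (l (nat_lit 3) (nat_lit 283) (nat_lit 284)) (l (nat_lit 3) (nat_lit 282) (nat_lit 282)))) (l (nat_lit 1) (nat_lit 283) (nat_lit 286)))) (n (nat_lit 308) (b (n (nat_lit 333) (b (l (nat_lit 2) (nat_lit 307) (nat_lit 332)) (l (nat_lit 2) (nat_lit 308) (nat_lit 334)))) (l (nat_lit 1) (nat_lit 283) (nat_lit 286))))) (n (nat_lit 284) (b (n (nat_lit 285) (b (n (nat_lit 334) (b (n (nat_lit 260) (b (l (nat_lit 5) (nat_lit 259) (nat_lit 359)) (l (nat_lit 6) (nat_lit 234) (nat_lit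 235)))) (l (nat_lit 2) (nat_lit 308) (nat_lit 333)))) (l (nat_lit 3) (nat_lit 284) (nat_lit 313)))) (l (nat_lit 3) (nat_lit 283) (nat_lit 283)))))) (n (nat_lit 309) (b (n (nat_lit 308) (b (n (nat_lit 333) (b (l (nat_lit 2) (nat_lit 307) (nat_lit 332)) (l (nat_lit 2) (nat_lit 308) (nat_lit 334)))) (l (nat_lit 1) (nat_lit 283) (nat_lit 286)))) (l (nat_lit 1) (nat_lit 284) (nat_lit 288))))) (b (n (nat_lit 288) (b (n (nat_lit 289) (b (l (nat_lit 1) (nat_lit 285) (nat_lit 313)) (l (nat_lit 2) (nat_lit 286) (nat_lit 290)))) (l (nat_lit 1) (nat_lit 284) (nat_lit 309)))) (n (nat_lit 313) (b (b (n (nat_lit 285) (b (n (nat_lit 286) (b (n (nat_lit 260) (b (n (nat_lit 336) (b (l (nat_lit 4) (nat_lit 235) (nat_lit 235)) (l (nat_lit 7) (nat_lit 260) (nat_lit 361)))) (n (nat_lit 261) (b (n (nat_lit 259) (b (l (nat_lit 0) (nat_lit 258) (nat_lit 258)) (l (nat_lit 3) (nat_lit 259) (nat_lit 288)))) (n (nat_lit 236) (b (l (nat_lit 4) (nat_lit 236) (nat_lit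 337)) (l (nat_lit 4) (nat_lit 211) (nat_lit 211)))))))) (l (nat_lit 3) (nat_lit 285) (nat_lit 314)))) (l (nat_lit 3) (nat_lit 284) (nat_lit 284)))) (r (nat_lit 1))) (b (n (nat_lit 314) (b (n (nat_lit 315) (b (n (nat_lit 290) (b (l (nat_lit 1) (nat_lit 286) (nat_lit 289)) (l (nat_lit 1) (nat_lit 287) (nat_lit 291)))) (n (nat_lit 340) (b (l (nat_lit 0) (nat_lit 312) (nat_lit 341)) (l (nat_lit 0) (nat_lit 311) (nat_lit 339)))))) (n (nat_lit 285) (b (l (nat_lit 3) (nat_lit 284) (nat_lit 284)) (l (nat_lit 3) (nat_lit 285) (nat_lit 286)))))) (n (nat_lit 288) (b (n (nat_lit 285) (b (n (nat_lit 262) (b (b (n (nat_lit 336) (b (n (nat_lit 260) (b (n (nat_lit 259) (b (l (nat_lit 0) (nat_lit 259) (nat_lit 261)) (l (nat_lit 3) (nat_lit 259) (nat_lit 286)))) (l (nat_lit 4) (nat_lit 235) (nat_lit 235)))) (n (nat_lit 361) (b (l (nat_lit 5) (nat_lit 286) (nat_lit 386)) (l (nat_lit 6) (nat_lit 261) (nat_lit 337)))))) (n (nat_lit 237) (b (l (nat_lit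 4) (nat_lit 212) (nat_lit 212)) (l (nat_lit 6) (nat_lit 236) (nat_lit 336))))) (n (nat_lit 237) (b (n (nat_lit 236) (b (n (nat_lit 261) (b (n (nat_lit 260) (b (n (nat_lit 238) (b (l (nat_lit 2) (nat_lit 235) (nat_lit 239)) (l (nat_lit 5) (nat_lit 212) (nat_lit 213)))) (l (nat_lit 0) (nat_lit 259) (nat_lit 259)))) (l (nat_lit 7) (nat_lit 236) (nat_lit 337)))) (l (nat_lit 7) (nat_lit 211) (nat_lit 211)))) (l (nat_lit 4) (nat_lit 212) (nat_lit 212)))))) (l (nat_lit 3) (nat_lit 284) (nat_lit 284)))) (l (nat_lit 1) (nat_lit 285) (nat_lit 289)))))))))) (n (nat_lit 262) (b (b (n (nat_lit 237) (b (b (n (nat_lit 212) (b (n (nat_lit 213) (b (l (nat_lit 5) (nat_lit 187) (nat_lit 188)) (l (nat_lit 5) (nat_lit 212) (nat_lit 238)))) (l (nat_lit 6) (nat_lit 211) (nat_lit 286)))) (n (nat_lit 212) (b (n (nat_lit 211) (b (l (nat_lit 7) (nat_lit 211) (nat_lit 236)) (l (nat_lit 7) (nat_lit 186) (nat_lit 186)))) (l (nat_lit 6) (nat_lit 211) (nat_lit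 286))))) (n (nat_lit 236) (b (n (nat_lit 238) (b (n (nat_lit 261) (b (n (nat_lit 260) (b (l (nat_lit 2) (nat_lit 235) (nat_lit 239)) (l (nat_lit 1) (nat_lit 234) (nat_lit 259)))) (l (nat_lit 7) (nat_lit 236) (nat_lit 337)))) (l (nat_lit 5) (nat_lit 212) (nat_lit 213)))) (l (nat_lit 7) (nat_lit 211) (nat_lit 211)))))) (n (nat_lit 336) (b (n (nat_lit 361) (b (l (nat_lit 5) (nat_lit 286) (nat_lit 386)) (l (nat_lit 5) (nat_lit 261) (nat_lit 286)))) (l (nat_lit 6) (nat_lit 236) (nat_lit 237))))) (b (n (nat_lit 237) (b (n (nat_lit 212) (b (n (nat_lit 213) (b (l (nat_lit 5) (nat_lit 187) (nat_lit 188)) (l (nat_lit 5) (nat_lit 212) (nat_lit 238)))) (n (nat_lit 211) (b (l (nat_lit 7) (nat_lit 211) (nat_lit 236)) (l (nat_lit 7) (nat_lit 186) (nat_lit 186)))))) (l (nat_lit 6) (nat_lit 236) (nat_lit 336)))) (n (nat_lit 337) (b (b (r (nat_lit 3)) (n (nat_lit 261) (b (n (nat_lit 362) (b (n (nat_lit 387) (b (n (nat_lit 412) (b (n (nat_lit 411)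 (b (l (nat_lit 6) (nat_lit 336) (nat_lit 436)) (l (nat_lit 6) (nat_lit 311) (nat_lit 386)))) (l (nat_lit 7) (nat_lit 311) (nat_lit 336)))) (n (nat_lit 388) (b (l (nat_lit 4) (nat_lit 312) (nat_lit 413)) (l (nat_lit 4) (nat_lit 287) (nat_lit 363)))))) (l (nat_lit 7) (nat_lit 261) (nat_lit 286)))) (l (nat_lit 7) (nat_lit 236) (nat_lit 236))))) (b (n (nat_lit 362) (b (n (nat_lit 387) (b (n (nat_lit 388) (b (l (nat_lit 4) (nat_lit 312) (nat_lit 413)) (l (nat_lit 4) (nat_lit 287) (nat_lit 363)))) (n (nat_lit 386) (b (l (nat_lit 6) (nat_lit 311) (nat_lit 411)) (l (nat_lit 6) (nat_lit 286) (nat_lit 361)))))) (n (nat_lit 261) (b (l (nat_lit 7) (nat_lit 261) (nat_lit 286)) (l (nat_lit 7) (nat_lit 236) (nat_lit 236)))))) (n (nat_lit 336) (b (n (nat_lit 261) (b (n (nat_lit 286) (b (n (nat_lit 260) (b (n (nat_lit 259) (b (l (nat_lit 0) (nat_lit 258) (nat_lit 258)) (l (nat_lit 0) (nat_lit 259) (nat_lit 288)))) (l (nat_lit 7) (nat_lit 235) (nat_lit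 235)))) (n (nat_lit 313) (b (n (nat_lit 335) (b (l (nat_lit 6) (nat_lit 260) (nat_lit 360)) (l (nat_lit 1) (nat_lit 309) (nat_lit 334)))) (n (nat_lit 314) (b (l (nat_lit 3) (nat_lit 286) (nat_lit 315)) (l (nat_lit 3) (nat_lit 285) (nat_lit 285)))))))) (l (nat_lit 7) (nat_lit 236) (nat_lit 236)))) (l (nat_lit 6) (nat_lit 261) (nat_lit 361))))))))))) (b (r (nat_lit 4)) (n (nat_lit 310) (b (b (n (nat_lit 309) (b (b (n (nat_lit 313) (b (n (nat_lit 284) (b (l (nat_lit 3) (nat_lit 283) (nat_lit 283)) (l (nat_lit 3) (nat_lit 284) (nat_lit 285)))) (n (nat_lit 334) (b (l (nat_lit 2) (nat_lit 309) (nat_lit 335)) (l (nat_lit 2) (nat_lit 308) (nat_lit 333)))))) (n (nat_lit 308) (b (n (nat_lit 283) (b (l (nat_lit 3) (nat_lit 283) (nat_lit 284)) (l (nat_lit 3) (nat_lit 282) (nat_lit 282)))) (l (nat_lit 1) (nat_lit 283) (nat_lit 286))))) (n (nat_lit 308) (b (n (nat_lit 333) (b (l (nat_lit 2) (nat_lit 307) (nat_lit 332)) (l (nat_lit 2) (nat_lit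 308) (nat_lit 334)))) (l (nat_lit 1) (nat_lit 283) (nat_lit 286)))))) (n (nat_lit 309) (b (n (nat_lit 308) (b (n (nat_lit 333) (b (l (nat_lit 2) (nat_lit 307) (nat_lit 332)) (l (nat_lit 2) (nat_lit 308) (nat_lit 334)))) (l (nat_lit 1) (nat_lit 283) (nat_lit 286)))) (l (nat_lit 1) (nat_lit 284) (nat_lit 288))))) (b (n (nat_lit 288) (b (n (nat_lit 289) (b (l (nat_lit 1) (nat_lit 285) (nat_lit 313)) (l (nat_lit 2) (nat_lit 286) (nat_lit 290)))) (l (nat_lit 1) (nat_lit 284) (nat_lit 309)))) (n (nat_lit 313) (b (r (nat_lit 1)) (n (nat_lit 285) (b (n (nat_lit 335) (b (n (nat_lit 361) (b (b (n (nat_lit 360) (b (n (nat_lit 286) (b (l (nat_lit 5) (nat_lit 285) (nat_lit 385)) (l (nat_lit 5) (nat_lit 260) (nat_lit 261)))) (l (nat_lit 4) (nat_lit 285) (nat_lit 386)))) (n (nat_lit 336) (b (l (nat_lit 7) (nat_lit 285) (nat_lit 386)) (l (nat_lit 4) (nat_lit 260) (nat_lit 260))))) (n (nat_lit 286) (b (n (nat_lit 360) (b (l (nat_lit 5) (nat_lit 285)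 (nat_lit 385)) (l (nat_lit 5) (nat_lit 260) (nat_lit 261)))) (n (nat_lit 336) (b (l (nat_lit 5) (nat_lit 261) (nat_lit 262)) (l (nat_lit 4) (nat_lit 260) (nat_lit 260)))))))) (l (nat_lit 2) (nat_lit 309) (nat_lit 334)))) (l (nat_lit 3) (nat_lit 284) (nat_lit 284)))))))))))) (b (b (n (nat_lit 310) (b (b (n (nat_lit 309) (b (b (n (nat_lit 308) (b (n (nat_lit 283) (b (l (nat_lit 3) (nat_lit 283) (nat_lit 284)) (l (nat_lit 3) (nat_lit 282) (nat_lit 282)))) (l (nat_lit 1) (nat_lit 283) (nat_lit 286)))) (n (nat_lit 308) (b (n (nat_lit 333) (b (l (nat_lit 2) (nat_lit 307) (nat_lit 332)) (l (nat_lit 2) (nat_lit 308) (nat_lit 334)))) (l (nat_lit 1) (nat_lit 283) (nat_lit 286))))) (n (nat_lit 284) (b (n (nat_lit 285) (b (n (nat_lit 334) (b (n (nat_lit 260) (b (l (nat_lit 5) (nat_lit 259) (nat_lit 359)) (l (nat_lit 6) (nat_lit 234) (nat_lit 235)))) (l (nat_lit 2) (nat_lit 308) (nat_lit 333)))) (l (nat_lit 3) (nat_lit 284) (nat_lit 313)))) (l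 (nat_lit 3) (nat_lit 283) (nat_lit 283)))))) (n (nat_lit 309) (b (n (nat_lit 308) (b (n (nat_lit 333) (b (l (nat_lit 2) (nat_lit 307) (nat_lit 332)) (l (nat_lit 2) (nat_lit 308) (nat_lit 334)))) (l (nat_lit 1) (nat_lit 283) (nat_lit 286)))) (l (nat_lit 1) (nat_lit 284) (nat_lit 288))))) (b (n (nat_lit 288) (b (n (nat_lit 289) (b (l (nat_lit 1) (nat_lit 285) (nat_lit 313)) (l (nat_lit 2) (nat_lit 286) (nat_lit 290)))) (l (nat_lit 1) (nat_lit 284) (nat_lit 309)))) (n (nat_lit 313) (b (b (n (nat_lit 314) (b (n (nat_lit 335) (b (l (nat_lit 2) (nat_lit 309) (nat_lit 334)) (l (nat_lit 2) (nat_lit 310) (nat_lit 336)))) (n (nat_lit 285) (b (l (nat_lit 3) (nat_lit 284) (nat_lit 284)) (l (nat_lit 3) (nat_lit 285) (nat_lit 286)))))) (r (nat_lit 1))) (n (nat_lit 288) (b (n (nat_lit 285) (b (n (nat_lit 286) (b (n (nat_lit 261) (b (n (nat_lit 337) (b (l (nat_lit 4) (nat_lit 236) (nat_lit 236)) (l (nat_lit 7) (nat_lit 261) (nat_lit 362)))) (n (nat_lit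 335) (b (l (nat_lit 2) (nat_lit 309) (nat_lit 334)) (l (nat_lit 5) (nat_lit 260) (nat_lit 360)))))) (n (nat_lit 260) (b (n (nat_lit 235) (b (l (nat_lit 4) (nat_lit 235) (nat_lit 336)) (l (nat_lit 4) (nat_lit 210) (nat_lit 210)))) (l (nat_lit 3) (nat_lit 259) (nat_lit 259)))))) (l (nat_lit 3) (nat_lit 284) (nat_lit 284)))) (l (nat_lit 1) (nat_lit 285) (nat_lit 289))))))))) (n (nat_lit 310) (b (b (b (n (nat_lit 313) (b (b (n (nat_lit 314) (b (n (nat_lit 335) (b (l (nat_lit 2) (nat_lit 309) (nat_lit 334)) (l (nat_lit 2) (nat_lit 310) (nat_lit 336)))) (n (nat_lit 285) (b (l (nat_lit 3) (nat_lit 284) (nat_lit 284)) (l (nat_lit 3) (nat_lit 285) (nat_lit 286)))))) (r (nat_lit 1))) (n (nat_lit 285) (b (n (nat_lit 260) (b (b (n (nat_lit 259) (b (n (nat_lit 335) (b (l (nat_lit 2) (nat_lit 309) (nat_lit 334)) (l (nat_lit 7) (nat_lit 234) (nat_lit 234)))) (n (nat_lit 288) (b (l (nat_lit 1) (nat_lit 285) (nat_lit 289)) (l (nat_lit 3) (nat_lit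 259) (nat_lit 286)))))) (n (nat_lit 336) (b (n (nat_lit 361) (b (l (nat_lit 7) (nat_lit 260) (nat_lit 286)) (l (nat_lit 5) (nat_lit 286) (nat_lit 386)))) (l (nat_lit 4) (nat_lit 235) (nat_lit 235))))) (n (nat_lit 336) (b (n (nat_lit 335) (b (l (nat_lit 4) (nat_lit 260) (nat_lit 361)) (l (nat_lit 2) (nat_lit 309) (nat_lit 334)))) (l (nat_lit 4) (nat_lit 235) (nat_lit 235)))))) (l (nat_lit 3) (nat_lit 284) (nat_lit 284)))))) (n (nat_lit 309) (b (n (nat_lit 308) (b (n (nat_lit 283) (b (l (nat_lit 3) (nat_lit 283) (nat_lit 284)) (l (nat_lit 3) (nat_lit 282) (nat_lit 282)))) (l (nat_lit 1) (nat_lit 283) (nat_lit 286)))) (l (nat_lit 1) (nat_lit 284) (nat_lit 288))))) (b (n (nat_lit 309) (b (n (nat_lit 308) (b (n (nat_lit 283) (b (l (nat_lit 3) (nat_lit 283) (nat_lit 284)) (l (nat_lit 3) (nat_lit 282) (nat_lit 282)))) (n (nat_lit 333) (b (l (nat_lit 2) (nat_lit 307) (nat_lit 332)) (l (nat_lit 2) (nat_lit 308) (nat_lit 334)))))) (l (nat_lit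 1) (nat_lit 284) (nat_lit 288)))) (n (nat_lit 309) (b (b (n (nat_lit 313) (b (n (nat_lit 284) (b (l (nat_lit 3) (nat_lit 283) (nat_lit 283)) (l (nat_lit 3) (nat_lit 284) (nat_lit 285)))) (n (nat_lit 334) (b (l (nat_lit 2) (nat_lit 309) (nat_lit 335)) (l (nat_lit 2) (nat_lit 308) (nat_lit 333)))))) (n (nat_lit 308) (b (n (nat_lit 283) (b (l (nat_lit 3) (nat_lit 283) (nat_lit 284)) (l (nat_lit 3) (nat_lit 282) (nat_lit 282)))) (l (nat_lit 1) (nat_lit 283) (nat_lit 286))))) (n (nat_lit 308) (b (n (nat_lit 333) (b (l (nat_lit 2) (nat_lit 307) (nat_lit 332)) (l (nat_lit 2) (nat_lit 308) (nat_lit 334)))) (l (nat_lit 1) (nat_lit 283) (nat_lit 286)))))))) (n (nat_lit 309) (b (n (nat_lit 308) (b (n (nat_lit 333) (b (l (nat_lit 2) (nat_lit 307) (nat_lit 332)) (l (nat_lit 2) (nat_lit 308) (nat_lit 334)))) (l (nat_lit 1) (nat_lit 283) (nat_lit 286)))) (l (nat_lit 1) (nat_lit 284) (nat_lit 288))))))) (r (nat_lit 5)))))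
    (envOK_cons p6581 (envOK_cons p5805 (envOK_cons p6628 (envOK_cons p6610 (envOK_cons p6662 (envOK_cons p6702 envOK_nil)))))) (by decide +kernel)

theorem p6772 : Fam (nat_lit 12) (nat_lit 8343700105050909624035516772798185167898074691139901078627207441251511143569872667327258951680) (nat_lit 27764351910652782963801715035311130946965588027542409376782151847971788799005766043171213323775946375152811060425459488522240) (nat_lit 27764351910652782963801715035311130946965588027542409376782151847971788799005766043171213323775946375152811060425459488522240) :=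
  chk_sound Env.nil
    (n (nat_lit 289) (b (b (n (nat_lit 290) (b (b (n (nat_lit 291) (b (n (nat_lit 316) (b (l (nat_lit 0) (nat_lit 288) (nat_lit 317)) (l (nat_lit 0) (nat_lit 287) (nat_lit 315)))) (l (nat_lit 2) (nat_lit 287) (nat_lit 313)))) (n (nat_lit 291) (b (n (nat_lit 266) (b (l (nat_lit 1) (nat_lit 263) (nat_lit 267)) (l (nat_lit 1) (nat_lit 262) (nat_lit 265)))) (l (nat_lit 2) (nat_lit 287) (nat_lit 313))))) (n (nat_lit 265) (b (n (nat_lit 315) (b (n (nat_lit 264) (b (n (nat_lit 340) (b (l (nat_lit 7) (nat_lit 264) (nat_lit 365)) (l (nat_lit 7) (nat_lit 239) (nat_lit 239)))) (l (nat_lit 1) (nat_lit 261) (nat_lit 286)))) (l (nat_lit 0) (nat_lit 287) (nat_lit 316)))) (l (nat_lit 1) (nat_lit 262) (nat_lit 266)))))) (n (nat_lit 290) (b (n (nat_lit 291) (b (n (nat_lit 316) (b (l (nat_lit 0) (nat_lit 288) (nat_lit 317)) (l (nat_lit 0) (nat_lit 287) (nat_lit 315)))) (n (nat_lit 266) (b (l (nat_lit 1) (nat_lit 263) (nat_lit 267))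 (l (nat_lit 1) (nat_lit 262) (nat_lit 265)))))) (l (nat_lit 2) (nat_lit 286) (nat_lit 311))))) (b (n (nat_lit 311) (b (n (nat_lit 310) (b (l (nat_lit 1) (nat_lit 285) (nat_lit 313)) (l (nat_lit 1) (nat_lit 284) (nat_lit 309)))) (l (nat_lit 2) (nat_lit 286) (nat_lit 290)))) (n (nat_lit 337) (b (b (n (nat_lit 362) (b (n (nat_lit 311) (b (b (n (nat_lit 387) (b (l (nat_lit 7) (nat_lit 286) (nat_lit 286)) (l (nat_lit 5) (nat_lit 287) (nat_lit 313)))) (n (nat_lit 310) (b (l (nat_lit 1) (nat_lit 285) (nat_lit 313)) (l (nat_lit 1) (nat_lit 284) (nat_lit 309))))) (n (nat_lit 286) (b (l (nat_lit 2) (nat_lit 285) (nat_lit 310)) (l (nat_lit 7) (nat_lit 286) (nat_lit 387)))))) (n (nat_lit 361) (b (n (nat_lit 363) (b (n (nat_lit 336) (b (n (nat_lit 335) (b (l (nat_lit 3) (nat_lit 335) (nat_lit 364)) (l (nat_lit 0) (nat_lit 334) (nat_lit 334)))) (l (nat_lit 6) (nat_lit 261) (nat_lit 262)))) (l (nat_lit 4) (nat_lit 287) (nat_lit 388)))) (l (nat_lit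 6) (nat_lit 286) (nat_lit 386)))))) (n (nat_lit 362) (b (n (nat_lit 387) (b (n (nat_lit 388) (b (l (nat_lit 4) (nat_lit 312) (nat_lit 413)) (l (nat_lit 4) (nat_lit 287) (nat_lit 363)))) (n (nat_lit 386) (b (l (nat_lit 6) (nat_lit 311) (nat_lit 411)) (l (nat_lit 6) (nat_lit 286) (nat_lit 361)))))) (l (nat_lit 5) (nat_lit 262) (nat_lit 263))))) (b (n (nat_lit 263) (b (n (nat_lit 238) (b (l (nat_lit 6) (nat_lit 237) (nat_lit 313)) (l (nat_lit 6) (nat_lit 212) (nat_lit 213)))) (l (nat_lit 5) (nat_lit 262) (nat_lit 362)))) (n (nat_lit 264) (b (b (n (nat_lit 310) (b (b (n (nat_lit 311) (b (l (nat_lit 1) (nat_lit 284) (nat_lit 309)) (l (nat_lit 1) (nat_lit 285) (nat_lit 313)))) (n (nat_lit 311) (b (l (nat_lit 1) (nat_lit 284) (nat_lit 309)) (l (nat_lit 2) (nat_lit 285) (nat_lit 286))))) (b (n (nat_lit 285) (b (b (n (nat_lit 263) (b (n (nat_lit 238) (b (l (nat_lit 6) (nat_lit 237) (nat_lit 313)) (l (nat_lit 6) (nat_lit 212) (nat_lit 213))))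 (l (nat_lit 1) (nat_lit 260) (nat_lit 286)))) (n (nat_lit 286) (b (l (nat_lit 2) (nat_lit 284) (nat_lit 309)) (l (nat_lit 1) (nat_lit 260) (nat_lit 263))))) (n (nat_lit 335) (b (b (b (n (nat_lit 336) (b (n (nat_lit 334) (b (n (nat_lit 359) (b (l (nat_lit 6) (nat_lit 259) (nat_lit 260)) (l (nat_lit 2) (nat_lit 333) (nat_lit 358)))) (l (nat_lit 1) (nat_lit 309) (nat_lit 313)))) (n (nat_lit 361) (b (n (nat_lit 386) (b (l (nat_lit 4) (nat_lit 285) (nat_lit 360)) (l (nat_lit 7) (nat_lit 310) (nat_lit 411)))) (l (nat_lit 6) (nat_lit 261) (nat_lit 262)))))) (n (nat_lit 360) (b (n (nat_lit 385) (b (n (nat_lit 384) (b (l (nat_lit 6) (nat_lit 284) (nat_lit 359)) (l (nat_lit 6) (nat_lit 309) (nat_lit 409)))) (n (nat_lit 284) (b (l (nat_lit 7) (nat_lit 284) (nat_lit 309)) (l (nat_lit 7) (nat_lit 259) (nat_lit 259)))))) (n (nat_lit 361) (b (n (nat_lit 336) (b (l (nat_lit 6) (nat_lit 261) (nat_lit 262)) (l (nat_lit 4) (nat_lit 260) (nat_lit 260))))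 (l (nat_lit 4) (nat_lit 285) (nat_lit 386))))))) (b (n (nat_lit 360) (b (b (n (nat_lit 385) (b (n (nat_lit 384) (b (l (nat_lit 6) (nat_lit 284) (nat_lit 359)) (l (nat_lit 6) (nat_lit 309) (nat_lit 409)))) (n (nat_lit 386) (b (l (nat_lit 4) (nat_lit 310) (nat_lit 411)) (l (nat_lit 4) (nat_lit 285) (nat_lit 361)))))) (n (nat_lit 260) (b (n (nat_lit 359) (b (l (nat_lit 6) (nat_lit 259) (nat_lit 334)) (l (nat_lit 6) (nat_lit 284) (nat_lit 384)))) (n (nat_lit 259) (b (l (nat_lit 7) (nat_lit 259) (nat_lit 284)) (l (nat_lit 7) (nat_lit 234) (nat_lit 234))))))) (n (nat_lit 385) (b (n (nat_lit 386) (b (l (nat_lit 4) (nat_lit 310) (nat_lit 411)) (l (nat_lit 4) (nat_lit 285) (nat_lit 361)))) (n (nat_lit 284) (b (l (nat_lit 7) (nat_lit 284) (nat_lit 309)) (l (nat_lit 7) (nat_lit 259) (nat_lit 259)))))))) (n (nat_lit 334) (b (b (n (nat_lit 359) (b (n (nat_lit 384) (b (l (nat_lit 5) (nat_lit 309) (nat_lit 409)) (l (nat_lit 5) (nat_lit 284) (nat_lit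 309)))) (l (nat_lit 6) (nat_lit 259) (nat_lit 260)))) (n (nat_lit 336) (b (n (nat_lit 361) (b (l (nat_lit 4) (nat_lit 260) (nat_lit 260)) (l (nat_lit 6) (nat_lit 261) (nat_lit 262)))) (l (nat_lit 1) (nat_lit 309) (nat_lit 313))))) (n (nat_lit 359) (b (n (nat_lit 384) (b (l (nat_lit 5) (nat_lit 309) (nat_lit 409)) (l (nat_lit 5) (nat_lit 284) (nat_lit 309)))) (n (nat_lit 336) (b (l (nat_lit 2) (nat_lit 333) (nat_lit 358)) (l (nat_lit 1) (nat_lit 309) (nat_lit 313)))))))))) (b (b (n (nat_lit 259) (b (b (n (nat_lit 284) (b (n (nat_lit 234) (b (l (nat_lit 4) (nat_lit 234) (nat_lit 309)) (l (nat_lit 4) (nat_lit 209) (nat_lit 209)))) (l (nat_lit 7) (nat_lit 259) (nat_lit 360)))) (n (nat_lit 361) (b (n (nat_lit 336) (b (l (nat_lit 6) (nat_lit 261) (nat_lit 262)) (l (nat_lit 4) (nat_lit 260) (nat_lit 260)))) (n (nat_lit 360) (b (l (nat_lit 4) (nat_lit 285) (nat_lit 386)) (l (nat_lit 7) (nat_lit 259) (nat_lit 284))))))) (n (nat_lit 260) (b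 (n (nat_lit 336) (b (n (nat_lit 334) (b (n (nat_lit 309) (b (l (nat_lit 6) (nat_lit 234) (nat_lit 235)) (l (nat_lit 3) (nat_lit 308) (nat_lit 308)))) (l (nat_lit 1) (nat_lit 309) (nat_lit 313)))) (l (nat_lit 4) (nat_lit 260) (nat_lit 361)))) (l (nat_lit 7) (nat_lit 234) (nat_lit 234)))))) (n (nat_lit 336) (b (n (nat_lit 361) (b (n (nat_lit 386) (b (l (nat_lit 4) (nat_lit 285) (nat_lit 360)) (l (nat_lit 7) (nat_lit 310) (nat_lit 411)))) (l (nat_lit 6) (nat_lit 261) (nat_lit 262)))) (n (nat_lit 334) (b (n (nat_lit 359) (b (n (nat_lit 309) (b (l (nat_lit 5) (nat_lit 284) (nat_lit 384)) (l (nat_lit 3) (nat_lit 308) (nat_lit 308)))) (l (nat_lit 2) (nat_lit 333) (nat_lit 358)))) (l (nat_lit 1) (nat_lit 309) (nat_lit 313))))))) (n (nat_lit 259) (b (b (n (nat_lit 359) (b (n (nat_lit 360) (b (l (nat_lit 6) (nat_lit 284) (nat_lit 384)) (l (nat_lit 7) (nat_lit 259) (nat_lit 284)))) (n (nat_lit 334) (b (n (nat_lit 336) (b (l (nat_lit 2) (nat_lit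 333) (nat_lit 358)) (l (nat_lit 1) (nat_lit 309) (nat_lit 313)))) (l (nat_lit 6) (nat_lit 259) (nat_lit 260)))))) (n (nat_lit 284) (b (n (nat_lit 234) (b (l (nat_lit 4) (nat_lit 234) (nat_lit 309)) (l (nat_lit 4) (nat_lit 209) (nat_lit 209)))) (l (nat_lit 7) (nat_lit 259) (nat_lit 360))))) (n (nat_lit 334) (b (b (n (nat_lit 309) (b (n (nat_lit 260) (b (l (nat_lit 7) (nat_lit 234) (nat_lit 234)) (l (nat_lit 6) (nat_lit 234) (nat_lit 235)))) (n (nat_lit 336) (b (l (nat_lit 3) (nat_lit 308) (nat_lit 308)) (l (nat_lit 1) (nat_lit 309) (nat_lit 313)))))) (n (nat_lit 359) (b (n (nat_lit 384) (b (l (nat_lit 5) (nat_lit 309) (nat_lit 409)) (l (nat_lit 5) (nat_lit 284) (nat_lit 309)))) (n (nat_lit 336) (b (l (nat_lit 2) (nat_lit 333) (nat_lit 358)) (l (nat_lit 1) (nat_lit 309) (nat_lit 313))))))) (n (nat_lit 260) (b (l (nat_lit 7) (nat_lit 234) (nat_lit 234)) (l (nat_lit 6) (nat_lit 259) (nat_lit 359))))))))))))) (n (nat_lit 311) (b (l (nat_lit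 1) (nat_lit 285) (nat_lit 313)) (l (nat_lit 2) (nat_lit 285) (nat_lit 286))))))) (n (nat_lit 286) (b (n (nat_lit 285) (b (n (nat_lit 284) (b (n (nat_lit 259) (b (l (nat_lit 3) (nat_lit 258) (nat_lit 258)) (l (nat_lit 3) (nat_lit 259) (nat_lit 260)))) (l (nat_lit 0) (nat_lit 284) (nat_lit 313)))) (n (nat_lit 310) (b (l (nat_lit 2) (nat_lit 284) (nat_lit 309)) (l (nat_lit 2) (nat_lit 285) (nat_lit 311)))))) (l (nat_lit 1) (nat_lit 261) (nat_lit 265))))) (b (n (nat_lit 265) (b (n (nat_lit 266) (b (l (nat_lit 2) (nat_lit 262) (nat_lit 263)) (l (nat_lit 2) (nat_lit 263) (nat_lit 267)))) (l (nat_lit 1) (nat_lit 261) (nat_lit 286)))) (n (nat_lit 239) (b (b (n (nat_lit 214) (b (n (nat_lit 189) (b (n (nat_lit 190) (b (l (nat_lit 5) (nat_lit 164) (nat_lit 165)) (l (nat_lit 5) (nat_lit 189) (nat_lit 215)))) (l (nat_lit 6) (nat_lit 188) (nat_lit 263)))) (l (nat_lit 6) (nat_lit 213) (nat_lit 313)))) (n (nat_lit 214) (b (n (nat_lit 189) (b (n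 (nat_lit 188) (b (l (nat_lit 7) (nat_lit 188) (nat_lit 213)) (l (nat_lit 7) (nat_lit 163) (nat_lit 163)))) (n (nat_lit 190) (b (l (nat_lit 5) (nat_lit 164) (nat_lit 165)) (l (nat_lit 5) (nat_lit 189) (nat_lit 215)))))) (l (nat_lit 6) (nat_lit 213) (nat_lit 313))))) (b (n (nat_lit 238) (b (b (n (nat_lit 263) (b (l (nat_lit 6) (nat_lit 237) (nat_lit 313)) (l (nat_lit 6) (nat_lit 212) (nat_lit 213)))) (n (nat_lit 237) (b (n (nat_lit 262) (b (n (nat_lit 336) (b (l (nat_lit 6) (nat_lit 261) (nat_lit 361)) (l (nat_lit 6) (nat_lit 236) (nat_lit 311)))) (l (nat_lit 5) (nat_lit 212) (nat_lit 213)))) (n (nat_lit 265) (b (n (nat_lit 266) (b (l (nat_lit 0) (nat_lit 237) (nat_lit 240)) (l (nat_lit 2) (nat_lit 263) (nat_lit 267)))) (l (nat_lit 0) (nat_lit 236) (nat_lit 236))))))) (n (nat_lit 263) (b (l (nat_lit 6) (nat_lit 237) (nat_lit 313)) (l (nat_lit 5) (nat_lit 237) (nat_lit 262)))))) (n (nat_lit 214) (b (b (n (nat_lit 263) (b (n (nat_lit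 238) (b (l (nat_lit 6) (nat_lit 212) (nat_lit 213)) (l (nat_lit 5) (nat_lit 237) (nat_lit 262)))) (l (nat_lit 6) (nat_lit 188) (nat_lit 189)))) (n (nat_lit 189) (b (n (nat_lit 188) (b (l (nat_lit 7) (nat_lit 188) (nat_lit 213)) (l (nat_lit 7) (nat_lit 163) (nat_lit 163)))) (n (nat_lit 190) (b (l (nat_lit 5) (nat_lit 164) (nat_lit 165)) (l (nat_lit 5) (nat_lit 189) (nat_lit 215))))))) (b (n (nat_lit 213) (b (n (nat_lit 238) (b (n (nat_lit 215) (b (n (nat_lit 237) (b (l (nat_lit 5) (nat_lit 212) (nat_lit 262)) (l (nat_lit 2) (nat_lit 212) (nat_lit 216)))) (l (nat_lit 5) (nat_lit 189) (nat_lit 190)))) (l (nat_lit 6) (nat_lit 212) (nat_lit 263)))) (l (nat_lit 7) (nat_lit 188) (nat_lit 188)))) (n (nat_lit 189) (b (n (nat_lit 190) (b (l (nat_lit 5) (nat_lit 164) (nat_lit 165)) (l (nat_lit 5) (nat_lit 189) (nat_lit 215)))) (l (nat_lit 6) (nat_lit 188) (nat_lit 263)))))))))))))))))))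
    envOK_nil (by decide +kernel)

theorem p6876 : Fam (nat_lit 17) (nat_lit 8343700105050909624035516772798185167898074691139901078627207441251511143569872667327258951680) (nat_lit 26442239854866187913400038420360977119063277756835273946960023754271089322226283118361462886485300193720164816170887759790080) (nat_lit 26442239854866187913400038420360977119063277756835273946960023754271089322226283118361462886485300193720164816170887759790080) :=
  chk_sound Env.nil
    (n (nat_lit 337) (b (b (n (nat_lit 362) (b (b (n (nat_lit 387) (b (n (nat_lit 388) (b (l (nat_lit 4) (nat_lit 312) (nat_lit 413)) (l (nat_lit 4) (nat_lit 287) (nat_lit 363)))) (l (nat_lit 5) (nat_lit 287) (nat_lit 313)))) (n (nat_lit 387) (b (n (nat_lit 386) (b (l (nat_lit 6) (nat_lit 311) (nat_lit 411)) (l (nat_lit 6) (nat_lit 286) (nat_lit 361)))) (l (nat_lit 5) (nat_lit 287) (nat_lit 313))))) (n (nat_lit 361) (b (n (nat_lit 363) (b (n (nat_lit 336) (b (n (nat_lit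 335) (b (l (nat_lit 3) (nat_lit 335) (nat_lit 364)) (l (nat_lit 0) (nat_lit 334) (nat_lit 334)))) (l (nat_lit 6) (nat_lit 261) (nat_lit 262)))) (l (nat_lit 4) (nat_lit 287) (nat_lit 388)))) (l (nat_lit 6) (nat_lit 286) (nat_lit 386)))))) (n (nat_lit 263) (b (n (nat_lit 238) (b (l (nat_lit 6) (nat_lit 237) (nat_lit 313)) (l (nat_lit 6) (nat_lit 212) (nat_lit 213)))) (l (nat_lit 5) (nat_lit 262) (nat_lit 362))))) (b (n (nat_lit 362) (b (n (nat_lit 387) (b (n (nat_lit 388) (b (l (nat_lit 4) (nat_lit 312) (nat_lit 413)) (l (nat_lit 4) (nat_lit 287) (nat_lit 363)))) (n (nat_lit 386) (b (l (nat_lit 6) (nat_lit 311) (nat_lit 411)) (l (nat_lit 6) (nat_lit 286) (nat_lit 361)))))) (l (nat_lit 5) (nat_lit 262) (nat_lit 263)))) (n (nat_lit 285) (b (b (b (n (nat_lit 286) (b (b (n (nat_lit 310) (b (n (nat_lit 313) (b (n (nat_lit 260) (b (n (nat_lit 235) (b (n (nat_lit 210) (b (n (nat_lit 211) (b (l (nat_lit 5) (nat_lit 210) (nat_lit 236)) (l (nat_lit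 5) (nat_lit 185) (nat_lit 186)))) (n (nat_lit 209) (b (l (nat_lit 7) (nat_lit 184) (nat_lit 184)) (l (nat_lit 7) (nat_lit 209) (nat_lit 234)))))) (n (nat_lit 336) (b (n (nat_lit 335) (b (l (nat_lit 4) (nat_lit 260) (nat_lit 361)) (l (nat_lit 1) (nat_lit 309) (nat_lit 334)))) (l (nat_lit 4) (nat_lit 235) (nat_lit 311)))))) (l (nat_lit 3) (nat_lit 259) (nat_lit 259)))) (l (nat_lit 0) (nat_lit 285) (nat_lit 314)))) (l (nat_lit 2) (nat_lit 284) (nat_lit 309)))) (n (nat_lit 313) (b (l (nat_lit 0) (nat_lit 284) (nat_lit 284)) (l (nat_lit 0) (nat_lit 285) (nat_lit 314))))) (n (nat_lit 284) (b (n (nat_lit 259) (b (l (nat_lit 3) (nat_lit 258) (nat_lit 258)) (l (nat_lit 3) (nat_lit 259) (nat_lit 260)))) (n (nat_lit 309) (b (l (nat_lit 2) (nat_lit 283) (nat_lit 308)) (l (nat_lit 2) (nat_lit 284) (nat_lit 310)))))))) (n (nat_lit 286) (b (n (nat_lit 263) (b (n (nat_lit 238) (b (l (nat_lit 6) (nat_lit 212) (nat_lit 213)) (l (nat_lit 5) (nat_lit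 237) (nat_lit 262)))) (l (nat_lit 1) (nat_lit 260) (nat_lit 264)))) (n (nat_lit 310) (b (n (nat_lit 313) (b (n (nat_lit 260) (b (n (nat_lit 235) (b (n (nat_lit 210) (b (n (nat_lit 211) (b (l (nat_lit 5) (nat_lit 210) (nat_lit 236)) (l (nat_lit 5) (nat_lit 185) (nat_lit 186)))) (n (nat_lit 209) (b (l (nat_lit 7) (nat_lit 184) (nat_lit 184)) (l (nat_lit 7) (nat_lit 209) (nat_lit 234)))))) (n (nat_lit 336) (b (n (nat_lit 335) (b (l (nat_lit 4) (nat_lit 260) (nat_lit 361)) (l (nat_lit 1) (nat_lit 309) (nat_lit 334)))) (l (nat_lit 4) (nat_lit 235) (nat_lit 311)))))) (l (nat_lit 3) (nat_lit 259) (nat_lit 259)))) (l (nat_lit 0) (nat_lit 285) (nat_lit 314)))) (l (nat_lit 2) (nat_lit 284) (nat_lit 309))))))) (b (n (nat_lit 286) (b (b (n (nat_lit 313) (b (l (nat_lit 0) (nat_lit 284) (nat_lit 284)) (l (nat_lit 0) (nat_lit 285) (nat_lit 314)))) (n (nat_lit 263) (b (n (nat_lit 262) (b (l (nat_lit 1) (nat_lit 259) (nat_lit 284)) (l (nat_lit 5)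 (nat_lit 237) (nat_lit 238)))) (l (nat_lit 1) (nat_lit 260) (nat_lit 264))))) (n (nat_lit 313) (b (n (nat_lit 263) (b (l (nat_lit 6) (nat_lit 237) (nat_lit 238)) (l (nat_lit 1) (nat_lit 260) (nat_lit 264)))) (l (nat_lit 0) (nat_lit 285) (nat_lit 314)))))) (n (nat_lit 286) (b (n (nat_lit 284) (b (n (nat_lit 259) (b (l (nat_lit 3) (nat_lit 258) (nat_lit 258)) (l (nat_lit 3) (nat_lit 259) (nat_lit 260)))) (n (nat_lit 309) (b (l (nat_lit 2) (nat_lit 283) (nat_lit 308)) (l (nat_lit 2) (nat_lit 284) (nat_lit 310)))))) (n (nat_lit 263) (b (n (nat_lit 238) (b (l (nat_lit 6) (nat_lit 212) (nat_lit 213)) (l (nat_lit 5) (nat_lit 237) (nat_lit 262)))) (l (nat_lit 1) (nat_lit 260) (nat_lit 264)))))))) (n (nat_lit 238) (b (b (n (nat_lit 263) (b (l (nat_lit 5) (nat_lit 237) (nat_lit 262)) (l (nat_lit 6) (nat_lit 212) (nat_lit 213)))) (n (nat_lit 263) (b (l (nat_lit 6) (nat_lit 237) (nat_lit 313)) (l (nat_lit 5) (nat_lit 237) (nat_lit 262))))) (b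 (n (nat_lit 263) (b (l (nat_lit 6) (nat_lit 237) (nat_lit 313)) (l (nat_lit 6) (nat_lit 212) (nat_lit 213)))) (n (nat_lit 237) (b (b (n (nat_lit 262) (b (n (nat_lit 212) (b (n (nat_lit 211) (b (l (nat_lit 7) (nat_lit 211) (nat_lit 236)) (l (nat_lit 7) (nat_lit 186) (nat_lit 186)))) (l (nat_lit 4) (nat_lit 212) (nat_lit 313)))) (l (nat_lit 5) (nat_lit 212) (nat_lit 213)))) (n (nat_lit 262) (b (n (nat_lit 212) (b (n (nat_lit 211) (b (l (nat_lit 7) (nat_lit 211) (nat_lit 236)) (l (nat_lit 7) (nat_lit 186) (nat_lit 186)))) (l (nat_lit 4) (nat_lit 212) (nat_lit 313)))) (n (nat_lit 336) (b (l (nat_lit 6) (nat_lit 261) (nat_lit 361)) (l (nat_lit 6) (nat_lit 236) (nat_lit 311))))))) (b (n (nat_lit 262) (b (n (nat_lit 336) (b (l (nat_lit 6) (nat_lit 261) (nat_lit 361)) (l (nat_lit 6) (nat_lit 236) (nat_lit 311)))) (l (nat_lit 5) (nat_lit 212) (nat_lit 213)))) (n (nat_lit 236) (b (b (b (n (nat_lit 235) (b (b (n (nat_lit 260) (b (n (nat_lit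 309) (b (n (nat_lit 310) (b (l (nat_lit 1) (nat_lit 284) (nat_lit 311)) (l (nat_lit 6) (nat_lit 234) (nat_lit 334)))) (n (nat_lit 210) (b (l (nat_lit 6) (nat_lit 209) (nat_lit 284)) (l (nat_lit 3) (nat_lit 209) (nat_lit 209)))))) (l (nat_lit 2) (nat_lit 234) (nat_lit 259)))) (n (nat_lit 234) (b (n (nat_lit 213) (b (l (nat_lit 1) (nat_lit 210) (nat_lit 214)) (l (nat_lit 1) (nat_lit 209) (nat_lit 212)))) (n (nat_lit 209) (b (l (nat_lit 3) (nat_lit 209) (nat_lit 210)) (l (nat_lit 3) (nat_lit 208) (nat_lit 208))))))) (n (nat_lit 234) (b (n (nat_lit 259) (b (l (nat_lit 2) (nat_lit 233) (nat_lit 258)) (l (nat_lit 2) (nat_lit 234) (nat_lit 260)))) (n (nat_lit 213) (b (l (nat_lit 1) (nat_lit 210) (nat_lit 214)) (l (nat_lit 1) (nat_lit 209) (nat_lit 212)))))))) (n (nat_lit 235) (b (b (n (nat_lit 260) (b (n (nat_lit 310) (b (n (nat_lit 309) (b (l (nat_lit 1) (nat_lit 284) (nat_lit 311)) (l (nat_lit 6) (nat_lit 234) (nat_lit 334)))) (l (nat_lit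 5) (nat_lit 210) (nat_lit 211)))) (l (nat_lit 2) (nat_lit 234) (nat_lit 259)))) (n (nat_lit 234) (b (n (nat_lit 209) (b (l (nat_lit 3) (nat_lit 209) (nat_lit 210)) (l (nat_lit 3) (nat_lit 208) (nat_lit 208)))) (n (nat_lit 259) (b (l (nat_lit 2) (nat_lit 233) (nat_lit 258)) (l (nat_lit 2) (nat_lit 234) (nat_lit 260))))))) (n (nat_lit 239) (b (n (nat_lit 240) (b (n (nat_lit 215) (b (l (nat_lit 1) (nat_lit 211) (nat_lit 214)) (l (nat_lit 1) (nat_lit 212) (nat_lit 216)))) (n (nat_lit 265) (b (l (nat_lit 0) (nat_lit 237) (nat_lit 266)) (l (nat_lit 0) (nat_lit 236) (nat_lit 264)))))) (n (nat_lit 210) (b (l (nat_lit 3) (nat_lit 210) (nat_lit 211)) (l (nat_lit 3) (nat_lit 209) (nat_lit 209))))))))) (b (n (nat_lit 235) (b (b (n (nat_lit 260) (b (n (nat_lit 310) (b (n (nat_lit 309) (b (l (nat_lit 1) (nat_lit 284) (nat_lit 311)) (l (nat_lit 6) (nat_lit 234) (nat_lit 334)))) (l (nat_lit 5) (nat_lit 210) (nat_lit 211)))) (l (nat_lit 2) (nat_lit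 234) (nat_lit 259)))) (n (nat_lit 234) (b (n (nat_lit 209) (b (l (nat_lit 3) (nat_lit 209) (nat_lit 210)) (l (nat_lit 3) (nat_lit 208) (nat_lit 208)))) (n (nat_lit 259) (b (l (nat_lit 2) (nat_lit 233) (nat_lit 258)) (l (nat_lit 2) (nat_lit 234) (nat_lit 260))))))) (b (n (nat_lit 210) (b (n (nat_lit 211) (b (n (nat_lit 260) (b (l (nat_lit 5) (nat_lit 210) (nat_lit 310)) (l (nat_lit 5) (nat_lit 185) (nat_lit 186)))) (l (nat_lit 3) (nat_lit 210) (nat_lit 239)))) (l (nat_lit 3) (nat_lit 209) (nat_lit 209)))) (n (nat_lit 234) (b (n (nat_lit 233) (b (n (nat_lit 258) (b (l (nat_lit 2) (nat_lit 233) (nat_lit 259)) (l (nat_lit 2) (nat_lit 232) (nat_lit 257)))) (n (nat_lit 212) (b (l (nat_lit 1) (nat_lit 208) (nat_lit 211)) (l (nat_lit 1) (nat_lit 209) (nat_lit 213)))))) (n (nat_lit 209) (b (l (nat_lit 3) (nat_lit 209) (nat_lit 210)) (l (nat_lit 3) (nat_lit 208) (nat_lit 208))))))))) (n (nat_lit 235) (b (b (n (nat_lit 260) (b (n (nat_lit 310)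 (b (n (nat_lit 309) (b (l (nat_lit 1) (nat_lit 284) (nat_lit 311)) (l (nat_lit 6) (nat_lit 234) (nat_lit 334)))) (l (nat_lit 5) (nat_lit 210) (nat_lit 211)))) (l (nat_lit 2) (nat_lit 234) (nat_lit 259)))) (n (nat_lit 234) (b (n (nat_lit 233) (b (n (nat_lit 258) (b (l (nat_lit 2) (nat_lit 233) (nat_lit 259)) (l (nat_lit 2) (nat_lit 232) (nat_lit 257)))) (n (nat_lit 208) (b (l (nat_lit 3) (nat_lit 207) (nat_lit 207)) (l (nat_lit 3) (nat_lit 208) (nat_lit 209)))))) (n (nat_lit 213) (b (l (nat_lit 1) (nat_lit 210) (nat_lit 214)) (l (nat_lit 1) (nat_lit 209) (nat_lit 212))))))) (n (nat_lit 239) (b (b (n (nat_lit 214) (b (l (nat_lit 1) (nat_lit 211) (nat_lit 215)) (l (nat_lit 1) (nat_lit 210) (nat_lit 213)))) (n (nat_lit 240) (b (n (nat_lit 265) (b (l (nat_lit 0) (nat_lit 237) (nat_lit 266)) (l (nat_lit 0) (nat_lit 236) (nat_lit 264)))) (n (nat_lit 212) (b (n (nat_lit 213) (b (l (nat_lit 1) (nat_lit 209) (nat_lit 234)) (l (nat_lit 3) (nat_lit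 212) (nat_lit 241)))) (l (nat_lit 3) (nat_lit 211) (nat_lit 211))))))) (n (nat_lit 240) (b (n (nat_lit 215) (b (l (nat_lit 1) (nat_lit 211) (nat_lit 214)) (l (nat_lit 1) (nat_lit 212) (nat_lit 216)))) (n (nat_lit 265) (b (l (nat_lit 0) (nat_lit 237) (nat_lit 266)) (l (nat_lit 0) (nat_lit 236) (nat_lit 264)))))))))))) (n (nat_lit 239) (b (b (n (nat_lit 240) (b (n (nat_lit 215) (b (l (nat_lit 1) (nat_lit 211) (nat_lit 214)) (l (nat_lit 1) (nat_lit 212) (nat_lit 216)))) (n (nat_lit 265) (b (l (nat_lit 0) (nat_lit 237) (nat_lit 266)) (l (nat_lit 0) (nat_lit 236) (nat_lit 264)))))) (n (nat_lit 240) (b (n (nat_lit 211) (b (l (nat_lit 3) (nat_lit 211) (nat_lit 212)) (l (nat_lit 3) (nat_lit 210) (nat_lit 210)))) (n (nat_lit 215) (b (l (nat_lit 1) (nat_lit 211) (nat_lit 214)) (l (nat_lit 1) (nat_lit 212) (nat_lit 216))))))) (b (n (nat_lit 240) (b (n (nat_lit 211) (b (l (nat_lit 3) (nat_lit 211) (nat_lit 212)) (l (nat_lit 3) (nat_lit 210)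 (nat_lit 210)))) (n (nat_lit 265) (b (l (nat_lit 0) (nat_lit 237) (nat_lit 266)) (l (nat_lit 0) (nat_lit 236) (nat_lit 264)))))) (n (nat_lit 214) (b (n (nat_lit 264) (b (n (nat_lit 189) (b (b (b (n (nat_lit 164) (b (b (n (nat_lit 165) (b (l (nat_lit 5) (nat_lit 164) (nat_lit 190)) (l (nat_lit 5) (nat_lit 139) (nat_lit 140)))) (n (nat_lit 139) (b (n (nat_lit 114) (b (n (nat_lit 115) (b (l (nat_lit 5) (nat_lit 114) (nat_lit 140)) (l (nat_lit 5) (nat_lit 89) (nat_lit 90)))) (n (nat_lit 113) (b (l (nat_lit 7) (nat_lit 88) (nat_lit 88)) (l (nat_lit 7) (nat_lit 113) (nat_lit 138)))))) (l (nat_lit 6) (nat_lit 138) (nat_lit 213))))) (n (nat_lit 211) (b (n (nat_lit 213) (b (n (nat_lit 190) (b (l (nat_lit 1) (nat_lit 186) (nat_lit 212)) (l (nat_lit 5) (nat_lit 164) (nat_lit 165)))) (l (nat_lit 6) (nat_lit 138) (nat_lit 139)))) (l (nat_lit 3) (nat_lit 210) (nat_lit 210)))))) (n (nat_lit 164) (b (n (nat_lit 139) (b (n (nat_lit 140) (b (l (nat_lit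 5) (nat_lit 114) (nat_lit 115)) (l (nat_lit 5) (nat_lit 139) (nat_lit 165)))) (l (nat_lit 6) (nat_lit 138) (nat_lit 213)))) (n (nat_lit 163) (b (l (nat_lit 7) (nat_lit 138) (nat_lit 138)) (l (nat_lit 7) (nat_lit 163) (nat_lit 188))))))) (b (n (nat_lit 164) (b (n (nat_lit 165) (b (l (nat_lit 5) (nat_lit 164) (nat_lit 190)) (l (nat_lit 5) (nat_lit 139) (nat_lit 140)))) (n (nat_lit 163) (b (l (nat_lit 7) (nat_lit 138) (nat_lit 138)) (l (nat_lit 7) (nat_lit 163) (nat_lit 188)))))) (n (nat_lit 211) (b (n (nat_lit 163) (b (n (nat_lit 164) (b (n (nat_lit 161) (b (b (n (nat_lit 162) (b (n (nat_lit 139) (b (l (nat_lit 6) (nat_lit 138) (nat_lit 213)) (l (nat_lit 1) (nat_lit 136) (nat_lit 140)))) (l (nat_lit 0) (nat_lit 161) (nat_lit 190)))) (n (nat_lit 213) (b (n (nat_lit 212) (b (n (nat_lit 186) (b (l (nat_lit 4) (nat_lit 136) (nat_lit 136)) (l (nat_lit 3) (nat_lit 185) (nat_lit 185)))) (l (nat_lit 1) (nat_lit 186) (nat_lit 190)))) (l (nat_lit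 6) (nat_lit 138) (nat_lit 139))))) (b (n (nat_lit 162) (b (n (nat_lit 186) (b (l (nat_lit 2) (nat_lit 160) (nat_lit 185)) (l (nat_lit 5) (nat_lit 136) (nat_lit 137)))) (n (nat_lit 139) (b (l (nat_lit 6) (nat_lit 138) (nat_lit 213)) (l (nat_lit 1) (nat_lit 136) (nat_lit 140)))))) (n (nat_lit 162) (b (n (nat_lit 186) (b (l (nat_lit 2) (nat_lit 160) (nat_lit 185)) (l (nat_lit 5) (nat_lit 136) (nat_lit 137)))) (l (nat_lit 0) (nat_lit 161) (nat_lit 190))))))) (l (nat_lit 7) (nat_lit 138) (nat_lit 138)))) (l (nat_lit 7) (nat_lit 163) (nat_lit 188)))) (l (nat_lit 3) (nat_lit 210) (nat_lit 210)))))) (n (nat_lit 188) (b (n (nat_lit 211) (b (n (nat_lit 190) (b (n (nat_lit 212) (b (l (nat_lit 2) (nat_lit 186) (nat_lit 187)) (l (nat_lit 1) (nat_lit 186) (nat_lit 213)))) (l (nat_lit 5) (nat_lit 164) (nat_lit 165)))) (l (nat_lit 3) (nat_lit 210) (nat_lit 210)))) (l (nat_lit 7) (nat_lit 163) (nat_lit 163)))))) (l (nat_lit 0) (nat_lit 236) (nat_lit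 265)))) (l (nat_lit 1) (nat_lit 211) (nat_lit 215))))))))))))))))))))
    envOK_nil (by decide +kernel)

theorem p6902 : Fam (nat_lit 6) (nat_lit 8343701099697382443608801083562681461539754892052202673322642322179464929888866692394010017792) (nat_lit 46970853055318171381352978970166055399731958148168919122875516619463153649506274164280188683916167959468310528) (nat_lit 46970853055318171381352978970166055399731958148168919122875516619463153649506274164280188683916167959468310528) :=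
  chk_sound Env.nil
    (n (nat_lit 290) (b (b (b (n (nat_lit 291) (b (n (nat_lit 316) (b (l (nat_lit 0) (nat_lit 288) (nat_lit 317)) (l (nat_lit 0) (nat_lit 287) (nat_lit 315)))) (n (nat_lit 266) (b (l (nat_lit 1) (nat_lit 263) (nat_lit 267)) (l (nat_lit 1) (nat_lit 262) (nat_lit 265)))))) (n (nat_lit 265) (b (n (nat_lit 314) (b (b (n (nat_lit 286) (b (l (nat_lit 0) (nat_lit 286) (nat_lit 315)) (l (nat_lit 1) (nat_lit 261) (nat_lit 264)))) (n (nat_lit 240) (b (n (nat_lit 339) (b (l (nat_lit 6) (nat_lit 239) (nat_lit 315)) (l (nat_lit 5) (nat_lit 264) (nat_lit 364)))) (l (nat_lit 6) (nat_lit 214) (nat_lit 215))))) (n (nat_lit 339) (b (n (nat_lit 240) (b (l (nat_lit 6) (nat_lit 214) (nat_lit 215)) (l (nat_lit 5) (nat_lit 239) (nat_lit 264)))) (l (nat_lit 5) (nat_lit 264) (nat_lit 364)))))) (l (nat_lit 1) (nat_lit 262) (nat_lit 266))))) (b (n (nat_lit 263) (b (n (nat_lit 286) (b (n (nat_lit 264) (b (l (nat_lit 1) (nat_lit 261) (nat_lit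 265)) (l (nat_lit 1) (nat_lit 260) (nat_lit 285)))) (n (nat_lit 315) (b (l (nat_lit 0) (nat_lit 287) (nat_lit 316)) (l (nat_lit 0) (nat_lit 286) (nat_lit 314)))))) (n (nat_lit 337) (b (n (nat_lit 238) (b (l (nat_lit 6) (nat_lit 212) (nat_lit 213)) (l (nat_lit 5) (nat_lit 237) (nat_lit 262)))) (l (nat_lit 5) (nat_lit 262) (nat_lit 362)))))) (n (nat_lit 291) (b (n (nat_lit 292) (b (n (nat_lit 267) (b (l (nat_lit 1) (nat_lit 263) (nat_lit 266)) (l (nat_lit 1) (nat_lit 264) (nat_lit 268)))) (n (nat_lit 263) (b (l (nat_lit 3) (nat_lit 263) (nat_lit 264)) (l (nat_lit 3) (nat_lit 262) (nat_lit 262)))))) (n (nat_lit 316) (b (l (nat_lit 0) (nat_lit 288) (nat_lit 317)) (l (nat_lit 0) (nat_lit 287) (nat_lit 315)))))))) (n (nat_lit 291) (b (n (nat_lit 292) (b (n (nat_lit 317) (b (l (nat_lit 0) (nat_lit 288) (nat_lit 316)) (l (nat_lit 0) (nat_lit 289) (nat_lit 318)))) (n (nat_lit 263) (b (l (nat_lit 3) (nat_lit 263) (nat_lit 264)) (l (nat_lit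 3) (nat_lit 262) (nat_lit 262)))))) (n (nat_lit 266) (b (l (nat_lit 1) (nat_lit 263) (nat_lit 267)) (l (nat_lit 1) (nat_lit 262) (nat_lit 265))))))))
    envOK_nil (by decide +kernel)

theorem p6906 : Fam (nat_lit 5) (nat_lit 8343701224028191546055461622408243498244964917166240372659571682295459153178740945527353901056) (nat_lit 16426660086912893543187980730359994683401830518468878293663160813370932200830653188722380505088) (nat_lit 16426660086912893543187980730359994683401830518468878293663160813370932200830653188722380505088) :=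
  chk_sound Env.nil
    (n (nat_lit 285) (b (b (n (nat_lit 310) (b (l (nat_lit 2) (nat_lit 284) (nat_lit 309)) (l (nat_lit 2) (nat_lit 285) (nat_lit 311)))) (n (nat_lit 284) (b (n (nat_lit 283) (b (n (nat_lit 308) (b (l (nat_lit 2) (nat_lit 283) (nat_lit 309)) (l (nat_lit 2) (nat_lit 282) (nat_lit 307)))) (l (nat_lit 0) (nat_lit 283) (nat_lit 311)))) (n (nat_lit 259) (b (l (nat_lit 3) (nat_lit 258) (nat_lit 258)) (l (nat_lit 3) (nat_lit 259) (nat_lit 260))))))) (b (n (nat_lit 284) (b (n (nat_lit 311) (b (l (nat_lit 2) (nat_lit 285) (nat_lit 310)) (l (nat_lit 0) (nat_lit 283) (nat_lit 283)))) (n (nat_lit 259) (b (l (nat_lit 3) (nat_lit 258) (nat_lit 258)) (l (nat_lit 3) (nat_lit 259) (nat_lit 260)))))) (n (nat_lit 284) (b (n (nat_lit 259) (b (l (nat_lit 3) (nat_lit 258) (nat_lit 258)) (l (nat_lit 3) (nat_lit 259) (nat_lit 260)))) (n (nat_lit 309) (b (l (nat_lit 2) (nat_lit 283) (nat_lit 308)) (l (nat_lit 2) (nat_lit 284) (nat_lit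 310)))))))))
    envOK_nil (by decide +kernel)

theorem p6999 : Fam (nat_lit 13) (nat_lit 8343700105050909624035516772798185167898074691139901078627207441251511143569872667327258951680) (nat_lit 105768960010494710732591926052001565047651268384710775094559335095106640736374906907788201603302970673648119157984087817322496) (nat_lit 105768960010494710732591926052001565047651268384710775094559335095106640736374906907788201603302970673648119157984087817322496) :=
  chk_sound (Env.cons (nat_lit 5) (nat_lit 8343701224028191546055461622408243498244964917166240372659571682295459153178740945527353901056) (nat_lit 16426660086912893543187980730359994683401830518468878293663160813370932200830653188722380505088) Env.nil)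
    (n (nat_lit 289) (b (b (n (nat_lit 290) (b (b (n (nat_lit 291) (b (n (nat_lit 316) (b (l (nat_lit 0) (nat_lit 288) (nat_lit 317)) (l (nat_lit 0) (nat_lit 287) (nat_lit 315)))) (l (nat_lit 2) (nat_lit 287) (nat_lit 313)))) (n (nat_lit 291) (b (n (nat_lit 266) (b (l (nat_lit 1) (nat_lit 263) (nat_lit 267)) (l (nat_lit 1) (nat_lit 262) (nat_lit 265)))) (l (nat_lit 2) (nat_lit 287) (nat_lit 313))))) (n (nat_lit 315) (b (n (nat_lit 265) (b (n (nat_lit 314) (b (n (nat_lit 240) (b (l (nat_lit 6) (nat_lit 239) (nat_lit 339)) (l (nat_lit 6) (nat_lit 214) (nat_lit 215)))) (l (nat_lit 0) (nat_lit 286) (nat_lit 286)))) (l (nat_lit 1) (nat_lit 262) (nat_lit 266)))) (l (nat_lit 0) (nat_lit 287) (nat_lit 316)))))) (n (nat_lit 290) (b (n (nat_lit 291) (b (n (nat_lit 316) (b (l (nat_lit 0) (nat_lit 288) (nat_lit 317)) (l (nat_lit 0) (nat_lit 287) (nat_lit 315)))) (n (nat_lit 266) (b (l (nat_lit 1) (nat_lit 263) (nat_lit 267)) (l (nat_lit 1) (nat_lit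 262) (nat_lit 265)))))) (l (nat_lit 2) (nat_lit 286) (nat_lit 311))))) (b (n (nat_lit 311) (b (n (nat_lit 310) (b (l (nat_lit 1) (nat_lit 285) (nat_lit 313)) (l (nat_lit 1) (nat_lit 284) (nat_lit 309)))) (l (nat_lit 2) (nat_lit 286) (nat_lit 290)))) (n (nat_lit 286) (b (b (r (nat_lit 0)) (n (nat_lit 314) (b (n (nat_lit 285) (b (n (nat_lit 284) (b (n (nat_lit 283) (b (n (nat_lit 308) (b (l (nat_lit 2) (nat_lit 283) (nat_lit 309)) (l (nat_lit 2) (nat_lit 282) (nat_lit 307)))) (l (nat_lit 0) (nat_lit 283) (nat_lit 311)))) (n (nat_lit 259) (b (l (nat_lit 3) (nat_lit 258) (nat_lit 258)) (l (nat_lit 3) (nat_lit 259) (nat_lit 260)))))) (l (nat_lit 0) (nat_lit 285) (nat_lit 313)))) (l (nat_lit 0) (nat_lit 286) (nat_lit 315))))) (b (n (nat_lit 285) (b (n (nat_lit 284) (b (n (nat_lit 259) (b (l (nat_lit 3) (nat_lit 258) (nat_lit 258)) (l (nat_lit 3) (nat_lit 259) (nat_lit 260)))) (n (nat_lit 309) (b (l (nat_lit 2) (nat_lit 283) (nat_lit 308))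 (l (nat_lit 2) (nat_lit 284) (nat_lit 310)))))) (n (nat_lit 314) (b (l (nat_lit 0) (nat_lit 286) (nat_lit 315)) (l (nat_lit 0) (nat_lit 285) (nat_lit 313)))))) (n (nat_lit 311) (b (n (nat_lit 314) (b (n (nat_lit 361) (b (b (n (nat_lit 362) (b (b (n (nat_lit 363) (b (b (n (nat_lit 337) (b (l (nat_lit 6) (nat_lit 286) (nat_lit 386)) (l (nat_lit 4) (nat_lit 287) (nat_lit 388)))) (n (nat_lit 364) (b (n (nat_lit 339) (b (n (nat_lit 390) (b (l (nat_lit 4) (nat_lit 289) (nat_lit 365)) (l (nat_lit 0) (nat_lit 361) (nat_lit 389)))) (l (nat_lit 1) (nat_lit 336) (nat_lit 340)))) (n (nat_lit 386) (b (l (nat_lit 2) (nat_lit 360) (nat_lit 385)) (l (nat_lit 6) (nat_lit 286) (nat_lit 337))))))) (b (n (nat_lit 364) (b (b (n (nat_lit 360) (b (n (nat_lit 389) (b (l (nat_lit 0) (nat_lit 360) (nat_lit 388)) (l (nat_lit 0) (nat_lit 361) (nat_lit 390)))) (n (nat_lit 385) (b (l (nat_lit 2) (nat_lit 360) (nat_lit 386)) (l (nat_lit 2) (nat_lit 359) (nat_lit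 384)))))) (n (nat_lit 339) (b (l (nat_lit 1) (nat_lit 336) (nat_lit 340)) (l (nat_lit 6) (nat_lit 288) (nat_lit 388))))) (n (nat_lit 339) (b (n (nat_lit 390) (b (l (nat_lit 4) (nat_lit 289) (nat_lit 365)) (l (nat_lit 0) (nat_lit 361) (nat_lit 389)))) (l (nat_lit 1) (nat_lit 336) (nat_lit 340)))))) (n (nat_lit 388) (b (n (nat_lit 364) (b (n (nat_lit 389) (b (l (nat_lit 0) (nat_lit 360) (nat_lit 360)) (l (nat_lit 0) (nat_lit 361) (nat_lit 390)))) (l (nat_lit 6) (nat_lit 288) (nat_lit 339)))) (l (nat_lit 4) (nat_lit 287) (nat_lit 337))))))) (n (nat_lit 337) (b (l (nat_lit 7) (nat_lit 286) (nat_lit 387)) (l (nat_lit 6) (nat_lit 286) (nat_lit 386))))) (b (n (nat_lit 264) (b (n (nat_lit 339) (b (b (n (nat_lit 364) (b (b (n (nat_lit 313) (b (l (nat_lit 7) (nat_lit 288) (nat_lit 389)) (l (nat_lit 0) (nat_lit 311) (nat_lit 340)))) (n (nat_lit 363) (b (l (nat_lit 1) (nat_lit 336) (nat_lit 340)) (l (nat_lit 6) (nat_lit 288) (nat_lit 388)))))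 (n (nat_lit 363) (b (n (nat_lit 389) (b (l (nat_lit 7) (nat_lit 288) (nat_lit 313)) (l (nat_lit 0) (nat_lit 361) (nat_lit 390)))) (l (nat_lit 6) (nat_lit 288) (nat_lit 388)))))) (n (nat_lit 364) (b (b (n (nat_lit 365) (b (l (nat_lit 4) (nat_lit 289) (nat_lit 390)) (l (nat_lit 4) (nat_lit 264) (nat_lit 340)))) (n (nat_lit 363) (b (n (nat_lit 390) (b (l (nat_lit 4) (nat_lit 289) (nat_lit 365)) (l (nat_lit 0) (nat_lit 361) (nat_lit 389)))) (l (nat_lit 6) (nat_lit 288) (nat_lit 388))))) (n (nat_lit 363) (b (l (nat_lit 1) (nat_lit 336) (nat_lit 340)) (l (nat_lit 6) (nat_lit 288) (nat_lit 388))))))) (b (n (nat_lit 340) (b (l (nat_lit 0) (nat_lit 311) (nat_lit 313)) (l (nat_lit 4) (nat_lit 264) (nat_lit 365)))) (n (nat_lit 364) (b (b (n (nat_lit 363) (b (n (nat_lit 365) (b (n (nat_lit 386) (b (l (nat_lit 2) (nat_lit 361) (nat_lit 387)) (l (nat_lit 2) (nat_lit 360) (nat_lit 385)))) (l (nat_lit 4) (nat_lit 289) (nat_lit 390)))) (l (nat_lit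 6) (nat_lit 288) (nat_lit 388)))) (n (nat_lit 389) (b (n (nat_lit 390) (b (l (nat_lit 4) (nat_lit 314) (nat_lit 415)) (l (nat_lit 4) (nat_lit 289) (nat_lit 365)))) (l (nat_lit 7) (nat_lit 288) (nat_lit 313))))) (n (nat_lit 389) (b (n (nat_lit 388) (b (l (nat_lit 6) (nat_lit 313) (nat_lit 413)) (l (nat_lit 6) (nat_lit 288) (nat_lit 363)))) (l (nat_lit 7) (nat_lit 288) (nat_lit 313))))))))) (l (nat_lit 1) (nat_lit 261) (nat_lit 265)))) (n (nat_lit 264) (b (n (nat_lit 339) (b (b (n (nat_lit 364) (b (b (n (nat_lit 365) (b (l (nat_lit 4) (nat_lit 289) (nat_lit 390)) (l (nat_lit 4) (nat_lit 264) (nat_lit 340)))) (n (nat_lit 363) (b (n (nat_lit 390) (b (l (nat_lit 4) (nat_lit 289) (nat_lit 365)) (l (nat_lit 0) (nat_lit 361) (nat_lit 389)))) (l (nat_lit 6) (nat_lit 288) (nat_lit 388))))) (n (nat_lit 363) (b (l (nat_lit 1) (nat_lit 336) (nat_lit 340)) (l (nat_lit 6) (nat_lit 288) (nat_lit 388)))))) (n (nat_lit 340) (b (l (nat_lit 0) (nat_lit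 311) (nat_lit 313)) (l (nat_lit 4) (nat_lit 264) (nat_lit 365))))) (n (nat_lit 388) (b (b (n (nat_lit 364) (b (n (nat_lit 389) (b (l (nat_lit 6) (nat_lit 313) (nat_lit 413)) (l (nat_lit 7) (nat_lit 288) (nat_lit 313)))) (l (nat_lit 6) (nat_lit 288) (nat_lit 363)))) (n (nat_lit 337) (b (l (nat_lit 7) (nat_lit 286) (nat_lit 387)) (l (nat_lit 4) (nat_lit 287) (nat_lit 363))))) (n (nat_lit 389) (b (n (nat_lit 364) (b (l (nat_lit 6) (nat_lit 313) (nat_lit 413)) (l (nat_lit 7) (nat_lit 288) (nat_lit 313)))) (n (nat_lit 387) (b (l (nat_lit 3) (nat_lit 361) (nat_lit 390)) (l (nat_lit 7) (nat_lit 286) (nat_lit 337)))))))))) (l (nat_lit 1) (nat_lit 261) (nat_lit 265))))))) (n (nat_lit 336) (b (l (nat_lit 5) (nat_lit 286) (nat_lit 386)) (l (nat_lit 5) (nat_lit 261) (nat_lit 262))))) (n (nat_lit 336) (b (n (nat_lit 362) (b (n (nat_lit 335) (b (n (nat_lit 334) (b (n (nat_lit 363) (b (l (nat_lit 3) (nat_lit 334) (nat_lit 360)) (l (nat_lit 3) (nat_lit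 335) (nat_lit 364)))) (l (nat_lit 1) (nat_lit 308) (nat_lit 333)))) (l (nat_lit 2) (nat_lit 310) (nat_lit 313)))) (l (nat_lit 4) (nat_lit 286) (nat_lit 387)))) (l (nat_lit 5) (nat_lit 261) (nat_lit 262)))))) (l (nat_lit 0) (nat_lit 286) (nat_lit 315)))) (l (nat_lit 2) (nat_lit 285) (nat_lit 310))))))))))
    (envOK_cons p6906 envOK_nil) (by decide +kernel)

theorem p7049 : Fam (nat_lit 17) (nat_lit 8343700105050909624035516772798185167898074691139901078627207441251511143569872667327258951680) (nat_lit 26442246159188306636991159869458129627312039181662136640433749980543754853623049589355760240256974743805251224369215507005440) (nat_lit 26442246159188306636991159869458129627312039181662136640433749980543754853623049589355760240256974743805251224369215507005440) :=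
  chk_sound Env.nil
    (n (nat_lit 337) (b (b (n (nat_lit 362) (b (b (n (nat_lit 387) (b (n (nat_lit 388) (b (l (nat_lit 4) (nat_lit 312) (nat_lit 413)) (l (nat_lit 4) (nat_lit 287) (nat_lit 363)))) (l (nat_lit 5) (nat_lit 287) (nat_lit 313)))) (n (nat_lit 387) (b (n (nat_lit 386) (b (l (nat_lit 6) (nat_lit 311) (nat_lit 411)) (l (nat_lit 6) (nat_lit 286) (nat_lit 361)))) (l (nat_lit 5) (nat_lit 287) (nat_lit 313))))) (n (nat_lit 361) (b (n (nat_lit 363) (b (n (nat_lit 336) (b (n (nat_lit 335) (b (l (nat_lit 3) (nat_lit 335) (nat_lit 364)) (l (nat_lit 0) (nat_lit 334) (nat_lit 334)))) (l (nat_lit 6) (nat_lit 261) (nat_lit 262)))) (l (nat_lit 4) (nat_lit 287) (nat_lit 388)))) (l (nat_lit 6) (nat_lit 286) (nat_lit 386)))))) (n (nat_lit 263) (b (n (nat_lit 238) (b (l (nat_lit 6) (nat_lit 237) (nat_lit 313)) (l (nat_lit 6) (nat_lit 212) (nat_lit 213)))) (l (nat_lit 5) (nat_lit 262) (nat_lit 362))))) (b (n (nat_lit 362) (b (n (nat_lit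 387) (b (n (nat_lit 388) (b (l (nat_lit 4) (nat_lit 312) (nat_lit 413)) (l (nat_lit 4) (nat_lit 287) (nat_lit 363)))) (n (nat_lit 386) (b (l (nat_lit 6) (nat_lit 311) (nat_lit 411)) (l (nat_lit 6) (nat_lit 286) (nat_lit 361)))))) (l (nat_lit 5) (nat_lit 262) (nat_lit 263)))) (n (nat_lit 262) (b (b (n (nat_lit 237) (b (n (nat_lit 238) (b (l (nat_lit 5) (nat_lit 237) (nat_lit 263)) (l (nat_lit 5) (nat_lit 212) (nat_lit 213)))) (n (nat_lit 336) (b (l (nat_lit 6) (nat_lit 261) (nat_lit 361)) (l (nat_lit 6) (nat_lit 236) (nat_lit 311)))))) (n (nat_lit 237) (b (n (nat_lit 212) (b (n (nat_lit 211) (b (l (nat_lit 7) (nat_lit 211) (nat_lit 236)) (l (nat_lit 7) (nat_lit 186) (nat_lit 186)))) (l (nat_lit 4) (nat_lit 212) (nat_lit 313)))) (n (nat_lit 238) (b (l (nat_lit 5) (nat_lit 237) (nat_lit 263)) (l (nat_lit 5) (nat_lit 212) (nat_lit 213))))))) (b (n (nat_lit 237) (b (n (nat_lit 212) (b (n (nat_lit 211) (b (l (nat_lit 7) (nat_lit 211) (nat_lit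 236)) (l (nat_lit 7) (nat_lit 186) (nat_lit 186)))) (l (nat_lit 4) (nat_lit 212) (nat_lit 313)))) (n (nat_lit 336) (b (l (nat_lit 6) (nat_lit 261) (nat_lit 361)) (l (nat_lit 6) (nat_lit 236) (nat_lit 311)))))) (n (nat_lit 263) (b (n (nat_lit 290) (b (b (n (nat_lit 289) (b (l (nat_lit 3) (nat_lit 262) (nat_lit 291)) (l (nat_lit 2) (nat_lit 286) (nat_lit 311)))) (n (nat_lit 265) (b (b (n (nat_lit 264) (b (n (nat_lit 240) (b (n (nat_lit 315) (b (n (nat_lit 314) (b (n (nat_lit 336) (b (l (nat_lit 2) (nat_lit 311) (nat_lit 313)) (l (nat_lit 6) (nat_lit 261) (nat_lit 361)))) (l (nat_lit 6) (nat_lit 239) (nat_lit 339)))) (n (nat_lit 239) (b (l (nat_lit 7) (nat_lit 214) (nat_lit 214)) (l (nat_lit 7) (nat_lit 239) (nat_lit 340)))))) (l (nat_lit 1) (nat_lit 237) (nat_lit 241)))) (l (nat_lit 0) (nat_lit 262) (nat_lit 291)))) (n (nat_lit 264) (b (n (nat_lit 240) (b (n (nat_lit 315) (b (n (nat_lit 314) (b (n (nat_lit 336) (b (l (nat_lit 2) (nat_lit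 311) (nat_lit 313)) (l (nat_lit 6) (nat_lit 261) (nat_lit 361)))) (l (nat_lit 6) (nat_lit 239) (nat_lit 339)))) (n (nat_lit 239) (b (l (nat_lit 7) (nat_lit 214) (nat_lit 214)) (l (nat_lit 7) (nat_lit 239) (nat_lit 340)))))) (l (nat_lit 1) (nat_lit 237) (nat_lit 241)))) (l (nat_lit 2) (nat_lit 262) (nat_lit 266))))) (b (n (nat_lit 264) (b (l (nat_lit 2) (nat_lit 262) (nat_lit 266)) (l (nat_lit 0) (nat_lit 262) (nat_lit 291)))) (n (nat_lit 315) (b (b (b (n (nat_lit 240) (b (n (nat_lit 215) (b (n (nat_lit 216) (b (l (nat_lit 5) (nat_lit 190) (nat_lit 191)) (l (nat_lit 5) (nat_lit 215) (nat_lit 241)))) (n (nat_lit 214) (b (l (nat_lit 7) (nat_lit 214) (nat_lit 239)) (l (nat_lit 7) (nat_lit 189) (nat_lit 189)))))) (n (nat_lit 316) (b (n (nat_lit 314) (b (l (nat_lit 6) (nat_lit 239) (nat_lit 339)) (l (nat_lit 3) (nat_lit 287) (nat_lit 313)))) (l (nat_lit 4) (nat_lit 240) (nat_lit 341)))))) (n (nat_lit 340) (b (b (n (nat_lit 314) (b (n (nat_lit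 341) (b (l (nat_lit 0) (nat_lit 312) (nat_lit 313)) (l (nat_lit 4) (nat_lit 265) (nat_lit 366)))) (n (nat_lit 339) (b (l (nat_lit 6) (nat_lit 239) (nat_lit 240)) (l (nat_lit 6) (nat_lit 264) (nat_lit 364)))))) (n (nat_lit 365) (b (n (nat_lit 266) (b (l (nat_lit 5) (nat_lit 265) (nat_lit 291)) (l (nat_lit 5) (nat_lit 240) (nat_lit 241)))) (n (nat_lit 366) (b (l (nat_lit 4) (nat_lit 265) (nat_lit 341)) (l (nat_lit 4) (nat_lit 290) (nat_lit 391))))))) (n (nat_lit 365) (b (n (nat_lit 266) (b (l (nat_lit 5) (nat_lit 265) (nat_lit 291)) (l (nat_lit 5) (nat_lit 240) (nat_lit 241)))) (n (nat_lit 364) (b (l (nat_lit 6) (nat_lit 289) (nat_lit 389)) (l (nat_lit 6) (nat_lit 264) (nat_lit 339))))))))) (b (n (nat_lit 240) (b (b (n (nat_lit 340) (b (n (nat_lit 341) (b (l (nat_lit 4) (nat_lit 240) (nat_lit 316)) (l (nat_lit 4) (nat_lit 265) (nat_lit 366)))) (n (nat_lit 241) (b (l (nat_lit 5) (nat_lit 240) (nat_lit 266)) (l (nat_lit 5) (nat_lit 215)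 (nat_lit 216)))))) (n (nat_lit 215) (b (n (nat_lit 216) (b (l (nat_lit 5) (nat_lit 190) (nat_lit 191)) (l (nat_lit 5) (nat_lit 215) (nat_lit 241)))) (n (nat_lit 214) (b (l (nat_lit 7) (nat_lit 214) (nat_lit 239)) (l (nat_lit 7) (nat_lit 189) (nat_lit 189))))))) (n (nat_lit 215) (b (n (nat_lit 214) (b (l (nat_lit 7) (nat_lit 214) (nat_lit 239)) (l (nat_lit 7) (nat_lit 189) (nat_lit 189)))) (n (nat_lit 316) (b (l (nat_lit 4) (nat_lit 240) (nat_lit 341)) (l (nat_lit 4) (nat_lit 215) (nat_lit 291)))))))) (n (nat_lit 314) (b (n (nat_lit 313) (b (l (nat_lit 1) (nat_lit 287) (nat_lit 291)) (l (nat_lit 3) (nat_lit 287) (nat_lit 316)))) (n (nat_lit 339) (b (n (nat_lit 364) (b (l (nat_lit 5) (nat_lit 289) (nat_lit 389)) (l (nat_lit 6) (nat_lit 264) (nat_lit 340)))) (l (nat_lit 6) (nat_lit 239) (nat_lit 240)))))))) (n (nat_lit 336) (b (n (nat_lit 314) (b (n (nat_lit 340) (b (b (n (nat_lit 365) (b (n (nat_lit 266) (b (l (nat_lit 5) (nat_lit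 265) (nat_lit 291)) (l (nat_lit 5) (nat_lit 240) (nat_lit 241)))) (n (nat_lit 364) (b (l (nat_lit 6) (nat_lit 289) (nat_lit 389)) (l (nat_lit 6) (nat_lit 264) (nat_lit 339)))))) (n (nat_lit 365) (b (n (nat_lit 266) (b (l (nat_lit 5) (nat_lit 265) (nat_lit 291)) (l (nat_lit 5) (nat_lit 240) (nat_lit 241)))) (n (nat_lit 366) (b (l (nat_lit 4) (nat_lit 265) (nat_lit 341)) (l (nat_lit 4) (nat_lit 290) (nat_lit 391))))))) (b (n (nat_lit 365) (b (n (nat_lit 366) (b (l (nat_lit 4) (nat_lit 265) (nat_lit 341)) (l (nat_lit 4) (nat_lit 290) (nat_lit 391)))) (n (nat_lit 364) (b (l (nat_lit 6) (nat_lit 289) (nat_lit 389)) (l (nat_lit 6) (nat_lit 264) (nat_lit 339)))))) (n (nat_lit 341) (b (n (nat_lit 342) (b (n (nat_lit 339) (b (n (nat_lit 317) (b (n (nat_lit 266) (b (n (nat_lit 367) (b (n (nat_lit 291) (b (l (nat_lit 4) (nat_lit 266) (nat_lit 316)) (l (nat_lit 7) (nat_lit 266) (nat_lit 292)))) (l (nat_lit 0) (nat_lit 339) (nat_lit 368)))) (l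 (nat_lit 5) (nat_lit 240) (nat_lit 241)))) (l (nat_lit 1) (nat_lit 314) (nat_lit 318)))) (l (nat_lit 6) (nat_lit 264) (nat_lit 364)))) (l (nat_lit 3) (nat_lit 314) (nat_lit 343)))) (l (nat_lit 4) (nat_lit 265) (nat_lit 366))))))) (l (nat_lit 2) (nat_lit 311) (nat_lit 313)))) (l (nat_lit 6) (nat_lit 261) (nat_lit 361)))))))))) (n (nat_lit 289) (b (n (nat_lit 265) (b (n (nat_lit 315) (b (n (nat_lit 314) (b (n (nat_lit 339) (b (l (nat_lit 5) (nat_lit 264) (nat_lit 364)) (l (nat_lit 6) (nat_lit 239) (nat_lit 240)))) (n (nat_lit 336) (b (l (nat_lit 2) (nat_lit 311) (nat_lit 313)) (l (nat_lit 6) (nat_lit 261) (nat_lit 361)))))) (l (nat_lit 0) (nat_lit 287) (nat_lit 316)))) (l (nat_lit 1) (nat_lit 262) (nat_lit 266)))) (l (nat_lit 2) (nat_lit 286) (nat_lit 311)))))) (l (nat_lit 5) (nat_lit 237) (nat_lit 238))))))))))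
    envOK_nil (by decide +kernel)

theorem p7086 : Fam (nat_lit 18) (nat_lit 8343699607727673214248874617415937021077234590683750281279490000787534250410375654793883418624) (nat_lit 112379524741855043769119794488631909694620895463971930136473386567611176862153673251362880860302585266886155012446893450985472) (nat_lit 112379524741855043769119794488631909694620895463971930136473386567611176862153673251362880860302585266886155012446893450985472) :=
  chk_sound (Env.cons (nat_lit 12) (nat_lit 8343700105050909624035516772798185167898074691139901078627207441251511143569872667327258951680) (nat_lit 27764351910652782963801715035311130946965588027542409376782151847971788799005766043171213323775946375152811060425459488522240) (Env.cons (nat_lit 17) (nat_lit 8343700105050909624035516772798185167898074691139901078627207441251511143569872667327258951680) (nat_lit 26442239854866187913400038420360977119063277756835273946960023754271089322226283118361462886485300193720164816170887759790080)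 (Env.cons (nat_lit 6) (nat_lit 8343701099697382443608801083562681461539754892052202673322642322179464929888866692394010017792) (nat_lit 46970853055318171381352978970166055399731958148168919122875516619463153649506274164280188683916167959468310528) (Env.cons (nat_lit 5) (nat_lit 8343701224028191546055461622408243498244964917166240372659571682295459153178740945527353901056) (nat_lit 16426660086912893543187980730359994683401830518468878293663160813370932200830653188722380505088) (Env.cons (nat_lit 13) (nat_lit 8343700105050909624035516772798185167898074691139901078627207441251511143569872667327258951680) (nat_lit 105768960010494710732591926052001565047651268384710775094559335095106640736374906907788201603302970673648119157984087817322496) (Env.cons (nat_lit 17) (nat_lit 8343700105050909624035516772798185167898074691139901078627207441251511143569872667327258951680) (nat_lit 26442246159188306636991159869458129627312039181662136640433749980543754853623049589355760240256974743805251224369215507005440)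 (Env.cons (nat_lit 7) (nat_lit 8343700105050909624035516772798185167898074691139901078627207441251511143569872667327258951680) (nat_lit 112730047332761641159205870915855064737826263299873834030322087940453402203702701708808283762520326833761681408) (Env.cons (nat_lit 7) (nat_lit 8343701099697382443608801083562681461539754892052202673322642322179464929888866692394010017792) (nat_lit 225460095785395113152772203914898919335768474049270161552597812361138831185357463664778391239770424769249280000) Env.nil))))))))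
    (n (nat_lit 288) (b (b (b (b (r (nat_lit 0)) (r (nat_lit 1))) (b (n (nat_lit 289) (b (b (r (nat_lit 2)) (n (nat_lit 290) (b (n (nat_lit 291) (b (n (nat_lit 316) (b (l (nat_lit 0) (nat_lit 288) (nat_lit 317)) (l (nat_lit 0) (nat_lit 287) (nat_lit 315)))) (n (nat_lit 266) (b (l (nat_lit 1) (nat_lit 263) (nat_lit 267)) (l (nat_lit 1) (nat_lit 262) (nat_lit 265)))))) (l (nat_lit 2) (nat_lit 286) (nat_lit 311))))) (b (n (nat_lit 311) (b (n (nat_lit 310) (b (l (nat_lit 1) (nat_lit 284) (nat_lit 309)) (l (nat_lit 2) (nat_lit 285) (nat_lit 286)))) (l (nat_lit 2) (nat_lit 286) (nat_lit 290)))) (n (nat_lit 286) (b (b (r (nat_lit 3)) (n (nat_lit 263) (b (n (nat_lit 337) (b (n (nat_lit 238) (b (l (nat_lit 6) (nat_lit 212) (nat_lit 213)) (l (nat_lit 5) (nat_lit 237) (nat_lit 262)))) (l (nat_lit 5) (nat_lit 262) (nat_lit 362)))) (n (nat_lit 264) (b (l (nat_lit 1) (nat_lit 261) (nat_lit 265)) (l (nat_lit 1) (nat_lit 260) (nat_lit 285)))))))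 (n (nat_lit 264) (b (n (nat_lit 311) (b (n (nat_lit 314) (b (n (nat_lit 262) (b (n (nat_lit 336) (b (l (nat_lit 5) (nat_lit 261) (nat_lit 361)) (l (nat_lit 6) (nat_lit 236) (nat_lit 237)))) (n (nat_lit 239) (b (b (n (nat_lit 238) (b (n (nat_lit 263) (b (l (nat_lit 5) (nat_lit 237) (nat_lit 337)) (l (nat_lit 7) (nat_lit 238) (nat_lit 339)))) (l (nat_lit 7) (nat_lit 213) (nat_lit 213)))) (n (nat_lit 263) (b (n (nat_lit 214) (b (n (nat_lit 215) (b (l (nat_lit 5) (nat_lit 214) (nat_lit 240)) (l (nat_lit 5) (nat_lit 189) (nat_lit 190)))) (l (nat_lit 6) (nat_lit 188) (nat_lit 189)))) (n (nat_lit 337) (b (l (nat_lit 5) (nat_lit 237) (nat_lit 238)) (l (nat_lit 5) (nat_lit 262) (nat_lit 362))))))) (b (n (nat_lit 214) (b (n (nat_lit 189) (b (n (nat_lit 188) (b (l (nat_lit 7) (nat_lit 188) (nat_lit 213)) (l (nat_lit 7) (nat_lit 163) (nat_lit 163)))) (l (nat_lit 6) (nat_lit 188) (nat_lit 263)))) (n (nat_lit 215) (b (l (nat_lit 5) (nat_lit 214)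 (nat_lit 240)) (l (nat_lit 5) (nat_lit 189) (nat_lit 190)))))) (n (nat_lit 214) (b (n (nat_lit 215) (b (l (nat_lit 5) (nat_lit 214) (nat_lit 240)) (l (nat_lit 5) (nat_lit 189) (nat_lit 190)))) (n (nat_lit 213) (b (l (nat_lit 7) (nat_lit 188) (nat_lit 188)) (l (nat_lit 7) (nat_lit 213) (nat_lit 238))))))))))) (l (nat_lit 0) (nat_lit 286) (nat_lit 315)))) (l (nat_lit 2) (nat_lit 285) (nat_lit 310)))) (l (nat_lit 1) (nat_lit 261) (nat_lit 265))))))))) (n (nat_lit 289) (b (b (n (nat_lit 290) (b (b (n (nat_lit 291) (b (n (nat_lit 316) (b (l (nat_lit 0) (nat_lit 288) (nat_lit 317)) (l (nat_lit 0) (nat_lit 287) (nat_lit 315)))) (l (nat_lit 2) (nat_lit 287) (nat_lit 313)))) (n (nat_lit 291) (b (n (nat_lit 266) (b (l (nat_lit 1) (nat_lit 263) (nat_lit 267)) (l (nat_lit 1) (nat_lit 262) (nat_lit 265)))) (l (nat_lit 2) (nat_lit 287) (nat_lit 313))))) (n (nat_lit 265) (b (n (nat_lit 315) (b (n (nat_lit 264) (b (n (nat_lit 340) (b (l (nat_lit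 7) (nat_lit 264) (nat_lit 365)) (l (nat_lit 7) (nat_lit 239) (nat_lit 239)))) (l (nat_lit 1) (nat_lit 261) (nat_lit 286)))) (l (nat_lit 0) (nat_lit 287) (nat_lit 316)))) (l (nat_lit 1) (nat_lit 262) (nat_lit 266)))))) (n (nat_lit 290) (b (n (nat_lit 291) (b (n (nat_lit 316) (b (l (nat_lit 0) (nat_lit 288) (nat_lit 317)) (l (nat_lit 0) (nat_lit 287) (nat_lit 315)))) (n (nat_lit 266) (b (l (nat_lit 1) (nat_lit 263) (nat_lit 267)) (l (nat_lit 1) (nat_lit 262) (nat_lit 265)))))) (l (nat_lit 2) (nat_lit 286) (nat_lit 311))))) (b (n (nat_lit 311) (b (n (nat_lit 310) (b (l (nat_lit 1) (nat_lit 285) (nat_lit 313)) (l (nat_lit 1) (nat_lit 284) (nat_lit 309)))) (l (nat_lit 2) (nat_lit 286) (nat_lit 290)))) (n (nat_lit 286) (b (b (n (nat_lit 263) (b (n (nat_lit 337) (b (n (nat_lit 238) (b (l (nat_lit 6) (nat_lit 212) (nat_lit 213)) (l (nat_lit 5) (nat_lit 237) (nat_lit 262)))) (l (nat_lit 5) (nat_lit 262) (nat_lit 362)))) (n (nat_lit 264) (b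 (l (nat_lit 1) (nat_lit 261) (nat_lit 265)) (l (nat_lit 1) (nat_lit 260) (nat_lit 285)))))) (n (nat_lit 285) (b (n (nat_lit 314) (b (l (nat_lit 0) (nat_lit 286) (nat_lit 315)) (l (nat_lit 0) (nat_lit 285) (nat_lit 313)))) (n (nat_lit 310) (b (l (nat_lit 2) (nat_lit 284) (nat_lit 309)) (l (nat_lit 2) (nat_lit 285) (nat_lit 311))))))) (n (nat_lit 311) (b (n (nat_lit 314) (b (n (nat_lit 264) (b (n (nat_lit 239) (b (b (n (nat_lit 214) (b (n (nat_lit 215) (b (l (nat_lit 5) (nat_lit 214) (nat_lit 240)) (l (nat_lit 5) (nat_lit 189) (nat_lit 190)))) (n (nat_lit 213) (b (l (nat_lit 7) (nat_lit 188) (nat_lit 188)) (l (nat_lit 7) (nat_lit 213) (nat_lit 238)))))) (n (nat_lit 336) (b (n (nat_lit 361) (b (l (nat_lit 5) (nat_lit 261) (nat_lit 262)) (l (nat_lit 5) (nat_lit 286) (nat_lit 386)))) (n (nat_lit 313) (b (l (nat_lit 2) (nat_lit 310) (nat_lit 335)) (l (nat_lit 6) (nat_lit 213) (nat_lit 214))))))) (n (nat_lit 238) (b (n (nat_lit 262) (b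 (n (nat_lit 240) (b (n (nat_lit 263) (b (l (nat_lit 5) (nat_lit 237) (nat_lit 337)) (l (nat_lit 2) (nat_lit 237) (nat_lit 241)))) (l (nat_lit 5) (nat_lit 214) (nat_lit 215)))) (n (nat_lit 237) (b (l (nat_lit 6) (nat_lit 236) (nat_lit 336)) (l (nat_lit 6) (nat_lit 211) (nat_lit 212)))))) (l (nat_lit 7) (nat_lit 213) (nat_lit 213)))))) (l (nat_lit 1) (nat_lit 261) (nat_lit 265)))) (l (nat_lit 0) (nat_lit 286) (nat_lit 315)))) (l (nat_lit 2) (nat_lit 285) (nat_lit 310))))))))))) (b (b (n (nat_lit 337) (b (b (n (nat_lit 362) (b (b (n (nat_lit 387) (b (n (nat_lit 388) (b (l (nat_lit 4) (nat_lit 312) (nat_lit 413)) (l (nat_lit 4) (nat_lit 287) (nat_lit 363)))) (l (nat_lit 5) (nat_lit 287) (nat_lit 313)))) (n (nat_lit 387) (b (n (nat_lit 386) (b (l (nat_lit 6) (nat_lit 311) (nat_lit 411)) (l (nat_lit 6) (nat_lit 286) (nat_lit 361)))) (l (nat_lit 5) (nat_lit 287) (nat_lit 313))))) (n (nat_lit 361) (b (n (nat_lit 363) (b (n (nat_lit 336)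 (b (n (nat_lit 335) (b (l (nat_lit 3) (nat_lit 335) (nat_lit 364)) (l (nat_lit 0) (nat_lit 334) (nat_lit 334)))) (l (nat_lit 6) (nat_lit 261) (nat_lit 262)))) (l (nat_lit 4) (nat_lit 287) (nat_lit 388)))) (l (nat_lit 6) (nat_lit 286) (nat_lit 386)))))) (n (nat_lit 263) (b (n (nat_lit 238) (b (l (nat_lit 6) (nat_lit 237) (nat_lit 313)) (l (nat_lit 6) (nat_lit 212) (nat_lit 213)))) (l (nat_lit 5) (nat_lit 262) (nat_lit 362))))) (b (n (nat_lit 362) (b (n (nat_lit 387) (b (n (nat_lit 388) (b (l (nat_lit 4) (nat_lit 312) (nat_lit 413)) (l (nat_lit 4) (nat_lit 287) (nat_lit 363)))) (n (nat_lit 386) (b (l (nat_lit 6) (nat_lit 311) (nat_lit 411)) (l (nat_lit 6) (nat_lit 286) (nat_lit 361)))))) (l (nat_lit 5) (nat_lit 262) (nat_lit 263)))) (n (nat_lit 311) (b (b (n (nat_lit 262) (b (b (n (nat_lit 237) (b (n (nat_lit 212) (b (l (nat_lit 4) (nat_lit 212) (nat_lit 313)) (l (nat_lit 6) (nat_lit 211) (nat_lit 286)))) (n (nat_lit 238) (b (l (nat_lit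 5) (nat_lit 237) (nat_lit 263)) (l (nat_lit 5) (nat_lit 212) (nat_lit 213)))))) (n (nat_lit 336) (b (l (nat_lit 6) (nat_lit 261) (nat_lit 361)) (l (nat_lit 6) (nat_lit 236) (nat_lit 237))))) (n (nat_lit 336) (b (n (nat_lit 263) (b (n (nat_lit 314) (b (b (n (nat_lit 286) (b (n (nat_lit 285) (b (l (nat_lit 1) (nat_lit 260) (nat_lit 264)) (l (nat_lit 1) (nat_lit 259) (nat_lit 284)))) (n (nat_lit 289) (b (l (nat_lit 0) (nat_lit 286) (nat_lit 315)) (l (nat_lit 2) (nat_lit 286) (nat_lit 290)))))) (n (nat_lit 313) (b (l (nat_lit 2) (nat_lit 311) (nat_lit 315)) (l (nat_lit 2) (nat_lit 310) (nat_lit 335))))) (n (nat_lit 339) (b (n (nat_lit 289) (b (l (nat_lit 2) (nat_lit 286) (nat_lit 290)) (l (nat_lit 7) (nat_lit 263) (nat_lit 364)))) (n (nat_lit 313) (b (l (nat_lit 0) (nat_lit 311) (nat_lit 340)) (l (nat_lit 2) (nat_lit 310) (nat_lit 335)))))))) (l (nat_lit 5) (nat_lit 237) (nat_lit 238)))) (l (nat_lit 6) (nat_lit 261) (nat_lit 361))))))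 (n (nat_lit 310) (b (n (nat_lit 289) (b (l (nat_lit 1) (nat_lit 285) (nat_lit 313)) (l (nat_lit 2) (nat_lit 286) (nat_lit 290)))) (l (nat_lit 1) (nat_lit 284) (nat_lit 309))))) (b (n (nat_lit 289) (b (n (nat_lit 310) (b (l (nat_lit 1) (nat_lit 284) (nat_lit 309)) (l (nat_lit 2) (nat_lit 285) (nat_lit 286)))) (l (nat_lit 2) (nat_lit 286) (nat_lit 290)))) (n (nat_lit 336) (b (n (nat_lit 262) (b (l (nat_lit 6) (nat_lit 261) (nat_lit 361)) (l (nat_lit 6) (nat_lit 236) (nat_lit 237)))) (n (nat_lit 313) (b (n (nat_lit 335) (b (l (nat_lit 1) (nat_lit 309) (nat_lit 334)) (l (nat_lit 2) (nat_lit 310) (nat_lit 314)))) (n (nat_lit 310) (b (n (nat_lit 285) (b (n (nat_lit 286) (b (n (nat_lit 263) (b (l (nat_lit 6) (nat_lit 237) (nat_lit 238)) (l (nat_lit 1) (nat_lit 260) (nat_lit 264)))) (n (nat_lit 260) (b (l (nat_lit 4) (nat_lit 235) (nat_lit 235)) (l (nat_lit 3) (nat_lit 259) (nat_lit 259)))))) (l (nat_lit 3) (nat_lit 284) (nat_lit 284))))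 (l (nat_lit 1) (nat_lit 284) (nat_lit 309)))))))))))))) (r (nat_lit 4))) (b (r (nat_lit 5)) (n (nat_lit 289) (b (b (n (nat_lit 290) (b (b (n (nat_lit 291) (b (n (nat_lit 316) (b (l (nat_lit 0) (nat_lit 288) (nat_lit 317)) (l (nat_lit 0) (nat_lit 287) (nat_lit 315)))) (l (nat_lit 2) (nat_lit 287) (nat_lit 313)))) (n (nat_lit 291) (b (n (nat_lit 266) (b (l (nat_lit 1) (nat_lit 263) (nat_lit 267)) (l (nat_lit 1) (nat_lit 262) (nat_lit 265)))) (l (nat_lit 2) (nat_lit 287) (nat_lit 313))))) (n (nat_lit 315) (b (n (nat_lit 265) (b (n (nat_lit 314) (b (n (nat_lit 240) (b (l (nat_lit 6) (nat_lit 239) (nat_lit 339)) (l (nat_lit 6) (nat_lit 214) (nat_lit 215)))) (l (nat_lit 0) (nat_lit 286) (nat_lit 286)))) (l (nat_lit 1) (nat_lit 262) (nat_lit 266)))) (l (nat_lit 0) (nat_lit 287) (nat_lit 316)))))) (n (nat_lit 290) (b (n (nat_lit 291) (b (n (nat_lit 316) (b (l (nat_lit 0) (nat_lit 288) (nat_lit 317)) (l (nat_lit 0) (nat_lit 287) (nat_lit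 315)))) (n (nat_lit 266) (b (l (nat_lit 1) (nat_lit 263) (nat_lit 267)) (l (nat_lit 1) (nat_lit 262) (nat_lit 265)))))) (l (nat_lit 2) (nat_lit 286) (nat_lit 311))))) (b (n (nat_lit 311) (b (n (nat_lit 310) (b (l (nat_lit 1) (nat_lit 285) (nat_lit 313)) (l (nat_lit 1) (nat_lit 284) (nat_lit 309)))) (l (nat_lit 2) (nat_lit 286) (nat_lit 290)))) (n (nat_lit 286) (b (b (r (nat_lit 3)) (n (nat_lit 314) (b (n (nat_lit 285) (b (n (nat_lit 284) (b (n (nat_lit 283) (b (n (nat_lit 308) (b (l (nat_lit 2) (nat_lit 283) (nat_lit 309)) (l (nat_lit 2) (nat_lit 282) (nat_lit 307)))) (l (nat_lit 0) (nat_lit 283) (nat_lit 311)))) (n (nat_lit 259) (b (l (nat_lit 3) (nat_lit 258) (nat_lit 258)) (l (nat_lit 3) (nat_lit 259) (nat_lit 260)))))) (l (nat_lit 0) (nat_lit 285) (nat_lit 313)))) (l (nat_lit 0) (nat_lit 286) (nat_lit 315))))) (b (n (nat_lit 285) (b (n (nat_lit 284) (b (n (nat_lit 259) (b (l (nat_lit 3) (nat_lit 258) (nat_lit 258)) (l (nat_lit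 3) (nat_lit 259) (nat_lit 260)))) (n (nat_lit 309) (b (l (nat_lit 2) (nat_lit 283) (nat_lit 308)) (l (nat_lit 2) (nat_lit 284) (nat_lit 310)))))) (n (nat_lit 314) (b (l (nat_lit 0) (nat_lit 286) (nat_lit 315)) (l (nat_lit 0) (nat_lit 285) (nat_lit 313)))))) (n (nat_lit 311) (b (n (nat_lit 314) (b (n (nat_lit 313) (b (n (nat_lit 339) (b (n (nat_lit 364) (b (l (nat_lit 7) (nat_lit 288) (nat_lit 389)) (l (nat_lit 7) (nat_lit 263) (nat_lit 263)))) (l (nat_lit 0) (nat_lit 311) (nat_lit 340)))) (n (nat_lit 336) (b (n (nat_lit 262) (b (l (nat_lit 5) (nat_lit 261) (nat_lit 361)) (l (nat_lit 6) (nat_lit 236) (nat_lit 237)))) (l (nat_lit 2) (nat_lit 310) (nat_lit 335)))))) (l (nat_lit 0) (nat_lit 286) (nat_lit 315)))) (l (nat_lit 2) (nat_lit 285) (nat_lit 310))))))))))))) (b (r (nat_lit 6)) (n (nat_lit 289) (b (b (b (r (nat_lit 2)) (r (nat_lit 7))) (b (n (nat_lit 290) (b (b (n (nat_lit 291) (b (n (nat_lit 316) (b (l (nat_lit 0) (nat_lit 288)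 (nat_lit 317)) (l (nat_lit 0) (nat_lit 287) (nat_lit 315)))) (l (nat_lit 2) (nat_lit 287) (nat_lit 313)))) (n (nat_lit 291) (b (n (nat_lit 266) (b (l (nat_lit 1) (nat_lit 263) (nat_lit 267)) (l (nat_lit 1) (nat_lit 262) (nat_lit 265)))) (l (nat_lit 2) (nat_lit 287) (nat_lit 313))))) (n (nat_lit 265) (b (n (nat_lit 315) (b (n (nat_lit 264) (b (n (nat_lit 340) (b (l (nat_lit 7) (nat_lit 264) (nat_lit 365)) (l (nat_lit 7) (nat_lit 239) (nat_lit 239)))) (l (nat_lit 1) (nat_lit 261) (nat_lit 286)))) (l (nat_lit 0) (nat_lit 287) (nat_lit 316)))) (l (nat_lit 1) (nat_lit 262) (nat_lit 266)))))) (n (nat_lit 290) (b (b (n (nat_lit 291) (b (n (nat_lit 316) (b (l (nat_lit 0) (nat_lit 288) (nat_lit 317)) (l (nat_lit 0) (nat_lit 287) (nat_lit 315)))) (l (nat_lit 2) (nat_lit 287) (nat_lit 313)))) (n (nat_lit 291) (b (n (nat_lit 266) (b (l (nat_lit 1) (nat_lit 263) (nat_lit 267)) (l (nat_lit 1) (nat_lit 262) (nat_lit 265)))) (l (nat_lit 2) (nat_lit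 287) (nat_lit 313))))) (n (nat_lit 315) (b (n (nat_lit 265) (b (n (nat_lit 314) (b (n (nat_lit 240) (b (l (nat_lit 6) (nat_lit 239) (nat_lit 339)) (l (nat_lit 6) (nat_lit 214) (nat_lit 215)))) (l (nat_lit 0) (nat_lit 286) (nat_lit 286)))) (l (nat_lit 1) (nat_lit 262) (nat_lit 266)))) (l (nat_lit 0) (nat_lit 287) (nat_lit 316)))))))) (b (b (n (nat_lit 290) (b (b (n (nat_lit 291) (b (n (nat_lit 292) (b (n (nat_lit 267) (b (l (nat_lit 1) (nat_lit 263) (nat_lit 266)) (l (nat_lit 1) (nat_lit 264) (nat_lit 268)))) (n (nat_lit 263) (b (l (nat_lit 3) (nat_lit 263) (nat_lit 264)) (l (nat_lit 3) (nat_lit 262) (nat_lit 262)))))) (n (nat_lit 316) (b (l (nat_lit 0) (nat_lit 288) (nat_lit 317)) (l (nat_lit 0) (nat_lit 287) (nat_lit 315)))))) (n (nat_lit 291) (b (n (nat_lit 316) (b (l (nat_lit 0) (nat_lit 288) (nat_lit 317)) (l (nat_lit 0) (nat_lit 287) (nat_lit 315)))) (l (nat_lit 2) (nat_lit 287) (nat_lit 313))))) (b (n (nat_lit 291) (b (n (nat_lit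 292) (b (n (nat_lit 267) (b (l (nat_lit 1) (nat_lit 263) (nat_lit 266)) (l (nat_lit 1) (nat_lit 264) (nat_lit 268)))) (n (nat_lit 263) (b (l (nat_lit 3) (nat_lit 263) (nat_lit 264)) (l (nat_lit 3) (nat_lit 262) (nat_lit 262)))))) (l (nat_lit 2) (nat_lit 287) (nat_lit 313)))) (n (nat_lit 315) (b (n (nat_lit 314) (b (n (nat_lit 313) (b (n (nat_lit 263) (b (n (nat_lit 339) (b (l (nat_lit 7) (nat_lit 263) (nat_lit 364)) (l (nat_lit 4) (nat_lit 238) (nat_lit 238)))) (n (nat_lit 337) (b (l (nat_lit 2) (nat_lit 311) (nat_lit 336)) (l (nat_lit 5) (nat_lit 262) (nat_lit 362)))))) (n (nat_lit 340) (b (n (nat_lit 365) (b (l (nat_lit 7) (nat_lit 289) (nat_lit 390)) (l (nat_lit 7) (nat_lit 264) (nat_lit 264)))) (l (nat_lit 0) (nat_lit 312) (nat_lit 341)))))) (l (nat_lit 0) (nat_lit 286) (nat_lit 286)))) (l (nat_lit 0) (nat_lit 287) (nat_lit 316))))))) (n (nat_lit 286) (b (b (n (nat_lit 263) (b (n (nat_lit 337) (b (n (nat_lit 238) (b (l (nat_lit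 6) (nat_lit 212) (nat_lit 213)) (l (nat_lit 5) (nat_lit 237) (nat_lit 262)))) (l (nat_lit 5) (nat_lit 262) (nat_lit 362)))) (n (nat_lit 264) (b (l (nat_lit 1) (nat_lit 261) (nat_lit 265)) (l (nat_lit 1) (nat_lit 260) (nat_lit 285)))))) (n (nat_lit 285) (b (n (nat_lit 284) (b (n (nat_lit 259) (b (l (nat_lit 3) (nat_lit 258) (nat_lit 258)) (l (nat_lit 3) (nat_lit 259) (nat_lit 260)))) (n (nat_lit 309) (b (l (nat_lit 2) (nat_lit 283) (nat_lit 308)) (l (nat_lit 2) (nat_lit 284) (nat_lit 310)))))) (n (nat_lit 314) (b (l (nat_lit 0) (nat_lit 286) (nat_lit 315)) (l (nat_lit 0) (nat_lit 285) (nat_lit 313))))))) (n (nat_lit 314) (b (n (nat_lit 264) (b (n (nat_lit 239) (b (b (n (nat_lit 238) (b (n (nat_lit 263) (b (n (nat_lit 337) (b (l (nat_lit 6) (nat_lit 237) (nat_lit 313)) (l (nat_lit 5) (nat_lit 262) (nat_lit 362)))) (l (nat_lit 7) (nat_lit 238) (nat_lit 339)))) (l (nat_lit 7) (nat_lit 213) (nat_lit 213)))) (n (nat_lit 214) (b (n (nat_lit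 215) (b (l (nat_lit 5) (nat_lit 214) (nat_lit 240)) (l (nat_lit 5) (nat_lit 189) (nat_lit 190)))) (n (nat_lit 213) (b (l (nat_lit 7) (nat_lit 188) (nat_lit 188)) (l (nat_lit 7) (nat_lit 213) (nat_lit 238))))))) (n (nat_lit 214) (b (n (nat_lit 215) (b (l (nat_lit 5) (nat_lit 214) (nat_lit 240)) (l (nat_lit 5) (nat_lit 189) (nat_lit 190)))) (l (nat_lit 6) (nat_lit 213) (nat_lit 313)))))) (l (nat_lit 1) (nat_lit 261) (nat_lit 265)))) (l (nat_lit 0) (nat_lit 286) (nat_lit 315))))))) (n (nat_lit 290) (b (b (n (nat_lit 291) (b (n (nat_lit 292) (b (n (nat_lit 317) (b (l (nat_lit 0) (nat_lit 288) (nat_lit 316)) (l (nat_lit 0) (nat_lit 289) (nat_lit 318)))) (n (nat_lit 263) (b (l (nat_lit 3) (nat_lit 263) (nat_lit 264)) (l (nat_lit 3) (nat_lit 262) (nat_lit 262)))))) (l (nat_lit 2) (nat_lit 287) (nat_lit 313)))) (n (nat_lit 291) (b (n (nat_lit 292) (b (n (nat_lit 317) (b (l (nat_lit 0) (nat_lit 288) (nat_lit 316)) (l (nat_lit 0) (nat_lit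 289) (nat_lit 318)))) (n (nat_lit 263) (b (l (nat_lit 3) (nat_lit 263) (nat_lit 264)) (l (nat_lit 3) (nat_lit 262) (nat_lit 262)))))) (n (nat_lit 266) (b (l (nat_lit 1) (nat_lit 263) (nat_lit 267)) (l (nat_lit 1) (nat_lit 262) (nat_lit 265))))))) (b (n (nat_lit 291) (b (n (nat_lit 266) (b (l (nat_lit 1) (nat_lit 263) (nat_lit 267)) (l (nat_lit 1) (nat_lit 262) (nat_lit 265)))) (l (nat_lit 2) (nat_lit 287) (nat_lit 313)))) (n (nat_lit 265) (b (n (nat_lit 264) (b (n (nat_lit 239) (b (b (n (nat_lit 214) (b (l (nat_lit 4) (nat_lit 189) (nat_lit 189)) (l (nat_lit 6) (nat_lit 213) (nat_lit 313)))) (n (nat_lit 263) (b (n (nat_lit 240) (b (n (nat_lit 314) (b (l (nat_lit 5) (nat_lit 214) (nat_lit 215)) (l (nat_lit 5) (nat_lit 239) (nat_lit 339)))) (n (nat_lit 241) (b (l (nat_lit 1) (nat_lit 237) (nat_lit 262)) (l (nat_lit 2) (nat_lit 238) (nat_lit 242)))))) (n (nat_lit 238) (b (n (nat_lit 337) (b (l (nat_lit 6) (nat_lit 237) (nat_lit 313))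 (l (nat_lit 5) (nat_lit 262) (nat_lit 362)))) (l (nat_lit 6) (nat_lit 212) (nat_lit 213))))))) (n (nat_lit 213) (b (n (nat_lit 238) (b (l (nat_lit 6) (nat_lit 212) (nat_lit 263)) (l (nat_lit 7) (nat_lit 213) (nat_lit 314)))) (n (nat_lit 214) (b (l (nat_lit 7) (nat_lit 188) (nat_lit 188)) (l (nat_lit 4) (nat_lit 189) (nat_lit 189)))))))) (l (nat_lit 1) (nat_lit 261) (nat_lit 286)))) (l (nat_lit 1) (nat_lit 262) (nat_lit 266)))))))))))))
    (envOK_cons p6772 (envOK_cons p6876 (envOK_cons p6902 (envOK_cons p6906 (envOK_cons p6999 (envOK_cons p7049 (envOK_cons p6001 (envOK_cons p5082 envOK_nil)))))))) (by decide +kernel)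

end Crest.Agent.R35
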