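import Crest.Agent.R35.C3

/-! Generated strategy certificate for Snaky (part 4). -/

set_option autoImplicit false
set_option maxRecDepth 100000

namespace Crest.Agent.R35

local notation "l" => T.leaf
local notation "n" => T.node
local notation "b" => T.both
local notation "r" => T.ref

theorem p7105 : Fam (nat_lit 7) (nat_lit 12968713994579413887439950320973045679566238282551743172419249408886270519672832) (nat_lit 2935678350953335773079104662437755355879970561960588160149557180548104722265384854952824966511711041389330432) (nat_lit 2935678350953335773079104662437755355879970561960588160149557180548104722265384854952824966511711041389330432) :=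
  chk_sound Env.nil
    (n (nat_lit 284) (b (b (n (nat_lit 263) (b (n (nat_lit 264) (b (n (nat_lit 239) (b (l (nat_lit 1) (nat_lit 235) (nat_lit 238)) (l (nat_lit 1) (nat_lit 236) (nat_lit 240)))) (n (nat_lit 235) (b (l (nat_lit 3) (nat_lit 234) (nat_lit 234)) (l (nat_lit 3) (nat_lit 235) (nat_lit 236)))))) (l (nat_lit 2) (nat_lit 259) (nat_lit 285)))) (n (nat_lit 259) (b (n (nat_lit 234) (b (n (nat_lit 235) (b (n (nat_lit 210) (b (l (nat_lit 5) (nat_lit 209) (nat_lit 309)) (l (nat_lit 6) (nat_lit 184) (nat_lit 185)))) (l (nat_lit 3) (nat_lit 234) (nat_lit 263)))) (l (nat_lit 3) (nat_lit 233) (nat_lit 233)))) (l (nat_lit 2) (nat_lit 258) (nat_lit 283))))) (b (n (nat_lit 283) (b (n (nat_lit 285) (b (l (nat_lit 1) (nat_lit 257) (nat_lit 282)) (l (nat_lit 2) (nat_lit 259) (nat_lit 263)))) (l (nat_lit 2) (nat_lit 258) (nat_lit 259)))) (n (nat_lit 259) (b (n (nat_lit 234) (b (n (nat_lit 309) (b (b (n (nat_lit 334) (b (n (nat_lit 333) (b (l (nat_lit 6)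 (nat_lit 233) (nat_lit 308)) (l (nat_lit 6) (nat_lit 258) (nat_lit 358)))) (n (nat_lit 335) (b (l (nat_lit 4) (nat_lit 259) (nat_lit 360)) (l (nat_lit 4) (nat_lit 234) (nat_lit 310)))))) (n (nat_lit 209) (b (n (nat_lit 210) (b (l (nat_lit 5) (nat_lit 184) (nat_lit 185)) (l (nat_lit 5) (nat_lit 209) (nat_lit 235)))) (n (nat_lit 285) (b (l (nat_lit 4) (nat_lit 209) (nat_lit 310)) (l (nat_lit 4) (nat_lit 184) (nat_lit 184))))))) (n (nat_lit 235) (b (l (nat_lit 5) (nat_lit 234) (nat_lit 334)) (l (nat_lit 5) (nat_lit 209) (nat_lit 210)))))) (l (nat_lit 3) (nat_lit 233) (nat_lit 233)))) (l (nat_lit 2) (nat_lit 258) (nat_lit 283)))))))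
    envOK_nil (by decide +kernel)

theorem p7260 : Fam (nat_lit 17) (nat_lit 8343699607727684330289441399770697683891795424722904195198017902281682038338440414454328852480) (nat_lit 887254342443076092433489691316687562549142001782657515390821927365473211193145849827659544099536137987330496932130619911238863290368) (nat_lit 887254342443076092433489691316687562549142001782657515390821927365473211193145849827659544099536137987330496932130619911238863290368) :=
  chk_sound Env.nil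
    (n (nat_lit 259) (b (b (b (n (nat_lit 236) (b (n (nat_lit 211) (b (n (nat_lit 260) (b (b (b (n (nat_lit 285) (b (b (n (nat_lit 310) (b (l (nat_lit 5) (nat_lit 210) (nat_lit 235)) (l (nat_lit 5) (nat_lit 235) (nat_lit 335)))) (n (nat_lit 234) (b (n (nat_lit 310) (b (n (nat_lit 209) (b (l (nat_lit 4) (nat_lit 209) (nat_lit 284)) (l (nat_lit 4) (nat_lit 184) (nat_lit 184)))) (l (nat_lit 7) (nat_lit 234) (nat_lit 335)))) (l (nat_lit 3) (nat_lit 233) (nat_lit 233))))) (n (nat_lit 258) (b (n (nat_lit 233) (b (l (nat_lit 3) (nat_lit 233) (nat_lit 234)) (l (nat_lit 3) (nat_lit 232) (nat_lit 232)))) (n (nat_lit 257) (b (n (nat_lit 256) (b (n (nat_lit 281) (b (l (nat_lit 2) (nat_lit 256) (nat_lit 282)) (l (nat_lit 2) (nat_lit 255) (nat_lit 280)))) (l (nat_lit 0) (nat_lit 256) (nat_lit 284)))) (l (nat_lit 1) (nat_lit 232) (nat_lit 235)))))))) (n (nat_lit 234) (b (n (nat_lit 284) (b (n (nat_lit 310) (b (b (n (nat_lit 309) (b (n (nat_lit 235) (b (l (nat_lit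 5) (nat_lit 234) (nat_lit 334)) (l (nat_lit 5) (nat_lit 209) (nat_lit 210)))) (l (nat_lit 4) (nat_lit 234) (nat_lit 335)))) (n (nat_lit 335) (b (l (nat_lit 7) (nat_lit 234) (nat_lit 285)) (l (nat_lit 4) (nat_lit 234) (nat_lit 309))))) (n (nat_lit 285) (b (l (nat_lit 4) (nat_lit 209) (nat_lit 209)) (l (nat_lit 5) (nat_lit 210) (nat_lit 235)))))) (l (nat_lit 2) (nat_lit 258) (nat_lit 283)))) (l (nat_lit 3) (nat_lit 233) (nat_lit 233))))) (b (n (nat_lit 258) (b (n (nat_lit 257) (b (n (nat_lit 282) (b (l (nat_lit 2) (nat_lit 256) (nat_lit 281)) (l (nat_lit 2) (nat_lit 257) (nat_lit 283)))) (l (nat_lit 1) (nat_lit 232) (nat_lit 235)))) (n (nat_lit 233) (b (l (nat_lit 3) (nat_lit 233) (nat_lit 234)) (l (nat_lit 3) (nat_lit 232) (nat_lit 232)))))) (n (nat_lit 258) (b (b (n (nat_lit 283) (b (l (nat_lit 2) (nat_lit 257) (nat_lit 282)) (l (nat_lit 2) (nat_lit 258) (nat_lit 284)))) (n (nat_lit 257) (b (n (nat_lit 256) (b (n (nat_lit 281) (b (l (nat_lit 2) (nat_lit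 256) (nat_lit 282)) (l (nat_lit 2) (nat_lit 255) (nat_lit 280)))) (n (nat_lit 231) (b (l (nat_lit 3) (nat_lit 231) (nat_lit 232)) (l (nat_lit 3) (nat_lit 230) (nat_lit 230)))))) (l (nat_lit 1) (nat_lit 232) (nat_lit 235))))) (n (nat_lit 257) (b (n (nat_lit 256) (b (n (nat_lit 284) (b (l (nat_lit 2) (nat_lit 258) (nat_lit 283)) (l (nat_lit 0) (nat_lit 256) (nat_lit 285)))) (n (nat_lit 231) (b (l (nat_lit 3) (nat_lit 231) (nat_lit 232)) (l (nat_lit 3) (nat_lit 230) (nat_lit 230)))))) (l (nat_lit 1) (nat_lit 232) (nat_lit 235)))))))) (n (nat_lit 258) (b (n (nat_lit 283) (b (l (nat_lit 2) (nat_lit 257) (nat_lit 282)) (l (nat_lit 2) (nat_lit 258) (nat_lit 284)))) (n (nat_lit 233) (b (l (nat_lit 3) (nat_lit 233) (nat_lit 234)) (l (nat_lit 3) (nat_lit 232) (nat_lit 232)))))))) (l (nat_lit 4) (nat_lit 186) (nat_lit 186)))) (l (nat_lit 7) (nat_lit 236) (nat_lit 337)))) (n (nat_lit 260) (b (n (nat_lit 236) (b (n (nat_lit 211) (b (n (nat_lit 285) (b (b (n (nat_lit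 310) (b (l (nat_lit 5) (nat_lit 210) (nat_lit 235)) (l (nat_lit 5) (nat_lit 235) (nat_lit 335)))) (n (nat_lit 234) (b (n (nat_lit 310) (b (n (nat_lit 209) (b (l (nat_lit 4) (nat_lit 209) (nat_lit 284)) (l (nat_lit 4) (nat_lit 184) (nat_lit 184)))) (l (nat_lit 7) (nat_lit 234) (nat_lit 335)))) (l (nat_lit 3) (nat_lit 233) (nat_lit 233))))) (n (nat_lit 258) (b (n (nat_lit 233) (b (l (nat_lit 3) (nat_lit 233) (nat_lit 234)) (l (nat_lit 3) (nat_lit 232) (nat_lit 232)))) (n (nat_lit 257) (b (n (nat_lit 256) (b (n (nat_lit 281) (b (l (nat_lit 2) (nat_lit 256) (nat_lit 282)) (l (nat_lit 2) (nat_lit 255) (nat_lit 280)))) (l (nat_lit 0) (nat_lit 256) (nat_lit 284)))) (l (nat_lit 1) (nat_lit 232) (nat_lit 235)))))))) (l (nat_lit 4) (nat_lit 186) (nat_lit 186)))) (l (nat_lit 7) (nat_lit 236) (nat_lit 337)))) (l (nat_lit 0) (nat_lit 259) (nat_lit 288))))) (b (n (nat_lit 260) (b (n (nat_lit 236) (b (n (nat_lit 258) (b (b (n (nat_lit 283) (b (l (nat_lit 2) (nat_lit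 257) (nat_lit 282)) (l (nat_lit 2) (nat_lit 258) (nat_lit 284)))) (n (nat_lit 257) (b (n (nat_lit 256) (b (n (nat_lit 281) (b (l (nat_lit 2) (nat_lit 256) (nat_lit 282)) (l (nat_lit 2) (nat_lit 255) (nat_lit 280)))) (n (nat_lit 231) (b (l (nat_lit 3) (nat_lit 231) (nat_lit 232)) (l (nat_lit 3) (nat_lit 230) (nat_lit 230)))))) (l (nat_lit 1) (nat_lit 232) (nat_lit 235))))) (n (nat_lit 257) (b (n (nat_lit 256) (b (n (nat_lit 284) (b (l (nat_lit 2) (nat_lit 258) (nat_lit 283)) (l (nat_lit 0) (nat_lit 256) (nat_lit 285)))) (n (nat_lit 231) (b (l (nat_lit 3) (nat_lit 231) (nat_lit 232)) (l (nat_lit 3) (nat_lit 230) (nat_lit 230)))))) (l (nat_lit 1) (nat_lit 232) (nat_lit 235)))))) (l (nat_lit 7) (nat_lit 236) (nat_lit 337)))) (l (nat_lit 0) (nat_lit 259) (nat_lit 288)))) (n (nat_lit 260) (b (n (nat_lit 258) (b (n (nat_lit 257) (b (n (nat_lit 236) (b (l (nat_lit 7) (nat_lit 236) (nat_lit 337)) (l (nat_lit 1) (nat_lit 232) (nat_lit 235)))) (n (nat_lit 282)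 (b (l (nat_lit 2) (nat_lit 256) (nat_lit 281)) (l (nat_lit 2) (nat_lit 257) (nat_lit 283)))))) (n (nat_lit 233) (b (l (nat_lit 3) (nat_lit 233) (nat_lit 234)) (l (nat_lit 3) (nat_lit 232) (nat_lit 232)))))) (l (nat_lit 0) (nat_lit 259) (nat_lit 288)))))) (b (b (n (nat_lit 260) (b (n (nat_lit 258) (b (n (nat_lit 283) (b (l (nat_lit 2) (nat_lit 257) (nat_lit 282)) (l (nat_lit 2) (nat_lit 258) (nat_lit 284)))) (n (nat_lit 233) (b (l (nat_lit 3) (nat_lit 233) (nat_lit 234)) (l (nat_lit 3) (nat_lit 232) (nat_lit 232)))))) (l (nat_lit 0) (nat_lit 259) (nat_lit 288)))) (n (nat_lit 337) (b (n (nat_lit 362) (b (b (n (nat_lit 336) (b (n (nat_lit 313) (b (n (nat_lit 387) (b (n (nat_lit 388) (b (l (nat_lit 4) (nat_lit 312) (nat_lit 413)) (l (nat_lit 4) (nat_lit 287) (nat_lit 363)))) (l (nat_lit 5) (nat_lit 287) (nat_lit 288)))) (n (nat_lit 314) (b (n (nat_lit 335) (b (l (nat_lit 2) (nat_lit 310) (nat_lit 311)) (l (nat_lit 1) (nat_lit 309) (nat_lit 334)))) (l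 (nat_lit 2) (nat_lit 311) (nat_lit 315)))))) (l (nat_lit 6) (nat_lit 261) (nat_lit 361)))) (n (nat_lit 387) (b (n (nat_lit 388) (b (l (nat_lit 4) (nat_lit 312) (nat_lit 413)) (l (nat_lit 4) (nat_lit 287) (nat_lit 363)))) (n (nat_lit 386) (b (l (nat_lit 6) (nat_lit 311) (nat_lit 411)) (l (nat_lit 6) (nat_lit 286) (nat_lit 361))))))) (b (n (nat_lit 361) (b (l (nat_lit 6) (nat_lit 286) (nat_lit 386)) (l (nat_lit 6) (nat_lit 261) (nat_lit 336)))) (n (nat_lit 387) (b (b (n (nat_lit 412) (b (n (nat_lit 413) (b (l (nat_lit 4) (nat_lit 337) (nat_lit 438)) (l (nat_lit 4) (nat_lit 312) (nat_lit 388)))) (n (nat_lit 411) (b (l (nat_lit 6) (nat_lit 336) (nat_lit 436)) (l (nat_lit 6) (nat_lit 311) (nat_lit 386)))))) (n (nat_lit 388) (b (l (nat_lit 4) (nat_lit 312) (nat_lit 413)) (l (nat_lit 4) (nat_lit 287) (nat_lit 363))))) (n (nat_lit 411) (b (n (nat_lit 412) (b (n (nat_lit 309) (b (b (n (nat_lit 336) (b (n (nat_lit 334) (b (n (nat_lit 335) (b (l (nat_lit 0)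 (nat_lit 334) (nat_lit 363)) (l (nat_lit 1) (nat_lit 309) (nat_lit 313)))) (n (nat_lit 284) (b (b (n (nat_lit 359) (b (n (nat_lit 384) (b (n (nat_lit 383) (b (l (nat_lit 6) (nat_lit 283) (nat_lit 358)) (l (nat_lit 6) (nat_lit 308) (nat_lit 408)))) (n (nat_lit 385) (b (l (nat_lit 4) (nat_lit 309) (nat_lit 410)) (l (nat_lit 4) (nat_lit 284) (nat_lit 360)))))) (n (nat_lit 258) (b (l (nat_lit 7) (nat_lit 233) (nat_lit 233)) (l (nat_lit 7) (nat_lit 258) (nat_lit 283)))))) (n (nat_lit 359) (b (n (nat_lit 384) (b (n (nat_lit 385) (b (l (nat_lit 4) (nat_lit 309) (nat_lit 410)) (l (nat_lit 4) (nat_lit 284) (nat_lit 360)))) (n (nat_lit 283) (b (l (nat_lit 7) (nat_lit 283) (nat_lit 308)) (l (nat_lit 7) (nat_lit 258) (nat_lit 258)))))) (n (nat_lit 358) (b (l (nat_lit 6) (nat_lit 258) (nat_lit 333)) (l (nat_lit 6) (nat_lit 283) (nat_lit 383))))))) (b (n (nat_lit 234) (b (n (nat_lit 209) (b (n (nat_lit 308) (b (l (nat_lit 6) (nat_lit 233) (nat_lit 333)) (l (nat_lit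 6) (nat_lit 208) (nat_lit 283)))) (n (nat_lit 210) (b (l (nat_lit 5) (nat_lit 184) (nat_lit 185)) (l (nat_lit 5) (nat_lit 209) (nat_lit 235)))))) (n (nat_lit 233) (b (l (nat_lit 7) (nat_lit 233) (nat_lit 258)) (l (nat_lit 7) (nat_lit 208) (nat_lit 208)))))) (n (nat_lit 234) (b (n (nat_lit 209) (b (n (nat_lit 208) (b (l (nat_lit 7) (nat_lit 183) (nat_lit 183)) (l (nat_lit 7) (nat_lit 208) (nat_lit 233)))) (n (nat_lit 210) (b (l (nat_lit 5) (nat_lit 184) (nat_lit 185)) (l (nat_lit 5) (nat_lit 209) (nat_lit 235)))))) (n (nat_lit 333) (b (l (nat_lit 6) (nat_lit 233) (nat_lit 308)) (l (nat_lit 6) (nat_lit 258) (nat_lit 358))))))))))) (l (nat_lit 7) (nat_lit 311) (nat_lit 311)))) (n (nat_lit 311) (b (n (nat_lit 288) (b (l (nat_lit 5) (nat_lit 287) (nat_lit 313)) (l (nat_lit 1) (nat_lit 284) (nat_lit 310)))) (l (nat_lit 7) (nat_lit 311) (nat_lit 336))))) (b (n (nat_lit 284) (b (b (b (n (nat_lit 334) (b (n (nat_lit 359) (b (n (nat_lit 258) (b (l (nat_lit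 7) (nat_lit 233) (nat_lit 233)) (l (nat_lit 7) (nat_lit 258) (nat_lit 283)))) (n (nat_lit 358) (b (l (nat_lit 6) (nat_lit 258) (nat_lit 333)) (l (nat_lit 6) (nat_lit 283) (nat_lit 383)))))) (n (nat_lit 335) (b (n (nat_lit 336) (b (l (nat_lit 3) (nat_lit 308) (nat_lit 308)) (l (nat_lit 0) (nat_lit 334) (nat_lit 363)))) (l (nat_lit 4) (nat_lit 259) (nat_lit 360)))))) (n (nat_lit 234) (b (b (n (nat_lit 334) (b (n (nat_lit 233) (b (l (nat_lit 7) (nat_lit 233) (nat_lit 258)) (l (nat_lit 7) (nat_lit 208) (nat_lit 208)))) (n (nat_lit 335) (b (l (nat_lit 4) (nat_lit 259) (nat_lit 360)) (l (nat_lit 4) (nat_lit 234) (nat_lit 310)))))) (n (nat_lit 209) (b (n (nat_lit 210) (b (l (nat_lit 5) (nat_lit 184) (nat_lit 185)) (l (nat_lit 5) (nat_lit 209) (nat_lit 235)))) (n (nat_lit 310) (b (l (nat_lit 4) (nat_lit 209) (nat_lit 285)) (l (nat_lit 4) (nat_lit 234) (nat_lit 335))))))) (n (nat_lit 209) (b (n (nat_lit 208) (b (l (nat_lit 7) (nat_lit 183) (nat_lit 183)) (l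 (nat_lit 7) (nat_lit 208) (nat_lit 233)))) (n (nat_lit 210) (b (l (nat_lit 5) (nat_lit 184) (nat_lit 185)) (l (nat_lit 5) (nat_lit 209) (nat_lit 235))))))))) (b (n (nat_lit 234) (b (b (n (nat_lit 334) (b (n (nat_lit 233) (b (l (nat_lit 7) (nat_lit 233) (nat_lit 258)) (l (nat_lit 7) (nat_lit 208) (nat_lit 208)))) (n (nat_lit 333) (b (l (nat_lit 6) (nat_lit 233) (nat_lit 308)) (l (nat_lit 6) (nat_lit 258) (nat_lit 358)))))) (n (nat_lit 209) (b (n (nat_lit 308) (b (l (nat_lit 6) (nat_lit 233) (nat_lit 333)) (l (nat_lit 6) (nat_lit 208) (nat_lit 283)))) (n (nat_lit 210) (b (l (nat_lit 5) (nat_lit 184) (nat_lit 185)) (l (nat_lit 5) (nat_lit 209) (nat_lit 235))))))) (n (nat_lit 209) (b (n (nat_lit 208) (b (l (nat_lit 7) (nat_lit 183) (nat_lit 183)) (l (nat_lit 7) (nat_lit 208) (nat_lit 233)))) (n (nat_lit 210) (b (l (nat_lit 5) (nat_lit 184) (nat_lit 185)) (l (nat_lit 5) (nat_lit 209) (nat_lit 235)))))))) (n (nat_lit 234) (b (b (n (nat_lit 209) (b (n (nat_lit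 308) (b (l (nat_lit 6) (nat_lit 233) (nat_lit 333)) (l (nat_lit 6) (nat_lit 208) (nat_lit 283)))) (n (nat_lit 210) (b (l (nat_lit 5) (nat_lit 184) (nat_lit 185)) (l (nat_lit 5) (nat_lit 209) (nat_lit 235)))))) (n (nat_lit 334) (b (n (nat_lit 333) (b (l (nat_lit 6) (nat_lit 233) (nat_lit 308)) (l (nat_lit 6) (nat_lit 258) (nat_lit 358)))) (n (nat_lit 335) (b (l (nat_lit 4) (nat_lit 259) (nat_lit 360)) (l (nat_lit 4) (nat_lit 234) (nat_lit 310))))))) (n (nat_lit 209) (b (n (nat_lit 210) (b (l (nat_lit 5) (nat_lit 184) (nat_lit 185)) (l (nat_lit 5) (nat_lit 209) (nat_lit 235)))) (n (nat_lit 310) (b (l (nat_lit 4) (nat_lit 209) (nat_lit 285)) (l (nat_lit 4) (nat_lit 234) (nat_lit 335)))))))))) (n (nat_lit 234) (b (b (n (nat_lit 209) (b (n (nat_lit 310) (b (l (nat_lit 4) (nat_lit 209) (nat_lit 285)) (l (nat_lit 4) (nat_lit 234) (nat_lit 335)))) (n (nat_lit 308) (b (l (nat_lit 6) (nat_lit 233) (nat_lit 333)) (l (nat_lit 6) (nat_lit 208) (nat_lit 283))))))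 (n (nat_lit 209) (b (n (nat_lit 208) (b (l (nat_lit 7) (nat_lit 183) (nat_lit 183)) (l (nat_lit 7) (nat_lit 208) (nat_lit 233)))) (n (nat_lit 210) (b (l (nat_lit 5) (nat_lit 184) (nat_lit 185)) (l (nat_lit 5) (nat_lit 209) (nat_lit 235))))))) (n (nat_lit 308) (b (n (nat_lit 307) (b (b (n (nat_lit 306) (b (n (nat_lit 305) (b (n (nat_lit 330) (b (l (nat_lit 2) (nat_lit 305) (nat_lit 331)) (l (nat_lit 2) (nat_lit 304) (nat_lit 329)))) (l (nat_lit 1) (nat_lit 280) (nat_lit 283)))) (l (nat_lit 1) (nat_lit 281) (nat_lit 285)))) (n (nat_lit 281) (b (n (nat_lit 306) (b (l (nat_lit 1) (nat_lit 281) (nat_lit 285)) (l (nat_lit 3) (nat_lit 280) (nat_lit 280)))) (n (nat_lit 310) (b (l (nat_lit 3) (nat_lit 281) (nat_lit 282)) (l (nat_lit 4) (nat_lit 234) (nat_lit 335))))))) (n (nat_lit 310) (b (n (nat_lit 282) (b (n (nat_lit 233) (b (n (nat_lit 332) (b (n (nat_lit 258) (b (l (nat_lit 5) (nat_lit 232) (nat_lit 257)) (l (nat_lit 6) (nat_lit 232) (nat_lit 283))))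 (l (nat_lit 2) (nat_lit 306) (nat_lit 331)))) (l (nat_lit 7) (nat_lit 208) (nat_lit 208)))) (l (nat_lit 3) (nat_lit 281) (nat_lit 281)))) (l (nat_lit 4) (nat_lit 234) (nat_lit 335)))))) (l (nat_lit 6) (nat_lit 233) (nat_lit 333)))))))) (n (nat_lit 284) (b (b (n (nat_lit 310) (b (n (nat_lit 288) (b (l (nat_lit 1) (nat_lit 284) (nat_lit 311)) (l (nat_lit 5) (nat_lit 287) (nat_lit 313)))) (n (nat_lit 335) (b (n (nat_lit 360) (b (l (nat_lit 7) (nat_lit 259) (nat_lit 285)) (l (nat_lit 7) (nat_lit 284) (nat_lit 385)))) (l (nat_lit 4) (nat_lit 234) (nat_lit 234)))))) (n (nat_lit 234) (b (b (n (nat_lit 334) (b (n (nat_lit 233) (b (l (nat_lit 7) (nat_lit 233) (nat_lit 258)) (l (nat_lit 7) (nat_lit 208) (nat_lit 208)))) (n (nat_lit 333) (b (l (nat_lit 6) (nat_lit 233) (nat_lit 308)) (l (nat_lit 6) (nat_lit 258) (nat_lit 358)))))) (n (nat_lit 209) (b (n (nat_lit 308) (b (l (nat_lit 6) (nat_lit 233) (nat_lit 333)) (l (nat_lit 6) (nat_lit 208) (nat_lit 283))))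 (n (nat_lit 210) (b (l (nat_lit 5) (nat_lit 184) (nat_lit 185)) (l (nat_lit 5) (nat_lit 209) (nat_lit 235))))))) (n (nat_lit 209) (b (n (nat_lit 208) (b (l (nat_lit 7) (nat_lit 183) (nat_lit 183)) (l (nat_lit 7) (nat_lit 208) (nat_lit 233)))) (n (nat_lit 210) (b (l (nat_lit 5) (nat_lit 184) (nat_lit 185)) (l (nat_lit 5) (nat_lit 209) (nat_lit 235))))))))) (n (nat_lit 334) (b (b (n (nat_lit 359) (b (n (nat_lit 258) (b (l (nat_lit 7) (nat_lit 233) (nat_lit 233)) (l (nat_lit 7) (nat_lit 258) (nat_lit 283)))) (n (nat_lit 360) (b (l (nat_lit 4) (nat_lit 284) (nat_lit 385)) (l (nat_lit 4) (nat_lit 259) (nat_lit 335)))))) (n (nat_lit 359) (b (n (nat_lit 258) (b (l (nat_lit 7) (nat_lit 233) (nat_lit 233)) (l (nat_lit 7) (nat_lit 258) (nat_lit 283)))) (n (nat_lit 358) (b (l (nat_lit 6) (nat_lit 258) (nat_lit 333)) (l (nat_lit 6) (nat_lit 283) (nat_lit 383))))))) (b (n (nat_lit 359) (b (n (nat_lit 358) (b (l (nat_lit 6) (nat_lit 258) (nat_lit 333)) (l (nat_lit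 6) (nat_lit 283) (nat_lit 383)))) (n (nat_lit 360) (b (l (nat_lit 4) (nat_lit 284) (nat_lit 385)) (l (nat_lit 4) (nat_lit 259) (nat_lit 335)))))) (n (nat_lit 333) (b (n (nat_lit 310) (b (n (nat_lit 332) (b (n (nat_lit 258) (b (n (nat_lit 357) (b (n (nat_lit 335) (b (l (nat_lit 2) (nat_lit 331) (nat_lit 356)) (l (nat_lit 4) (nat_lit 259) (nat_lit 360)))) (n (nat_lit 283) (b (n (nat_lit 282) (b (l (nat_lit 5) (nat_lit 257) (nat_lit 307)) (l (nat_lit 0) (nat_lit 281) (nat_lit 281)))) (l (nat_lit 6) (nat_lit 257) (nat_lit 308)))))) (l (nat_lit 7) (nat_lit 233) (nat_lit 233)))) (l (nat_lit 1) (nat_lit 306) (nat_lit 331)))) (l (nat_lit 2) (nat_lit 308) (nat_lit 311)))) (l (nat_lit 6) (nat_lit 258) (nat_lit 358)))))))))))) (l (nat_lit 6) (nat_lit 336) (nat_lit 436)))) (l (nat_lit 6) (nat_lit 311) (nat_lit 386))))))))) (l (nat_lit 7) (nat_lit 236) (nat_lit 236))))) (n (nat_lit 260) (b (n (nat_lit 234) (b (n (nat_lit 284) (b (n (nat_lit 309) (b (b (n (nat_lit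 334) (b (n (nat_lit 333) (b (l (nat_lit 6) (nat_lit 233) (nat_lit 308)) (l (nat_lit 6) (nat_lit 258) (nat_lit 358)))) (n (nat_lit 335) (b (l (nat_lit 4) (nat_lit 259) (nat_lit 360)) (l (nat_lit 4) (nat_lit 234) (nat_lit 310)))))) (n (nat_lit 209) (b (n (nat_lit 210) (b (l (nat_lit 5) (nat_lit 184) (nat_lit 185)) (l (nat_lit 5) (nat_lit 209) (nat_lit 235)))) (n (nat_lit 285) (b (l (nat_lit 4) (nat_lit 209) (nat_lit 310)) (l (nat_lit 4) (nat_lit 184) (nat_lit 184))))))) (n (nat_lit 235) (b (l (nat_lit 5) (nat_lit 234) (nat_lit 334)) (l (nat_lit 5) (nat_lit 209) (nat_lit 210)))))) (l (nat_lit 2) (nat_lit 258) (nat_lit 283)))) (l (nat_lit 3) (nat_lit 233) (nat_lit 233)))) (l (nat_lit 0) (nat_lit 259) (nat_lit 288)))))))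
    envOK_nil (by decide +kernel)

theorem p7339 : Fam (nat_lit 11) (nat_lit 8343699607727680624942585805652444129620275146709852890558508601783632775695752161234180374528) (nat_lit 236412045398274305276137282761848078738594175593509204519855074743089238227230769728432889919246638181518126729920512) (nat_lit 236412045398274305276137282761848078738594175593509204519855074743089238227230769728432889919246638181518126729920512) :=
  chk_sound (Env.cons (nat_lit 5) (nat_lit 31288872845159324489976646851659172627160974576936856208444976022315285210944600313243671461888) (nat_lit 7839106862534785052980241437307607754229386953599098195986389492555164081384414714979639086990416150528) Env.nil)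
    (n (nat_lit 311) (b (b (n (nat_lit 310) (b (b (n (nat_lit 309) (b (n (nat_lit 308) (b (n (nat_lit 283) (b (l (nat_lit 3) (nat_lit 283) (nat_lit 284)) (l (nat_lit 3) (nat_lit 282) (nat_lit 282)))) (n (nat_lit 333) (b (l (nat_lit 2) (nat_lit 307) (nat_lit 332)) (l (nat_lit 2) (nat_lit 308) (nat_lit 334)))))) (l (nat_lit 1) (nat_lit 284) (nat_lit 288)))) (n (nat_lit 288) (b (n (nat_lit 289) (b (l (nat_lit 1) (nat_lit 285) (nat_lit 313)) (l (nat_lit 2) (nat_lit 286) (nat_lit 290)))) (l (nat_lit 1) (nat_lit 284) (nat_lit 309))))) (b (n (nat_lit 284) (b (b (b (n (nat_lit 334) (b (b (n (nat_lit 333) (b (n (nat_lit 335) (b (l (nat_lit 1) (nat_lit 307) (nat_lit 332)) (l (nat_lit 2) (nat_lit 309) (nat_lit 313)))) (l (nat_lit 2) (nat_lit 308) (nat_lit 309)))) (n (nat_lit 285) (b (n (nat_lit 309) (b (n (nat_lit 260) (b (l (nat_lit 5) (nat_lit 259) (nat_lit 359)) (l (nat_lit 6) (nat_lit 234) (nat_lit 235)))) (l (nat_lit 2) (nat_lit 308) (nat_lit 333)))) (l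 (nat_lit 3) (nat_lit 284) (nat_lit 313))))) (b (n (nat_lit 313) (b (l (nat_lit 3) (nat_lit 284) (nat_lit 285)) (l (nat_lit 2) (nat_lit 309) (nat_lit 335)))) (n (nat_lit 309) (b (n (nat_lit 259) (b (b (n (nat_lit 234) (b (n (nat_lit 233) (b (l (nat_lit 7) (nat_lit 233) (nat_lit 258)) (l (nat_lit 7) (nat_lit 208) (nat_lit 208)))) (n (nat_lit 235) (b (l (nat_lit 5) (nat_lit 209) (nat_lit 210)) (l (nat_lit 5) (nat_lit 234) (nat_lit 260)))))) (n (nat_lit 335) (b (l (nat_lit 4) (nat_lit 234) (nat_lit 234)) (l (nat_lit 4) (nat_lit 259) (nat_lit 360))))) (n (nat_lit 359) (b (n (nat_lit 260) (b (l (nat_lit 5) (nat_lit 234) (nat_lit 235)) (l (nat_lit 5) (nat_lit 259) (nat_lit 285)))) (n (nat_lit 360) (b (l (nat_lit 4) (nat_lit 284) (nat_lit 385)) (l (nat_lit 4) (nat_lit 259) (nat_lit 335)))))))) (l (nat_lit 2) (nat_lit 308) (nat_lit 333))))))) (n (nat_lit 285) (b (n (nat_lit 236) (b (b (n (nat_lit 211) (b (n (nat_lit 261) (b (l (nat_lit 4) (nat_lit 186) (nat_lit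 186)) (l (nat_lit 7) (nat_lit 236) (nat_lit 337)))) (l (nat_lit 7) (nat_lit 211) (nat_lit 237)))) (n (nat_lit 261) (b (n (nat_lit 283) (b (n (nat_lit 260) (b (l (nat_lit 5) (nat_lit 235) (nat_lit 335)) (l (nat_lit 2) (nat_lit 258) (nat_lit 259)))) (l (nat_lit 0) (nat_lit 282) (nat_lit 282)))) (l (nat_lit 7) (nat_lit 236) (nat_lit 337))))) (n (nat_lit 237) (b (n (nat_lit 234) (b (n (nat_lit 259) (b (n (nat_lit 335) (b (l (nat_lit 7) (nat_lit 234) (nat_lit 260)) (l (nat_lit 7) (nat_lit 259) (nat_lit 360)))) (l (nat_lit 4) (nat_lit 209) (nat_lit 209)))) (n (nat_lit 213) (b (n (nat_lit 212) (b (l (nat_lit 1) (nat_lit 209) (nat_lit 235)) (l (nat_lit 5) (nat_lit 187) (nat_lit 188)))) (l (nat_lit 5) (nat_lit 212) (nat_lit 238)))))) (l (nat_lit 7) (nat_lit 211) (nat_lit 211)))))) (l (nat_lit 3) (nat_lit 284) (nat_lit 313))))) (b (n (nat_lit 309) (b (n (nat_lit 334) (b (n (nat_lit 335) (b (n (nat_lit 259) (b (l (nat_lit 4) (nat_lit 259) (nat_lit 360)) (l (nat_lit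 4) (nat_lit 234) (nat_lit 234)))) (l (nat_lit 2) (nat_lit 309) (nat_lit 313)))) (l (nat_lit 2) (nat_lit 308) (nat_lit 333)))) (l (nat_lit 3) (nat_lit 283) (nat_lit 283)))) (n (nat_lit 283) (b (n (nat_lit 285) (b (l (nat_lit 0) (nat_lit 282) (nat_lit 282)) (l (nat_lit 3) (nat_lit 284) (nat_lit 313)))) (l (nat_lit 3) (nat_lit 283) (nat_lit 309)))))) (n (nat_lit 309) (b (n (nat_lit 334) (b (n (nat_lit 259) (b (b (n (nat_lit 234) (b (n (nat_lit 233) (b (l (nat_lit 7) (nat_lit 233) (nat_lit 258)) (l (nat_lit 7) (nat_lit 208) (nat_lit 208)))) (n (nat_lit 235) (b (l (nat_lit 5) (nat_lit 209) (nat_lit 210)) (l (nat_lit 5) (nat_lit 234) (nat_lit 260)))))) (n (nat_lit 335) (b (l (nat_lit 4) (nat_lit 234) (nat_lit 234)) (l (nat_lit 4) (nat_lit 259) (nat_lit 360))))) (n (nat_lit 359) (b (n (nat_lit 260) (b (l (nat_lit 5) (nat_lit 234) (nat_lit 235)) (l (nat_lit 5) (nat_lit 259) (nat_lit 285)))) (n (nat_lit 360) (b (l (nat_lit 4) (nat_lit 284) (nat_lit 385)) (l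 (nat_lit 4) (nat_lit 259) (nat_lit 335)))))))) (l (nat_lit 2) (nat_lit 308) (nat_lit 333)))) (l (nat_lit 3) (nat_lit 283) (nat_lit 283)))))) (n (nat_lit 236) (b (b (n (nat_lit 261) (b (n (nat_lit 260) (b (b (n (nat_lit 285) (b (n (nat_lit 259) (b (n (nat_lit 237) (b (l (nat_lit 1) (nat_lit 233) (nat_lit 258)) (l (nat_lit 1) (nat_lit 234) (nat_lit 238)))) (n (nat_lit 284) (b (l (nat_lit 2) (nat_lit 258) (nat_lit 283)) (l (nat_lit 3) (nat_lit 284) (nat_lit 313)))))) (l (nat_lit 5) (nat_lit 235) (nat_lit 335)))) (n (nat_lit 237) (b (n (nat_lit 313) (b (n (nat_lit 288) (b (l (nat_lit 4) (nat_lit 212) (nat_lit 212)) (l (nat_lit 1) (nat_lit 285) (nat_lit 289)))) (n (nat_lit 285) (b (l (nat_lit 3) (nat_lit 284) (nat_lit 284)) (l (nat_lit 5) (nat_lit 235) (nat_lit 335)))))) (n (nat_lit 238) (b (l (nat_lit 2) (nat_lit 235) (nat_lit 239)) (l (nat_lit 5) (nat_lit 212) (nat_lit 213))))))) (b (n (nat_lit 259) (b (n (nat_lit 237) (b (l (nat_lit 1) (nat_lit 233)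 (nat_lit 258)) (l (nat_lit 1) (nat_lit 234) (nat_lit 238)))) (l (nat_lit 0) (nat_lit 259) (nat_lit 288)))) (n (nat_lit 288) (b (n (nat_lit 289) (b (l (nat_lit 3) (nat_lit 261) (nat_lit 290)) (l (nat_lit 1) (nat_lit 285) (nat_lit 313)))) (l (nat_lit 0) (nat_lit 259) (nat_lit 259))))))) (l (nat_lit 7) (nat_lit 236) (nat_lit 337)))) (n (nat_lit 261) (b (n (nat_lit 260) (b (n (nat_lit 285) (b (n (nat_lit 211) (b (l (nat_lit 5) (nat_lit 210) (nat_lit 235)) (l (nat_lit 4) (nat_lit 186) (nat_lit 186)))) (l (nat_lit 5) (nat_lit 235) (nat_lit 335)))) (n (nat_lit 288) (b (n (nat_lit 289) (b (l (nat_lit 3) (nat_lit 261) (nat_lit 290)) (l (nat_lit 1) (nat_lit 285) (nat_lit 313)))) (l (nat_lit 0) (nat_lit 259) (nat_lit 259)))))) (l (nat_lit 7) (nat_lit 236) (nat_lit 337))))) (b (n (nat_lit 211) (b (n (nat_lit 261) (b (l (nat_lit 4) (nat_lit 186) (nat_lit 186)) (l (nat_lit 7) (nat_lit 236) (nat_lit 337)))) (l (nat_lit 7) (nat_lit 211) (nat_lit 237)))) (n (nat_lit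 313) (b (r (nat_lit 0)) (n (nat_lit 285) (b (n (nat_lit 235) (b (b (n (nat_lit 211) (b (l (nat_lit 7) (nat_lit 211) (nat_lit 237)) (l (nat_lit 5) (nat_lit 210) (nat_lit 260)))) (n (nat_lit 237) (b (n (nat_lit 213) (b (n (nat_lit 212) (b (l (nat_lit 1) (nat_lit 209) (nat_lit 234)) (l (nat_lit 5) (nat_lit 187) (nat_lit 188)))) (l (nat_lit 5) (nat_lit 212) (nat_lit 238)))) (l (nat_lit 7) (nat_lit 211) (nat_lit 211))))) (b (n (nat_lit 260) (b (n (nat_lit 335) (b (n (nat_lit 234) (b (l (nat_lit 7) (nat_lit 234) (nat_lit 259)) (l (nat_lit 7) (nat_lit 209) (nat_lit 209)))) (l (nat_lit 2) (nat_lit 309) (nat_lit 334)))) (l (nat_lit 5) (nat_lit 210) (nat_lit 211)))) (n (nat_lit 234) (b (b (n (nat_lit 237) (b (n (nat_lit 213) (b (l (nat_lit 5) (nat_lit 212) (nat_lit 238)) (l (nat_lit 1) (nat_lit 209) (nat_lit 212)))) (n (nat_lit 209) (b (l (nat_lit 3) (nat_lit 208) (nat_lit 208)) (l (nat_lit 7) (nat_lit 209) (nat_lit 260)))))) (n (nat_lit 237) (b (n (nat_lit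 213) (b (l (nat_lit 5) (nat_lit 212) (nat_lit 238)) (l (nat_lit 1) (nat_lit 209) (nat_lit 212)))) (n (nat_lit 259) (b (n (nat_lit 335) (b (l (nat_lit 7) (nat_lit 234) (nat_lit 260)) (l (nat_lit 2) (nat_lit 309) (nat_lit 334)))) (l (nat_lit 2) (nat_lit 233) (nat_lit 258))))))) (b (n (nat_lit 237) (b (n (nat_lit 233) (b (n (nat_lit 258) (b (l (nat_lit 2) (nat_lit 233) (nat_lit 259)) (l (nat_lit 2) (nat_lit 232) (nat_lit 257)))) (n (nat_lit 208) (b (l (nat_lit 3) (nat_lit 207) (nat_lit 207)) (l (nat_lit 3) (nat_lit 208) (nat_lit 209)))))) (n (nat_lit 213) (b (l (nat_lit 5) (nat_lit 212) (nat_lit 238)) (l (nat_lit 1) (nat_lit 209) (nat_lit 212)))))) (n (nat_lit 335) (b (n (nat_lit 260) (b (l (nat_lit 7) (nat_lit 234) (nat_lit 259)) (l (nat_lit 7) (nat_lit 209) (nat_lit 209)))) (l (nat_lit 2) (nat_lit 309) (nat_lit 334)))))))))) (l (nat_lit 3) (nat_lit 284) (nat_lit 284)))))))))))) (n (nat_lit 237) (b (n (nat_lit 212) (b (n (nat_lit 213) (b (l (nat_lit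 5) (nat_lit 187) (nat_lit 188)) (l (nat_lit 5) (nat_lit 212) (nat_lit 238)))) (n (nat_lit 211) (b (l (nat_lit 7) (nat_lit 211) (nat_lit 236)) (l (nat_lit 7) (nat_lit 186) (nat_lit 186)))))) (l (nat_lit 6) (nat_lit 236) (nat_lit 336))))) (b (n (nat_lit 336) (b (n (nat_lit 361) (b (l (nat_lit 5) (nat_lit 286) (nat_lit 386)) (l (nat_lit 6) (nat_lit 261) (nat_lit 337)))) (l (nat_lit 6) (nat_lit 236) (nat_lit 237)))) (n (nat_lit 310) (b (b (n (nat_lit 313) (b (b (n (nat_lit 336) (b (n (nat_lit 361) (b (l (nat_lit 5) (nat_lit 286) (nat_lit 386)) (l (nat_lit 6) (nat_lit 261) (nat_lit 337)))) (n (nat_lit 335) (b (l (nat_lit 2) (nat_lit 310) (nat_lit 314)) (l (nat_lit 2) (nat_lit 309) (nat_lit 334)))))) (r (nat_lit 0))) (n (nat_lit 285) (b (n (nat_lit 260) (b (n (nat_lit 261) (b (n (nat_lit 335) (b (l (nat_lit 2) (nat_lit 309) (nat_lit 334)) (l (nat_lit 5) (nat_lit 235) (nat_lit 236)))) (n (nat_lit 288) (b (l (nat_lit 0) (nat_lit 259) (nat_lit 259)) (l (nat_lit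 1) (nat_lit 285) (nat_lit 289)))))) (n (nat_lit 336) (b (n (nat_lit 361) (b (l (nat_lit 5) (nat_lit 286) (nat_lit 386)) (l (nat_lit 6) (nat_lit 261) (nat_lit 337)))) (l (nat_lit 4) (nat_lit 235) (nat_lit 235)))))) (l (nat_lit 3) (nat_lit 284) (nat_lit 284)))))) (n (nat_lit 309) (b (n (nat_lit 308) (b (n (nat_lit 283) (b (l (nat_lit 3) (nat_lit 283) (nat_lit 284)) (l (nat_lit 3) (nat_lit 282) (nat_lit 282)))) (n (nat_lit 333) (b (l (nat_lit 2) (nat_lit 307) (nat_lit 332)) (l (nat_lit 2) (nat_lit 308) (nat_lit 334)))))) (l (nat_lit 1) (nat_lit 284) (nat_lit 288))))) (b (n (nat_lit 288) (b (n (nat_lit 289) (b (l (nat_lit 1) (nat_lit 285) (nat_lit 313)) (l (nat_lit 2) (nat_lit 286) (nat_lit 290)))) (l (nat_lit 1) (nat_lit 284) (nat_lit 309)))) (n (nat_lit 336) (b (b (n (nat_lit 361) (b (l (nat_lit 5) (nat_lit 286) (nat_lit 386)) (l (nat_lit 6) (nat_lit 261) (nat_lit 337)))) (n (nat_lit 309) (b (b (n (nat_lit 313) (b (n (nat_lit 335) (b (l (nat_lit 2)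 (nat_lit 310) (nat_lit 314)) (l (nat_lit 2) (nat_lit 309) (nat_lit 334)))) (n (nat_lit 284) (b (l (nat_lit 3) (nat_lit 283) (nat_lit 283)) (l (nat_lit 3) (nat_lit 284) (nat_lit 285)))))) (n (nat_lit 283) (b (n (nat_lit 308) (b (l (nat_lit 3) (nat_lit 282) (nat_lit 282)) (l (nat_lit 0) (nat_lit 308) (nat_lit 337)))) (l (nat_lit 3) (nat_lit 283) (nat_lit 284))))) (n (nat_lit 333) (b (n (nat_lit 308) (b (l (nat_lit 0) (nat_lit 308) (nat_lit 337)) (l (nat_lit 2) (nat_lit 307) (nat_lit 332)))) (l (nat_lit 2) (nat_lit 308) (nat_lit 334))))))) (n (nat_lit 285) (b (n (nat_lit 361) (b (n (nat_lit 260) (b (l (nat_lit 4) (nat_lit 260) (nat_lit 335)) (l (nat_lit 4) (nat_lit 235) (nat_lit 235)))) (l (nat_lit 7) (nat_lit 285) (nat_lit 386)))) (n (nat_lit 284) (b (n (nat_lit 283) (b (l (nat_lit 0) (nat_lit 282) (nat_lit 282)) (l (nat_lit 3) (nat_lit 283) (nat_lit 309)))) (l (nat_lit 3) (nat_lit 284) (nat_lit 313))))))))))))))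
    (envOK_cons p5805 envOK_nil) (by decide +kernel)

theorem p7403 : Fam (nat_lit 19) (nat_lit 8343699607727673214248874617415937021077234590683750281279490000787534250410375654793883418624) (nat_lit 887254342443076092433489691324526669280263521184362758136917785815638899755588147939518745769773132183104507793973150290553530744832) (nat_lit 887254342443076092433489691324526669280263521184362758136917785815638899755588147939518745769773132183104507793973150290553530744832) :=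
  chk_sound (Env.cons (nat_lit 7) (nat_lit 12968713994579413887439950320973045679566238282551743172419249408886270519672832) (nat_lit 2935678350953335773079104662437755355879970561960588160149557180548104722265384854952824966511711041389330432) (Env.cons (nat_lit 5) (nat_lit 248661645994994738033578025730446822135325960183470178473967357916399910405417801351168) (nat_lit 15665682182197810742085776641666251542359450108175867336149880464978688285595985281810432) (Env.cons (nat_lit 17) (nat_lit 8343699607727684330289441399770697683891795424722904195198017902281682038338440414454328852480) (nat_lit 887254342443076092433489691316687562549142001782657515390821927365473211193145849827659544099536137987330496932130619911238863290368) (Env.cons (nat_lit 11) (nat_lit 8343699607727680624942585805652444129620275146709852890558508601783632775695752161234180374528) (nat_lit 236412045398274305276137282761848078738594175593509204519855074743089238227230769728432889919246638181518126729920512)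 (Env.cons (nat_lit 6) (nat_lit 8343699607727680624942585805652444129620275146709852890558508601783632775695752161234180374528) (nat_lit 9394170611063450714882271889968436333678150340908590158019546254001835093388456938033698592067858035539705856) (Env.cons (nat_lit 10) (nat_lit 279968101115925134047360910013641340417649816774606338572351528178982585681152893868361847893131264000) (nat_lit 4697085707985979179678292266955871075712294709046508640995701891770518512907813786165751500196651093358280704) (Env.cons (nat_lit 5) (nat_lit 8343699607727680624942806661535541427661473058897445755372987037270742228065517362009341952000) (nat_lit 25031098823183045580174944294910104918224627845445870655370706843925667588887048931850143662080) Env.nil)))))))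
    (n (nat_lit 262) (b (b (b (n (nat_lit 261) (b (b (b (n (nat_lit 260) (b (b (r (nat_lit 0)) (n (nat_lit 288) (b (n (nat_lit 289) (b (l (nat_lit 0) (nat_lit 260) (nat_lit 263)) (l (nat_lit 3) (nat_lit 261) (nat_lit 290)))) (l (nat_lit 0) (nat_lit 259) (nat_lit 259))))) (b (n (nat_lit 263) (b (b (n (nat_lit 238) (b (n (nat_lit 213) (b (l (nat_lit 6) (nat_lit 212) (nat_lit 288)) (l (nat_lit 6) (nat_lit 187) (nat_lit 188)))) (l (nat_lit 1) (nat_lit 235) (nat_lit 239)))) (n (nat_lit 264) (b (n (nat_lit 239) (b (l (nat_lit 1) (nat_lit 235) (nat_lit 238)) (l (nat_lit 1) (nat_lit 236) (nat_lit 240)))) (n (nat_lit 235) (b (l (nat_lit 3) (nat_lit 234) (nat_lit 234)) (l (nat_lit 3) (nat_lit 235) (nat_lit 236))))))) (n (nat_lit 264) (b (n (nat_lit 289) (b (l (nat_lit 0) (nat_lit 261) (nat_lit 290)) (l (nat_lit 0) (nat_lit 260) (nat_lit 288)))) (n (nat_lit 235) (b (l (nat_lit 3) (nat_lit 234) (nat_lit 234)) (l (nat_lit 3) (nat_lit 235) (nat_lit 236))))))))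 (n (nat_lit 259) (b (n (nat_lit 258) (b (n (nat_lit 283) (b (l (nat_lit 2) (nat_lit 257) (nat_lit 282)) (l (nat_lit 2) (nat_lit 258) (nat_lit 284)))) (n (nat_lit 233) (b (l (nat_lit 3) (nat_lit 233) (nat_lit 234)) (l (nat_lit 3) (nat_lit 232) (nat_lit 232)))))) (l (nat_lit 0) (nat_lit 259) (nat_lit 288))))))) (n (nat_lit 260) (b (b (b (n (nat_lit 337) (b (n (nat_lit 284) (b (n (nat_lit 263) (b (l (nat_lit 2) (nat_lit 259) (nat_lit 285)) (l (nat_lit 5) (nat_lit 237) (nat_lit 238)))) (n (nat_lit 259) (b (n (nat_lit 233) (b (n (nat_lit 334) (b (n (nat_lit 258) (b (l (nat_lit 7) (nat_lit 233) (nat_lit 309)) (l (nat_lit 3) (nat_lit 232) (nat_lit 232)))) (n (nat_lit 336) (b (n (nat_lit 335) (b (n (nat_lit 333) (b (n (nat_lit 358) (b (l (nat_lit 2) (nat_lit 333) (nat_lit 359)) (l (nat_lit 2) (nat_lit 332) (nat_lit 357)))) (l (nat_lit 1) (nat_lit 308) (nat_lit 311)))) (l (nat_lit 1) (nat_lit 309) (nat_lit 313)))) (l (nat_lit 6) (nat_lit 261) (nat_lit 361))))))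 (l (nat_lit 3) (nat_lit 233) (nat_lit 234)))) (l (nat_lit 2) (nat_lit 258) (nat_lit 283)))))) (l (nat_lit 7) (nat_lit 236) (nat_lit 236)))) (n (nat_lit 236) (b (n (nat_lit 285) (b (n (nat_lit 310) (b (n (nat_lit 211) (b (l (nat_lit 6) (nat_lit 185) (nat_lit 186)) (l (nat_lit 5) (nat_lit 210) (nat_lit 235)))) (l (nat_lit 5) (nat_lit 235) (nat_lit 335)))) (n (nat_lit 284) (b (n (nat_lit 283) (b (l (nat_lit 2) (nat_lit 258) (nat_lit 259)) (l (nat_lit 1) (nat_lit 257) (nat_lit 282)))) (l (nat_lit 2) (nat_lit 259) (nat_lit 263)))))) (l (nat_lit 7) (nat_lit 236) (nat_lit 337))))) (b (n (nat_lit 263) (b (b (n (nat_lit 264) (b (n (nat_lit 239) (b (l (nat_lit 1) (nat_lit 235) (nat_lit 238)) (l (nat_lit 1) (nat_lit 236) (nat_lit 240)))) (n (nat_lit 235) (b (l (nat_lit 3) (nat_lit 234) (nat_lit 234)) (l (nat_lit 3) (nat_lit 235) (nat_lit 236)))))) (n (nat_lit 236) (b (n (nat_lit 235) (b (l (nat_lit 3) (nat_lit 234) (nat_lit 234)) (l (nat_lit 3) (nat_lit 235)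 (nat_lit 264)))) (l (nat_lit 7) (nat_lit 236) (nat_lit 337))))) (n (nat_lit 238) (b (l (nat_lit 5) (nat_lit 237) (nat_lit 337)) (l (nat_lit 1) (nat_lit 235) (nat_lit 239)))))) (n (nat_lit 263) (b (n (nat_lit 259) (b (n (nat_lit 234) (b (l (nat_lit 3) (nat_lit 234) (nat_lit 235)) (l (nat_lit 3) (nat_lit 233) (nat_lit 233)))) (n (nat_lit 284) (b (l (nat_lit 2) (nat_lit 258) (nat_lit 283)) (l (nat_lit 2) (nat_lit 259) (nat_lit 285)))))) (n (nat_lit 238) (b (l (nat_lit 5) (nat_lit 237) (nat_lit 337)) (l (nat_lit 1) (nat_lit 235) (nat_lit 239)))))))) (b (n (nat_lit 236) (b (n (nat_lit 211) (b (n (nat_lit 259) (b (b (b (n (nat_lit 258) (b (n (nat_lit 283) (b (l (nat_lit 2) (nat_lit 257) (nat_lit 282)) (l (nat_lit 2) (nat_lit 258) (nat_lit 284)))) (n (nat_lit 233) (b (l (nat_lit 3) (nat_lit 233) (nat_lit 234)) (l (nat_lit 3) (nat_lit 232) (nat_lit 232)))))) (n (nat_lit 258) (b (b (n (nat_lit 283) (b (l (nat_lit 2) (nat_lit 257) (nat_lit 282)) (l (nat_lit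 2) (nat_lit 258) (nat_lit 284)))) (n (nat_lit 257) (b (n (nat_lit 256) (b (n (nat_lit 281) (b (l (nat_lit 2) (nat_lit 256) (nat_lit 282)) (l (nat_lit 2) (nat_lit 255) (nat_lit 280)))) (n (nat_lit 231) (b (l (nat_lit 3) (nat_lit 231) (nat_lit 232)) (l (nat_lit 3) (nat_lit 230) (nat_lit 230)))))) (l (nat_lit 1) (nat_lit 232) (nat_lit 235))))) (n (nat_lit 257) (b (n (nat_lit 256) (b (n (nat_lit 284) (b (l (nat_lit 2) (nat_lit 258) (nat_lit 283)) (l (nat_lit 0) (nat_lit 256) (nat_lit 285)))) (n (nat_lit 231) (b (l (nat_lit 3) (nat_lit 231) (nat_lit 232)) (l (nat_lit 3) (nat_lit 230) (nat_lit 230)))))) (l (nat_lit 1) (nat_lit 232) (nat_lit 235))))))) (b (n (nat_lit 258) (b (n (nat_lit 257) (b (n (nat_lit 282) (b (l (nat_lit 2) (nat_lit 256) (nat_lit 281)) (l (nat_lit 2) (nat_lit 257) (nat_lit 283)))) (l (nat_lit 1) (nat_lit 232) (nat_lit 235)))) (n (nat_lit 233) (b (l (nat_lit 3) (nat_lit 233) (nat_lit 234)) (l (nat_lit 3) (nat_lit 232) (nat_lit 232))))))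 (n (nat_lit 234) (b (n (nat_lit 284) (b (n (nat_lit 310) (b (b (n (nat_lit 309) (b (n (nat_lit 235) (b (l (nat_lit 5) (nat_lit 234) (nat_lit 334)) (l (nat_lit 5) (nat_lit 209) (nat_lit 210)))) (l (nat_lit 4) (nat_lit 234) (nat_lit 335)))) (n (nat_lit 335) (b (l (nat_lit 7) (nat_lit 234) (nat_lit 285)) (l (nat_lit 4) (nat_lit 234) (nat_lit 309))))) (n (nat_lit 285) (b (l (nat_lit 4) (nat_lit 209) (nat_lit 209)) (l (nat_lit 5) (nat_lit 210) (nat_lit 235)))))) (l (nat_lit 2) (nat_lit 258) (nat_lit 283)))) (l (nat_lit 3) (nat_lit 233) (nat_lit 233)))))) (n (nat_lit 285) (b (b (n (nat_lit 310) (b (l (nat_lit 5) (nat_lit 210) (nat_lit 235)) (l (nat_lit 5) (nat_lit 235) (nat_lit 335)))) (n (nat_lit 234) (b (n (nat_lit 310) (b (n (nat_lit 209) (b (l (nat_lit 4) (nat_lit 209) (nat_lit 284)) (l (nat_lit 4) (nat_lit 184) (nat_lit 184)))) (l (nat_lit 7) (nat_lit 234) (nat_lit 335)))) (l (nat_lit 3) (nat_lit 233) (nat_lit 233))))) (n (nat_lit 258) (b (n (nat_lit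 233) (b (l (nat_lit 3) (nat_lit 233) (nat_lit 234)) (l (nat_lit 3) (nat_lit 232) (nat_lit 232)))) (n (nat_lit 257) (b (n (nat_lit 256) (b (n (nat_lit 281) (b (l (nat_lit 2) (nat_lit 256) (nat_lit 282)) (l (nat_lit 2) (nat_lit 255) (nat_lit 280)))) (l (nat_lit 0) (nat_lit 256) (nat_lit 284)))) (l (nat_lit 1) (nat_lit 232) (nat_lit 235)))))))))) (l (nat_lit 4) (nat_lit 186) (nat_lit 186)))) (l (nat_lit 7) (nat_lit 236) (nat_lit 337)))) (r (nat_lit 0)))))) (b (n (nat_lit 260) (b (b (n (nat_lit 263) (b (n (nat_lit 259) (b (n (nat_lit 234) (b (l (nat_lit 3) (nat_lit 234) (nat_lit 235)) (l (nat_lit 3) (nat_lit 233) (nat_lit 233)))) (n (nat_lit 284) (b (l (nat_lit 2) (nat_lit 258) (nat_lit 283)) (l (nat_lit 2) (nat_lit 259) (nat_lit 285)))))) (n (nat_lit 238) (b (l (nat_lit 5) (nat_lit 237) (nat_lit 337)) (l (nat_lit 1) (nat_lit 235) (nat_lit 239)))))) (n (nat_lit 259) (b (n (nat_lit 258) (b (n (nat_lit 283) (b (l (nat_lit 2) (nat_lit 257) (nat_lit 282))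 (l (nat_lit 2) (nat_lit 258) (nat_lit 284)))) (n (nat_lit 233) (b (l (nat_lit 3) (nat_lit 233) (nat_lit 234)) (l (nat_lit 3) (nat_lit 232) (nat_lit 232)))))) (l (nat_lit 0) (nat_lit 259) (nat_lit 288))))) (n (nat_lit 263) (b (b (r (nat_lit 1)) (n (nat_lit 337) (b (n (nat_lit 288) (b (l (nat_lit 5) (nat_lit 262) (nat_lit 362)) (l (nat_lit 0) (nat_lit 260) (nat_lit 289)))) (l (nat_lit 5) (nat_lit 237) (nat_lit 238))))) (n (nat_lit 238) (b (l (nat_lit 5) (nat_lit 237) (nat_lit 337)) (l (nat_lit 1) (nat_lit 235) (nat_lit 239)))))))) (n (nat_lit 337) (b (n (nat_lit 362) (b (n (nat_lit 387) (b (n (nat_lit 288) (b (l (nat_lit 5) (nat_lit 262) (nat_lit 263)) (l (nat_lit 5) (nat_lit 287) (nat_lit 313)))) (n (nat_lit 388) (b (l (nat_lit 4) (nat_lit 312) (nat_lit 413)) (l (nat_lit 4) (nat_lit 287) (nat_lit 363)))))) (n (nat_lit 361) (b (l (nat_lit 6) (nat_lit 286) (nat_lit 386)) (l (nat_lit 6) (nat_lit 261) (nat_lit 336)))))) (l (nat_lit 7) (nat_lit 236) (nat_lit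 236)))))) (r (nat_lit 2)))) (r (nat_lit 3))) (b (n (nat_lit 237) (b (b (n (nat_lit 261) (b (b (n (nat_lit 263) (b (n (nat_lit 236) (b (n (nat_lit 235) (b (l (nat_lit 3) (nat_lit 235) (nat_lit 264)) (l (nat_lit 0) (nat_lit 234) (nat_lit 234)))) (l (nat_lit 7) (nat_lit 236) (nat_lit 337)))) (n (nat_lit 288) (b (n (nat_lit 212) (b (l (nat_lit 4) (nat_lit 212) (nat_lit 313)) (l (nat_lit 4) (nat_lit 187) (nat_lit 187)))) (n (nat_lit 260) (b (l (nat_lit 0) (nat_lit 260) (nat_lit 289)) (l (nat_lit 0) (nat_lit 259) (nat_lit 259)))))))) (n (nat_lit 337) (b (n (nat_lit 336) (b (l (nat_lit 6) (nat_lit 261) (nat_lit 361)) (l (nat_lit 6) (nat_lit 236) (nat_lit 311)))) (l (nat_lit 7) (nat_lit 236) (nat_lit 236))))) (n (nat_lit 288) (b (b (n (nat_lit 260) (b (n (nat_lit 289) (b (l (nat_lit 0) (nat_lit 260) (nat_lit 263)) (l (nat_lit 3) (nat_lit 261) (nat_lit 290)))) (l (nat_lit 0) (nat_lit 259) (nat_lit 259)))) (n (nat_lit 311) (b (n (nat_lit 289) (b (n (nat_lit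 313) (b (l (nat_lit 1) (nat_lit 285) (nat_lit 310)) (l (nat_lit 4) (nat_lit 212) (nat_lit 212)))) (l (nat_lit 3) (nat_lit 261) (nat_lit 290)))) (l (nat_lit 6) (nat_lit 236) (nat_lit 336))))) (n (nat_lit 212) (b (n (nat_lit 187) (b (n (nat_lit 188) (b (l (nat_lit 5) (nat_lit 187) (nat_lit 213)) (l (nat_lit 5) (nat_lit 162) (nat_lit 163)))) (l (nat_lit 4) (nat_lit 187) (nat_lit 263)))) (l (nat_lit 4) (nat_lit 212) (nat_lit 313)))))))) (n (nat_lit 212) (b (n (nat_lit 187) (b (n (nat_lit 188) (b (l (nat_lit 5) (nat_lit 187) (nat_lit 213)) (l (nat_lit 5) (nat_lit 162) (nat_lit 163)))) (n (nat_lit 288) (b (l (nat_lit 4) (nat_lit 187) (nat_lit 263)) (l (nat_lit 4) (nat_lit 212) (nat_lit 313)))))) (n (nat_lit 211) (b (l (nat_lit 7) (nat_lit 211) (nat_lit 236)) (l (nat_lit 7) (nat_lit 186) (nat_lit 186))))))) (b (n (nat_lit 337) (b (n (nat_lit 336) (b (l (nat_lit 6) (nat_lit 261) (nat_lit 361)) (l (nat_lit 6) (nat_lit 236) (nat_lit 311)))) (n (nat_lit 236)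 (b (l (nat_lit 7) (nat_lit 211) (nat_lit 211)) (l (nat_lit 7) (nat_lit 236) (nat_lit 261)))))) (n (nat_lit 212) (b (b (n (nat_lit 187) (b (n (nat_lit 188) (b (l (nat_lit 5) (nat_lit 187) (nat_lit 213)) (l (nat_lit 5) (nat_lit 162) (nat_lit 163)))) (n (nat_lit 288) (b (l (nat_lit 4) (nat_lit 187) (nat_lit 263)) (l (nat_lit 4) (nat_lit 212) (nat_lit 313)))))) (n (nat_lit 187) (b (n (nat_lit 186) (b (l (nat_lit 7) (nat_lit 186) (nat_lit 211)) (l (nat_lit 7) (nat_lit 161) (nat_lit 161)))) (n (nat_lit 288) (b (l (nat_lit 4) (nat_lit 187) (nat_lit 263)) (l (nat_lit 4) (nat_lit 212) (nat_lit 313))))))) (b (n (nat_lit 187) (b (n (nat_lit 186) (b (l (nat_lit 7) (nat_lit 186) (nat_lit 211)) (l (nat_lit 7) (nat_lit 161) (nat_lit 161)))) (n (nat_lit 188) (b (l (nat_lit 5) (nat_lit 187) (nat_lit 213)) (l (nat_lit 5) (nat_lit 162) (nat_lit 163)))))) (n (nat_lit 337) (b (b (n (nat_lit 362) (b (n (nat_lit 387) (b (n (nat_lit 388) (b (l (nat_lit 4) (nat_lit 312) (nat_lit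 413)) (l (nat_lit 4) (nat_lit 287) (nat_lit 363)))) (n (nat_lit 386) (b (l (nat_lit 6) (nat_lit 311) (nat_lit 411)) (l (nat_lit 6) (nat_lit 286) (nat_lit 361)))))) (n (nat_lit 288) (b (l (nat_lit 4) (nat_lit 212) (nat_lit 313)) (l (nat_lit 5) (nat_lit 262) (nat_lit 263)))))) (n (nat_lit 336) (b (l (nat_lit 6) (nat_lit 261) (nat_lit 361)) (l (nat_lit 6) (nat_lit 236) (nat_lit 311))))) (n (nat_lit 288) (b (n (nat_lit 311) (b (n (nat_lit 211) (b (n (nat_lit 213) (b (n (nat_lit 263) (b (n (nat_lit 240) (b (b (n (nat_lit 214) (b (n (nat_lit 215) (b (n (nat_lit 190) (b (l (nat_lit 1) (nat_lit 186) (nat_lit 189)) (l (nat_lit 1) (nat_lit 187) (nat_lit 191)))) (l (nat_lit 0) (nat_lit 212) (nat_lit 241)))) (l (nat_lit 0) (nat_lit 211) (nat_lit 239)))) (n (nat_lit 289) (b (n (nat_lit 264) (b (n (nat_lit 265) (b (l (nat_lit 2) (nat_lit 262) (nat_lit 266)) (l (nat_lit 1) (nat_lit 237) (nat_lit 241)))) (n (nat_lit 261) (b (l (nat_lit 0) (nat_lit 260) (nat_lit 260))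 (l (nat_lit 1) (nat_lit 236) (nat_lit 239)))))) (l (nat_lit 2) (nat_lit 286) (nat_lit 290))))) (b (n (nat_lit 261) (b (n (nat_lit 260) (b (l (nat_lit 0) (nat_lit 260) (nat_lit 289)) (l (nat_lit 0) (nat_lit 259) (nat_lit 259)))) (n (nat_lit 239) (b (l (nat_lit 1) (nat_lit 236) (nat_lit 264)) (l (nat_lit 0) (nat_lit 211) (nat_lit 214)))))) (n (nat_lit 265) (b (b (n (nat_lit 290) (b (n (nat_lit 264) (b (l (nat_lit 2) (nat_lit 262) (nat_lit 266)) (l (nat_lit 0) (nat_lit 262) (nat_lit 291)))) (l (nat_lit 2) (nat_lit 286) (nat_lit 289)))) (n (nat_lit 290) (b (n (nat_lit 215) (b (n (nat_lit 190) (b (n (nat_lit 291) (b (l (nat_lit 4) (nat_lit 190) (nat_lit 266)) (l (nat_lit 4) (nat_lit 215) (nat_lit 316)))) (n (nat_lit 191) (b (l (nat_lit 5) (nat_lit 190) (nat_lit 216)) (l (nat_lit 5) (nat_lit 165) (nat_lit 166)))))) (n (nat_lit 214) (b (l (nat_lit 7) (nat_lit 189) (nat_lit 189)) (l (nat_lit 0) (nat_lit 212) (nat_lit 241)))))) (l (nat_lit 2) (nat_lit 286)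 (nat_lit 289))))) (b (n (nat_lit 264) (b (l (nat_lit 2) (nat_lit 262) (nat_lit 266)) (l (nat_lit 1) (nat_lit 237) (nat_lit 241)))) (n (nat_lit 290) (b (n (nat_lit 264) (b (l (nat_lit 0) (nat_lit 262) (nat_lit 291)) (l (nat_lit 1) (nat_lit 237) (nat_lit 241)))) (l (nat_lit 2) (nat_lit 286) (nat_lit 289)))))))))) (l (nat_lit 5) (nat_lit 262) (nat_lit 362)))) (l (nat_lit 5) (nat_lit 187) (nat_lit 188)))) (l (nat_lit 7) (nat_lit 186) (nat_lit 186)))) (l (nat_lit 6) (nat_lit 236) (nat_lit 336)))) (l (nat_lit 4) (nat_lit 212) (nat_lit 313)))))))))))) (r (nat_lit 4)))) (b (b (n (nat_lit 337) (b (b (r (nat_lit 5)) (n (nat_lit 362) (b (n (nat_lit 387) (b (n (nat_lit 388) (b (l (nat_lit 4) (nat_lit 312) (nat_lit 413)) (l (nat_lit 4) (nat_lit 287) (nat_lit 363)))) (n (nat_lit 386) (b (l (nat_lit 6) (nat_lit 311) (nat_lit 411)) (l (nat_lit 6) (nat_lit 286) (nat_lit 361)))))) (n (nat_lit 263) (b (l (nat_lit 5) (nat_lit 237) (nat_lit 238)) (l (nat_lit 5) (nat_lit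 262) (nat_lit 288))))))) (b (n (nat_lit 237) (b (n (nat_lit 238) (b (l (nat_lit 5) (nat_lit 237) (nat_lit 263)) (l (nat_lit 5) (nat_lit 212) (nat_lit 213)))) (n (nat_lit 336) (b (l (nat_lit 6) (nat_lit 261) (nat_lit 361)) (l (nat_lit 6) (nat_lit 236) (nat_lit 311)))))) (n (nat_lit 263) (b (n (nat_lit 288) (b (n (nat_lit 264) (b (b (n (nat_lit 290) (b (n (nat_lit 265) (b (l (nat_lit 0) (nat_lit 262) (nat_lit 291)) (l (nat_lit 2) (nat_lit 262) (nat_lit 266)))) (n (nat_lit 237) (b (n (nat_lit 212) (b (l (nat_lit 4) (nat_lit 212) (nat_lit 313)) (l (nat_lit 4) (nat_lit 187) (nat_lit 187)))) (n (nat_lit 311) (b (l (nat_lit 6) (nat_lit 236) (nat_lit 336)) (l (nat_lit 2) (nat_lit 286) (nat_lit 289)))))))) (n (nat_lit 261) (b (n (nat_lit 265) (b (n (nat_lit 240) (b (l (nat_lit 1) (nat_lit 236) (nat_lit 239)) (l (nat_lit 1) (nat_lit 237) (nat_lit 241)))) (l (nat_lit 2) (nat_lit 262) (nat_lit 266)))) (n (nat_lit 260) (b (l (nat_lit 0) (nat_lit 260) (nat_lit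 289)) (l (nat_lit 0) (nat_lit 259) (nat_lit 259))))))) (b (n (nat_lit 289) (b (n (nat_lit 239) (b (n (nat_lit 214) (b (l (nat_lit 6) (nat_lit 213) (nat_lit 313)) (l (nat_lit 6) (nat_lit 188) (nat_lit 189)))) (n (nat_lit 261) (b (l (nat_lit 1) (nat_lit 236) (nat_lit 240)) (l (nat_lit 0) (nat_lit 260) (nat_lit 260)))))) (n (nat_lit 290) (b (l (nat_lit 3) (nat_lit 262) (nat_lit 291)) (l (nat_lit 2) (nat_lit 286) (nat_lit 311)))))) (n (nat_lit 265) (b (n (nat_lit 240) (b (n (nat_lit 290) (b (n (nat_lit 239) (b (n (nat_lit 315) (b (l (nat_lit 7) (nat_lit 239) (nat_lit 340)) (l (nat_lit 7) (nat_lit 214) (nat_lit 214)))) (l (nat_lit 1) (nat_lit 236) (nat_lit 261)))) (l (nat_lit 0) (nat_lit 262) (nat_lit 291)))) (l (nat_lit 1) (nat_lit 237) (nat_lit 241)))) (l (nat_lit 2) (nat_lit 262) (nat_lit 266))))))) (l (nat_lit 5) (nat_lit 262) (nat_lit 362)))) (l (nat_lit 5) (nat_lit 237) (nat_lit 238))))))) (n (nat_lit 337) (b (b (n (nat_lit 263) (b (n (nat_lit 288)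 (b (n (nat_lit 261) (b (n (nat_lit 289) (b (l (nat_lit 3) (nat_lit 261) (nat_lit 290)) (l (nat_lit 0) (nat_lit 260) (nat_lit 260)))) (l (nat_lit 7) (nat_lit 236) (nat_lit 236)))) (l (nat_lit 5) (nat_lit 262) (nat_lit 362)))) (l (nat_lit 5) (nat_lit 237) (nat_lit 238)))) (n (nat_lit 362) (b (n (nat_lit 387) (b (n (nat_lit 288) (b (l (nat_lit 5) (nat_lit 262) (nat_lit 263)) (l (nat_lit 5) (nat_lit 287) (nat_lit 313)))) (n (nat_lit 388) (b (l (nat_lit 4) (nat_lit 312) (nat_lit 413)) (l (nat_lit 4) (nat_lit 287) (nat_lit 363)))))) (n (nat_lit 361) (b (l (nat_lit 6) (nat_lit 286) (nat_lit 386)) (l (nat_lit 6) (nat_lit 261) (nat_lit 336))))))) (n (nat_lit 237) (b (n (nat_lit 336) (b (l (nat_lit 6) (nat_lit 261) (nat_lit 361)) (l (nat_lit 6) (nat_lit 236) (nat_lit 311)))) (n (nat_lit 236) (b (l (nat_lit 7) (nat_lit 211) (nat_lit 211)) (l (nat_lit 7) (nat_lit 236) (nat_lit 261))))))))) (b (n (nat_lit 237) (b (b (n (nat_lit 337) (b (n (nat_lit 238) (b (l (nat_lit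 5) (nat_lit 237) (nat_lit 263)) (l (nat_lit 5) (nat_lit 212) (nat_lit 213)))) (n (nat_lit 336) (b (l (nat_lit 6) (nat_lit 261) (nat_lit 361)) (l (nat_lit 6) (nat_lit 236) (nat_lit 311)))))) (n (nat_lit 212) (b (n (nat_lit 213) (b (l (nat_lit 5) (nat_lit 187) (nat_lit 188)) (l (nat_lit 5) (nat_lit 212) (nat_lit 238)))) (n (nat_lit 211) (b (l (nat_lit 7) (nat_lit 211) (nat_lit 236)) (l (nat_lit 7) (nat_lit 186) (nat_lit 186))))))) (n (nat_lit 337) (b (n (nat_lit 336) (b (l (nat_lit 6) (nat_lit 261) (nat_lit 361)) (l (nat_lit 6) (nat_lit 236) (nat_lit 311)))) (n (nat_lit 236) (b (l (nat_lit 7) (nat_lit 211) (nat_lit 211)) (l (nat_lit 7) (nat_lit 236) (nat_lit 261)))))))) (n (nat_lit 237) (b (b (b (n (nat_lit 238) (b (n (nat_lit 236) (b (n (nat_lit 239) (b (b (n (nat_lit 240) (b (n (nat_lit 215) (b (l (nat_lit 1) (nat_lit 211) (nat_lit 214)) (l (nat_lit 1) (nat_lit 212) (nat_lit 216)))) (n (nat_lit 265) (b (l (nat_lit 0) (nat_lit 237) (nat_lit 266)) (l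 (nat_lit 0) (nat_lit 236) (nat_lit 264)))))) (n (nat_lit 261) (b (l (nat_lit 2) (nat_lit 235) (nat_lit 260)) (l (nat_lit 2) (nat_lit 236) (nat_lit 240))))) (n (nat_lit 235) (b (n (nat_lit 260) (b (l (nat_lit 2) (nat_lit 234) (nat_lit 259)) (l (nat_lit 2) (nat_lit 235) (nat_lit 261)))) (n (nat_lit 263) (b (l (nat_lit 0) (nat_lit 234) (nat_lit 234)) (l (nat_lit 0) (nat_lit 235) (nat_lit 264)))))))) (l (nat_lit 7) (nat_lit 211) (nat_lit 211)))) (l (nat_lit 5) (nat_lit 212) (nat_lit 213)))) (r (nat_lit 6))) (b (n (nat_lit 212) (b (n (nat_lit 187) (b (n (nat_lit 186) (b (l (nat_lit 7) (nat_lit 186) (nat_lit 211)) (l (nat_lit 7) (nat_lit 161) (nat_lit 161)))) (n (nat_lit 288) (b (l (nat_lit 4) (nat_lit 187) (nat_lit 263)) (l (nat_lit 4) (nat_lit 212) (nat_lit 313)))))) (n (nat_lit 213) (b (l (nat_lit 5) (nat_lit 187) (nat_lit 188)) (l (nat_lit 5) (nat_lit 212) (nat_lit 238)))))) (n (nat_lit 212) (b (n (nat_lit 213) (b (l (nat_lit 5) (nat_lit 187) (nat_lit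 188)) (l (nat_lit 5) (nat_lit 212) (nat_lit 238)))) (n (nat_lit 211) (b (l (nat_lit 7) (nat_lit 211) (nat_lit 236)) (l (nat_lit 7) (nat_lit 186) (nat_lit 186)))))))) (n (nat_lit 212) (b (b (n (nat_lit 187) (b (n (nat_lit 162) (b (n (nat_lit 163) (b (l (nat_lit 5) (nat_lit 162) (nat_lit 188)) (l (nat_lit 5) (nat_lit 137) (nat_lit 138)))) (n (nat_lit 161) (b (l (nat_lit 7) (nat_lit 136) (nat_lit 136)) (l (nat_lit 7) (nat_lit 161) (nat_lit 186)))))) (n (nat_lit 288) (b (l (nat_lit 4) (nat_lit 187) (nat_lit 263)) (l (nat_lit 4) (nat_lit 212) (nat_lit 313)))))) (n (nat_lit 213) (b (l (nat_lit 5) (nat_lit 187) (nat_lit 188)) (l (nat_lit 5) (nat_lit 212) (nat_lit 238))))) (n (nat_lit 238) (b (n (nat_lit 288) (b (n (nat_lit 263) (b (n (nat_lit 264) (b (n (nat_lit 239) (b (n (nat_lit 236) (b (n (nat_lit 214) (b (l (nat_lit 6) (nat_lit 188) (nat_lit 189)) (l (nat_lit 1) (nat_lit 211) (nat_lit 215)))) (l (nat_lit 0) (nat_lit 235) (nat_lit 235)))) (n (nat_lit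 240) (b (l (nat_lit 2) (nat_lit 237) (nat_lit 241)) (l (nat_lit 1) (nat_lit 236) (nat_lit 261)))))) (n (nat_lit 290) (b (n (nat_lit 265) (b (l (nat_lit 0) (nat_lit 262) (nat_lit 291)) (l (nat_lit 2) (nat_lit 262) (nat_lit 266)))) (n (nat_lit 311) (b (l (nat_lit 6) (nat_lit 236) (nat_lit 336)) (l (nat_lit 2) (nat_lit 286) (nat_lit 289)))))))) (l (nat_lit 4) (nat_lit 187) (nat_lit 187)))) (l (nat_lit 4) (nat_lit 212) (nat_lit 313)))) (l (nat_lit 5) (nat_lit 212) (nat_lit 213))))))))))))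
    (envOK_cons p7105 (envOK_cons p6346 (envOK_cons p7260 (envOK_cons p7339 (envOK_cons p5125 (envOK_cons p4970 (envOK_cons p5137 envOK_nil))))))) (by decide +kernel)

theorem p7404 : Fam (nat_lit 20) (nat_lit 8343699359066055009355553539724812947666814540455674882605631280555545803830627148527195652096) (nat_lit 29771315389304207464725481189242429530162591811899681237954682308173370099482274441644880062199809528579662600998009709272559119527567163392) (nat_lit 29771315389304207464725481189242429530162591811899681237954682308173370099482274441644880062199809528579662600998009709272559119527567163392) :=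
  chk_sound (Env.cons (nat_lit 11) (nat_lit 279968101115925134047353499319930152181142708231565782546248918899963984685054368582985341452834308096) (nat_lit 26442243637458857920636016182980017490907624415250442782140327627048399474848632115852529609204618007466971928970057318662144) (Env.cons (nat_lit 9) (nat_lit 279968101115925258378188539194579849854479624837417753751645750713458448287393430371677367127217537024) (nat_lit 2644223953965015889199670343605907071320827247424103543680572966728647747539060294371412434694473747213087207561565671784448) (Env.cons (nat_lit 6) (nat_lit 279968101115925134047353499319930152181142708231565782546248918899963984685054368582985341452834308096) (nat_lit 177450897442867506523184004415840705851533163927245650626102145300688775370506868334343853540101905533018445551714224250149062836224) (Env.cons (nat_lit 10) (nat_lit 279968101115925134047360910013641340417649816774606338572351528178982585681152893868361847893131264000)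 (nat_lit 4697085707985979179678292266955871075712294709046508640995701891770518512907813786165751500196651093358280704) (Env.cons (nat_lit 11) (nat_lit 8343699607727673214248874617415937021077234590683750281279490000787534250410375654793883418624) (nat_lit 26442241115730614006661741382177713607874042135036203953322961331052157962418372211701057865106756570236243822629589344059392) (Env.cons (nat_lit 5) (nat_lit 8343699607727680624942585805652444129620275146709852890558508601783632775695752161234180374528) (nat_lit 4697085585499834817065877719977583614191960583255028485002743284128931649017862209146528200319422203917500416) (Env.cons (nat_lit 5) (nat_lit 279968101115925134047360910013641340417649816774606338572351528178982585681152893868361847893131264000) (nat_lit 177450897442867506523146427734411336485097347665327137421415412104367939267579959291650257037138406317976297608412885864408135237632) (Env.cons (nat_lit 6) (nat_lit 8343699607727680624942585805652444129620275146709852890558508601783632775695752161234180374528)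 (nat_lit 9394170611063450714882271889968436333678150340908590158019546254001835093388456938033698592067858035539705856) (Env.cons (nat_lit 6) (nat_lit 8343699607727680624942585805652444129620275146709852890558508601783632775695752161234180374528) (nat_lit 177450897442867506523146427734411336485097347665327141126762598982333875833402331339457801789409004828974956193153117360175485812736) (Env.cons (nat_lit 8) (nat_lit 8343699607727680624942585805652444129620275146709852890558508601783632775695752161234180374528) (nat_lit 139984075589061390206753825286356724340987436285104544927050843198940230426147874180285524792582340608) (Env.cons (nat_lit 7) (nat_lit 8343699607727680624942585805652444129620275146709852890558508601783632775695752161234180374528) (nat_lit 157608038876833833444263029783032670729703827483368046340969130616306621566713904734844692161835655087817878589669376) (Env.cons (nat_lit 7) (nat_lit 8343699607727680624942585805652444129620275146709852890558508601783632775695752161234180374528)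 (nat_lit 139984058901662174751586179774389905896675641119322595655542692104932275554488142371094612491133517824) (Env.cons (nat_lit 7) (nat_lit 8343699607727680624942585805652444129620275146709852890558508601783632775695752161234180374528) (nat_lit 279968101115925258378398817632140903410289992633796097190334692882124225205544356079551562103616700416) (Env.cons (nat_lit 8) (nat_lit 279968101115925134047353499319930152181142708231565782546248918899963984685054368582985341452834308096) (nat_lit 26442239854866187913400038420424076345466214585943994962730578188198344802716823383997683030028551990322878313530065353179136) (Env.cons (nat_lit 12) (nat_lit 8343699607727673214248874617415937021077234590683750281279490000787534250410375654793883418624) (nat_lit 4697088945117051337066798256012019347568263649904879019853342506171507874632271876690957958554226783737085952) (Env.cons (nat_lit 12) (nat_lit 8343699607727673214248874617415937021077234590683750281279490000787534250410375654793883418624)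 (nat_lit 177450897442871289115854011651853464535882629231336392089011077458352220532131915979824316677331158286450747564113998471184412311552) (Env.cons (nat_lit 16) (nat_lit 8343699607727673214248874617415937021077234590683750281279490000787534250410375654793883418624) (nat_lit 177450897442876411376661891481230822134998950351810702122761036832764077213284686679507101740354343321409715187223030273643888246784) (Env.cons (nat_lit 11) (nat_lit 8343699607727673214248874617415937021077234590683750281279490000787534250410375654793883418624) (nat_lit 29771315389304118222160715772387716853909998221689354186548039161336072836076891261860363289851715069104980154502073853358817782735921217536) (Env.cons (nat_lit 17) (nat_lit 8343699607727673214248874617415937021077234590683750281279490000787534250410375654793883418624) (nat_lit 29747523619317277019455619329558276969746293522108095918178562215028623203095431786154110375392568921778158498742344746008576) (Env.cons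 (nat_lit 14) (nat_lit 8343699607727673214248874617415937021077234590683750281279490000787534250410375654793883418624) (nat_lit 29086463808831199105514018276193751575701203316025857997045527504096369971715710739471401409212610949581769461297587765116928) (Env.cons (nat_lit 13) (nat_lit 8343699607727673214248874617415937021077234590683750281279490000787534250410375654793883418624) (nat_lit 177450869678518196402926695869969669573972738081469931058925702156002696833249944059641655641804346856360321094749395936956282568704) (Env.cons (nat_lit 10) (nat_lit 8343699607727673214248874617415937021077234590683750281279490000787534250410375654793883418624) (nat_lit 6619537316948034207651541673248629258055133757849905074968184196854157094293018016176120134715469659997267797290778624) (Env.cons (nat_lit 14) (nat_lit 8343699607727673214248874617415937021077234590683750281279490000787534250410375654793883418624) (nat_lit 6610561224580877368497125027815428084384376276394269332774831542506794597660876600383428617212738800977239002672488253489152)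 (Env.cons (nat_lit 19) (nat_lit 8343699607727673214248874617415937021077234590683750281279490000787534250410375654793883418624) (nat_lit 21153801083276590988816702109123487059962403622946253771320793936829799159608159588050984377835527682829726194155096601788416) (Env.cons (nat_lit 12) (nat_lit 8343699607727673214248874617415937021077234590683750281279490000787534250410375654793883418624) (nat_lit 177450898764979562309666324779169785491239935176560030795368948234397496044763202767650133238615828342393194428101231567049112682496) (Env.cons (nat_lit 18) (nat_lit 8343699607727673214248874617415937021077234590683750281279490000787534250410375654793883418624) (nat_lit 112379524741855043769119794488631909694620895463971930136473386567611176862153673251362880860302585266886155012446893450985472) (Env.cons (nat_lit 19) (nat_lit 8343699607727673214248874617415937021077234590683750281279490000787534250410375654793883418624) (nat_lit 887254342443076092433489691324526669280263521184362758136917785815638899755588147939518745769773132183104507793973150290553530744832)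 Env.nil)))))))))))))))))))))))))))
    (n (nat_lit 287) (b (b (b (b (b (n (nat_lit 337) (b (b (b (r (nat_lit 0)) (n (nat_lit 262) (b (b (n (nat_lit 237) (b (n (nat_lit 238) (b (l (nat_lit 5) (nat_lit 237) (nat_lit 263)) (l (nat_lit 5) (nat_lit 212) (nat_lit 213)))) (n (nat_lit 236) (b (l (nat_lit 7) (nat_lit 211) (nat_lit 211)) (l (nat_lit 7) (nat_lit 236) (nat_lit 261)))))) (n (nat_lit 237) (b (n (nat_lit 238) (b (l (nat_lit 5) (nat_lit 237) (nat_lit 263)) (l (nat_lit 5) (nat_lit 212) (nat_lit 213)))) (n (nat_lit 336) (b (l (nat_lit 6) (nat_lit 261) (nat_lit 361)) (l (nat_lit 6) (nat_lit 236) (nat_lit 311))))))) (b (n (nat_lit 237) (b (n (nat_lit 336) (b (l (nat_lit 6) (nat_lit 261) (nat_lit 361)) (l (nat_lit 6) (nat_lit 236) (nat_lit 311)))) (n (nat_lit 236) (b (l (nat_lit 7) (nat_lit 211) (nat_lit 211)) (l (nat_lit 7) (nat_lit 236) (nat_lit 261)))))) (n (nat_lit 263) (b (n (nat_lit 286) (b (b (n (nat_lit 261) (b (r (nat_lit 1)) (l (nat_lit 7) (nat_lit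 236) (nat_lit 236)))) (n (nat_lit 285) (b (n (nat_lit 264) (b (l (nat_lit 1) (nat_lit 260) (nat_lit 288)) (l (nat_lit 2) (nat_lit 261) (nat_lit 265)))) (l (nat_lit 1) (nat_lit 259) (nat_lit 284))))) (b (n (nat_lit 264) (b (n (nat_lit 261) (b (l (nat_lit 7) (nat_lit 236) (nat_lit 236)) (l (nat_lit 2) (nat_lit 260) (nat_lit 285)))) (l (nat_lit 2) (nat_lit 261) (nat_lit 265)))) (n (nat_lit 285) (b (n (nat_lit 261) (b (n (nat_lit 336) (b (n (nat_lit 313) (b (n (nat_lit 335) (b (n (nat_lit 360) (b (l (nat_lit 5) (nat_lit 260) (nat_lit 310)) (l (nat_lit 6) (nat_lit 260) (nat_lit 311)))) (l (nat_lit 1) (nat_lit 309) (nat_lit 334)))) (n (nat_lit 314) (b (l (nat_lit 0) (nat_lit 285) (nat_lit 288)) (l (nat_lit 3) (nat_lit 286) (nat_lit 315)))))) (l (nat_lit 6) (nat_lit 261) (nat_lit 361)))) (l (nat_lit 7) (nat_lit 236) (nat_lit 236)))) (l (nat_lit 1) (nat_lit 259) (nat_lit 284))))))) (l (nat_lit 5) (nat_lit 237) (nat_lit 238)))))))) (b (n (nat_lit 362) (b (b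 (n (nat_lit 361) (b (n (nat_lit 363) (b (n (nat_lit 336) (b (n (nat_lit 335) (b (l (nat_lit 3) (nat_lit 335) (nat_lit 364)) (l (nat_lit 0) (nat_lit 334) (nat_lit 334)))) (l (nat_lit 6) (nat_lit 261) (nat_lit 262)))) (l (nat_lit 4) (nat_lit 287) (nat_lit 388)))) (l (nat_lit 6) (nat_lit 286) (nat_lit 386)))) (n (nat_lit 387) (b (n (nat_lit 288) (b (l (nat_lit 5) (nat_lit 262) (nat_lit 263)) (l (nat_lit 5) (nat_lit 287) (nat_lit 313)))) (n (nat_lit 386) (b (l (nat_lit 6) (nat_lit 311) (nat_lit 411)) (l (nat_lit 6) (nat_lit 286) (nat_lit 361))))))) (n (nat_lit 387) (b (n (nat_lit 288) (b (l (nat_lit 5) (nat_lit 262) (nat_lit 263)) (l (nat_lit 5) (nat_lit 287) (nat_lit 313)))) (n (nat_lit 388) (b (l (nat_lit 4) (nat_lit 312) (nat_lit 413)) (l (nat_lit 4) (nat_lit 287) (nat_lit 363)))))))) (n (nat_lit 362) (b (b (n (nat_lit 387) (b (n (nat_lit 288) (b (l (nat_lit 5) (nat_lit 262) (nat_lit 263)) (l (nat_lit 5) (nat_lit 287) (nat_lit 313)))) (n (nat_lit 388)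 (b (l (nat_lit 4) (nat_lit 312) (nat_lit 413)) (l (nat_lit 4) (nat_lit 287) (nat_lit 363)))))) (n (nat_lit 387) (b (n (nat_lit 286) (b (l (nat_lit 7) (nat_lit 261) (nat_lit 261)) (l (nat_lit 7) (nat_lit 286) (nat_lit 311)))) (n (nat_lit 388) (b (l (nat_lit 4) (nat_lit 312) (nat_lit 413)) (l (nat_lit 4) (nat_lit 287) (nat_lit 363))))))) (n (nat_lit 262) (b (n (nat_lit 261) (b (l (nat_lit 7) (nat_lit 261) (nat_lit 286)) (l (nat_lit 7) (nat_lit 236) (nat_lit 236)))) (n (nat_lit 263) (b (l (nat_lit 5) (nat_lit 237) (nat_lit 238)) (l (nat_lit 5) (nat_lit 262) (nat_lit 288)))))))))) (n (nat_lit 362) (b (b (n (nat_lit 387) (b (n (nat_lit 388) (b (l (nat_lit 4) (nat_lit 312) (nat_lit 413)) (l (nat_lit 4) (nat_lit 287) (nat_lit 363)))) (n (nat_lit 386) (b (l (nat_lit 6) (nat_lit 311) (nat_lit 411)) (l (nat_lit 6) (nat_lit 286) (nat_lit 361)))))) (n (nat_lit 262) (b (n (nat_lit 261) (b (l (nat_lit 7) (nat_lit 261) (nat_lit 286)) (l (nat_lit 7) (nat_lit 236)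 (nat_lit 236)))) (n (nat_lit 361) (b (l (nat_lit 6) (nat_lit 286) (nat_lit 386)) (l (nat_lit 6) (nat_lit 261) (nat_lit 336))))))) (n (nat_lit 387) (b (n (nat_lit 286) (b (l (nat_lit 7) (nat_lit 261) (nat_lit 261)) (l (nat_lit 7) (nat_lit 286) (nat_lit 311)))) (n (nat_lit 388) (b (l (nat_lit 4) (nat_lit 312) (nat_lit 413)) (l (nat_lit 4) (nat_lit 287) (nat_lit 363)))))))))) (n (nat_lit 337) (b (b (b (r (nat_lit 2)) (r (nat_lit 0))) (b (n (nat_lit 362) (b (b (n (nat_lit 361) (b (n (nat_lit 363) (b (n (nat_lit 336) (b (n (nat_lit 335) (b (l (nat_lit 3) (nat_lit 335) (nat_lit 364)) (l (nat_lit 0) (nat_lit 334) (nat_lit 334)))) (l (nat_lit 6) (nat_lit 261) (nat_lit 262)))) (l (nat_lit 4) (nat_lit 287) (nat_lit 388)))) (l (nat_lit 6) (nat_lit 286) (nat_lit 386)))) (n (nat_lit 387) (b (n (nat_lit 288) (b (l (nat_lit 5) (nat_lit 262) (nat_lit 263)) (l (nat_lit 5) (nat_lit 287) (nat_lit 313)))) (n (nat_lit 386) (b (l (nat_lit 6) (nat_lit 311) (nat_lit 411))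 (l (nat_lit 6) (nat_lit 286) (nat_lit 361))))))) (n (nat_lit 387) (b (n (nat_lit 288) (b (l (nat_lit 5) (nat_lit 262) (nat_lit 263)) (l (nat_lit 5) (nat_lit 287) (nat_lit 313)))) (n (nat_lit 388) (b (l (nat_lit 4) (nat_lit 312) (nat_lit 413)) (l (nat_lit 4) (nat_lit 287) (nat_lit 363)))))))) (n (nat_lit 362) (b (b (n (nat_lit 387) (b (n (nat_lit 288) (b (l (nat_lit 5) (nat_lit 262) (nat_lit 263)) (l (nat_lit 5) (nat_lit 287) (nat_lit 313)))) (n (nat_lit 388) (b (l (nat_lit 4) (nat_lit 312) (nat_lit 413)) (l (nat_lit 4) (nat_lit 287) (nat_lit 363)))))) (n (nat_lit 387) (b (n (nat_lit 286) (b (l (nat_lit 7) (nat_lit 261) (nat_lit 261)) (l (nat_lit 7) (nat_lit 286) (nat_lit 311)))) (n (nat_lit 388) (b (l (nat_lit 4) (nat_lit 312) (nat_lit 413)) (l (nat_lit 4) (nat_lit 287) (nat_lit 363))))))) (n (nat_lit 262) (b (n (nat_lit 261) (b (l (nat_lit 7) (nat_lit 261) (nat_lit 286)) (l (nat_lit 7) (nat_lit 236) (nat_lit 236)))) (n (nat_lit 263) (b (l (nat_lit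 5) (nat_lit 237) (nat_lit 238)) (l (nat_lit 5) (nat_lit 262) (nat_lit 288)))))))))) (n (nat_lit 262) (b (b (n (nat_lit 261) (b (n (nat_lit 263) (b (n (nat_lit 264) (b (b (n (nat_lit 265) (b (n (nat_lit 240) (b (l (nat_lit 1) (nat_lit 236) (nat_lit 239)) (l (nat_lit 1) (nat_lit 237) (nat_lit 241)))) (n (nat_lit 290) (b (l (nat_lit 0) (nat_lit 262) (nat_lit 291)) (l (nat_lit 0) (nat_lit 261) (nat_lit 289)))))) (n (nat_lit 286) (b (l (nat_lit 2) (nat_lit 260) (nat_lit 285)) (l (nat_lit 2) (nat_lit 261) (nat_lit 265))))) (n (nat_lit 260) (b (n (nat_lit 285) (b (l (nat_lit 2) (nat_lit 259) (nat_lit 284)) (l (nat_lit 2) (nat_lit 260) (nat_lit 286)))) (n (nat_lit 288) (b (l (nat_lit 0) (nat_lit 260) (nat_lit 289)) (l (nat_lit 0) (nat_lit 259) (nat_lit 259)))))))) (l (nat_lit 5) (nat_lit 237) (nat_lit 238)))) (l (nat_lit 7) (nat_lit 236) (nat_lit 236)))) (r (nat_lit 3))) (n (nat_lit 237) (b (n (nat_lit 238) (b (l (nat_lit 5) (nat_lit 237) (nat_lit 263)) (l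 (nat_lit 5) (nat_lit 212) (nat_lit 213)))) (n (nat_lit 336) (b (l (nat_lit 6) (nat_lit 261) (nat_lit 361)) (l (nat_lit 6) (nat_lit 236) (nat_lit 311))))))))))) (b (r (nat_lit 4)) (n (nat_lit 262) (b (b (b (r (nat_lit 5)) (n (nat_lit 337) (b (b (r (nat_lit 6)) (n (nat_lit 263) (b (n (nat_lit 288) (b (n (nat_lit 261) (b (n (nat_lit 289) (b (l (nat_lit 3) (nat_lit 261) (nat_lit 290)) (l (nat_lit 0) (nat_lit 260) (nat_lit 260)))) (l (nat_lit 7) (nat_lit 236) (nat_lit 236)))) (l (nat_lit 5) (nat_lit 262) (nat_lit 362)))) (l (nat_lit 5) (nat_lit 237) (nat_lit 238))))) (n (nat_lit 263) (b (n (nat_lit 286) (b (b (n (nat_lit 285) (b (n (nat_lit 261) (b (n (nat_lit 336) (b (n (nat_lit 313) (b (n (nat_lit 335) (b (n (nat_lit 360) (b (l (nat_lit 5) (nat_lit 260) (nat_lit 310)) (l (nat_lit 6) (nat_lit 260) (nat_lit 311)))) (l (nat_lit 1) (nat_lit 309) (nat_lit 334)))) (n (nat_lit 314) (b (l (nat_lit 0) (nat_lit 285) (nat_lit 288)) (l (nat_lit 3) (nat_lit 286)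 (nat_lit 315)))))) (l (nat_lit 6) (nat_lit 261) (nat_lit 361)))) (l (nat_lit 7) (nat_lit 236) (nat_lit 236)))) (l (nat_lit 1) (nat_lit 259) (nat_lit 284)))) (n (nat_lit 285) (b (n (nat_lit 264) (b (l (nat_lit 1) (nat_lit 260) (nat_lit 288)) (l (nat_lit 2) (nat_lit 261) (nat_lit 265)))) (l (nat_lit 1) (nat_lit 259) (nat_lit 284))))) (b (n (nat_lit 264) (b (n (nat_lit 261) (b (l (nat_lit 7) (nat_lit 236) (nat_lit 236)) (l (nat_lit 2) (nat_lit 260) (nat_lit 285)))) (l (nat_lit 2) (nat_lit 261) (nat_lit 265)))) (n (nat_lit 261) (b (n (nat_lit 260) (b (n (nat_lit 336) (b (n (nat_lit 235) (b (l (nat_lit 7) (nat_lit 235) (nat_lit 311)) (l (nat_lit 3) (nat_lit 234) (nat_lit 234)))) (l (nat_lit 6) (nat_lit 261) (nat_lit 361)))) (n (nat_lit 289) (b (n (nat_lit 264) (b (l (nat_lit 2) (nat_lit 261) (nat_lit 265)) (l (nat_lit 0) (nat_lit 261) (nat_lit 290)))) (l (nat_lit 3) (nat_lit 260) (nat_lit 288)))))) (l (nat_lit 7) (nat_lit 236) (nat_lit 236))))))) (l (nat_lit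 5) (nat_lit 237) (nat_lit 238))))))) (b (r (nat_lit 7)) (r (nat_lit 8)))) (r (nat_lit 9)))))) (b (b (n (nat_lit 262) (b (b (b (n (nat_lit 337) (b (b (n (nat_lit 263) (b (n (nat_lit 288) (b (n (nat_lit 286) (b (n (nat_lit 285) (b (l (nat_lit 1) (nat_lit 260) (nat_lit 264)) (l (nat_lit 1) (nat_lit 259) (nat_lit 284)))) (n (nat_lit 311) (b (n (nat_lit 237) (b (l (nat_lit 6) (nat_lit 236) (nat_lit 336)) (l (nat_lit 6) (nat_lit 211) (nat_lit 212)))) (n (nat_lit 289) (b (l (nat_lit 2) (nat_lit 286) (nat_lit 290)) (l (nat_lit 2) (nat_lit 285) (nat_lit 310)))))))) (l (nat_lit 5) (nat_lit 262) (nat_lit 362)))) (l (nat_lit 5) (nat_lit 237) (nat_lit 238)))) (r (nat_lit 6))) (b (n (nat_lit 362) (b (n (nat_lit 387) (b (n (nat_lit 388) (b (l (nat_lit 4) (nat_lit 312) (nat_lit 413)) (l (nat_lit 4) (nat_lit 287) (nat_lit 363)))) (n (nat_lit 386) (b (l (nat_lit 6) (nat_lit 311) (nat_lit 411)) (l (nat_lit 6) (nat_lit 286) (nat_lit 361)))))) (n (nat_lit 263) (b (l (nat_lit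 5) (nat_lit 237) (nat_lit 238)) (l (nat_lit 5) (nat_lit 262) (nat_lit 288)))))) (n (nat_lit 237) (b (n (nat_lit 238) (b (l (nat_lit 5) (nat_lit 237) (nat_lit 263)) (l (nat_lit 5) (nat_lit 212) (nat_lit 213)))) (n (nat_lit 336) (b (l (nat_lit 6) (nat_lit 261) (nat_lit 361)) (l (nat_lit 6) (nat_lit 236) (nat_lit 311))))))))) (r (nat_lit 10))) (b (r (nat_lit 11)) (r (nat_lit 12)))) (b (r (nat_lit 8)) (n (nat_lit 237) (b (b (n (nat_lit 337) (b (n (nat_lit 238) (b (l (nat_lit 5) (nat_lit 237) (nat_lit 263)) (l (nat_lit 5) (nat_lit 212) (nat_lit 213)))) (n (nat_lit 336) (b (l (nat_lit 6) (nat_lit 261) (nat_lit 361)) (l (nat_lit 6) (nat_lit 236) (nat_lit 311)))))) (n (nat_lit 212) (b (n (nat_lit 213) (b (l (nat_lit 5) (nat_lit 187) (nat_lit 188)) (l (nat_lit 5) (nat_lit 212) (nat_lit 238)))) (n (nat_lit 211) (b (l (nat_lit 7) (nat_lit 211) (nat_lit 236)) (l (nat_lit 7) (nat_lit 186) (nat_lit 186))))))) (n (nat_lit 337) (b (n (nat_lit 336) (b (l (nat_lit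 6) (nat_lit 261) (nat_lit 361)) (l (nat_lit 6) (nat_lit 236) (nat_lit 311)))) (n (nat_lit 236) (b (l (nat_lit 7) (nat_lit 211) (nat_lit 211)) (l (nat_lit 7) (nat_lit 236) (nat_lit 261))))))))))) (n (nat_lit 337) (b (b (b (r (nat_lit 13)) (r (nat_lit 2))) (b (n (nat_lit 362) (b (b (n (nat_lit 361) (b (n (nat_lit 363) (b (n (nat_lit 336) (b (n (nat_lit 335) (b (l (nat_lit 3) (nat_lit 335) (nat_lit 364)) (l (nat_lit 0) (nat_lit 334) (nat_lit 334)))) (l (nat_lit 6) (nat_lit 261) (nat_lit 262)))) (l (nat_lit 4) (nat_lit 287) (nat_lit 388)))) (l (nat_lit 6) (nat_lit 286) (nat_lit 386)))) (n (nat_lit 387) (b (n (nat_lit 288) (b (l (nat_lit 5) (nat_lit 262) (nat_lit 263)) (l (nat_lit 5) (nat_lit 287) (nat_lit 313)))) (n (nat_lit 386) (b (l (nat_lit 6) (nat_lit 311) (nat_lit 411)) (l (nat_lit 6) (nat_lit 286) (nat_lit 361))))))) (n (nat_lit 387) (b (n (nat_lit 288) (b (l (nat_lit 5) (nat_lit 262) (nat_lit 263)) (l (nat_lit 5) (nat_lit 287) (nat_lit 313))))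 (n (nat_lit 388) (b (l (nat_lit 4) (nat_lit 312) (nat_lit 413)) (l (nat_lit 4) (nat_lit 287) (nat_lit 363)))))))) (n (nat_lit 362) (b (b (n (nat_lit 387) (b (n (nat_lit 288) (b (l (nat_lit 5) (nat_lit 262) (nat_lit 263)) (l (nat_lit 5) (nat_lit 287) (nat_lit 313)))) (n (nat_lit 388) (b (l (nat_lit 4) (nat_lit 312) (nat_lit 413)) (l (nat_lit 4) (nat_lit 287) (nat_lit 363)))))) (n (nat_lit 387) (b (n (nat_lit 286) (b (l (nat_lit 7) (nat_lit 261) (nat_lit 261)) (l (nat_lit 7) (nat_lit 286) (nat_lit 311)))) (n (nat_lit 388) (b (l (nat_lit 4) (nat_lit 312) (nat_lit 413)) (l (nat_lit 4) (nat_lit 287) (nat_lit 363))))))) (n (nat_lit 262) (b (n (nat_lit 261) (b (l (nat_lit 7) (nat_lit 261) (nat_lit 286)) (l (nat_lit 7) (nat_lit 236) (nat_lit 236)))) (n (nat_lit 263) (b (l (nat_lit 5) (nat_lit 237) (nat_lit 238)) (l (nat_lit 5) (nat_lit 262) (nat_lit 288)))))))))) (n (nat_lit 262) (b (b (n (nat_lit 261) (b (n (nat_lit 263) (b (n (nat_lit 264) (b (b (n (nat_lit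 265) (b (n (nat_lit 240) (b (l (nat_lit 1) (nat_lit 236) (nat_lit 239)) (l (nat_lit 1) (nat_lit 237) (nat_lit 241)))) (n (nat_lit 290) (b (l (nat_lit 0) (nat_lit 262) (nat_lit 291)) (l (nat_lit 0) (nat_lit 261) (nat_lit 289)))))) (n (nat_lit 286) (b (l (nat_lit 2) (nat_lit 260) (nat_lit 285)) (l (nat_lit 2) (nat_lit 261) (nat_lit 265))))) (n (nat_lit 260) (b (n (nat_lit 285) (b (l (nat_lit 2) (nat_lit 259) (nat_lit 284)) (l (nat_lit 2) (nat_lit 260) (nat_lit 286)))) (n (nat_lit 288) (b (l (nat_lit 0) (nat_lit 260) (nat_lit 289)) (l (nat_lit 0) (nat_lit 259) (nat_lit 259)))))))) (l (nat_lit 5) (nat_lit 237) (nat_lit 238)))) (l (nat_lit 7) (nat_lit 236) (nat_lit 236)))) (n (nat_lit 237) (b (n (nat_lit 336) (b (l (nat_lit 6) (nat_lit 261) (nat_lit 361)) (l (nat_lit 6) (nat_lit 236) (nat_lit 311)))) (n (nat_lit 236) (b (l (nat_lit 7) (nat_lit 211) (nat_lit 211)) (l (nat_lit 7) (nat_lit 236) (nat_lit 261))))))) (n (nat_lit 336) (b (n (nat_lit 311) (b (n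 (nat_lit 310) (b (b (n (nat_lit 288) (b (n (nat_lit 289) (b (l (nat_lit 2) (nat_lit 285) (nat_lit 286)) (l (nat_lit 2) (nat_lit 286) (nat_lit 290)))) (l (nat_lit 1) (nat_lit 284) (nat_lit 309)))) (n (nat_lit 313) (b (n (nat_lit 309) (b (n (nat_lit 284) (b (l (nat_lit 3) (nat_lit 283) (nat_lit 283)) (l (nat_lit 3) (nat_lit 284) (nat_lit 285)))) (l (nat_lit 0) (nat_lit 308) (nat_lit 308)))) (n (nat_lit 335) (b (l (nat_lit 1) (nat_lit 309) (nat_lit 334)) (l (nat_lit 2) (nat_lit 310) (nat_lit 314))))))) (n (nat_lit 288) (b (b (n (nat_lit 289) (b (l (nat_lit 1) (nat_lit 285) (nat_lit 313)) (l (nat_lit 2) (nat_lit 286) (nat_lit 290)))) (n (nat_lit 289) (b (l (nat_lit 2) (nat_lit 285) (nat_lit 286)) (l (nat_lit 2) (nat_lit 286) (nat_lit 290))))) (n (nat_lit 285) (b (n (nat_lit 313) (b (n (nat_lit 335) (b (l (nat_lit 2) (nat_lit 310) (nat_lit 314)) (l (nat_lit 2) (nat_lit 309) (nat_lit 334)))) (l (nat_lit 3) (nat_lit 284) (nat_lit 284)))) (n (nat_lit 286)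 (b (n (nat_lit 263) (b (l (nat_lit 1) (nat_lit 260) (nat_lit 264)) (l (nat_lit 5) (nat_lit 237) (nat_lit 238)))) (n (nat_lit 260) (b (l (nat_lit 4) (nat_lit 235) (nat_lit 235)) (l (nat_lit 3) (nat_lit 259) (nat_lit 259)))))))))))) (l (nat_lit 6) (nat_lit 236) (nat_lit 237)))) (l (nat_lit 6) (nat_lit 261) (nat_lit 361))))))))) (b (r (nat_lit 14)) (r (nat_lit 15))))) (b (b (b (r (nat_lit 16)) (n (nat_lit 262) (b (b (b (r (nat_lit 9)) (n (nat_lit 237) (b (b (n (nat_lit 236) (b (n (nat_lit 238) (b (n (nat_lit 261) (b (n (nat_lit 260) (b (l (nat_lit 2) (nat_lit 235) (nat_lit 239)) (l (nat_lit 1) (nat_lit 234) (nat_lit 259)))) (l (nat_lit 7) (nat_lit 236) (nat_lit 337)))) (l (nat_lit 5) (nat_lit 212) (nat_lit 213)))) (l (nat_lit 7) (nat_lit 211) (nat_lit 211)))) (n (nat_lit 212) (b (n (nat_lit 311) (b (l (nat_lit 6) (nat_lit 236) (nat_lit 336)) (l (nat_lit 6) (nat_lit 211) (nat_lit 286)))) (n (nat_lit 211) (b (l (nat_lit 7) (nat_lit 211) (nat_lit 236))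 (l (nat_lit 7) (nat_lit 186) (nat_lit 186))))))) (n (nat_lit 212) (b (n (nat_lit 311) (b (l (nat_lit 6) (nat_lit 236) (nat_lit 336)) (l (nat_lit 6) (nat_lit 211) (nat_lit 286)))) (n (nat_lit 213) (b (l (nat_lit 5) (nat_lit 187) (nat_lit 188)) (l (nat_lit 5) (nat_lit 212) (nat_lit 238))))))))) (b (r (nat_lit 7)) (n (nat_lit 337) (b (b (n (nat_lit 362) (b (n (nat_lit 387) (b (n (nat_lit 288) (b (l (nat_lit 5) (nat_lit 262) (nat_lit 263)) (l (nat_lit 5) (nat_lit 287) (nat_lit 313)))) (n (nat_lit 388) (b (l (nat_lit 4) (nat_lit 312) (nat_lit 413)) (l (nat_lit 4) (nat_lit 287) (nat_lit 363)))))) (n (nat_lit 361) (b (l (nat_lit 6) (nat_lit 286) (nat_lit 386)) (l (nat_lit 6) (nat_lit 261) (nat_lit 336)))))) (n (nat_lit 237) (b (n (nat_lit 336) (b (l (nat_lit 6) (nat_lit 261) (nat_lit 361)) (l (nat_lit 6) (nat_lit 236) (nat_lit 311)))) (n (nat_lit 236) (b (l (nat_lit 7) (nat_lit 211) (nat_lit 211)) (l (nat_lit 7) (nat_lit 236) (nat_lit 261))))))) (n (nat_lit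 362) (b (n (nat_lit 387) (b (n (nat_lit 288) (b (l (nat_lit 5) (nat_lit 262) (nat_lit 263)) (l (nat_lit 5) (nat_lit 287) (nat_lit 313)))) (n (nat_lit 388) (b (l (nat_lit 4) (nat_lit 312) (nat_lit 413)) (l (nat_lit 4) (nat_lit 287) (nat_lit 363)))))) (n (nat_lit 261) (b (l (nat_lit 7) (nat_lit 261) (nat_lit 286)) (l (nat_lit 7) (nat_lit 236) (nat_lit 236)))))))))) (b (n (nat_lit 337) (b (b (n (nat_lit 362) (b (n (nat_lit 387) (b (n (nat_lit 286) (b (l (nat_lit 7) (nat_lit 261) (nat_lit 261)) (l (nat_lit 7) (nat_lit 286) (nat_lit 311)))) (n (nat_lit 388) (b (l (nat_lit 4) (nat_lit 312) (nat_lit 413)) (l (nat_lit 4) (nat_lit 287) (nat_lit 363)))))) (n (nat_lit 361) (b (l (nat_lit 6) (nat_lit 286) (nat_lit 386)) (l (nat_lit 6) (nat_lit 261) (nat_lit 336)))))) (n (nat_lit 362) (b (n (nat_lit 263) (b (l (nat_lit 5) (nat_lit 237) (nat_lit 238)) (l (nat_lit 5) (nat_lit 262) (nat_lit 288)))) (n (nat_lit 361) (b (l (nat_lit 6) (nat_lit 286) (nat_lit 386)) (l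 (nat_lit 6) (nat_lit 261) (nat_lit 336))))))) (b (n (nat_lit 237) (b (n (nat_lit 238) (b (l (nat_lit 5) (nat_lit 237) (nat_lit 263)) (l (nat_lit 5) (nat_lit 212) (nat_lit 213)))) (n (nat_lit 336) (b (l (nat_lit 6) (nat_lit 261) (nat_lit 361)) (l (nat_lit 6) (nat_lit 236) (nat_lit 311)))))) (n (nat_lit 362) (b (n (nat_lit 387) (b (n (nat_lit 286) (b (l (nat_lit 7) (nat_lit 261) (nat_lit 261)) (l (nat_lit 7) (nat_lit 286) (nat_lit 311)))) (n (nat_lit 388) (b (l (nat_lit 4) (nat_lit 312) (nat_lit 413)) (l (nat_lit 4) (nat_lit 287) (nat_lit 363)))))) (n (nat_lit 263) (b (l (nat_lit 5) (nat_lit 237) (nat_lit 238)) (l (nat_lit 5) (nat_lit 262) (nat_lit 288))))))))) (n (nat_lit 337) (b (b (n (nat_lit 263) (b (n (nat_lit 261) (b (n (nat_lit 260) (b (n (nat_lit 288) (b (l (nat_lit 0) (nat_lit 260) (nat_lit 289)) (l (nat_lit 0) (nat_lit 259) (nat_lit 259)))) (n (nat_lit 336) (b (n (nat_lit 286) (b (n (nat_lit 264) (b (l (nat_lit 2) (nat_lit 260) (nat_lit 285))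 (l (nat_lit 2) (nat_lit 261) (nat_lit 265)))) (n (nat_lit 235) (b (l (nat_lit 7) (nat_lit 235) (nat_lit 311)) (l (nat_lit 3) (nat_lit 234) (nat_lit 234)))))) (l (nat_lit 6) (nat_lit 261) (nat_lit 361)))))) (l (nat_lit 7) (nat_lit 236) (nat_lit 236)))) (l (nat_lit 5) (nat_lit 237) (nat_lit 238)))) (n (nat_lit 362) (b (n (nat_lit 387) (b (n (nat_lit 288) (b (l (nat_lit 5) (nat_lit 262) (nat_lit 263)) (l (nat_lit 5) (nat_lit 287) (nat_lit 313)))) (n (nat_lit 388) (b (l (nat_lit 4) (nat_lit 312) (nat_lit 413)) (l (nat_lit 4) (nat_lit 287) (nat_lit 363)))))) (n (nat_lit 261) (b (l (nat_lit 7) (nat_lit 261) (nat_lit 286)) (l (nat_lit 7) (nat_lit 236) (nat_lit 236))))))) (b (r (nat_lit 6)) (n (nat_lit 362) (b (n (nat_lit 387) (b (n (nat_lit 288) (b (l (nat_lit 5) (nat_lit 262) (nat_lit 263)) (l (nat_lit 5) (nat_lit 287) (nat_lit 313)))) (n (nat_lit 388) (b (l (nat_lit 4) (nat_lit 312) (nat_lit 413)) (l (nat_lit 4) (nat_lit 287) (nat_lit 363)))))) (n (nat_lit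 361) (b (l (nat_lit 6) (nat_lit 286) (nat_lit 386)) (l (nat_lit 6) (nat_lit 261) (nat_lit 336))))))))))))) (b (r (nat_lit 17)) (r (nat_lit 18)))) (b (b (r (nat_lit 19)) (r (nat_lit 20))) (b (r (nat_lit 21)) (r (nat_lit 22)))))) (b (b (r (nat_lit 23)) (r (nat_lit 24))) (b (r (nat_lit 25)) (r (nat_lit 26))))))
    (envOK_cons p4917 (envOK_cons p4930 (envOK_cons p4953 (envOK_cons p4970 (envOK_cons p5084 (envOK_cons p5091 (envOK_cons p5095 (envOK_cons p5125 (envOK_cons p5131 (envOK_cons p5140 (envOK_cons p5148 (envOK_cons p5149 (envOK_cons p5166 (envOK_cons p5176 (envOK_cons p5248 (envOK_cons p5273 (envOK_cons p5391 (envOK_cons p5420 (envOK_cons p5687 (envOK_cons p5722 (envOK_cons p5944 (envOK_cons p6044 (envOK_cons p6170 (envOK_cons p6573 (envOK_cons p6703 (envOK_cons p7086 (envOK_cons p7403 envOK_nil))))))))))))))))))))))))))) (by decide +kernel)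

theorem p7409 : Fam (nat_lit 5) (nat_lit 279968101115925134047353499319930152181142708231565782546248918899963984685054368582985341452834308096) (nat_lit 630432127324823640570800594614818692770076707604089977364934744377718704621732080028618902870347514032913142117302272) (nat_lit 630432127324823640570800594614818692770076707604089977364934744377718704621732080028618902870347514032913142117302272) :=
  chk_sound Env.nil
    (n (nat_lit 262) (b (b (n (nat_lit 362) (b (n (nat_lit 261) (b (l (nat_lit 7) (nat_lit 261) (nat_lit 286)) (l (nat_lit 7) (nat_lit 236) (nat_lit 236)))) (n (nat_lit 363) (b (l (nat_lit 4) (nat_lit 262) (nat_lit 338)) (l (nat_lit 4) (nat_lit 287) (nat_lit 388)))))) (n (nat_lit 237) (b (n (nat_lit 212) (b (n (nat_lit 311) (b (l (nat_lit 6) (nat_lit 236) (nat_lit 336)) (l (nat_lit 6) (nat_lit 211) (nat_lit 286)))) (n (nat_lit 211) (b (l (nat_lit 7) (nat_lit 211) (nat_lit 236)) (l (nat_lit 7) (nat_lit 186) (nat_lit 186)))))) (n (nat_lit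 238) (b (l (nat_lit 5) (nat_lit 237) (nat_lit 263)) (l (nat_lit 5) (nat_lit 212) (nat_lit 213))))))) (b (n (nat_lit 237) (b (n (nat_lit 238) (b (l (nat_lit 5) (nat_lit 237) (nat_lit 263)) (l (nat_lit 5) (nat_lit 212) (nat_lit 213)))) (n (nat_lit 236) (b (l (nat_lit 7) (nat_lit 211) (nat_lit 211)) (l (nat_lit 7) (nat_lit 236) (nat_lit 261)))))) (n (nat_lit 286) (b (n (nat_lit 362) (b (n (nat_lit 363) (b (l (nat_lit 4) (nat_lit 262) (nat_lit 338)) (l (nat_lit 4) (nat_lit 287) (nat_lit 388)))) (l (nat_lit 7) (nat_lit 261) (nat_lit 261)))) (n (nat_lit 237) (b (n (nat_lit 311) (b (l (nat_lit 6) (nat_lit 236) (nat_lit 336)) (l (nat_lit 6) (nat_lit 211) (nat_lit 212)))) (n (nat_lit 238) (b (l (nat_lit 5) (nat_lit 237) (nat_lit 263)) (l (nat_lit 5) (nat_lit 212) (nat_lit 213)))))))))))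
    envOK_nil (by decide +kernel)

theorem p7413 : Fam (nat_lit 5) (nat_lit 279968101115925134047353499319930152181142708231565782546248918899963984685054368582985341452834308096) (nat_lit 177450897442867506523146427734411336485097348162650388652590139203872493525610474240721391647487596266893799909252431492147589414912) (nat_lit 177450897442867506523146427734411336485097348162650388652590139203872493525610474240721391647487596266893799909252431492147589414912) :=
  chk_sound Env.nil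
    (n (nat_lit 362) (b (b (n (nat_lit 387) (b (n (nat_lit 412) (b (n (nat_lit 311) (b (l (nat_lit 7) (nat_lit 286) (nat_lit 286)) (l (nat_lit 7) (nat_lit 311) (nat_lit 336)))) (n (nat_lit 411) (b (l (nat_lit 6) (nat_lit 336) (nat_lit 436)) (l (nat_lit 6) (nat_lit 311) (nat_lit 386)))))) (n (nat_lit 388) (b (l (nat_lit 4) (nat_lit 312) (nat_lit 413)) (l (nat_lit 4) (nat_lit 287) (nat_lit 363)))))) (n (nat_lit 262) (b (n (nat_lit 263) (b (l (nat_lit 5) (nat_lit 237) (nat_lit 238)) (l (nat_lit 5) (nat_lit 262) (nat_lit 288)))) (n (nat_lit 361) (b (l (nat_lit 6) (nat_lit 286) (nat_lit 386)) (l (nat_lit 6) (nat_lit 261) (nat_lit 336))))))) (b (n (nat_lit 387) (b (n (nat_lit 388) (b (l (nat_lit 4) (nat_lit 312) (nat_lit 413)) (l (nat_lit 4) (nat_lit 287) (nat_lit 363)))) (n (nat_lit 386) (b (l (nat_lit 6) (nat_lit 311) (nat_lit 411)) (l (nat_lit 6) (nat_lit 286) (nat_lit 361)))))) (n (nat_lit 311) (b (n (nat_lit 387) (b (n (nat_lit 388) (b (l (nat_lit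 4) (nat_lit 312) (nat_lit 413)) (l (nat_lit 4) (nat_lit 287) (nat_lit 363)))) (l (nat_lit 7) (nat_lit 286) (nat_lit 286)))) (n (nat_lit 262) (b (n (nat_lit 336) (b (l (nat_lit 6) (nat_lit 261) (nat_lit 361)) (l (nat_lit 6) (nat_lit 236) (nat_lit 237)))) (n (nat_lit 263) (b (l (nat_lit 5) (nat_lit 237) (nat_lit 238)) (l (nat_lit 5) (nat_lit 262) (nat_lit 288)))))))))))
    envOK_nil (by decide +kernel)

theorem p7417 : Fam (nat_lit 5) (nat_lit 14091255776611100483262017628089521484184247474592627455809528375442173050651635345836562573293953671025917952) (nat_lit 778189696945022438252205827644826465779541947062301697346472512651152089160107238398180989565057761858925853077929984) (nat_lit 778189696945022438252205827644826465779541947062301697346472512651152089160107238398180989565057761858925853077929984) :=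
  chk_sound Env.nil
    (n (nat_lit 360) (b (b (n (nat_lit 338) (b (n (nat_lit 339) (b (l (nat_lit 1) (nat_lit 335) (nat_lit 363)) (l (nat_lit 2) (nat_lit 336) (nat_lit 340)))) (l (nat_lit 1) (nat_lit 334) (nat_lit 359)))) (n (nat_lit 359) (b (b (n (nat_lit 363) (b (n (nat_lit 334) (b (l (nat_lit 3) (nat_lit 333) (nat_lit 333)) (l (nat_lit 3) (nat_lit 334) (nat_lit 335)))) (n (nat_lit 384) (b (l (nat_lit 2) (nat_lit 359) (nat_lit 385)) (l (nat_lit 2) (nat_lit 358) (nat_lit 383)))))) (n (nat_lit 358) (b (n (nat_lit 333) (b (l (nat_lit 3) (nat_lit 332) (nat_lit 332)) (l (nat_lit 3) (nat_lit 333) (nat_lit 334)))) (l (nat_lit 1) (nat_lit 333) (nat_lit 336))))) (n (nat_lit 358) (b (n (nat_lit 383) (b (l (nat_lit 2) (nat_lit 358) (nat_lit 384)) (l (nat_lit 2) (nat_lit 357) (nat_lit 382)))) (l (nat_lit 1) (nat_lit 333) (nat_lit 336))))))) (b (n (nat_lit 338) (b (n (nat_lit 339) (b (l (nat_lit 2) (nat_lit 335) (nat_lit 336)) (l (nat_lit 2) (nat_lit 336) (nat_lit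 340)))) (l (nat_lit 1) (nat_lit 334) (nat_lit 359)))) (n (nat_lit 363) (b (n (nat_lit 364) (b (n (nat_lit 335) (b (l (nat_lit 3) (nat_lit 334) (nat_lit 334)) (l (nat_lit 3) (nat_lit 335) (nat_lit 336)))) (n (nat_lit 339) (b (l (nat_lit 1) (nat_lit 336) (nat_lit 340)) (l (nat_lit 1) (nat_lit 335) (nat_lit 338)))))) (l (nat_lit 4) (nat_lit 287) (nat_lit 388)))))))
    envOK_nil (by decide +kernel)

theorem p7422 : Fam (nat_lit 6) (nat_lit 279968101115925134047360910013641340417649816774606338572351528178982585681152893868361847893131264000) (nat_lit 279968101115928856201009826198818256400376459713981624661858321369479703916519659499012254303434833920) (nat_lit 279968101115928856201009826198818256400376459713981624661858321369479703916519659499012254303434833920) :=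
  chk_sound Env.nil
    (n (nat_lit 261) (b (n (nat_lit 260) (b (b (n (nat_lit 288) (b (n (nat_lit 289) (b (l (nat_lit 0) (nat_lit 260) (nat_lit 263)) (l (nat_lit 3) (nat_lit 261) (nat_lit 290)))) (l (nat_lit 0) (nat_lit 259) (nat_lit 259)))) (n (nat_lit 259) (b (b (n (nat_lit 263) (b (n (nat_lit 234) (b (l (nat_lit 3) (nat_lit 234) (nat_lit 235)) (l (nat_lit 3) (nat_lit 233) (nat_lit 233)))) (n (nat_lit 284) (b (l (nat_lit 2) (nat_lit 258) (nat_lit 283)) (l (nat_lit 2) (nat_lit 259) (nat_lit 285)))))) (n (nat_lit 258) (b (n (nat_lit 283) (b (l (nat_lit 2) (nat_lit 257) (nat_lit 282)) (l (nat_lit 2) (nat_lit 258) (nat_lit 284)))) (l (nat_lit 0) (nat_lit 258) (nat_lit 286))))) (n (nat_lit 258) (b (n (nat_lit 233) (b (l (nat_lit 3) (nat_lit 233) (nat_lit 234)) (l (nat_lit 3) (nat_lit 232) (nat_lit 232)))) (l (nat_lit 0) (nat_lit 258) (nat_lit 286))))))) (b (n (nat_lit 288) (b (n (nat_lit 289) (b (l (nat_lit 3) (nat_lit 260) (nat_lit 286)) (l (nat_lit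 3) (nat_lit 261) (nat_lit 290)))) (l (nat_lit 0) (nat_lit 259) (nat_lit 259)))) (n (nat_lit 263) (b (n (nat_lit 264) (b (n (nat_lit 285) (b (l (nat_lit 2) (nat_lit 259) (nat_lit 284)) (l (nat_lit 2) (nat_lit 260) (nat_lit 286)))) (n (nat_lit 289) (b (l (nat_lit 0) (nat_lit 261) (nat_lit 290)) (l (nat_lit 0) (nat_lit 260) (nat_lit 288)))))) (l (nat_lit 5) (nat_lit 237) (nat_lit 238))))))) (l (nat_lit 7) (nat_lit 236) (nat_lit 236))))
    envOK_nil (by decide +kernel)

theorem p7426 : Fam (nat_lit 5) (nat_lit 8343699607727684330289441399770697683891795424722904195198017902281682038338440414454328852480) (nat_lit 8343703329881329541130302564303953736884314929755584930315703371111099281510168230744633114624) (nat_lit 8343703329881329541130302564303953736884314929755584930315703371111099281510168230744633114624) :=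
  chk_sound Env.nil
    (n (nat_lit 260) (b (b (n (nat_lit 288) (b (n (nat_lit 289) (b (l (nat_lit 3) (nat_lit 260) (nat_lit 286)) (l (nat_lit 3) (nat_lit 261) (nat_lit 290)))) (l (nat_lit 0) (nat_lit 259) (nat_lit 259)))) (n (nat_lit 263) (b (b (n (nat_lit 238) (b (n (nat_lit 213) (b (l (nat_lit 6) (nat_lit 212) (nat_lit 288)) (l (nat_lit 6) (nat_lit 187) (nat_lit 188)))) (l (nat_lit 1) (nat_lit 235) (nat_lit 239)))) (n (nat_lit 264) (b (n (nat_lit 285) (b (l (nat_lit 2) (nat_lit 259) (nat_lit 284)) (l (nat_lit 2) (nat_lit 260) (nat_lit 286)))) (n (nat_lit 239) (b (l (nat_lit 1) (nat_lit 235) (nat_lit 238)) (l (nat_lit 1) (nat_lit 236) (nat_lit 240))))))) (n (nat_lit 264) (b (n (nat_lit 285) (b (l (nat_lit 2) (nat_lit 259) (nat_lit 284)) (l (nat_lit 2) (nat_lit 260) (nat_lit 286)))) (n (nat_lit 289) (b (l (nat_lit 0) (nat_lit 261) (nat_lit 290)) (l (nat_lit 0) (nat_lit 260) (nat_lit 288))))))))) (b (n (nat_lit 259) (b (b (n (nat_lit 263) (b (n (nat_lit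 234) (b (l (nat_lit 3) (nat_lit 234) (nat_lit 235)) (l (nat_lit 3) (nat_lit 233) (nat_lit 233)))) (n (nat_lit 284) (b (l (nat_lit 2) (nat_lit 258) (nat_lit 283)) (l (nat_lit 2) (nat_lit 259) (nat_lit 285)))))) (n (nat_lit 258) (b (n (nat_lit 283) (b (l (nat_lit 2) (nat_lit 257) (nat_lit 282)) (l (nat_lit 2) (nat_lit 258) (nat_lit 284)))) (l (nat_lit 0) (nat_lit 258) (nat_lit 286))))) (n (nat_lit 258) (b (n (nat_lit 233) (b (l (nat_lit 3) (nat_lit 233) (nat_lit 234)) (l (nat_lit 3) (nat_lit 232) (nat_lit 232)))) (l (nat_lit 0) (nat_lit 258) (nat_lit 286)))))) (n (nat_lit 288) (b (n (nat_lit 289) (b (l (nat_lit 0) (nat_lit 260) (nat_lit 263)) (l (nat_lit 3) (nat_lit 261) (nat_lit 290)))) (l (nat_lit 0) (nat_lit 259) (nat_lit 259)))))))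
    envOK_nil (by decide +kernel)

theorem p7513 : Fam (nat_lit 10) (nat_lit 8343699607727680624942585805652444129620275146709852890558508601783632775695752161234180374528) (nat_lit 69992033622688529813713928583646559922028663025459960989756888442279437884347143401321075261669638144) (nat_lit 69992033622688529813713928583646559922028663025459960989756888442279437884347143401321075261669638144) :=
  chk_sound (Env.cons (nat_lit 5) (nat_lit 8343699607727684330289441399770697683891795424722904195198017902281682038338440414454328852480) (nat_lit 8343703329881329541130302564303953736884314929755584930315703371111099281510168230744633114624) Env.nil)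
    (n (nat_lit 211) (b (b (n (nat_lit 261) (b (b (r (nat_lit 0)) (n (nat_lit 236) (b (l (nat_lit 4) (nat_lit 211) (nat_lit 286)) (l (nat_lit 4) (nat_lit 186) (nat_lit 186))))) (n (nat_lit 260) (b (b (n (nat_lit 263) (b (n (nat_lit 236) (b (n (nat_lit 235) (b (l (nat_lit 3) (nat_lit 234) (nat_lit 234)) (l (nat_lit 3) (nat_lit 235) (nat_lit 264)))) (l (nat_lit 4) (nat_lit 186) (nat_lit 186)))) (n (nat_lit 238) (b (n (nat_lit 213) (b (l (nat_lit 6) (nat_lit 212) (nat_lit 288)) (l (nat_lit 6) (nat_lit 187) (nat_lit 188)))) (l (nat_lit 1) (nat_lit 235) (nat_lit 239)))))) (n (nat_lit 285) (b (n (nat_lit 236) (b (n (nat_lit 310) (b (l (nat_lit 5) (nat_lit 210) (nat_lit 235)) (l (nat_lit 5) (nat_lit 235) (nat_lit 335)))) (l (nat_lit 6) (nat_lit 185) (nat_lit 186)))) (n (nat_lit 284) (b (n (nat_lit 283) (b (l (nat_lit 2) (nat_lit 258) (nat_lit 259)) (l (nat_lit 1) (nat_lit 257) (nat_lit 282)))) (l (nat_lit 2) (nat_lit 259) (nat_lit 263))))))) (n (nat_lit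 259) (b (n (nat_lit 258) (b (n (nat_lit 283) (b (l (nat_lit 2) (nat_lit 257) (nat_lit 282)) (l (nat_lit 2) (nat_lit 258) (nat_lit 284)))) (n (nat_lit 233) (b (l (nat_lit 3) (nat_lit 233) (nat_lit 234)) (l (nat_lit 3) (nat_lit 232) (nat_lit 232)))))) (l (nat_lit 0) (nat_lit 259) (nat_lit 288)))))))) (n (nat_lit 236) (b (n (nat_lit 261) (b (n (nat_lit 263) (b (b (n (nat_lit 260) (b (n (nat_lit 285) (b (n (nat_lit 235) (b (l (nat_lit 5) (nat_lit 210) (nat_lit 310)) (l (nat_lit 3) (nat_lit 234) (nat_lit 234)))) (l (nat_lit 2) (nat_lit 259) (nat_lit 284)))) (n (nat_lit 288) (b (l (nat_lit 0) (nat_lit 260) (nat_lit 289)) (l (nat_lit 0) (nat_lit 259) (nat_lit 259)))))) (n (nat_lit 238) (b (n (nat_lit 213) (b (l (nat_lit 6) (nat_lit 212) (nat_lit 288)) (l (nat_lit 6) (nat_lit 187) (nat_lit 188)))) (n (nat_lit 239) (b (n (nat_lit 240) (b (l (nat_lit 1) (nat_lit 236) (nat_lit 264)) (l (nat_lit 2) (nat_lit 237) (nat_lit 241)))) (l (nat_lit 1) (nat_lit 235) (nat_lit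 260))))))) (n (nat_lit 264) (b (n (nat_lit 265) (b (n (nat_lit 240) (b (l (nat_lit 1) (nat_lit 236) (nat_lit 239)) (l (nat_lit 1) (nat_lit 237) (nat_lit 241)))) (n (nat_lit 290) (b (l (nat_lit 0) (nat_lit 262) (nat_lit 291)) (l (nat_lit 0) (nat_lit 261) (nat_lit 289)))))) (l (nat_lit 3) (nat_lit 235) (nat_lit 235)))))) (l (nat_lit 4) (nat_lit 211) (nat_lit 286)))) (l (nat_lit 7) (nat_lit 211) (nat_lit 237))))) (b (n (nat_lit 236) (b (n (nat_lit 261) (b (l (nat_lit 4) (nat_lit 211) (nat_lit 286)) (l (nat_lit 4) (nat_lit 186) (nat_lit 186)))) (l (nat_lit 7) (nat_lit 211) (nat_lit 237)))) (n (nat_lit 213) (b (b (n (nat_lit 212) (b (b (n (nat_lit 214) (b (b (n (nat_lit 215) (b (n (nat_lit 190) (b (l (nat_lit 1) (nat_lit 186) (nat_lit 189)) (l (nat_lit 1) (nat_lit 187) (nat_lit 191)))) (n (nat_lit 240) (b (l (nat_lit 0) (nat_lit 211) (nat_lit 239)) (l (nat_lit 0) (nat_lit 212) (nat_lit 241)))))) (n (nat_lit 210) (b (n (nat_lit 185) (b (l (nat_lit 3) (nat_lit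 185) (nat_lit 186)) (l (nat_lit 3) (nat_lit 184) (nat_lit 184)))) (n (nat_lit 239) (b (l (nat_lit 0) (nat_lit 210) (nat_lit 238)) (l (nat_lit 0) (nat_lit 211) (nat_lit 240))))))) (n (nat_lit 215) (b (n (nat_lit 186) (b (l (nat_lit 3) (nat_lit 186) (nat_lit 187)) (l (nat_lit 3) (nat_lit 185) (nat_lit 185)))) (n (nat_lit 190) (b (l (nat_lit 1) (nat_lit 186) (nat_lit 189)) (l (nat_lit 1) (nat_lit 187) (nat_lit 191)))))))) (n (nat_lit 186) (b (n (nat_lit 185) (b (n (nat_lit 184) (b (l (nat_lit 0) (nat_lit 183) (nat_lit 183)) (l (nat_lit 3) (nat_lit 184) (nat_lit 210)))) (l (nat_lit 3) (nat_lit 185) (nat_lit 214)))) (l (nat_lit 7) (nat_lit 186) (nat_lit 237))))) (b (n (nat_lit 237) (b (l (nat_lit 5) (nat_lit 212) (nat_lit 238)) (l (nat_lit 7) (nat_lit 186) (nat_lit 186)))) (n (nat_lit 238) (b (n (nat_lit 239) (b (n (nat_lit 240) (b (l (nat_lit 0) (nat_lit 211) (nat_lit 214)) (l (nat_lit 3) (nat_lit 212) (nat_lit 241)))) (l (nat_lit 0) (nat_lit 210) (nat_lit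 210)))) (l (nat_lit 5) (nat_lit 212) (nat_lit 237))))))) (n (nat_lit 212) (b (b (n (nat_lit 210) (b (b (n (nat_lit 214) (b (n (nat_lit 185) (b (l (nat_lit 3) (nat_lit 185) (nat_lit 186)) (l (nat_lit 3) (nat_lit 184) (nat_lit 184)))) (n (nat_lit 189) (b (l (nat_lit 1) (nat_lit 186) (nat_lit 190)) (l (nat_lit 1) (nat_lit 185) (nat_lit 188)))))) (n (nat_lit 209) (b (n (nat_lit 234) (b (l (nat_lit 2) (nat_lit 209) (nat_lit 235)) (l (nat_lit 2) (nat_lit 208) (nat_lit 233)))) (n (nat_lit 188) (b (l (nat_lit 1) (nat_lit 184) (nat_lit 187)) (l (nat_lit 1) (nat_lit 185) (nat_lit 189))))))) (n (nat_lit 209) (b (n (nat_lit 234) (b (l (nat_lit 2) (nat_lit 209) (nat_lit 235)) (l (nat_lit 2) (nat_lit 208) (nat_lit 233)))) (n (nat_lit 184) (b (l (nat_lit 3) (nat_lit 183) (nat_lit 183)) (l (nat_lit 3) (nat_lit 184) (nat_lit 185)))))))) (n (nat_lit 237) (b (l (nat_lit 5) (nat_lit 187) (nat_lit 188)) (l (nat_lit 7) (nat_lit 186) (nat_lit 186))))) (b (n (nat_lit 188)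 (b (n (nat_lit 189) (b (n (nat_lit 190) (b (l (nat_lit 2) (nat_lit 186) (nat_lit 187)) (l (nat_lit 2) (nat_lit 187) (nat_lit 191)))) (l (nat_lit 1) (nat_lit 185) (nat_lit 210)))) (l (nat_lit 5) (nat_lit 187) (nat_lit 237)))) (n (nat_lit 186) (b (n (nat_lit 185) (b (n (nat_lit 184) (b (l (nat_lit 0) (nat_lit 183) (nat_lit 183)) (l (nat_lit 3) (nat_lit 184) (nat_lit 210)))) (l (nat_lit 3) (nat_lit 185) (nat_lit 214)))) (l (nat_lit 7) (nat_lit 186) (nat_lit 237)))))))) (b (n (nat_lit 238) (b (n (nat_lit 263) (b (l (nat_lit 6) (nat_lit 187) (nat_lit 188)) (l (nat_lit 6) (nat_lit 212) (nat_lit 288)))) (l (nat_lit 5) (nat_lit 212) (nat_lit 237)))) (n (nat_lit 212) (b (b (b (n (nat_lit 210) (b (n (nat_lit 188) (b (n (nat_lit 238) (b (l (nat_lit 6) (nat_lit 187) (nat_lit 263)) (l (nat_lit 0) (nat_lit 210) (nat_lit 239)))) (l (nat_lit 1) (nat_lit 185) (nat_lit 189)))) (n (nat_lit 209) (b (n (nat_lit 234) (b (l (nat_lit 2) (nat_lit 209) (nat_lit 235)) (l (nat_lit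 2) (nat_lit 208) (nat_lit 233)))) (n (nat_lit 184) (b (l (nat_lit 3) (nat_lit 183) (nat_lit 183)) (l (nat_lit 3) (nat_lit 184) (nat_lit 185)))))))) (n (nat_lit 214) (b (b (n (nat_lit 215) (b (n (nat_lit 190) (b (l (nat_lit 1) (nat_lit 186) (nat_lit 189)) (l (nat_lit 1) (nat_lit 187) (nat_lit 191)))) (n (nat_lit 240) (b (l (nat_lit 0) (nat_lit 211) (nat_lit 239)) (l (nat_lit 0) (nat_lit 212) (nat_lit 241)))))) (n (nat_lit 210) (b (n (nat_lit 185) (b (l (nat_lit 3) (nat_lit 185) (nat_lit 186)) (l (nat_lit 3) (nat_lit 184) (nat_lit 184)))) (n (nat_lit 239) (b (l (nat_lit 0) (nat_lit 210) (nat_lit 238)) (l (nat_lit 0) (nat_lit 211) (nat_lit 240))))))) (n (nat_lit 215) (b (n (nat_lit 186) (b (l (nat_lit 3) (nat_lit 186) (nat_lit 187)) (l (nat_lit 3) (nat_lit 185) (nat_lit 185)))) (n (nat_lit 190) (b (l (nat_lit 1) (nat_lit 186) (nat_lit 189)) (l (nat_lit 1) (nat_lit 187) (nat_lit 191))))))))) (b (n (nat_lit 238) (b (n (nat_lit 263) (b (l (nat_lit 6) (nat_lit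 187) (nat_lit 188)) (l (nat_lit 6) (nat_lit 212) (nat_lit 288)))) (n (nat_lit 239) (b (n (nat_lit 240) (b (l (nat_lit 0) (nat_lit 211) (nat_lit 214)) (l (nat_lit 3) (nat_lit 212) (nat_lit 241)))) (l (nat_lit 0) (nat_lit 210) (nat_lit 210)))))) (n (nat_lit 210) (b (b (n (nat_lit 214) (b (n (nat_lit 185) (b (l (nat_lit 3) (nat_lit 185) (nat_lit 186)) (l (nat_lit 3) (nat_lit 184) (nat_lit 184)))) (n (nat_lit 189) (b (l (nat_lit 1) (nat_lit 186) (nat_lit 190)) (l (nat_lit 1) (nat_lit 185) (nat_lit 188)))))) (n (nat_lit 209) (b (n (nat_lit 234) (b (l (nat_lit 2) (nat_lit 209) (nat_lit 235)) (l (nat_lit 2) (nat_lit 208) (nat_lit 233)))) (n (nat_lit 188) (b (l (nat_lit 1) (nat_lit 184) (nat_lit 187)) (l (nat_lit 1) (nat_lit 185) (nat_lit 189))))))) (n (nat_lit 209) (b (n (nat_lit 234) (b (l (nat_lit 2) (nat_lit 209) (nat_lit 235)) (l (nat_lit 2) (nat_lit 208) (nat_lit 233)))) (n (nat_lit 184) (b (l (nat_lit 3) (nat_lit 183) (nat_lit 183)) (l (nat_lit 3)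 (nat_lit 184) (nat_lit 185)))))))))) (n (nat_lit 214) (b (b (n (nat_lit 215) (b (n (nat_lit 186) (b (l (nat_lit 3) (nat_lit 186) (nat_lit 187)) (l (nat_lit 3) (nat_lit 185) (nat_lit 185)))) (n (nat_lit 190) (b (l (nat_lit 1) (nat_lit 186) (nat_lit 189)) (l (nat_lit 1) (nat_lit 187) (nat_lit 191)))))) (n (nat_lit 215) (b (n (nat_lit 186) (b (l (nat_lit 3) (nat_lit 186) (nat_lit 187)) (l (nat_lit 3) (nat_lit 185) (nat_lit 185)))) (n (nat_lit 240) (b (l (nat_lit 0) (nat_lit 211) (nat_lit 239)) (l (nat_lit 0) (nat_lit 212) (nat_lit 241))))))) (n (nat_lit 189) (b (n (nat_lit 239) (b (n (nat_lit 263) (b (b (n (nat_lit 264) (b (n (nat_lit 188) (b (l (nat_lit 7) (nat_lit 163) (nat_lit 163)) (l (nat_lit 7) (nat_lit 188) (nat_lit 289)))) (l (nat_lit 6) (nat_lit 188) (nat_lit 288)))) (n (nat_lit 288) (b (l (nat_lit 5) (nat_lit 188) (nat_lit 238)) (l (nat_lit 6) (nat_lit 188) (nat_lit 264))))) (n (nat_lit 238) (b (l (nat_lit 6) (nat_lit 163) (nat_lit 164)) (l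 (nat_lit 6) (nat_lit 187) (nat_lit 188)))))) (l (nat_lit 0) (nat_lit 211) (nat_lit 240)))) (l (nat_lit 1) (nat_lit 186) (nat_lit 190))))))))))))))
    (envOK_cons p7426 envOK_nil) (by decide +kernel)

theorem p7522 : Fam (nat_lit 7) (nat_lit 8343699607727680624942585805652444129620275146709852890558508601783632775695752161234180374528) (nat_lit 279968101115925631370826124972122519946976102749426172532447790892912305553527025949174321503648350208) (nat_lit 279968101115925631370826124972122519946976102749426172532447790892912305553527025949174321503648350208) :=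
  chk_sound Env.nil
    (n (nat_lit 238) (b (b (n (nat_lit 237) (b (n (nat_lit 236) (b (n (nat_lit 261) (b (n (nat_lit 260) (b (l (nat_lit 2) (nat_lit 235) (nat_lit 239)) (l (nat_lit 1) (nat_lit 234) (nat_lit 259)))) (l (nat_lit 7) (nat_lit 236) (nat_lit 337)))) (l (nat_lit 7) (nat_lit 211) (nat_lit 211)))) (l (nat_lit 5) (nat_lit 212) (nat_lit 213)))) (n (nat_lit 263) (b (n (nat_lit 213) (b (l (nat_lit 6) (nat_lit 212) (nat_lit 288)) (l (nat_lit 6) (nat_lit 187) (nat_lit 188)))) (l (nat_lit 5) (nat_lit 237) (nat_lit 337))))) (b (n (nat_lit 213) (b (n (nat_lit 263) (b (l (nat_lit 6) (nat_lit 187) (nat_lit 188)) (l (nat_lit 6) (nat_lit 212) (nat_lit 288)))) (l (nat_lit 5) (nat_lit 212) (nat_lit 237)))) (n (nat_lit 236) (b (b (n (nat_lit 337) (b (l (nat_lit 7) (nat_lit 236) (nat_lit 261)) (l (nat_lit 5) (nat_lit 237) (nat_lit 263)))) (n (nat_lit 263) (b (n (nat_lit 237) (b (n (nat_lit 264) (b (l (nat_lit 3) (nat_lit 236) (nat_lit 265)) (l (nat_lit 0)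 (nat_lit 235) (nat_lit 235)))) (l (nat_lit 7) (nat_lit 211) (nat_lit 211)))) (l (nat_lit 5) (nat_lit 237) (nat_lit 337))))) (b (n (nat_lit 211) (b (n (nat_lit 261) (b (l (nat_lit 4) (nat_lit 186) (nat_lit 186)) (l (nat_lit 7) (nat_lit 236) (nat_lit 337)))) (l (nat_lit 7) (nat_lit 211) (nat_lit 237)))) (n (nat_lit 237) (b (n (nat_lit 239) (b (b (n (nat_lit 240) (b (n (nat_lit 215) (b (l (nat_lit 1) (nat_lit 211) (nat_lit 214)) (l (nat_lit 1) (nat_lit 212) (nat_lit 216)))) (n (nat_lit 265) (b (l (nat_lit 0) (nat_lit 237) (nat_lit 266)) (l (nat_lit 0) (nat_lit 236) (nat_lit 264)))))) (n (nat_lit 261) (b (l (nat_lit 2) (nat_lit 235) (nat_lit 260)) (l (nat_lit 2) (nat_lit 236) (nat_lit 240))))) (n (nat_lit 235) (b (n (nat_lit 260) (b (l (nat_lit 2) (nat_lit 234) (nat_lit 259)) (l (nat_lit 2) (nat_lit 235) (nat_lit 261)))) (n (nat_lit 263) (b (l (nat_lit 0) (nat_lit 234) (nat_lit 234)) (l (nat_lit 0) (nat_lit 235) (nat_lit 264)))))))) (l (nat_lit 7) (nat_lit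 211) (nat_lit 211))))))))))
    envOK_nil (by decide +kernel)

theorem p7532 : Fam (nat_lit 6) (nat_lit 8343699607727680624942585805652444129620275146709852890558508601783632775695752161234180374528) (nat_lit 9394170611063438199332860298361349606235088174462126569252533089252909441328450759599624992557231722672947200) (nat_lit 9394170611063438199332860298361349606235088174462126569252533089252909441328450759599624992557231722672947200) :=
  chk_sound Env.nil
    (n (nat_lit 237) (b (b (b (n (nat_lit 236) (b (n (nat_lit 238) (b (n (nat_lit 261) (b (n (nat_lit 260) (b (l (nat_lit 2) (nat_lit 235) (nat_lit 239)) (l (nat_lit 1) (nat_lit 234) (nat_lit 259)))) (l (nat_lit 7) (nat_lit 236) (nat_lit 337)))) (l (nat_lit 5) (nat_lit 212) (nat_lit 213)))) (l (nat_lit 7) (nat_lit 211) (nat_lit 211)))) (n (nat_lit 212) (b (n (nat_lit 213) (b (l (nat_lit 5) (nat_lit 187) (nat_lit 188)) (l (nat_lit 5) (nat_lit 212) (nat_lit 238)))) (n (nat_lit 286) (b (n (nat_lit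 261) (b (n (nat_lit 337) (b (l (nat_lit 7) (nat_lit 236) (nat_lit 236)) (l (nat_lit 7) (nat_lit 261) (nat_lit 362)))) (l (nat_lit 6) (nat_lit 186) (nat_lit 187)))) (l (nat_lit 6) (nat_lit 211) (nat_lit 311))))))) (b (n (nat_lit 212) (b (n (nat_lit 187) (b (n (nat_lit 286) (b (l (nat_lit 6) (nat_lit 211) (nat_lit 311)) (l (nat_lit 6) (nat_lit 186) (nat_lit 261)))) (n (nat_lit 186) (b (l (nat_lit 7) (nat_lit 186) (nat_lit 211)) (l (nat_lit 7) (nat_lit 161) (nat_lit 161)))))) (n (nat_lit 213) (b (l (nat_lit 5) (nat_lit 187) (nat_lit 188)) (l (nat_lit 5) (nat_lit 212) (nat_lit 238)))))) (n (nat_lit 212) (b (n (nat_lit 213) (b (l (nat_lit 5) (nat_lit 187) (nat_lit 188)) (l (nat_lit 5) (nat_lit 212) (nat_lit 238)))) (n (nat_lit 211) (b (l (nat_lit 7) (nat_lit 211) (nat_lit 236)) (l (nat_lit 7) (nat_lit 186) (nat_lit 186)))))))) (n (nat_lit 212) (b (b (n (nat_lit 286) (b (n (nat_lit 261) (b (n (nat_lit 337) (b (l (nat_lit 7) (nat_lit 236) (nat_lit 236))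 (l (nat_lit 7) (nat_lit 261) (nat_lit 362)))) (l (nat_lit 6) (nat_lit 186) (nat_lit 187)))) (l (nat_lit 6) (nat_lit 211) (nat_lit 311)))) (n (nat_lit 187) (b (n (nat_lit 162) (b (n (nat_lit 163) (b (l (nat_lit 5) (nat_lit 162) (nat_lit 188)) (l (nat_lit 5) (nat_lit 137) (nat_lit 138)))) (n (nat_lit 161) (b (l (nat_lit 7) (nat_lit 136) (nat_lit 136)) (l (nat_lit 7) (nat_lit 161) (nat_lit 186)))))) (n (nat_lit 286) (b (l (nat_lit 6) (nat_lit 211) (nat_lit 311)) (l (nat_lit 6) (nat_lit 186) (nat_lit 261))))))) (n (nat_lit 211) (b (l (nat_lit 7) (nat_lit 211) (nat_lit 236)) (l (nat_lit 7) (nat_lit 186) (nat_lit 186))))))))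
    envOK_nil (by decide +kernel)

theorem p7539 : Fam (nat_lit 5) (nat_lit 8343699607727680624942806661535541427661473058897445755372987037270742228065517362009341952000) (nat_lit 630432127324823500586754208502646104358393771475367774010964068805705098339062673890608228020047550053907643337015296) (nat_lit 630432127324823500586754208502646104358393771475367774010964068805705098339062673890608228020047550053907643337015296) :=
  chk_sound Env.nil
    (n (nat_lit 263) (b (b (n (nat_lit 236) (b (n (nat_lit 235) (b (n (nat_lit 264) (b (l (nat_lit 0) (nat_lit 235) (nat_lit 238)) (l (nat_lit 3) (nat_lit 236) (nat_lit 265)))) (l (nat_lit 0) (nat_lit 234) (nat_lit 234)))) (l (nat_lit 7) (nat_lit 211) (nat_lit 211)))) (n (nat_lit 337) (b (n (nat_lit 362) (b (n (nat_lit 363) (b (l (nat_lit 4) (nat_lit 262) (nat_lit 338)) (l (nat_lit 4) (nat_lit 287) (nat_lit 388)))) (l (nat_lit 5) (nat_lit 262) (nat_lit 288)))) (l (nat_lit 5) (nat_lit 237) (nat_lit 238)))))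 (n (nat_lit 286) (b (n (nat_lit 212) (b (n (nat_lit 211) (b (l (nat_lit 7) (nat_lit 211) (nat_lit 236)) (l (nat_lit 7) (nat_lit 186) (nat_lit 186)))) (l (nat_lit 6) (nat_lit 211) (nat_lit 311)))) (n (nat_lit 285) (b (n (nat_lit 264) (b (l (nat_lit 1) (nat_lit 260) (nat_lit 288)) (l (nat_lit 2) (nat_lit 261) (nat_lit 265)))) (l (nat_lit 1) (nat_lit 259) (nat_lit 284))))))))
    envOK_nil (by decide +kernel)

theorem p7548 : Fam (nat_lit 5) (nat_lit 279968101115925134047360910013641340417649816774606338572351528178982585681152893868361847893131264000) (nat_lit 419952151673888198394288890848333516035812493409959080429714748387526084211127522542295587743462326272) (nat_lit 419952151673888198394288890848333516035812493409959080429714748387526084211127522542295587743462326272) :=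
  chk_sound Env.nil
    (n (nat_lit 237) (b (b (n (nat_lit 238) (b (l (nat_lit 5) (nat_lit 237) (nat_lit 263)) (l (nat_lit 5) (nat_lit 212) (nat_lit 213)))) (n (nat_lit 212) (b (n (nat_lit 187) (b (n (nat_lit 186) (b (l (nat_lit 7) (nat_lit 186) (nat_lit 211)) (l (nat_lit 7) (nat_lit 161) (nat_lit 161)))) (n (nat_lit 188) (b (l (nat_lit 5) (nat_lit 187) (nat_lit 213)) (l (nat_lit 5) (nat_lit 162) (nat_lit 163)))))) (n (nat_lit 311) (b (l (nat_lit 6) (nat_lit 236) (nat_lit 336)) (l (nat_lit 6) (nat_lit 211) (nat_lit 286))))))) (n (nat_lit 212) (b (n (nat_lit 187) (b (n (nat_lit 263) (b (l (nat_lit 5) (nat_lit 237) (nat_lit 238)) (l (nat_lit 4) (nat_lit 187) (nat_lit 288)))) (n (nat_lit 186) (b (l (nat_lit 7) (nat_lit 186) (nat_lit 211)) (l (nat_lit 7) (nat_lit 161) (nat_lit 161)))))) (n (nat_lit 311) (b (l (nat_lit 6) (nat_lit 236) (nat_lit 336)) (l (nat_lit 6) (nat_lit 211) (nat_lit 286))))))))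
    envOK_nil (by decide +kernel)

theorem p7580 : Fam (nat_lit 9) (nat_lit 8343699607727680624942585805652444129620275146709852890558508601783632775695752161234180374528) (nat_lit 489944177995834932352951889840948684056500083886325914316288084066654255602782872215802806228815446016) (nat_lit 489944177995834932352951889840948684056500083886325914316288084066654255602782872215802806228815446016) :=
  chk_sound Env.nil
    (n (nat_lit 236) (b (b (n (nat_lit 211) (b (n (nat_lit 261) (b (l (nat_lit 4) (nat_lit 186) (nat_lit 186)) (l (nat_lit 7) (nat_lit 236) (nat_lit 337)))) (l (nat_lit 7) (nat_lit 211) (nat_lit 237)))) (n (nat_lit 237) (b (n (nat_lit 311) (b (n (nat_lit 286) (b (n (nat_lit 285) (b (b (n (nat_lit 284) (b (l (nat_lit 1) (nat_lit 259) (nat_lit 263)) (l (nat_lit 0) (nat_lit 283) (nat_lit 283)))) (n (nat_lit 288) (b (n (nat_lit 235) (b (n (nat_lit 263) (b (l (nat_lit 1) (nat_lit 260) (nat_lit 264)) (l (nat_lit 0) (nat_lit 234) (nat_lit 234))))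 (n (nat_lit 260) (b (l (nat_lit 4) (nat_lit 210) (nat_lit 210)) (l (nat_lit 3) (nat_lit 259) (nat_lit 259)))))) (n (nat_lit 289) (b (l (nat_lit 2) (nat_lit 286) (nat_lit 290)) (l (nat_lit 2) (nat_lit 285) (nat_lit 310))))))) (n (nat_lit 284) (b (n (nat_lit 288) (b (n (nat_lit 289) (b (l (nat_lit 2) (nat_lit 286) (nat_lit 290)) (l (nat_lit 2) (nat_lit 285) (nat_lit 310)))) (n (nat_lit 259) (b (l (nat_lit 3) (nat_lit 258) (nat_lit 258)) (l (nat_lit 3) (nat_lit 259) (nat_lit 260)))))) (l (nat_lit 0) (nat_lit 283) (nat_lit 283)))))) (l (nat_lit 6) (nat_lit 211) (nat_lit 212)))) (l (nat_lit 6) (nat_lit 236) (nat_lit 336)))) (l (nat_lit 7) (nat_lit 211) (nat_lit 211))))) (b (n (nat_lit 261) (b (n (nat_lit 211) (b (l (nat_lit 4) (nat_lit 211) (nat_lit 286)) (l (nat_lit 4) (nat_lit 186) (nat_lit 186)))) (l (nat_lit 7) (nat_lit 236) (nat_lit 337)))) (n (nat_lit 261) (b (n (nat_lit 263) (b (b (n (nat_lit 235) (b (n (nat_lit 234) (b (l (nat_lit 0) (nat_lit 233)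 (nat_lit 233)) (l (nat_lit 3) (nat_lit 234) (nat_lit 260)))) (l (nat_lit 3) (nat_lit 235) (nat_lit 264)))) (n (nat_lit 264) (b (n (nat_lit 286) (b (l (nat_lit 2) (nat_lit 260) (nat_lit 285)) (l (nat_lit 2) (nat_lit 261) (nat_lit 265)))) (l (nat_lit 3) (nat_lit 235) (nat_lit 235))))) (b (n (nat_lit 264) (b (n (nat_lit 265) (b (n (nat_lit 240) (b (l (nat_lit 1) (nat_lit 236) (nat_lit 239)) (l (nat_lit 1) (nat_lit 237) (nat_lit 241)))) (l (nat_lit 3) (nat_lit 236) (nat_lit 237)))) (n (nat_lit 260) (b (n (nat_lit 285) (b (l (nat_lit 2) (nat_lit 259) (nat_lit 284)) (l (nat_lit 2) (nat_lit 260) (nat_lit 286)))) (n (nat_lit 288) (b (l (nat_lit 0) (nat_lit 260) (nat_lit 289)) (l (nat_lit 0) (nat_lit 259) (nat_lit 259)))))))) (n (nat_lit 260) (b (b (n (nat_lit 288) (b (l (nat_lit 0) (nat_lit 260) (nat_lit 289)) (l (nat_lit 0) (nat_lit 259) (nat_lit 259)))) (n (nat_lit 259) (b (n (nat_lit 258) (b (l (nat_lit 0) (nat_lit 258) (nat_lit 286)) (l (nat_lit 1) (nat_lit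 233) (nat_lit 237)))) (n (nat_lit 234) (b (l (nat_lit 3) (nat_lit 234) (nat_lit 235)) (l (nat_lit 3) (nat_lit 233) (nat_lit 233))))))) (n (nat_lit 311) (b (n (nat_lit 310) (b (n (nat_lit 288) (b (l (nat_lit 0) (nat_lit 260) (nat_lit 289)) (l (nat_lit 1) (nat_lit 284) (nat_lit 309)))) (n (nat_lit 285) (b (l (nat_lit 2) (nat_lit 259) (nat_lit 284)) (l (nat_lit 5) (nat_lit 235) (nat_lit 335)))))) (n (nat_lit 286) (b (n (nat_lit 235) (b (l (nat_lit 7) (nat_lit 210) (nat_lit 210)) (l (nat_lit 3) (nat_lit 234) (nat_lit 234)))) (n (nat_lit 237) (b (l (nat_lit 5) (nat_lit 211) (nat_lit 212)) (l (nat_lit 5) (nat_lit 236) (nat_lit 336))))))))))))) (l (nat_lit 7) (nat_lit 236) (nat_lit 337)))))))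
    envOK_nil (by decide +kernel)

theorem p7597 : Fam (nat_lit 7) (nat_lit 279968101115925134047353499319930152181142708231565782546248918899963984685054368582985341452834308096) (nat_lit 26442239539650217605560292892248846548383685772123245804320920171885490245615528655242358014583884891255885470027001695830016) (nat_lit 26442239539650217605560292892248846548383685772123245804320920171885490245615528655242358014583884891255885470027001695830016) :=
  chk_sound Env.nil
    (n (nat_lit 361) (b (b (n (nat_lit 362) (b (n (nat_lit 363) (b (n (nat_lit 338) (b (n (nat_lit 339) (b (l (nat_lit 2) (nat_lit 336) (nat_lit 340)) (l (nat_lit 1) (nat_lit 335) (nat_lit 360)))) (l (nat_lit 4) (nat_lit 262) (nat_lit 262)))) (l (nat_lit 4) (nat_lit 287) (nat_lit 388)))) (l (nat_lit 6) (nat_lit 286) (nat_lit 386)))) (n (nat_lit 336) (b (n (nat_lit 386) (b (l (nat_lit 5) (nat_lit 286) (nat_lit 311)) (l (nat_lit 5) (nat_lit 311) (nat_lit 411)))) (l (nat_lit 6) (nat_lit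 261) (nat_lit 262))))) (b (n (nat_lit 386) (b (n (nat_lit 336) (b (l (nat_lit 5) (nat_lit 311) (nat_lit 411)) (l (nat_lit 5) (nat_lit 286) (nat_lit 311)))) (l (nat_lit 6) (nat_lit 286) (nat_lit 362)))) (n (nat_lit 336) (b (n (nat_lit 338) (b (b (n (nat_lit 335) (b (n (nat_lit 334) (b (n (nat_lit 359) (b (l (nat_lit 2) (nat_lit 333) (nat_lit 358)) (l (nat_lit 2) (nat_lit 334) (nat_lit 360)))) (n (nat_lit 309) (b (l (nat_lit 3) (nat_lit 308) (nat_lit 308)) (l (nat_lit 3) (nat_lit 309) (nat_lit 310)))))) (n (nat_lit 363) (b (n (nat_lit 388) (b (l (nat_lit 4) (nat_lit 287) (nat_lit 362)) (l (nat_lit 7) (nat_lit 312) (nat_lit 413)))) (l (nat_lit 0) (nat_lit 335) (nat_lit 364)))))) (n (nat_lit 360) (b (n (nat_lit 359) (b (l (nat_lit 2) (nat_lit 334) (nat_lit 335)) (l (nat_lit 1) (nat_lit 333) (nat_lit 358)))) (l (nat_lit 2) (nat_lit 335) (nat_lit 339))))) (b (n (nat_lit 339) (b (n (nat_lit 311) (b (l (nat_lit 3) (nat_lit 311) (nat_lit 340)) (l (nat_lit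 3) (nat_lit 310) (nat_lit 310)))) (l (nat_lit 2) (nat_lit 335) (nat_lit 360)))) (n (nat_lit 363) (b (n (nat_lit 388) (b (l (nat_lit 4) (nat_lit 287) (nat_lit 362)) (l (nat_lit 7) (nat_lit 312) (nat_lit 413)))) (n (nat_lit 339) (b (n (nat_lit 311) (b (l (nat_lit 3) (nat_lit 311) (nat_lit 340)) (l (nat_lit 3) (nat_lit 310) (nat_lit 310)))) (n (nat_lit 364) (b (l (nat_lit 0) (nat_lit 336) (nat_lit 365)) (l (nat_lit 0) (nat_lit 335) (nat_lit 335))))))))))) (l (nat_lit 6) (nat_lit 261) (nat_lit 262)))))))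
    envOK_nil (by decide +kernel)

theorem p7621 : Fam (nat_lit 9) (nat_lit 279968101115925134047360910013641340417649816774606338572351528178982585681152893868361847893131264000) (nat_lit 290632149080253590558908089575859485462592271208853670362818752791752986358304551980058126957759484999684325376) (nat_lit 290632149080253590558908089575859485462592271208853670362818752791752986358304551980058126957759484999684325376) :=
  chk_sound Env.nil
    (n (nat_lit 336) (b (n (nat_lit 338) (b (n (nat_lit 261) (b (n (nat_lit 339) (b (n (nat_lit 340) (b (n (nat_lit 315) (b (l (nat_lit 1) (nat_lit 311) (nat_lit 314)) (l (nat_lit 1) (nat_lit 312) (nat_lit 316)))) (n (nat_lit 365) (b (l (nat_lit 0) (nat_lit 337) (nat_lit 366)) (l (nat_lit 0) (nat_lit 336) (nat_lit 364)))))) (n (nat_lit 335) (b (b (n (nat_lit 310) (b (l (nat_lit 3) (nat_lit 309) (nat_lit 309)) (l (nat_lit 3) (nat_lit 310) (nat_lit 311)))) (n (nat_lit 334) (b (n (nat_lit 333) (b (n (nat_lit 308)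 (b (l (nat_lit 3) (nat_lit 308) (nat_lit 309)) (l (nat_lit 3) (nat_lit 307) (nat_lit 307)))) (l (nat_lit 1) (nat_lit 308) (nat_lit 311)))) (n (nat_lit 359) (b (l (nat_lit 2) (nat_lit 333) (nat_lit 358)) (l (nat_lit 2) (nat_lit 334) (nat_lit 360))))))) (b (n (nat_lit 311) (b (n (nat_lit 360) (b (l (nat_lit 6) (nat_lit 260) (nat_lit 286)) (l (nat_lit 2) (nat_lit 334) (nat_lit 359)))) (l (nat_lit 3) (nat_lit 310) (nat_lit 310)))) (n (nat_lit 334) (b (n (nat_lit 359) (b (l (nat_lit 2) (nat_lit 333) (nat_lit 358)) (l (nat_lit 2) (nat_lit 334) (nat_lit 360)))) (n (nat_lit 309) (b (l (nat_lit 3) (nat_lit 308) (nat_lit 308)) (l (nat_lit 3) (nat_lit 309) (nat_lit 310))))))))))) (l (nat_lit 7) (nat_lit 236) (nat_lit 236)))) (l (nat_lit 4) (nat_lit 262) (nat_lit 363)))) (l (nat_lit 6) (nat_lit 261) (nat_lit 361))))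
    envOK_nil (by decide +kernel)

theorem p7640 : Fam (nat_lit 10) (nat_lit 279968101115925134047360910013641340417649816774606338572351528178982585681152893868361847893131264000) (nat_lit 290632149062755583978423609072759089053170136488689502053941623881240270304060685108267170588703599788558385152) (nat_lit 290632149062755583978423609072759089053170136488689502053941623881240270304060685108267170588703599788558385152) :=
  chk_sound Env.nil
    (n (nat_lit 336) (b (n (nat_lit 263) (b (n (nat_lit 338) (b (n (nat_lit 339) (b (n (nat_lit 340) (b (n (nat_lit 315) (b (l (nat_lit 1) (nat_lit 311) (nat_lit 314)) (l (nat_lit 1) (nat_lit 312) (nat_lit 316)))) (n (nat_lit 365) (b (l (nat_lit 0) (nat_lit 337) (nat_lit 366)) (l (nat_lit 0) (nat_lit 336) (nat_lit 364)))))) (n (nat_lit 310) (b (n (nat_lit 335) (b (n (nat_lit 260) (b (n (nat_lit 359) (b (n (nat_lit 334) (b (l (nat_lit 6) (nat_lit 259) (nat_lit 285)) (l (nat_lit 2) (nat_lit 333) (nat_lit 358))))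 (l (nat_lit 2) (nat_lit 334) (nat_lit 360)))) (n (nat_lit 261) (b (n (nat_lit 288) (b (l (nat_lit 0) (nat_lit 260) (nat_lit 289)) (l (nat_lit 0) (nat_lit 259) (nat_lit 259)))) (l (nat_lit 7) (nat_lit 236) (nat_lit 236)))))) (l (nat_lit 3) (nat_lit 309) (nat_lit 309)))) (l (nat_lit 3) (nat_lit 310) (nat_lit 311)))))) (l (nat_lit 4) (nat_lit 262) (nat_lit 363)))) (l (nat_lit 5) (nat_lit 237) (nat_lit 238)))) (l (nat_lit 6) (nat_lit 261) (nat_lit 361))))
    envOK_nil (by decide +kernel)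

theorem p7652 : Fam (nat_lit 5) (nat_lit 8343699607727680624942806661535541427661473058897445755372987037270742228065517362009341952000) (nat_lit 8343700105050931856117312905180035452139845003140098549089825507826806137438923319112472985600) (nat_lit 8343700105050931856117312905180035452139845003140098549089825507826806137438923319112472985600) :=
  chk_sound Env.nil
    (n (nat_lit 212) (b (b (n (nat_lit 187) (b (n (nat_lit 186) (b (l (nat_lit 7) (nat_lit 186) (nat_lit 211)) (l (nat_lit 7) (nat_lit 161) (nat_lit 161)))) (n (nat_lit 188) (b (l (nat_lit 5) (nat_lit 187) (nat_lit 213)) (l (nat_lit 5) (nat_lit 162) (nat_lit 163)))))) (n (nat_lit 213) (b (l (nat_lit 5) (nat_lit 187) (nat_lit 188)) (l (nat_lit 5) (nat_lit 212) (nat_lit 238))))) (b (n (nat_lit 187) (b (n (nat_lit 162) (b (n (nat_lit 163) (b (l (nat_lit 5) (nat_lit 162) (nat_lit 188)) (l (nat_lit 5) (nat_lit 137) (nat_lit 138)))) (n (nat_lit 263) (b (l (nat_lit 4) (nat_lit 162) (nat_lit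 238)) (l (nat_lit 4) (nat_lit 187) (nat_lit 288)))))) (n (nat_lit 186) (b (l (nat_lit 7) (nat_lit 186) (nat_lit 211)) (l (nat_lit 7) (nat_lit 161) (nat_lit 161)))))) (n (nat_lit 238) (b (n (nat_lit 187) (b (n (nat_lit 263) (b (l (nat_lit 4) (nat_lit 187) (nat_lit 288)) (l (nat_lit 4) (nat_lit 162) (nat_lit 162)))) (n (nat_lit 186) (b (l (nat_lit 7) (nat_lit 186) (nat_lit 211)) (l (nat_lit 7) (nat_lit 161) (nat_lit 161)))))) (l (nat_lit 5) (nat_lit 212) (nat_lit 213)))))))
    envOK_nil (by decide +kernel)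

theorem p7657 : Fam (nat_lit 7) (nat_lit 8343699607727680624942585805652444129620275146709852890558508601783632775695752161234180374528) (nat_lit 14091255916595154170113429519404830704044656570763523352008228628033287602287169935308865257725210091677810688) (nat_lit 14091255916595154170113429519404830704044656570763523352008228628033287602287169935308865257725210091677810688) :=
  chk_sound (Env.cons (nat_lit 5) (nat_lit 8343699607727680624942806661535541427661473058897445755372987037270742228065517362009341952000) (nat_lit 8343700105050931856117312905180035452139845003140098549089825507826806137438923319112472985600) Env.nil)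
    (n (nat_lit 237) (b (b (r (nat_lit 0)) (n (nat_lit 337) (b (n (nat_lit 238) (b (l (nat_lit 5) (nat_lit 237) (nat_lit 263)) (l (nat_lit 5) (nat_lit 212) (nat_lit 213)))) (n (nat_lit 336) (b (l (nat_lit 6) (nat_lit 261) (nat_lit 361)) (l (nat_lit 6) (nat_lit 236) (nat_lit 311))))))) (b (n (nat_lit 212) (b (n (nat_lit 187) (b (n (nat_lit 186) (b (l (nat_lit 7) (nat_lit 186) (nat_lit 211)) (l (nat_lit 7) (nat_lit 161) (nat_lit 161)))) (n (nat_lit 188) (b (l (nat_lit 5) (nat_lit 187) (nat_lit 213)) (l (nat_lit 5) (nat_lit 162) (nat_lit 163)))))) (n (nat_lit 311) (b (l (nat_lit 6) (nat_lit 236) (nat_lit 336)) (l (nat_lit 6) (nat_lit 211) (nat_lit 286)))))) (n (nat_lit 311) (b (n (nat_lit 286) (b (n (nat_lit 288) (b (n (nat_lit 263) (b (n (nat_lit 337) (b (l (nat_lit 5) (nat_lit 237) (nat_lit 238)) (l (nat_lit 5) (nat_lit 262) (nat_lit 362)))) (n (nat_lit 285) (b (l (nat_lit 1) (nat_lit 260) (nat_lit 264)) (l (nat_lit 1) (nat_lit 259) (nat_lit 284))))))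 (n (nat_lit 310) (b (l (nat_lit 1) (nat_lit 284) (nat_lit 309)) (l (nat_lit 2) (nat_lit 285) (nat_lit 289)))))) (l (nat_lit 6) (nat_lit 211) (nat_lit 212)))) (l (nat_lit 6) (nat_lit 236) (nat_lit 336)))))))
    (envOK_cons p7652 envOK_nil) (by decide +kernel)

theorem p7667 : Fam (nat_lit 5) (nat_lit 9394170611063434027483056434510847429432882376775987714394946432377755000422418458909164576524416264962048000) (nat_lit 5954264071585671632640473235457219250118317965616578190361538789207990921134141548614446717535182129384906055713252806661043994077926785024) (nat_lit 5954264071585671632640473235457219250118317965616578190361538789207990921134141548614446717535182129384906055713252806661043994077926785024) :=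
  chk_sound Env.nil
    (n (nat_lit 387) (b (b (n (nat_lit 412) (b (n (nat_lit 413) (b (l (nat_lit 4) (nat_lit 337) (nat_lit 438)) (l (nat_lit 4) (nat_lit 312) (nat_lit 388)))) (n (nat_lit 411) (b (l (nat_lit 6) (nat_lit 336) (nat_lit 436)) (l (nat_lit 6) (nat_lit 311) (nat_lit 386)))))) (n (nat_lit 386) (b (l (nat_lit 6) (nat_lit 311) (nat_lit 411)) (l (nat_lit 6) (nat_lit 286) (nat_lit 361))))) (b (n (nat_lit 412) (b (n (nat_lit 437) (b (n (nat_lit 436) (b (l (nat_lit 6) (nat_lit 361) (nat_lit 461)) (l (nat_lit 6) (nat_lit 336) (nat_lit 411)))) (n (nat_lit 336) (b (l (nat_lit 7) (nat_lit 336) (nat_lit 361)) (l (nat_lit 7) (nat_lit 311) (nat_lit 311)))))) (n (nat_lit 413) (b (l (nat_lit 4) (nat_lit 337) (nat_lit 438)) (l (nat_lit 4) (nat_lit 312) (nat_lit 388)))))) (n (nat_lit 361) (b (n (nat_lit 412) (b (n (nat_lit 336) (b (l (nat_lit 7) (nat_lit 311) (nat_lit 311)) (l (nat_lit 7) (nat_lit 336) (nat_lit 437)))) (n (nat_lit 413) (b (l (nat_lit 4)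 (nat_lit 337) (nat_lit 438)) (l (nat_lit 4) (nat_lit 312) (nat_lit 388)))))) (l (nat_lit 6) (nat_lit 286) (nat_lit 386)))))))
    envOK_nil (by decide +kernel)

theorem p7672 : Fam (nat_lit 6) (nat_lit 279968101115925134047353499319930152181142708231565782546248918899963984685054368582985341452834308096) (nat_lit 5954264071585671632640473235457219250118317965616578314692359007695991237948341855571305727012202772721511797286135142050027846770414845952) (nat_lit 5954264071585671632640473235457219250118317965616578314692359007695991237948341855571305727012202772721511797286135142050027846770414845952) :=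
  chk_sound (Env.cons (nat_lit 5) (nat_lit 9394170611063434027483056434510847429432882376775987714394946432377755000422418458909164576524416264962048000) (nat_lit 5954264071585671632640473235457219250118317965616578190361538789207990921134141548614446717535182129384906055713252806661043994077926785024) Env.nil)
    (n (nat_lit 362) (b (b (r (nat_lit 0)) (n (nat_lit 262) (b (n (nat_lit 261) (b (l (nat_lit 7) (nat_lit 261) (nat_lit 286)) (l (nat_lit 7) (nat_lit 236) (nat_lit 236)))) (n (nat_lit 361) (b (l (nat_lit 6) (nat_lit 286) (nat_lit 386)) (l (nat_lit 6) (nat_lit 261) (nat_lit 336))))))) (b (n (nat_lit 387) (b (n (nat_lit 412) (b (n (nat_lit 413) (b (l (nat_lit 4) (nat_lit 337) (nat_lit 438)) (l (nat_lit 4) (nat_lit 312) (nat_lit 388)))) (n (nat_lit 411) (b (l (nat_lit 6) (nat_lit 336) (nat_lit 436)) (l (nat_lit 6) (nat_lit 311) (nat_lit 386)))))) (n (nat_lit 286) (b (l (nat_lit 7) (nat_lit 261) (nat_lit 261)) (l (nat_lit 7) (nat_lit 286) (nat_lit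 311)))))) (n (nat_lit 262) (b (b (n (nat_lit 336) (b (n (nat_lit 311) (b (n (nat_lit 387) (b (l (nat_lit 7) (nat_lit 311) (nat_lit 412)) (l (nat_lit 7) (nat_lit 286) (nat_lit 286)))) (l (nat_lit 6) (nat_lit 236) (nat_lit 237)))) (l (nat_lit 6) (nat_lit 261) (nat_lit 361)))) (n (nat_lit 237) (b (n (nat_lit 212) (b (n (nat_lit 213) (b (l (nat_lit 5) (nat_lit 187) (nat_lit 188)) (l (nat_lit 5) (nat_lit 212) (nat_lit 238)))) (n (nat_lit 211) (b (l (nat_lit 7) (nat_lit 211) (nat_lit 236)) (l (nat_lit 7) (nat_lit 186) (nat_lit 186)))))) (n (nat_lit 336) (b (l (nat_lit 6) (nat_lit 261) (nat_lit 361)) (l (nat_lit 6) (nat_lit 236) (nat_lit 311))))))) (n (nat_lit 261) (b (l (nat_lit 7) (nat_lit 261) (nat_lit 286)) (l (nat_lit 7) (nat_lit 236) (nat_lit 236)))))))))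
    (envOK_cons p7667 envOK_nil) (by decide +kernel)

theorem p7685 : Fam (nat_lit 5) (nat_lit 9394170611063434027483056434510847429432882376775987714394946432377755000422418458909164576524416264962048000) (nat_lit 177450876289075874803087421880208088607266738017457841284784216801857624403325446592737484605557554301072134894488873866160815210496) (nat_lit 177450876289075874803087421880208088607266738017457841284784216801857624403325446592737484605557554301072134894488873866160815210496) :=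
  chk_sound Env.nil
    (n (nat_lit 311) (b (b (n (nat_lit 387) (b (n (nat_lit 412) (b (n (nat_lit 411) (b (l (nat_lit 6) (nat_lit 336) (nat_lit 436)) (l (nat_lit 6) (nat_lit 311) (nat_lit 386)))) (l (nat_lit 7) (nat_lit 311) (nat_lit 336)))) (l (nat_lit 7) (nat_lit 286) (nat_lit 286)))) (n (nat_lit 338) (b (n (nat_lit 262) (b (n (nat_lit 263) (b (l (nat_lit 5) (nat_lit 237) (nat_lit 238)) (l (nat_lit 5) (nat_lit 262) (nat_lit 288)))) (l (nat_lit 4) (nat_lit 262) (nat_lit 363)))) (n (nat_lit 339) (b (n (nat_lit 310) (b (l (nat_lit 0) (nat_lit 309) (nat_lit 309)) (l (nat_lit 3) (nat_lit 310) (nat_lit 336)))) (l (nat_lit 3) (nat_lit 311) (nat_lit 340))))))) (n (nat_lit 288) (b (n (nat_lit 286) (b (n (nat_lit 310) (b (l (nat_lit 1) (nat_lit 284) (nat_lit 309)) (l (nat_lit 2) (nat_lit 285) (nat_lit 289)))) (l (nat_lit 7) (nat_lit 286) (nat_lit 387)))) (l (nat_lit 5) (nat_lit 262) (nat_lit 263))))))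
    envOK_nil (by decide +kernel)

theorem p7721 : Fam (nat_lit 7) (nat_lit 489944162351394919721058703767668263530234025930499635987448014509688192052648653381815457919851823104) (nat_lit 3966335930947519430282464654875762170653160743672418959777604685122470479338544425389358750433465192762227785483949355040768) (nat_lit 3966335930947519430282464654875762170653160743672418959777604685122470479338544425389358750433465192762227785483949355040768) :=
  chk_sound Env.nil
    (n (nat_lit 334) (b (b (n (nat_lit 309) (b (n (nat_lit 310) (b (n (nat_lit 285) (b (n (nat_lit 360) (b (n (nat_lit 385) (b (l (nat_lit 7) (nat_lit 284) (nat_lit 284)) (l (nat_lit 7) (nat_lit 309) (nat_lit 410)))) (n (nat_lit 286) (b (l (nat_lit 5) (nat_lit 260) (nat_lit 261)) (l (nat_lit 2) (nat_lit 284) (nat_lit 288)))))) (n (nat_lit 260) (b (l (nat_lit 4) (nat_lit 260) (nat_lit 361)) (l (nat_lit 6) (nat_lit 234) (nat_lit 235)))))) (l (nat_lit 3) (nat_lit 309) (nat_lit 338)))) (l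 (nat_lit 3) (nat_lit 308) (nat_lit 308)))) (n (nat_lit 333) (b (n (nat_lit 358) (b (l (nat_lit 2) (nat_lit 333) (nat_lit 359)) (l (nat_lit 2) (nat_lit 332) (nat_lit 357)))) (n (nat_lit 308) (b (l (nat_lit 3) (nat_lit 308) (nat_lit 309)) (l (nat_lit 3) (nat_lit 307) (nat_lit 307))))))) (b (n (nat_lit 359) (b (n (nat_lit 310) (b (b (n (nat_lit 338) (b (l (nat_lit 3) (nat_lit 309) (nat_lit 309)) (l (nat_lit 2) (nat_lit 334) (nat_lit 360)))) (n (nat_lit 285) (b (n (nat_lit 384) (b (l (nat_lit 5) (nat_lit 309) (nat_lit 409)) (l (nat_lit 6) (nat_lit 284) (nat_lit 360)))) (l (nat_lit 6) (nat_lit 259) (nat_lit 260))))) (n (nat_lit 384) (b (n (nat_lit 285) (b (l (nat_lit 6) (nat_lit 259) (nat_lit 260)) (l (nat_lit 5) (nat_lit 284) (nat_lit 309)))) (l (nat_lit 5) (nat_lit 309) (nat_lit 409)))))) (l (nat_lit 2) (nat_lit 333) (nat_lit 358)))) (n (nat_lit 333) (b (b (n (nat_lit 332) (b (n (nat_lit 307) (b (l (nat_lit 3) (nat_lit 306) (nat_lit 306)) (l (nat_lit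 3) (nat_lit 307) (nat_lit 308)))) (n (nat_lit 360) (b (n (nat_lit 359) (b (l (nat_lit 2) (nat_lit 334) (nat_lit 338)) (l (nat_lit 0) (nat_lit 331) (nat_lit 331)))) (l (nat_lit 0) (nat_lit 332) (nat_lit 361)))))) (n (nat_lit 358) (b (l (nat_lit 2) (nat_lit 333) (nat_lit 359)) (l (nat_lit 2) (nat_lit 332) (nat_lit 357))))) (n (nat_lit 332) (b (n (nat_lit 357) (b (l (nat_lit 2) (nat_lit 331) (nat_lit 356)) (l (nat_lit 2) (nat_lit 332) (nat_lit 358)))) (n (nat_lit 307) (b (l (nat_lit 3) (nat_lit 306) (nat_lit 306)) (l (nat_lit 3) (nat_lit 307) (nat_lit 308)))))))))))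
    envOK_nil (by decide +kernel)

theorem p7751 : Fam (nat_lit 9) (nat_lit 419952147502037897207193641855457919563745551808731378477498237710200976633814427669290184782309752832) (nat_lit 9254783838877664525863698920040634956138250228578187404938960918496413411681027544307154235708264918625464975915759775514624) (nat_lit 9254783838877664525863698920040634956138250228578187404938960918496413411681027544307154235708264918625464975915759775514624) :=
  chk_sound (Env.cons (nat_lit 7) (nat_lit 489944162351394919721058703767668263530234025930499635987448014509688192052648653381815457919851823104) (nat_lit 3966335930947519430282464654875762170653160743672418959777604685122470479338544425389358750433465192762227785483949355040768) Env.nil)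
    (n (nat_lit 335) (b (b (b (n (nat_lit 334) (b (b (n (nat_lit 333) (b (n (nat_lit 332) (b (n (nat_lit 357) (b (l (nat_lit 2) (nat_lit 331) (nat_lit 356)) (l (nat_lit 2) (nat_lit 332) (nat_lit 358)))) (n (nat_lit 307) (b (l (nat_lit 3) (nat_lit 306) (nat_lit 306)) (l (nat_lit 3) (nat_lit 307) (nat_lit 308)))))) (l (nat_lit 1) (nat_lit 308) (nat_lit 311)))) (n (nat_lit 333) (b (n (nat_lit 358) (b (l (nat_lit 2) (nat_lit 333) (nat_lit 359)) (l (nat_lit 2) (nat_lit 332) (nat_lit 357)))) (n (nat_lit 308) (b (l (nat_lit 3) (nat_lit 308) (nat_lit 309)) (l (nat_lit 3) (nat_lit 307) (nat_lit 307))))))) (b (n (nat_lit 333) (b (n (nat_lit 358) (b (l (nat_lit 2) (nat_lit 333) (nat_lit 359)) (l (nat_lit 2) (nat_lit 332) (nat_lit 357)))) (l (nat_lit 1) (nat_lit 308) (nat_lit 311)))) (n (nat_lit 309) (b (n (nat_lit 310) (b (n (nat_lit 285) (b (n (nat_lit 260) (b (l (nat_lit 4) (nat_lit 260) (nat_lit 361)) (l (nat_lit 6) (nat_lit 259) (nat_lit 359)))) (n (nat_lit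 288) (b (l (nat_lit 2) (nat_lit 284) (nat_lit 286)) (l (nat_lit 1) (nat_lit 284) (nat_lit 311)))))) (l (nat_lit 3) (nat_lit 309) (nat_lit 338)))) (l (nat_lit 3) (nat_lit 308) (nat_lit 308))))))) (n (nat_lit 334) (b (b (n (nat_lit 309) (b (n (nat_lit 310) (b (n (nat_lit 285) (b (n (nat_lit 360) (b (n (nat_lit 385) (b (l (nat_lit 7) (nat_lit 284) (nat_lit 284)) (l (nat_lit 7) (nat_lit 309) (nat_lit 410)))) (n (nat_lit 286) (b (l (nat_lit 5) (nat_lit 260) (nat_lit 261)) (l (nat_lit 2) (nat_lit 284) (nat_lit 288)))))) (n (nat_lit 260) (b (l (nat_lit 4) (nat_lit 260) (nat_lit 361)) (l (nat_lit 6) (nat_lit 234) (nat_lit 235)))))) (l (nat_lit 3) (nat_lit 309) (nat_lit 338)))) (l (nat_lit 3) (nat_lit 308) (nat_lit 308)))) (n (nat_lit 333) (b (n (nat_lit 332) (b (n (nat_lit 357) (b (l (nat_lit 2) (nat_lit 331) (nat_lit 356)) (l (nat_lit 2) (nat_lit 332) (nat_lit 358)))) (n (nat_lit 307) (b (l (nat_lit 3) (nat_lit 306) (nat_lit 306)) (l (nat_lit 3) (nat_lit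 307) (nat_lit 308)))))) (l (nat_lit 1) (nat_lit 308) (nat_lit 311))))) (n (nat_lit 311) (b (n (nat_lit 310) (b (n (nat_lit 338) (b (l (nat_lit 3) (nat_lit 310) (nat_lit 339)) (l (nat_lit 3) (nat_lit 309) (nat_lit 309)))) (n (nat_lit 360) (b (b (n (nat_lit 286) (b (l (nat_lit 5) (nat_lit 285) (nat_lit 385)) (l (nat_lit 6) (nat_lit 260) (nat_lit 261)))) (n (nat_lit 285) (b (n (nat_lit 260) (b (l (nat_lit 4) (nat_lit 260) (nat_lit 361)) (l (nat_lit 4) (nat_lit 235) (nat_lit 235)))) (n (nat_lit 286) (b (n (nat_lit 284) (b (l (nat_lit 7) (nat_lit 259) (nat_lit 259)) (l (nat_lit 0) (nat_lit 283) (nat_lit 283)))) (l (nat_lit 6) (nat_lit 260) (nat_lit 261))))))) (n (nat_lit 386) (b (n (nat_lit 385) (b (l (nat_lit 5) (nat_lit 310) (nat_lit 410)) (l (nat_lit 4) (nat_lit 310) (nat_lit 411)))) (l (nat_lit 5) (nat_lit 286) (nat_lit 361)))))))) (l (nat_lit 1) (nat_lit 308) (nat_lit 333))))))) (b (r (nat_lit 0)) (n (nat_lit 338) (b (b (n (nat_lit 339) (b (n (nat_lit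 311) (b (l (nat_lit 3) (nat_lit 311) (nat_lit 340)) (l (nat_lit 3) (nat_lit 310) (nat_lit 310)))) (n (nat_lit 364) (b (l (nat_lit 0) (nat_lit 336) (nat_lit 365)) (l (nat_lit 0) (nat_lit 335) (nat_lit 363)))))) (n (nat_lit 310) (b (n (nat_lit 360) (b (n (nat_lit 386) (b (b (n (nat_lit 385) (b (n (nat_lit 311) (b (l (nat_lit 5) (nat_lit 285) (nat_lit 286)) (l (nat_lit 5) (nat_lit 310) (nat_lit 410)))) (l (nat_lit 4) (nat_lit 310) (nat_lit 411)))) (n (nat_lit 411) (b (l (nat_lit 7) (nat_lit 310) (nat_lit 361)) (l (nat_lit 4) (nat_lit 310) (nat_lit 385))))) (n (nat_lit 361) (b (l (nat_lit 4) (nat_lit 285) (nat_lit 285)) (l (nat_lit 5) (nat_lit 286) (nat_lit 311)))))) (l (nat_lit 2) (nat_lit 334) (nat_lit 359)))) (l (nat_lit 3) (nat_lit 309) (nat_lit 309))))) (n (nat_lit 339) (b (n (nat_lit 360) (b (l (nat_lit 2) (nat_lit 334) (nat_lit 359)) (l (nat_lit 2) (nat_lit 335) (nat_lit 361)))) (n (nat_lit 364) (b (l (nat_lit 0) (nat_lit 336) (nat_lit 365)) (l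 (nat_lit 0) (nat_lit 335) (nat_lit 363)))))))))) (b (b (n (nat_lit 334) (b (b (n (nat_lit 333) (b (n (nat_lit 358) (b (l (nat_lit 2) (nat_lit 333) (nat_lit 359)) (l (nat_lit 2) (nat_lit 332) (nat_lit 357)))) (l (nat_lit 1) (nat_lit 308) (nat_lit 311)))) (n (nat_lit 333) (b (n (nat_lit 308) (b (l (nat_lit 3) (nat_lit 308) (nat_lit 309)) (l (nat_lit 3) (nat_lit 307) (nat_lit 307)))) (l (nat_lit 1) (nat_lit 308) (nat_lit 311))))) (n (nat_lit 359) (b (n (nat_lit 309) (b (n (nat_lit 360) (b (n (nat_lit 284) (b (l (nat_lit 4) (nat_lit 284) (nat_lit 385)) (l (nat_lit 4) (nat_lit 259) (nat_lit 259)))) (l (nat_lit 2) (nat_lit 334) (nat_lit 338)))) (l (nat_lit 3) (nat_lit 308) (nat_lit 308)))) (l (nat_lit 2) (nat_lit 333) (nat_lit 358)))))) (n (nat_lit 338) (b (b (n (nat_lit 334) (b (b (n (nat_lit 359) (b (l (nat_lit 2) (nat_lit 333) (nat_lit 358)) (l (nat_lit 2) (nat_lit 334) (nat_lit 360)))) (n (nat_lit 333) (b (n (nat_lit 332) (b (n (nat_lit 357) (b (l (nat_lit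 2) (nat_lit 331) (nat_lit 356)) (l (nat_lit 2) (nat_lit 332) (nat_lit 358)))) (n (nat_lit 307) (b (l (nat_lit 3) (nat_lit 306) (nat_lit 306)) (l (nat_lit 3) (nat_lit 307) (nat_lit 308)))))) (l (nat_lit 1) (nat_lit 308) (nat_lit 311))))) (n (nat_lit 333) (b (n (nat_lit 332) (b (n (nat_lit 360) (b (l (nat_lit 2) (nat_lit 334) (nat_lit 359)) (l (nat_lit 0) (nat_lit 332) (nat_lit 361)))) (n (nat_lit 307) (b (l (nat_lit 3) (nat_lit 306) (nat_lit 306)) (l (nat_lit 3) (nat_lit 307) (nat_lit 308)))))) (l (nat_lit 1) (nat_lit 308) (nat_lit 311)))))) (n (nat_lit 339) (b (n (nat_lit 360) (b (l (nat_lit 2) (nat_lit 334) (nat_lit 359)) (l (nat_lit 2) (nat_lit 335) (nat_lit 361)))) (n (nat_lit 364) (b (l (nat_lit 0) (nat_lit 336) (nat_lit 365)) (l (nat_lit 0) (nat_lit 335) (nat_lit 363))))))) (n (nat_lit 339) (b (n (nat_lit 311) (b (l (nat_lit 3) (nat_lit 311) (nat_lit 340)) (l (nat_lit 3) (nat_lit 310) (nat_lit 310)))) (n (nat_lit 364) (b (l (nat_lit 0) (nat_lit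 336) (nat_lit 365)) (l (nat_lit 0) (nat_lit 335) (nat_lit 363))))))))) (n (nat_lit 334) (b (b (n (nat_lit 333) (b (n (nat_lit 308) (b (l (nat_lit 3) (nat_lit 308) (nat_lit 309)) (l (nat_lit 3) (nat_lit 307) (nat_lit 307)))) (l (nat_lit 1) (nat_lit 308) (nat_lit 311)))) (n (nat_lit 333) (b (n (nat_lit 358) (b (l (nat_lit 2) (nat_lit 333) (nat_lit 359)) (l (nat_lit 2) (nat_lit 332) (nat_lit 357)))) (n (nat_lit 308) (b (l (nat_lit 3) (nat_lit 308) (nat_lit 309)) (l (nat_lit 3) (nat_lit 307) (nat_lit 307))))))) (b (n (nat_lit 333) (b (n (nat_lit 358) (b (l (nat_lit 2) (nat_lit 333) (nat_lit 359)) (l (nat_lit 2) (nat_lit 332) (nat_lit 357)))) (l (nat_lit 1) (nat_lit 308) (nat_lit 311)))) (n (nat_lit 309) (b (n (nat_lit 310) (b (n (nat_lit 284) (b (n (nat_lit 259) (b (l (nat_lit 4) (nat_lit 259) (nat_lit 360)) (l (nat_lit 4) (nat_lit 234) (nat_lit 234)))) (n (nat_lit 311) (b (l (nat_lit 3) (nat_lit 283) (nat_lit 283)) (l (nat_lit 1) (nat_lit 284) (nat_lit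 288)))))) (n (nat_lit 359) (b (n (nat_lit 285) (b (l (nat_lit 5) (nat_lit 284) (nat_lit 384)) (l (nat_lit 6) (nat_lit 259) (nat_lit 260)))) (l (nat_lit 2) (nat_lit 333) (nat_lit 358)))))) (l (nat_lit 3) (nat_lit 308) (nat_lit 308))))))))))
    (envOK_cons p7721 envOK_nil) (by decide +kernel)

theorem p7754 : Fam (nat_lit 5) (nat_lit 2099760704135390806463657147388470050463855601324298479424414664759186159786946690125199798469327323136) (nat_lit 4109951742100960955004819368139402218156782992635192280282721130874227036299395556358212533809931748645011456) (nat_lit 4109951742100960955004819368139402218156782992635192280282721130874227036299395556358212533809931748645011456) :=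
  chk_sound Env.nil
    (n (nat_lit 335) (b (b (n (nat_lit 334) (b (n (nat_lit 333) (b (n (nat_lit 308) (b (l (nat_lit 3) (nat_lit 308) (nat_lit 309)) (l (nat_lit 3) (nat_lit 307) (nat_lit 307)))) (l (nat_lit 1) (nat_lit 308) (nat_lit 311)))) (n (nat_lit 359) (b (l (nat_lit 2) (nat_lit 333) (nat_lit 358)) (l (nat_lit 2) (nat_lit 334) (nat_lit 360)))))) (n (nat_lit 334) (b (n (nat_lit 359) (b (l (nat_lit 2) (nat_lit 333) (nat_lit 358)) (l (nat_lit 2) (nat_lit 334) (nat_lit 360)))) (n (nat_lit 309) (b (l (nat_lit 3) (nat_lit 308) (nat_lit 308)) (l (nat_lit 3) (nat_lit 309) (nat_lit 310))))))) (b (n (nat_lit 310) (b (l (nat_lit 3) (nat_lit 309) (nat_lit 309)) (l (nat_lit 3) (nat_lit 310) (nat_lit 311)))) (n (nat_lit 334) (b (n (nat_lit 311) (b (l (nat_lit 3) (nat_lit 310) (nat_lit 310)) (l (nat_lit 1) (nat_lit 308) (nat_lit 333)))) (n (nat_lit 359) (b (l (nat_lit 2) (nat_lit 333) (nat_lit 358)) (l (nat_lit 2) (nat_lit 334) (nat_lit 360)))))))))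
    envOK_nil (by decide +kernel)

theorem p7763 : Fam (nat_lit 7) (nat_lit 419952147502037897207193641855457919563745551808731378477498237710200976633814427669290184782309752832) (nat_lit 285935063914705924103129004051468003614435201088770088665272823815395996738875892222641969213310041627708882944) (nat_lit 285935063914705924103129004051468003614435201088770088665272823815395996738875892222641969213310041627708882944) :=
  chk_sound (Env.cons (nat_lit 5) (nat_lit 2099760704135390806463657147388470050463855601324298479424414664759186159786946690125199798469327323136) (nat_lit 4109951742100960955004819368139402218156782992635192280282721130874227036299395556358212533809931748645011456) Env.nil)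
    (n (nat_lit 338) (b (b (n (nat_lit 339) (b (n (nat_lit 340) (b (n (nat_lit 315) (b (l (nat_lit 1) (nat_lit 311) (nat_lit 314)) (l (nat_lit 1) (nat_lit 312) (nat_lit 316)))) (n (nat_lit 365) (b (l (nat_lit 0) (nat_lit 337) (nat_lit 366)) (l (nat_lit 0) (nat_lit 336) (nat_lit 364)))))) (r (nat_lit 0)))) (n (nat_lit 335) (b (n (nat_lit 334) (b (n (nat_lit 359) (b (l (nat_lit 2) (nat_lit 333) (nat_lit 358)) (l (nat_lit 2) (nat_lit 334) (nat_lit 360)))) (n (nat_lit 309) (b (l (nat_lit 3) (nat_lit 308) (nat_lit 308)) (l (nat_lit 3) (nat_lit 309) (nat_lit 310)))))) (n (nat_lit 363) (b (l (nat_lit 4) (nat_lit 262) (nat_lit 262)) (l (nat_lit 0) (nat_lit 335) (nat_lit 364))))))) (b (n (nat_lit 363) (b (n (nat_lit 364) (b (n (nat_lit 365) (b (l (nat_lit 0) (nat_lit 336) (nat_lit 339)) (l (nat_lit 3) (nat_lit 337) (nat_lit 366)))) (l (nat_lit 0) (nat_lit 335) (nat_lit 335)))) (l (nat_lit 4) (nat_lit 262) (nat_lit 262)))) (n (nat_lit 311) (b (n (nat_lit 310)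 (b (l (nat_lit 0) (nat_lit 309) (nat_lit 309)) (l (nat_lit 3) (nat_lit 310) (nat_lit 339)))) (n (nat_lit 262) (b (l (nat_lit 4) (nat_lit 262) (nat_lit 363)) (l (nat_lit 6) (nat_lit 236) (nat_lit 237)))))))))
    (envOK_cons p7754 envOK_nil) (by decide +kernel)

theorem p7825 : Fam (nat_lit 10) (nat_lit 489944170695094278787113713123221803255046973597314176443122897115319472608194457212442606447047475200) (nat_lit 288357658104404582615441402265755166158684265012337395077647694240988518852612144920752366029470759585620670142317040835349654274048) (nat_lit 288357658104404582615441402265755166158684265012337395077647694240988518852612144920752366029470759585620670142317040835349654274048) :=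
  chk_sound Env.nil
    (n (nat_lit 334) (b (b (b (n (nat_lit 361) (b (n (nat_lit 333) (b (b (n (nat_lit 308) (b (l (nat_lit 3) (nat_lit 308) (nat_lit 309)) (l (nat_lit 3) (nat_lit 307) (nat_lit 307)))) (n (nat_lit 332) (b (n (nat_lit 331) (b (n (nat_lit 356) (b (l (nat_lit 2) (nat_lit 331) (nat_lit 357)) (l (nat_lit 2) (nat_lit 330) (nat_lit 355)))) (n (nat_lit 306) (b (l (nat_lit 3) (nat_lit 306) (nat_lit 307)) (l (nat_lit 3) (nat_lit 305) (nat_lit 305)))))) (l (nat_lit 0) (nat_lit 332) (nat_lit 360))))) (n (nat_lit 332) (b (n (nat_lit 331) (b (n (nat_lit 309) (b (l (nat_lit 3) (nat_lit 308) (nat_lit 308)) (l (nat_lit 1) (nat_lit 306) (nat_lit 310)))) (n (nat_lit 356) (b (l (nat_lit 2) (nat_lit 331) (nat_lit 357)) (l (nat_lit 2) (nat_lit 330) (nat_lit 355)))))) (l (nat_lit 0) (nat_lit 332) (nat_lit 360)))))) (l (nat_lit 6) (nat_lit 261) (nat_lit 262)))) (n (nat_lit 333) (b (n (nat_lit 332) (b (n (nat_lit 361) (b (l (nat_lit 6) (nat_lit 261) (nat_lit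 262)) (l (nat_lit 0) (nat_lit 332) (nat_lit 360)))) (n (nat_lit 307) (b (l (nat_lit 3) (nat_lit 306) (nat_lit 306)) (l (nat_lit 3) (nat_lit 307) (nat_lit 308)))))) (n (nat_lit 358) (b (l (nat_lit 2) (nat_lit 333) (nat_lit 359)) (l (nat_lit 2) (nat_lit 332) (nat_lit 357))))))) (b (n (nat_lit 333) (b (n (nat_lit 358) (b (l (nat_lit 2) (nat_lit 333) (nat_lit 359)) (l (nat_lit 2) (nat_lit 332) (nat_lit 357)))) (n (nat_lit 308) (b (l (nat_lit 3) (nat_lit 308) (nat_lit 309)) (l (nat_lit 3) (nat_lit 307) (nat_lit 307)))))) (n (nat_lit 361) (b (n (nat_lit 358) (b (n (nat_lit 333) (b (n (nat_lit 360) (b (n (nat_lit 385) (b (b (n (nat_lit 410) (b (l (nat_lit 5) (nat_lit 335) (nat_lit 435)) (l (nat_lit 7) (nat_lit 309) (nat_lit 309)))) (n (nat_lit 310) (b (n (nat_lit 383) (b (n (nat_lit 309) (b (l (nat_lit 7) (nat_lit 284) (nat_lit 284)) (l (nat_lit 5) (nat_lit 308) (nat_lit 408)))) (n (nat_lit 384) (b (l (nat_lit 6) (nat_lit 309) (nat_lit 409)) (l (nat_lit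 1) (nat_lit 357) (nat_lit 382)))))) (n (nat_lit 386) (b (l (nat_lit 4) (nat_lit 285) (nat_lit 285)) (l (nat_lit 4) (nat_lit 310) (nat_lit 411))))))) (n (nat_lit 411) (b (n (nat_lit 410) (b (l (nat_lit 5) (nat_lit 335) (nat_lit 435)) (l (nat_lit 4) (nat_lit 335) (nat_lit 436)))) (l (nat_lit 5) (nat_lit 311) (nat_lit 386)))))) (l (nat_lit 0) (nat_lit 332) (nat_lit 332)))) (l (nat_lit 2) (nat_lit 332) (nat_lit 357)))) (l (nat_lit 2) (nat_lit 333) (nat_lit 359)))) (l (nat_lit 6) (nat_lit 261) (nat_lit 262)))))) (n (nat_lit 359) (b (n (nat_lit 309) (b (n (nat_lit 384) (b (b (n (nat_lit 409) (b (n (nat_lit 408) (b (l (nat_lit 6) (nat_lit 308) (nat_lit 383)) (l (nat_lit 6) (nat_lit 333) (nat_lit 433)))) (n (nat_lit 410) (b (l (nat_lit 4) (nat_lit 334) (nat_lit 435)) (l (nat_lit 4) (nat_lit 309) (nat_lit 385)))))) (n (nat_lit 284) (b (n (nat_lit 285) (b (l (nat_lit 5) (nat_lit 259) (nat_lit 260)) (l (nat_lit 5) (nat_lit 284) (nat_lit 310)))) (n (nat_lit 360)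 (b (l (nat_lit 4) (nat_lit 284) (nat_lit 385)) (l (nat_lit 4) (nat_lit 259) (nat_lit 259))))))) (n (nat_lit 310) (b (l (nat_lit 5) (nat_lit 309) (nat_lit 409)) (l (nat_lit 5) (nat_lit 284) (nat_lit 285)))))) (l (nat_lit 3) (nat_lit 308) (nat_lit 308)))) (l (nat_lit 2) (nat_lit 333) (nat_lit 358))))))
    envOK_nil (by decide +kernel)

theorem p7828 : Fam (nat_lit 13) (nat_lit 8343699607727673214248874617415937021077234590683750281279490000787534250410375654793883418624) (nat_lit 5954264182492464024864996908143664565743727431863813044334889399410748015594346514061679696223900010067775899685646117919732512176516104192) (nat_lit 5954264182492464024864996908143664565743727431863813044334889399410748015594346514061679696223900010067775899685646117919732512176516104192) :=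
  chk_sound (Env.cons (nat_lit 5) (nat_lit 279968101115925134047360910013641340417649816774606338572351528178982585681152893868361847893131264000) (nat_lit 419952151673888198394288890848333516035812493409959080429714748387526084211127522542295587743462326272) (Env.cons (nat_lit 5) (nat_lit 14091255776611100483262017628089521484184247474592627455809528375442173050651635345836562573293953671025917952) (nat_lit 778189696945022438252205827644826465779541947062301697346472512651152089160107238398180989565057761858925853077929984) (Env.cons (nat_lit 5) (nat_lit 9394170611063434027483056434510847429432882376775987714394946432377755000422418458909164576524416264962048000) (nat_lit 5954264071585671632640473235457219250118317965616578190361538789207990921134141548614446717535182129384906055713252806661043994077926785024) (Env.cons (nat_lit 5) (nat_lit 9394170611063434027483056434510847429432882376775987714394946432377755000422418458909164576524416264962048000)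 (nat_lit 177450876289075874803087421880208088607266738017457841284784216801857624403325446592737484605557554301072134894488873866160815210496) (Env.cons (nat_lit 9) (nat_lit 419952147502037897207193641855457919563745551808731378477498237710200976633814427669290184782309752832) (nat_lit 9254783838877664525863698920040634956138250228578187404938960918496413411681027544307154235708264918625464975915759775514624) (Env.cons (nat_lit 7) (nat_lit 419952147502037897207193641855457919563745551808731378477498237710200976633814427669290184782309752832) (nat_lit 285935063914705924103129004051468003614435201088770088665272823815395996738875892222641969213310041627708882944) (Env.cons (nat_lit 7) (nat_lit 489944162351394919721058703767668263530234025930499635987448014509688192052648653381815457919851823104) (nat_lit 3966335930947519430282464654875762170653160743672418959777604685122470479338544425389358750433465192762227785483949355040768) (Env.cons (nat_lit 10)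 (nat_lit 489944170695094278787113713123221803255046973597314176443122897115319472608194457212442606447047475200) (nat_lit 288357658104404582615441402265755166158684265012337395077647694240988518852612144920752366029470759585620670142317040835349654274048) Env.nil))))))))
    (n (nat_lit 337) (b (b (b (n (nat_lit 262) (b (b (r (nat_lit 0)) (n (nat_lit 336) (b (n (nat_lit 338) (b (n (nat_lit 311) (b (n (nat_lit 310) (b (l (nat_lit 0) (nat_lit 309) (nat_lit 309)) (l (nat_lit 3) (nat_lit 310) (nat_lit 339)))) (l (nat_lit 6) (nat_lit 236) (nat_lit 237)))) (l (nat_lit 4) (nat_lit 262) (nat_lit 363)))) (l (nat_lit 6) (nat_lit 261) (nat_lit 361))))) (n (nat_lit 362) (b (n (nat_lit 363) (b (l (nat_lit 4) (nat_lit 262) (nat_lit 338)) (l (nat_lit 4) (nat_lit 287) (nat_lit 388)))) (n (nat_lit 263) (b (l (nat_lit 5) (nat_lit 237) (nat_lit 238)) (l (nat_lit 5) (nat_lit 262) (nat_lit 288)))))))) (n (nat_lit 362) (b (b (n (nat_lit 387) (b (n (nat_lit 286) (b (l (nat_lit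 7) (nat_lit 261) (nat_lit 261)) (l (nat_lit 7) (nat_lit 286) (nat_lit 311)))) (n (nat_lit 386) (b (l (nat_lit 6) (nat_lit 311) (nat_lit 411)) (l (nat_lit 6) (nat_lit 286) (nat_lit 361)))))) (n (nat_lit 387) (b (n (nat_lit 286) (b (l (nat_lit 7) (nat_lit 261) (nat_lit 261)) (l (nat_lit 7) (nat_lit 286) (nat_lit 311)))) (n (nat_lit 388) (b (l (nat_lit 4) (nat_lit 312) (nat_lit 413)) (l (nat_lit 4) (nat_lit 287) (nat_lit 363))))))) (n (nat_lit 361) (b (r (nat_lit 1)) (l (nat_lit 6) (nat_lit 286) (nat_lit 386))))))) (b (n (nat_lit 362) (b (b (n (nat_lit 286) (b (n (nat_lit 288) (b (n (nat_lit 311) (b (n (nat_lit 310) (b (l (nat_lit 1) (nat_lit 284) (nat_lit 309)) (l (nat_lit 2) (nat_lit 285) (nat_lit 289)))) (l (nat_lit 7) (nat_lit 286) (nat_lit 387)))) (l (nat_lit 5) (nat_lit 262) (nat_lit 263)))) (l (nat_lit 7) (nat_lit 261) (nat_lit 261)))) (r (nat_lit 2))) (n (nat_lit 262) (b (n (nat_lit 263) (b (l (nat_lit 5) (nat_lit 237) (nat_lit 238)) (l (nat_lit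 5) (nat_lit 262) (nat_lit 288)))) (n (nat_lit 361) (b (l (nat_lit 6) (nat_lit 286) (nat_lit 386)) (l (nat_lit 6) (nat_lit 261) (nat_lit 336)))))))) (n (nat_lit 362) (b (b (r (nat_lit 3)) (n (nat_lit 262) (b (n (nat_lit 263) (b (l (nat_lit 5) (nat_lit 237) (nat_lit 238)) (l (nat_lit 5) (nat_lit 262) (nat_lit 288)))) (n (nat_lit 363) (b (l (nat_lit 4) (nat_lit 262) (nat_lit 338)) (l (nat_lit 4) (nat_lit 287) (nat_lit 388))))))) (n (nat_lit 387) (b (n (nat_lit 412) (b (n (nat_lit 413) (b (l (nat_lit 4) (nat_lit 337) (nat_lit 438)) (l (nat_lit 4) (nat_lit 312) (nat_lit 388)))) (n (nat_lit 411) (b (l (nat_lit 6) (nat_lit 336) (nat_lit 436)) (l (nat_lit 6) (nat_lit 311) (nat_lit 386)))))) (n (nat_lit 286) (b (l (nat_lit 7) (nat_lit 261) (nat_lit 261)) (l (nat_lit 7) (nat_lit 286) (nat_lit 311)))))))))) (b (b (n (nat_lit 362) (b (n (nat_lit 387) (b (n (nat_lit 286) (b (l (nat_lit 7) (nat_lit 261) (nat_lit 261)) (l (nat_lit 7) (nat_lit 286) (nat_lit 311))))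 (n (nat_lit 386) (b (l (nat_lit 6) (nat_lit 311) (nat_lit 411)) (l (nat_lit 6) (nat_lit 286) (nat_lit 361)))))) (n (nat_lit 262) (b (n (nat_lit 263) (b (l (nat_lit 5) (nat_lit 237) (nat_lit 238)) (l (nat_lit 5) (nat_lit 262) (nat_lit 288)))) (n (nat_lit 363) (b (l (nat_lit 4) (nat_lit 262) (nat_lit 338)) (l (nat_lit 4) (nat_lit 287) (nat_lit 388)))))))) (n (nat_lit 362) (b (b (n (nat_lit 387) (b (n (nat_lit 388) (b (l (nat_lit 4) (nat_lit 312) (nat_lit 413)) (l (nat_lit 4) (nat_lit 287) (nat_lit 363)))) (n (nat_lit 386) (b (l (nat_lit 6) (nat_lit 311) (nat_lit 411)) (l (nat_lit 6) (nat_lit 286) (nat_lit 361)))))) (n (nat_lit 262) (b (n (nat_lit 263) (b (l (nat_lit 5) (nat_lit 237) (nat_lit 238)) (l (nat_lit 5) (nat_lit 262) (nat_lit 288)))) (n (nat_lit 361) (b (l (nat_lit 6) (nat_lit 286) (nat_lit 386)) (l (nat_lit 6) (nat_lit 261) (nat_lit 336))))))) (n (nat_lit 262) (b (n (nat_lit 263) (b (l (nat_lit 5) (nat_lit 237) (nat_lit 238)) (l (nat_lit 5)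 (nat_lit 262) (nat_lit 288)))) (n (nat_lit 363) (b (l (nat_lit 4) (nat_lit 262) (nat_lit 338)) (l (nat_lit 4) (nat_lit 287) (nat_lit 388))))))))) (n (nat_lit 336) (b (b (r (nat_lit 4)) (r (nat_lit 5))) (b (n (nat_lit 262) (b (n (nat_lit 237) (b (n (nat_lit 238) (b (l (nat_lit 5) (nat_lit 237) (nat_lit 263)) (l (nat_lit 5) (nat_lit 212) (nat_lit 213)))) (l (nat_lit 6) (nat_lit 236) (nat_lit 311)))) (l (nat_lit 6) (nat_lit 261) (nat_lit 361)))) (n (nat_lit 335) (b (b (b (r (nat_lit 6)) (n (nat_lit 262) (b (n (nat_lit 309) (b (n (nat_lit 338) (b (l (nat_lit 4) (nat_lit 262) (nat_lit 363)) (l (nat_lit 3) (nat_lit 309) (nat_lit 310)))) (n (nat_lit 334) (b (n (nat_lit 263) (b (n (nat_lit 284) (b (b (n (nat_lit 358) (b (n (nat_lit 333) (b (l (nat_lit 6) (nat_lit 258) (nat_lit 259)) (l (nat_lit 2) (nat_lit 332) (nat_lit 357)))) (l (nat_lit 2) (nat_lit 333) (nat_lit 359)))) (n (nat_lit 285) (b (n (nat_lit 260) (b (l (nat_lit 5) (nat_lit 259) (nat_lit 359))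 (l (nat_lit 2) (nat_lit 259) (nat_lit 261)))) (l (nat_lit 1) (nat_lit 259) (nat_lit 286))))) (n (nat_lit 285) (b (n (nat_lit 260) (b (n (nat_lit 235) (b (l (nat_lit 5) (nat_lit 234) (nat_lit 259)) (l (nat_lit 6) (nat_lit 209) (nat_lit 210)))) (l (nat_lit 2) (nat_lit 259) (nat_lit 261)))) (l (nat_lit 1) (nat_lit 259) (nat_lit 286)))))) (l (nat_lit 5) (nat_lit 237) (nat_lit 238)))) (l (nat_lit 3) (nat_lit 308) (nat_lit 308)))))) (l (nat_lit 6) (nat_lit 261) (nat_lit 361))))) (b (n (nat_lit 361) (b (n (nat_lit 310) (b (n (nat_lit 386) (b (n (nat_lit 285) (b (l (nat_lit 4) (nat_lit 285) (nat_lit 360)) (l (nat_lit 4) (nat_lit 260) (nat_lit 260)))) (l (nat_lit 7) (nat_lit 310) (nat_lit 411)))) (n (nat_lit 309) (b (n (nat_lit 308) (b (l (nat_lit 0) (nat_lit 307) (nat_lit 307)) (l (nat_lit 3) (nat_lit 308) (nat_lit 334)))) (l (nat_lit 3) (nat_lit 309) (nat_lit 338)))))) (l (nat_lit 6) (nat_lit 261) (nat_lit 262)))) (n (nat_lit 338) (b (n (nat_lit 334) (b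 (n (nat_lit 359) (b (l (nat_lit 2) (nat_lit 333) (nat_lit 358)) (l (nat_lit 2) (nat_lit 334) (nat_lit 360)))) (n (nat_lit 309) (b (l (nat_lit 3) (nat_lit 308) (nat_lit 308)) (l (nat_lit 3) (nat_lit 309) (nat_lit 310)))))) (n (nat_lit 363) (b (l (nat_lit 4) (nat_lit 262) (nat_lit 262)) (l (nat_lit 0) (nat_lit 335) (nat_lit 364)))))))) (b (n (nat_lit 338) (b (b (n (nat_lit 339) (b (n (nat_lit 360) (b (l (nat_lit 2) (nat_lit 334) (nat_lit 359)) (l (nat_lit 2) (nat_lit 335) (nat_lit 361)))) (n (nat_lit 364) (b (l (nat_lit 0) (nat_lit 336) (nat_lit 365)) (l (nat_lit 0) (nat_lit 335) (nat_lit 363)))))) (n (nat_lit 361) (b (n (nat_lit 360) (b (l (nat_lit 2) (nat_lit 334) (nat_lit 359)) (l (nat_lit 2) (nat_lit 335) (nat_lit 339)))) (l (nat_lit 6) (nat_lit 261) (nat_lit 262))))) (n (nat_lit 363) (b (l (nat_lit 4) (nat_lit 262) (nat_lit 262)) (l (nat_lit 0) (nat_lit 335) (nat_lit 364)))))) (r (nat_lit 7)))))))))))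
    (envOK_cons p7548 (envOK_cons p7417 (envOK_cons p7667 (envOK_cons p7685 (envOK_cons p7751 (envOK_cons p7763 (envOK_cons p7721 (envOK_cons p7825 envOK_nil)))))))) (by decide +kernel)

theorem p7848 : Fam (nat_lit 7) (nat_lit 8343699607727680624942585805652444129620275146709852890558508601783632775695752161234180374528) (nat_lit 139984058901662174751468071841600996131148336940367470341204085827797945107945647491182754963424018432) (nat_lit 139984058901662174751468071841600996131148336940367470341204085827797945107945647491182754963424018432) :=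
  chk_sound Env.nil
    (n (nat_lit 237) (b (b (n (nat_lit 212) (b (n (nat_lit 311) (b (l (nat_lit 6) (nat_lit 236) (nat_lit 336)) (l (nat_lit 6) (nat_lit 211) (nat_lit 286)))) (n (nat_lit 211) (b (l (nat_lit 7) (nat_lit 211) (nat_lit 236)) (l (nat_lit 7) (nat_lit 186) (nat_lit 186)))))) (n (nat_lit 212) (b (n (nat_lit 311) (b (l (nat_lit 6) (nat_lit 236) (nat_lit 336)) (l (nat_lit 6) (nat_lit 211) (nat_lit 286)))) (n (nat_lit 213) (b (l (nat_lit 5) (nat_lit 187) (nat_lit 188)) (l (nat_lit 5) (nat_lit 212) (nat_lit 238))))))) (n (nat_lit 238) (b (n (nat_lit 236) (b (n (nat_lit 235) (b (b (n (nat_lit 234) (b (n (nat_lit 209) (b (l (nat_lit 3) (nat_lit 209) (nat_lit 210)) (l (nat_lit 3) (nat_lit 208) (nat_lit 208)))) (n (nat_lit 259) (b (l (nat_lit 2) (nat_lit 233) (nat_lit 258)) (l (nat_lit 2) (nat_lit 234) (nat_lit 260)))))) (n (nat_lit 263) (b (l (nat_lit 0) (nat_lit 234) (nat_lit 234)) (l (nat_lit 0) (nat_lit 235) (nat_lit 264))))) (n (nat_lit 239)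 (b (n (nat_lit 260) (b (l (nat_lit 2) (nat_lit 234) (nat_lit 259)) (l (nat_lit 2) (nat_lit 235) (nat_lit 261)))) (n (nat_lit 264) (b (l (nat_lit 0) (nat_lit 236) (nat_lit 265)) (l (nat_lit 0) (nat_lit 235) (nat_lit 263)))))))) (l (nat_lit 7) (nat_lit 211) (nat_lit 211)))) (l (nat_lit 5) (nat_lit 212) (nat_lit 213))))))
    envOK_nil (by decide +kernel)

theorem p7874 : Fam (nat_lit 13) (nat_lit 8343699607727673214248874617415937021077234590683750281279490000787534250410375654793883418624) (nat_lit 290045013417062126192934616883881879393470025105968689387509195757739780990486168336000933157545605327052865536) (nat_lit 290045013417062126192934616883881879393470025105968689387509195757739780990486168336000933157545605327052865536) :=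
  chk_sound (Env.cons (nat_lit 7) (nat_lit 8343699607727680624942585805652444129620275146709852890558508601783632775695752161234180374528) (nat_lit 139984058901662174751468071841600996131148336940367470341204085827797945107945647491182754963424018432) (Env.cons (nat_lit 9) (nat_lit 8343699607727680624942585805652444129620275146709852890558508601783632775695752161234180374528) (nat_lit 489944177995834932352951889840948684056500083886325914316288084066654255602782872215802806228815446016) (Env.cons (nat_lit 7) (nat_lit 8343699607727680624942585805652444129620275146709852890558508601783632775695752161234180374528) (nat_lit 279968101115925631370826124972122519946976102749426172532447790892912305553527025949174321503648350208) (Env.cons (nat_lit 6) (nat_lit 279968101115925134047360910013641340417649816774606338572351528178982585681152893868361847893131264000) (nat_lit 279968101115928856201009826198818256400376459713981624661858321369479703916519659499012254303434833920)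 (Env.cons (nat_lit 5) (nat_lit 8343699607727680624942806661535541427661473058897445755372987037270742228065517362009341952000) (nat_lit 8343700105050931856117312905180035452139845003140098549089825507826806137438923319112472985600) (Env.cons (nat_lit 5) (nat_lit 8343699607727684330289441399770697683891795424722904195198017902281682038338440414454328852480) (nat_lit 8343703329881329541130302564303953736884314929755584930315703371111099281510168230744633114624) Env.nil))))))
    (n (nat_lit 262) (b (b (b (r (nat_lit 0)) (r (nat_lit 1))) (b (r (nat_lit 2)) (n (nat_lit 337) (b (r (nat_lit 3)) (n (nat_lit 336) (b (n (nat_lit 338) (b (n (nat_lit 311) (b (n (nat_lit 310) (b (l (nat_lit 0) (nat_lit 309) (nat_lit 309)) (l (nat_lit 3) (nat_lit 310) (nat_lit 339)))) (l (nat_lit 6) (nat_lit 236) (nat_lit 237)))) (l (nat_lit 4) (nat_lit 262) (nat_lit 363)))) (l (nat_lit 6) (nat_lit 261) (nat_lit 361)))))))) (b (b (n (nat_lit 237) (b (b (r (nat_lit 4)) (n (nat_lit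 337) (b (n (nat_lit 238) (b (l (nat_lit 5) (nat_lit 237) (nat_lit 263)) (l (nat_lit 5) (nat_lit 212) (nat_lit 213)))) (n (nat_lit 336) (b (l (nat_lit 6) (nat_lit 261) (nat_lit 361)) (l (nat_lit 6) (nat_lit 236) (nat_lit 311))))))) (b (n (nat_lit 212) (b (n (nat_lit 187) (b (n (nat_lit 186) (b (l (nat_lit 7) (nat_lit 186) (nat_lit 211)) (l (nat_lit 7) (nat_lit 161) (nat_lit 161)))) (n (nat_lit 188) (b (l (nat_lit 5) (nat_lit 187) (nat_lit 213)) (l (nat_lit 5) (nat_lit 162) (nat_lit 163)))))) (n (nat_lit 311) (b (l (nat_lit 6) (nat_lit 236) (nat_lit 336)) (l (nat_lit 6) (nat_lit 211) (nat_lit 286)))))) (n (nat_lit 311) (b (n (nat_lit 286) (b (n (nat_lit 285) (b (b (n (nat_lit 284) (b (l (nat_lit 1) (nat_lit 259) (nat_lit 263)) (l (nat_lit 0) (nat_lit 283) (nat_lit 283)))) (n (nat_lit 288) (b (n (nat_lit 289) (b (n (nat_lit 260) (b (l (nat_lit 3) (nat_lit 260) (nat_lit 261)) (l (nat_lit 3) (nat_lit 259) (nat_lit 259)))) (l (nat_lit 2) (nat_lit 286) (nat_lit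 290)))) (n (nat_lit 309) (b (n (nat_lit 284) (b (l (nat_lit 2) (nat_lit 283) (nat_lit 308)) (l (nat_lit 0) (nat_lit 283) (nat_lit 283)))) (l (nat_lit 2) (nat_lit 284) (nat_lit 310))))))) (n (nat_lit 263) (b (b (n (nat_lit 264) (b (l (nat_lit 2) (nat_lit 261) (nat_lit 265)) (l (nat_lit 2) (nat_lit 260) (nat_lit 261)))) (n (nat_lit 260) (b (n (nat_lit 261) (b (n (nat_lit 235) (b (l (nat_lit 4) (nat_lit 210) (nat_lit 210)) (l (nat_lit 3) (nat_lit 234) (nat_lit 234)))) (n (nat_lit 238) (b (l (nat_lit 5) (nat_lit 237) (nat_lit 337)) (l (nat_lit 1) (nat_lit 235) (nat_lit 239)))))) (n (nat_lit 288) (b (n (nat_lit 310) (b (l (nat_lit 2) (nat_lit 285) (nat_lit 289)) (l (nat_lit 2) (nat_lit 284) (nat_lit 309)))) (l (nat_lit 3) (nat_lit 259) (nat_lit 259))))))) (n (nat_lit 264) (b (l (nat_lit 1) (nat_lit 260) (nat_lit 288)) (l (nat_lit 2) (nat_lit 261) (nat_lit 265)))))))) (l (nat_lit 6) (nat_lit 211) (nat_lit 212)))) (l (nat_lit 6) (nat_lit 236) (nat_lit 336)))))))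 (n (nat_lit 237) (b (b (n (nat_lit 337) (b (n (nat_lit 336) (b (l (nat_lit 6) (nat_lit 261) (nat_lit 361)) (l (nat_lit 6) (nat_lit 236) (nat_lit 311)))) (n (nat_lit 236) (b (l (nat_lit 7) (nat_lit 211) (nat_lit 211)) (l (nat_lit 7) (nat_lit 236) (nat_lit 261)))))) (n (nat_lit 212) (b (n (nat_lit 311) (b (l (nat_lit 6) (nat_lit 236) (nat_lit 336)) (l (nat_lit 6) (nat_lit 211) (nat_lit 286)))) (n (nat_lit 213) (b (l (nat_lit 5) (nat_lit 187) (nat_lit 188)) (l (nat_lit 5) (nat_lit 212) (nat_lit 238))))))) (n (nat_lit 212) (b (n (nat_lit 213) (b (l (nat_lit 5) (nat_lit 187) (nat_lit 188)) (l (nat_lit 5) (nat_lit 212) (nat_lit 238)))) (n (nat_lit 211) (b (l (nat_lit 7) (nat_lit 211) (nat_lit 236)) (l (nat_lit 7) (nat_lit 186) (nat_lit 186))))))))) (b (n (nat_lit 237) (b (b (n (nat_lit 337) (b (n (nat_lit 238) (b (l (nat_lit 5) (nat_lit 237) (nat_lit 263)) (l (nat_lit 5) (nat_lit 212) (nat_lit 213)))) (n (nat_lit 336) (b (l (nat_lit 6) (nat_lit 261) (nat_lit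 361)) (l (nat_lit 6) (nat_lit 236) (nat_lit 311)))))) (n (nat_lit 212) (b (n (nat_lit 311) (b (l (nat_lit 6) (nat_lit 236) (nat_lit 336)) (l (nat_lit 6) (nat_lit 211) (nat_lit 286)))) (n (nat_lit 211) (b (l (nat_lit 7) (nat_lit 211) (nat_lit 236)) (l (nat_lit 7) (nat_lit 186) (nat_lit 186))))))) (n (nat_lit 212) (b (n (nat_lit 213) (b (l (nat_lit 5) (nat_lit 187) (nat_lit 188)) (l (nat_lit 5) (nat_lit 212) (nat_lit 238)))) (n (nat_lit 211) (b (l (nat_lit 7) (nat_lit 211) (nat_lit 236)) (l (nat_lit 7) (nat_lit 186) (nat_lit 186)))))))) (n (nat_lit 261) (b (b (r (nat_lit 5)) (n (nat_lit 236) (b (n (nat_lit 211) (b (l (nat_lit 4) (nat_lit 211) (nat_lit 286)) (l (nat_lit 4) (nat_lit 186) (nat_lit 186)))) (l (nat_lit 7) (nat_lit 236) (nat_lit 337))))) (n (nat_lit 337) (b (n (nat_lit 336) (b (n (nat_lit 338) (b (n (nat_lit 339) (b (n (nat_lit 340) (b (n (nat_lit 315) (b (l (nat_lit 1) (nat_lit 311) (nat_lit 314)) (l (nat_lit 1) (nat_lit 312) (nat_lit 316))))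 (n (nat_lit 365) (b (l (nat_lit 0) (nat_lit 337) (nat_lit 366)) (l (nat_lit 0) (nat_lit 336) (nat_lit 364)))))) (n (nat_lit 263) (b (n (nat_lit 310) (b (n (nat_lit 335) (b (n (nat_lit 260) (b (n (nat_lit 285) (b (n (nat_lit 359) (b (l (nat_lit 6) (nat_lit 259) (nat_lit 334)) (l (nat_lit 2) (nat_lit 334) (nat_lit 360)))) (l (nat_lit 2) (nat_lit 259) (nat_lit 284)))) (n (nat_lit 288) (b (l (nat_lit 0) (nat_lit 260) (nat_lit 289)) (l (nat_lit 0) (nat_lit 259) (nat_lit 259)))))) (l (nat_lit 3) (nat_lit 309) (nat_lit 309)))) (l (nat_lit 3) (nat_lit 310) (nat_lit 311)))) (l (nat_lit 5) (nat_lit 237) (nat_lit 238)))))) (l (nat_lit 4) (nat_lit 262) (nat_lit 363)))) (l (nat_lit 6) (nat_lit 261) (nat_lit 361)))) (l (nat_lit 7) (nat_lit 236) (nat_lit 236))))))))))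
    (envOK_cons p7848 (envOK_cons p7580 (envOK_cons p7522 (envOK_cons p7422 (envOK_cons p7652 (envOK_cons p7426 envOK_nil)))))) (by decide +kernel)

theorem p7920 : Fam (nat_lit 13) (nat_lit 8343699607727673214248874617415937021077234590683750281279490000787534250410375654793883418624) (nat_lit 5954264182492464024864996908143664565743727698862198510098607637298048106619993474317565957979229668184354297241747186413635154417094230016) (nat_lit 5954264182492464024864996908143664565743727698862198510098607637298048106619993474317565957979229668184354297241747186413635154417094230016) :=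
  chk_sound (Env.cons (nat_lit 5) (nat_lit 8343701224028191546055461622408243498244964917166240372659571682295459153178740945527353901056) (nat_lit 16426660086912893543187980730359994683401830518468878293663160813370932200830653188722380505088) (Env.cons (nat_lit 7) (nat_lit 279968101115925134047353499319930152181142708231565782546248918899963984685054368582985341452834308096) (nat_lit 26442239539650217605560292892248846548383685772123245804320920171885490245615528655242358014583884891255885470027001695830016) (Env.cons (nat_lit 5) (nat_lit 14091255776611100483262017628089521484184247474592627455809528375442173050651635345836562573293953671025917952) (nat_lit 778189696945022438252205827644826465779541947062301697346472512651152089160107238398180989565057761858925853077929984) (Env.cons (nat_lit 5) (nat_lit 9394170611063434027483056434510847429432882376775987714394946432377755000422418458909164576524416264962048000) (nat_lit 5954264071585671632640473235457219250118317965616578190361538789207990921134141548614446717535182129384906055713252806661043994077926785024)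 (Env.cons (nat_lit 9) (nat_lit 419952147502037897207193641855457919563745551808731378477498237710200976633814427669290184782309752832) (nat_lit 9254783838877664525863698920040634956138250228578187404938960918496413411681027544307154235708264918625464975915759775514624) (Env.cons (nat_lit 7) (nat_lit 419952147502037897207193641855457919563745551808731378477498237710200976633814427669290184782309752832) (nat_lit 285935063914705924103129004051468003614435201088770088665272823815395996738875892222641969213310041627708882944) (Env.cons (nat_lit 10) (nat_lit 489944170695094278787113713123221803255046973597314176443122897115319472608194457212442606447047475200) (nat_lit 288357658104404582615441402265755166158684265012337395077647694240988518852612144920752366029470759585620670142317040835349654274048) (Env.cons (nat_lit 7) (nat_lit 489944162351394919721058703767668263530234025930499635987448014509688192052648653381815457919851823104) (nat_lit 3966335930947519430282464654875762170653160743672418959777604685122470479338544425389358750433465192762227785483949355040768)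 Env.nil))))))))
    (n (nat_lit 337) (b (b (b (n (nat_lit 362) (b (n (nat_lit 288) (b (n (nat_lit 289) (b (b (n (nat_lit 290) (b (n (nat_lit 291) (b (n (nat_lit 316) (b (l (nat_lit 0) (nat_lit 288) (nat_lit 317)) (l (nat_lit 0) (nat_lit 287) (nat_lit 315)))) (n (nat_lit 266) (b (l (nat_lit 1) (nat_lit 263) (nat_lit 267)) (l (nat_lit 1) (nat_lit 262) (nat_lit 265)))))) (l (nat_lit 2) (nat_lit 286) (nat_lit 311)))) (n (nat_lit 286) (b (n (nat_lit 290) (b (n (nat_lit 265) (b (l (nat_lit 1) (nat_lit 261) (nat_lit 264)) (l (nat_lit 1) (nat_lit 262) (nat_lit 266)))) (n (nat_lit 315) (b (l (nat_lit 0) (nat_lit 287) (nat_lit 316)) (l (nat_lit 0) (nat_lit 286) (nat_lit 314)))))) (l (nat_lit 7) (nat_lit 261) (nat_lit 261))))) (n (nat_lit 286) (b (r (nat_lit 0)) (l (nat_lit 7) (nat_lit 261) (nat_lit 261)))))) (l (nat_lit 5) (nat_lit 262) (nat_lit 263)))) (n (nat_lit 387) (b (n (nat_lit 388) (b (l (nat_lit 4) (nat_lit 312) (nat_lit 413)) (l (nat_lit 4) (nat_lit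 287) (nat_lit 363)))) (n (nat_lit 386) (b (l (nat_lit 6) (nat_lit 311) (nat_lit 411)) (l (nat_lit 6) (nat_lit 286) (nat_lit 361)))))))) (n (nat_lit 286) (b (b (n (nat_lit 311) (b (b (n (nat_lit 288) (b (n (nat_lit 310) (b (l (nat_lit 1) (nat_lit 284) (nat_lit 309)) (l (nat_lit 2) (nat_lit 285) (nat_lit 289)))) (n (nat_lit 362) (b (l (nat_lit 5) (nat_lit 262) (nat_lit 263)) (l (nat_lit 7) (nat_lit 286) (nat_lit 387)))))) (n (nat_lit 362) (b (n (nat_lit 262) (b (n (nat_lit 237) (b (l (nat_lit 6) (nat_lit 236) (nat_lit 336)) (l (nat_lit 6) (nat_lit 211) (nat_lit 212)))) (n (nat_lit 363) (b (l (nat_lit 4) (nat_lit 262) (nat_lit 338)) (l (nat_lit 4) (nat_lit 287) (nat_lit 388)))))) (l (nat_lit 7) (nat_lit 286) (nat_lit 387))))) (n (nat_lit 288) (b (b (n (nat_lit 285) (b (n (nat_lit 284) (b (n (nat_lit 259) (b (l (nat_lit 3) (nat_lit 258) (nat_lit 258)) (l (nat_lit 3) (nat_lit 259) (nat_lit 260)))) (l (nat_lit 0) (nat_lit 283) (nat_lit 283)))) (n (nat_lit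 289) (b (n (nat_lit 264) (b (l (nat_lit 1) (nat_lit 261) (nat_lit 265)) (l (nat_lit 1) (nat_lit 260) (nat_lit 263)))) (l (nat_lit 2) (nat_lit 286) (nat_lit 290)))))) (n (nat_lit 310) (b (l (nat_lit 1) (nat_lit 284) (nat_lit 309)) (l (nat_lit 2) (nat_lit 285) (nat_lit 289))))) (n (nat_lit 285) (b (n (nat_lit 260) (b (n (nat_lit 235) (b (n (nat_lit 310) (b (l (nat_lit 4) (nat_lit 235) (nat_lit 336)) (l (nat_lit 2) (nat_lit 284) (nat_lit 309)))) (l (nat_lit 4) (nat_lit 210) (nat_lit 210)))) (l (nat_lit 3) (nat_lit 259) (nat_lit 259)))) (n (nat_lit 284) (b (n (nat_lit 263) (b (l (nat_lit 1) (nat_lit 259) (nat_lit 262)) (l (nat_lit 1) (nat_lit 260) (nat_lit 264)))) (l (nat_lit 0) (nat_lit 283) (nat_lit 283)))))))))) (n (nat_lit 261) (b (n (nat_lit 236) (b (l (nat_lit 4) (nat_lit 211) (nat_lit 211)) (l (nat_lit 7) (nat_lit 236) (nat_lit 262)))) (l (nat_lit 7) (nat_lit 261) (nat_lit 362))))) (b (n (nat_lit 362) (b (n (nat_lit 387) (b (n (nat_lit 388) (b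 (l (nat_lit 4) (nat_lit 312) (nat_lit 413)) (l (nat_lit 4) (nat_lit 287) (nat_lit 363)))) (l (nat_lit 7) (nat_lit 286) (nat_lit 311)))) (l (nat_lit 7) (nat_lit 261) (nat_lit 261)))) (n (nat_lit 288) (b (b (n (nat_lit 289) (b (n (nat_lit 290) (b (n (nat_lit 265) (b (l (nat_lit 1) (nat_lit 261) (nat_lit 264)) (l (nat_lit 1) (nat_lit 262) (nat_lit 266)))) (n (nat_lit 315) (b (l (nat_lit 0) (nat_lit 287) (nat_lit 316)) (l (nat_lit 0) (nat_lit 286) (nat_lit 314)))))) (n (nat_lit 261) (b (n (nat_lit 236) (b (l (nat_lit 4) (nat_lit 211) (nat_lit 211)) (l (nat_lit 7) (nat_lit 236) (nat_lit 262)))) (l (nat_lit 3) (nat_lit 260) (nat_lit 260)))))) (n (nat_lit 261) (b (n (nat_lit 236) (b (l (nat_lit 4) (nat_lit 236) (nat_lit 311)) (l (nat_lit 4) (nat_lit 211) (nat_lit 211)))) (n (nat_lit 260) (b (n (nat_lit 259) (b (l (nat_lit 3) (nat_lit 259) (nat_lit 285)) (l (nat_lit 0) (nat_lit 258) (nat_lit 258)))) (l (nat_lit 3) (nat_lit 260) (nat_lit 289))))))) (b (n (nat_lit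 289) (b (b (n (nat_lit 290) (b (n (nat_lit 265) (b (l (nat_lit 1) (nat_lit 261) (nat_lit 264)) (l (nat_lit 1) (nat_lit 262) (nat_lit 266)))) (n (nat_lit 315) (b (l (nat_lit 0) (nat_lit 287) (nat_lit 316)) (l (nat_lit 0) (nat_lit 286) (nat_lit 314)))))) (n (nat_lit 285) (b (n (nat_lit 264) (b (l (nat_lit 1) (nat_lit 261) (nat_lit 265)) (l (nat_lit 1) (nat_lit 260) (nat_lit 263)))) (n (nat_lit 310) (b (l (nat_lit 2) (nat_lit 284) (nat_lit 309)) (l (nat_lit 2) (nat_lit 285) (nat_lit 311))))))) (n (nat_lit 311) (b (l (nat_lit 2) (nat_lit 285) (nat_lit 310)) (l (nat_lit 2) (nat_lit 286) (nat_lit 290)))))) (n (nat_lit 285) (b (b (n (nat_lit 310) (b (n (nat_lit 260) (b (n (nat_lit 235) (b (b (n (nat_lit 210) (b (n (nat_lit 209) (b (l (nat_lit 7) (nat_lit 184) (nat_lit 184)) (l (nat_lit 7) (nat_lit 209) (nat_lit 234)))) (l (nat_lit 4) (nat_lit 210) (nat_lit 311)))) (n (nat_lit 236) (b (n (nat_lit 261) (b (l (nat_lit 5) (nat_lit 235) (nat_lit 335)) (l (nat_lit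 4) (nat_lit 236) (nat_lit 311)))) (l (nat_lit 5) (nat_lit 210) (nat_lit 211))))) (n (nat_lit 210) (b (n (nat_lit 211) (b (l (nat_lit 5) (nat_lit 210) (nat_lit 236)) (l (nat_lit 5) (nat_lit 185) (nat_lit 186)))) (n (nat_lit 209) (b (l (nat_lit 7) (nat_lit 184) (nat_lit 184)) (l (nat_lit 7) (nat_lit 209) (nat_lit 234)))))))) (l (nat_lit 3) (nat_lit 259) (nat_lit 259)))) (l (nat_lit 2) (nat_lit 284) (nat_lit 309)))) (n (nat_lit 284) (b (b (n (nat_lit 259) (b (l (nat_lit 3) (nat_lit 258) (nat_lit 258)) (l (nat_lit 3) (nat_lit 259) (nat_lit 260)))) (n (nat_lit 283) (b (n (nat_lit 282) (b (n (nat_lit 307) (b (l (nat_lit 2) (nat_lit 281) (nat_lit 306)) (l (nat_lit 2) (nat_lit 282) (nat_lit 308)))) (n (nat_lit 257) (b (l (nat_lit 3) (nat_lit 256) (nat_lit 256)) (l (nat_lit 3) (nat_lit 257) (nat_lit 258)))))) (l (nat_lit 0) (nat_lit 283) (nat_lit 311))))) (n (nat_lit 283) (b (n (nat_lit 282) (b (n (nat_lit 260) (b (l (nat_lit 3) (nat_lit 259) (nat_lit 259))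 (l (nat_lit 1) (nat_lit 257) (nat_lit 261)))) (n (nat_lit 307) (b (l (nat_lit 2) (nat_lit 281) (nat_lit 306)) (l (nat_lit 2) (nat_lit 282) (nat_lit 308)))))) (l (nat_lit 0) (nat_lit 283) (nat_lit 311))))))) (n (nat_lit 284) (b (n (nat_lit 263) (b (l (nat_lit 1) (nat_lit 259) (nat_lit 262)) (l (nat_lit 1) (nat_lit 260) (nat_lit 264)))) (n (nat_lit 309) (b (l (nat_lit 2) (nat_lit 283) (nat_lit 308)) (l (nat_lit 2) (nat_lit 284) (nat_lit 310))))))))))))))) (b (r (nat_lit 1)) (n (nat_lit 362) (b (b (n (nat_lit 361) (b (r (nat_lit 2)) (l (nat_lit 6) (nat_lit 286) (nat_lit 386)))) (n (nat_lit 262) (b (n (nat_lit 261) (b (l (nat_lit 7) (nat_lit 261) (nat_lit 286)) (l (nat_lit 7) (nat_lit 236) (nat_lit 236)))) (n (nat_lit 361) (b (l (nat_lit 6) (nat_lit 286) (nat_lit 386)) (l (nat_lit 6) (nat_lit 261) (nat_lit 336))))))) (n (nat_lit 262) (b (n (nat_lit 261) (b (l (nat_lit 7) (nat_lit 261) (nat_lit 286)) (l (nat_lit 7) (nat_lit 236) (nat_lit 236)))) (n (nat_lit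 363) (b (l (nat_lit 4) (nat_lit 262) (nat_lit 338)) (l (nat_lit 4) (nat_lit 287) (nat_lit 388)))))))))) (b (n (nat_lit 362) (b (b (n (nat_lit 286) (b (n (nat_lit 288) (b (n (nat_lit 311) (b (n (nat_lit 310) (b (l (nat_lit 1) (nat_lit 284) (nat_lit 309)) (l (nat_lit 2) (nat_lit 285) (nat_lit 289)))) (l (nat_lit 7) (nat_lit 286) (nat_lit 387)))) (l (nat_lit 5) (nat_lit 262) (nat_lit 263)))) (l (nat_lit 7) (nat_lit 261) (nat_lit 261)))) (r (nat_lit 3))) (n (nat_lit 262) (b (n (nat_lit 261) (b (l (nat_lit 7) (nat_lit 261) (nat_lit 286)) (l (nat_lit 7) (nat_lit 236) (nat_lit 236)))) (n (nat_lit 361) (b (l (nat_lit 6) (nat_lit 286) (nat_lit 386)) (l (nat_lit 6) (nat_lit 261) (nat_lit 336)))))))) (n (nat_lit 336) (b (b (r (nat_lit 4)) (r (nat_lit 5))) (b (n (nat_lit 262) (b (n (nat_lit 237) (b (n (nat_lit 236) (b (l (nat_lit 7) (nat_lit 211) (nat_lit 211)) (l (nat_lit 7) (nat_lit 236) (nat_lit 261)))) (l (nat_lit 6) (nat_lit 236) (nat_lit 311)))) (l (nat_lit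 6) (nat_lit 261) (nat_lit 361)))) (n (nat_lit 335) (b (b (b (r (nat_lit 6)) (r (nat_lit 7))) (b (n (nat_lit 262) (b (n (nat_lit 338) (b (n (nat_lit 309) (b (n (nat_lit 334) (b (n (nat_lit 284) (b (b (n (nat_lit 358) (b (n (nat_lit 333) (b (l (nat_lit 6) (nat_lit 258) (nat_lit 259)) (l (nat_lit 2) (nat_lit 332) (nat_lit 357)))) (l (nat_lit 2) (nat_lit 333) (nat_lit 359)))) (n (nat_lit 261) (b (n (nat_lit 285) (b (n (nat_lit 359) (b (l (nat_lit 5) (nat_lit 259) (nat_lit 260)) (l (nat_lit 2) (nat_lit 333) (nat_lit 358)))) (n (nat_lit 286) (b (l (nat_lit 1) (nat_lit 258) (nat_lit 283)) (l (nat_lit 1) (nat_lit 259) (nat_lit 263)))))) (l (nat_lit 7) (nat_lit 236) (nat_lit 236))))) (n (nat_lit 261) (b (n (nat_lit 260) (b (n (nat_lit 285) (b (n (nat_lit 283) (b (l (nat_lit 1) (nat_lit 258) (nat_lit 286)) (l (nat_lit 1) (nat_lit 257) (nat_lit 282)))) (l (nat_lit 2) (nat_lit 259) (nat_lit 263)))) (n (nat_lit 259) (b (l (nat_lit 0) (nat_lit 259) (nat_lit 288))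 (l (nat_lit 5) (nat_lit 234) (nat_lit 235)))))) (l (nat_lit 7) (nat_lit 236) (nat_lit 236)))))) (l (nat_lit 3) (nat_lit 308) (nat_lit 308)))) (l (nat_lit 3) (nat_lit 309) (nat_lit 310)))) (l (nat_lit 4) (nat_lit 262) (nat_lit 363)))) (l (nat_lit 6) (nat_lit 261) (nat_lit 361)))) (n (nat_lit 361) (b (n (nat_lit 310) (b (n (nat_lit 386) (b (n (nat_lit 285) (b (l (nat_lit 4) (nat_lit 285) (nat_lit 360)) (l (nat_lit 4) (nat_lit 260) (nat_lit 260)))) (l (nat_lit 7) (nat_lit 310) (nat_lit 411)))) (n (nat_lit 309) (b (n (nat_lit 308) (b (l (nat_lit 0) (nat_lit 307) (nat_lit 307)) (l (nat_lit 3) (nat_lit 308) (nat_lit 334)))) (l (nat_lit 3) (nat_lit 309) (nat_lit 338)))))) (l (nat_lit 6) (nat_lit 261) (nat_lit 262)))))) (b (n (nat_lit 338) (b (n (nat_lit 334) (b (n (nat_lit 359) (b (l (nat_lit 2) (nat_lit 333) (nat_lit 358)) (l (nat_lit 2) (nat_lit 334) (nat_lit 360)))) (n (nat_lit 309) (b (l (nat_lit 3) (nat_lit 308) (nat_lit 308)) (l (nat_lit 3) (nat_lit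 309) (nat_lit 310)))))) (n (nat_lit 363) (b (l (nat_lit 4) (nat_lit 262) (nat_lit 262)) (l (nat_lit 0) (nat_lit 335) (nat_lit 364)))))) (n (nat_lit 338) (b (b (n (nat_lit 339) (b (n (nat_lit 360) (b (l (nat_lit 2) (nat_lit 334) (nat_lit 359)) (l (nat_lit 2) (nat_lit 335) (nat_lit 361)))) (n (nat_lit 364) (b (l (nat_lit 0) (nat_lit 336) (nat_lit 365)) (l (nat_lit 0) (nat_lit 335) (nat_lit 363)))))) (n (nat_lit 361) (b (n (nat_lit 360) (b (l (nat_lit 2) (nat_lit 334) (nat_lit 359)) (l (nat_lit 2) (nat_lit 335) (nat_lit 339)))) (l (nat_lit 6) (nat_lit 261) (nat_lit 262))))) (n (nat_lit 363) (b (l (nat_lit 4) (nat_lit 262) (nat_lit 262)) (l (nat_lit 0) (nat_lit 335) (nat_lit 364)))))))))))))))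
    (envOK_cons p6906 (envOK_cons p7597 (envOK_cons p7417 (envOK_cons p7667 (envOK_cons p7751 (envOK_cons p7763 (envOK_cons p7825 (envOK_cons p7721 envOK_nil)))))))) (by decide +kernel)

theorem p7947 : Fam (nat_lit 5) (nat_lit 932481075679043665229578222383832115744381385354305988801866055199959433404940376080384) (nat_lit 233623589948856385141022248187887899703663198757144755005430862085675122779143295138467523067904) (nat_lit 233623589948856385141022248187887899703663198757144755005430862085675122779143295138467523067904) :=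
  chk_sound Env.nil
    (n (nat_lit 289) (b (b (n (nat_lit 290) (b (n (nat_lit 263) (b (l (nat_lit 1) (nat_lit 260) (nat_lit 264)) (l (nat_lit 3) (nat_lit 262) (nat_lit 291)))) (n (nat_lit 315) (b (l (nat_lit 0) (nat_lit 287) (nat_lit 316)) (l (nat_lit 0) (nat_lit 286) (nat_lit 314)))))) (n (nat_lit 290) (b (n (nat_lit 291) (b (n (nat_lit 266) (b (l (nat_lit 1) (nat_lit 263) (nat_lit 267)) (l (nat_lit 1) (nat_lit 262) (nat_lit 265)))) (l (nat_lit 3) (nat_lit 262) (nat_lit 263)))) (n (nat_lit 315) (b (l (nat_lit 0) (nat_lit 287) (nat_lit 316)) (l (nat_lit 0) (nat_lit 286) (nat_lit 314))))))) (b (n (nat_lit 264) (b (l (nat_lit 1) (nat_lit 261) (nat_lit 265)) (l (nat_lit 1) (nat_lit 260) (nat_lit 263)))) (n (nat_lit 290) (b (n (nat_lit 265) (b (l (nat_lit 1) (nat_lit 261) (nat_lit 264)) (l (nat_lit 1) (nat_lit 262) (nat_lit 266)))) (n (nat_lit 315) (b (l (nat_lit 0) (nat_lit 287) (nat_lit 316)) (l (nat_lit 0) (nat_lit 286) (nat_lit 314)))))))))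
    envOK_nil (by decide +kernel)

theorem p8070 : Fam (nat_lit 16) (nat_lit 8343699607727680624942585805652444129620275146709852890558508601783632775695752161234180374528) (nat_lit 630432130260501851540323865911278864654541842091759697844693425030595312379532180101495381492217799252673357219364864) (nat_lit 630432130260501851540323865911278864654541842091759697844693425030595312379532180101495381492217799252673357219364864) :=
  chk_sound (Env.cons (nat_lit 5) (nat_lit 8343699607727680624942806661535541427661473058897445755372987037270742228065517362009341952000) (nat_lit 630432127324823500586754208502646104358393771475367774010964068805705098339062673890608228020047550053907643337015296) (Env.cons (nat_lit 5) (nat_lit 8343699607727680624942806661535541427661473058897445755372987037270742228065517362009341952000) (nat_lit 8343700105050931856117312905180035452139845003140098549089825507826806137438923319112472985600) (Env.cons (nat_lit 5) (nat_lit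 932481075679043665229578222383832115744381385354305988801866055199959433404940376080384) (nat_lit 233623589948856385141022248187887899703663198757144755005430862085675122779143295138467523067904) Env.nil)))
    (n (nat_lit 237) (b (b (b (n (nat_lit 238) (b (n (nat_lit 263) (b (n (nat_lit 239) (b (b (n (nat_lit 265) (b (n (nat_lit 240) (b (l (nat_lit 0) (nat_lit 237) (nat_lit 266)) (l (nat_lit 2) (nat_lit 237) (nat_lit 241)))) (n (nat_lit 212) (b (n (nat_lit 187) (b (l (nat_lit 4) (nat_lit 162) (nat_lit 162)) (l (nat_lit 4) (nat_lit 187) (nat_lit 288)))) (n (nat_lit 286) (b (l (nat_lit 6) (nat_lit 211) (nat_lit 311)) (l (nat_lit 2) (nat_lit 261) (nat_lit 264)))))))) (n (nat_lit 236) (b (n (nat_lit 240) (b (n (nat_lit 215) (b (l (nat_lit 1) (nat_lit 211) (nat_lit 214)) (l (nat_lit 1) (nat_lit 212) (nat_lit 216)))) (l (nat_lit 2) (nat_lit 237) (nat_lit 241)))) (n (nat_lit 235) (b (l (nat_lit 0) (nat_lit 235) (nat_lit 264)) (l (nat_lit 0) (nat_lit 234)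 (nat_lit 234))))))) (b (n (nat_lit 264) (b (n (nat_lit 214) (b (n (nat_lit 189) (b (l (nat_lit 6) (nat_lit 188) (nat_lit 288)) (l (nat_lit 6) (nat_lit 163) (nat_lit 164)))) (n (nat_lit 236) (b (l (nat_lit 1) (nat_lit 211) (nat_lit 215)) (l (nat_lit 0) (nat_lit 235) (nat_lit 235)))))) (n (nat_lit 265) (b (l (nat_lit 3) (nat_lit 237) (nat_lit 266)) (l (nat_lit 2) (nat_lit 261) (nat_lit 286)))))) (n (nat_lit 240) (b (n (nat_lit 215) (b (n (nat_lit 265) (b (n (nat_lit 214) (b (n (nat_lit 290) (b (l (nat_lit 7) (nat_lit 214) (nat_lit 315)) (l (nat_lit 7) (nat_lit 189) (nat_lit 189)))) (l (nat_lit 1) (nat_lit 211) (nat_lit 236)))) (l (nat_lit 0) (nat_lit 237) (nat_lit 266)))) (l (nat_lit 1) (nat_lit 212) (nat_lit 216)))) (l (nat_lit 2) (nat_lit 237) (nat_lit 241))))))) (l (nat_lit 5) (nat_lit 237) (nat_lit 337)))) (l (nat_lit 5) (nat_lit 212) (nat_lit 213)))) (r (nat_lit 0))) (b (n (nat_lit 238) (b (n (nat_lit 263) (b (n (nat_lit 236) (b (n (nat_lit 264)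 (b (l (nat_lit 3) (nat_lit 236) (nat_lit 265)) (l (nat_lit 0) (nat_lit 235) (nat_lit 235)))) (l (nat_lit 7) (nat_lit 211) (nat_lit 211)))) (l (nat_lit 5) (nat_lit 237) (nat_lit 337)))) (l (nat_lit 5) (nat_lit 212) (nat_lit 213)))) (r (nat_lit 1)))) (b (n (nat_lit 212) (b (n (nat_lit 213) (b (l (nat_lit 5) (nat_lit 187) (nat_lit 188)) (l (nat_lit 5) (nat_lit 212) (nat_lit 238)))) (n (nat_lit 211) (b (l (nat_lit 7) (nat_lit 211) (nat_lit 236)) (l (nat_lit 7) (nat_lit 186) (nat_lit 186)))))) (n (nat_lit 286) (b (b (n (nat_lit 285) (b (b (n (nat_lit 284) (b (n (nat_lit 283) (b (n (nat_lit 308) (b (l (nat_lit 2) (nat_lit 283) (nat_lit 309)) (l (nat_lit 2) (nat_lit 282) (nat_lit 307)))) (l (nat_lit 0) (nat_lit 283) (nat_lit 311)))) (l (nat_lit 1) (nat_lit 259) (nat_lit 263)))) (n (nat_lit 284) (b (b (n (nat_lit 288) (b (n (nat_lit 259) (b (l (nat_lit 3) (nat_lit 258) (nat_lit 258)) (l (nat_lit 3) (nat_lit 259) (nat_lit 260)))) (n (nat_lit 309) (b (l (nat_lit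 2) (nat_lit 283) (nat_lit 308)) (l (nat_lit 2) (nat_lit 284) (nat_lit 310)))))) (n (nat_lit 283) (b (n (nat_lit 308) (b (l (nat_lit 2) (nat_lit 283) (nat_lit 309)) (l (nat_lit 2) (nat_lit 282) (nat_lit 307)))) (l (nat_lit 0) (nat_lit 283) (nat_lit 311))))) (n (nat_lit 283) (b (n (nat_lit 258) (b (l (nat_lit 3) (nat_lit 257) (nat_lit 257)) (l (nat_lit 3) (nat_lit 258) (nat_lit 259)))) (l (nat_lit 0) (nat_lit 283) (nat_lit 311))))))) (b (n (nat_lit 263) (b (n (nat_lit 264) (b (l (nat_lit 1) (nat_lit 260) (nat_lit 288)) (l (nat_lit 2) (nat_lit 261) (nat_lit 265)))) (l (nat_lit 1) (nat_lit 259) (nat_lit 284)))) (n (nat_lit 288) (b (b (r (nat_lit 2)) (n (nat_lit 311) (b (n (nat_lit 310) (b (l (nat_lit 1) (nat_lit 284) (nat_lit 309)) (l (nat_lit 2) (nat_lit 285) (nat_lit 289)))) (l (nat_lit 6) (nat_lit 211) (nat_lit 212))))) (n (nat_lit 212) (b (n (nat_lit 263) (b (l (nat_lit 4) (nat_lit 187) (nat_lit 187)) (l (nat_lit 1) (nat_lit 260) (nat_lit 264))))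 (l (nat_lit 6) (nat_lit 211) (nat_lit 311))))))))) (n (nat_lit 285) (b (b (n (nat_lit 284) (b (n (nat_lit 283) (b (n (nat_lit 308) (b (l (nat_lit 2) (nat_lit 283) (nat_lit 309)) (l (nat_lit 2) (nat_lit 282) (nat_lit 307)))) (l (nat_lit 0) (nat_lit 283) (nat_lit 311)))) (l (nat_lit 1) (nat_lit 259) (nat_lit 263)))) (n (nat_lit 284) (b (b (n (nat_lit 288) (b (n (nat_lit 259) (b (l (nat_lit 3) (nat_lit 258) (nat_lit 258)) (l (nat_lit 3) (nat_lit 259) (nat_lit 260)))) (n (nat_lit 309) (b (l (nat_lit 2) (nat_lit 283) (nat_lit 308)) (l (nat_lit 2) (nat_lit 284) (nat_lit 310)))))) (n (nat_lit 283) (b (n (nat_lit 308) (b (l (nat_lit 2) (nat_lit 283) (nat_lit 309)) (l (nat_lit 2) (nat_lit 282) (nat_lit 307)))) (l (nat_lit 0) (nat_lit 283) (nat_lit 311))))) (n (nat_lit 283) (b (n (nat_lit 258) (b (l (nat_lit 3) (nat_lit 257) (nat_lit 257)) (l (nat_lit 3) (nat_lit 258) (nat_lit 259)))) (l (nat_lit 0) (nat_lit 283) (nat_lit 311))))))) (b (n (nat_lit 263) (b (n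 (nat_lit 264) (b (l (nat_lit 1) (nat_lit 260) (nat_lit 288)) (l (nat_lit 2) (nat_lit 261) (nat_lit 265)))) (l (nat_lit 1) (nat_lit 259) (nat_lit 284)))) (n (nat_lit 288) (b (b (n (nat_lit 289) (b (n (nat_lit 290) (b (n (nat_lit 265) (b (l (nat_lit 1) (nat_lit 261) (nat_lit 264)) (l (nat_lit 1) (nat_lit 262) (nat_lit 266)))) (n (nat_lit 315) (b (l (nat_lit 0) (nat_lit 287) (nat_lit 316)) (l (nat_lit 0) (nat_lit 286) (nat_lit 314)))))) (n (nat_lit 310) (b (l (nat_lit 2) (nat_lit 284) (nat_lit 309)) (l (nat_lit 2) (nat_lit 285) (nat_lit 311)))))) (n (nat_lit 310) (b (n (nat_lit 260) (b (n (nat_lit 235) (b (b (n (nat_lit 210) (b (n (nat_lit 209) (b (l (nat_lit 7) (nat_lit 184) (nat_lit 184)) (l (nat_lit 7) (nat_lit 209) (nat_lit 234)))) (l (nat_lit 4) (nat_lit 210) (nat_lit 311)))) (n (nat_lit 236) (b (n (nat_lit 263) (b (l (nat_lit 1) (nat_lit 260) (nat_lit 264)) (l (nat_lit 0) (nat_lit 234) (nat_lit 234)))) (l (nat_lit 7) (nat_lit 211) (nat_lit 211)))))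 (n (nat_lit 211) (b (n (nat_lit 210) (b (l (nat_lit 5) (nat_lit 185) (nat_lit 186)) (l (nat_lit 4) (nat_lit 210) (nat_lit 311)))) (l (nat_lit 7) (nat_lit 211) (nat_lit 236)))))) (l (nat_lit 3) (nat_lit 259) (nat_lit 259)))) (l (nat_lit 2) (nat_lit 284) (nat_lit 309))))) (b (n (nat_lit 310) (b (n (nat_lit 289) (b (n (nat_lit 290) (b (n (nat_lit 291) (b (n (nat_lit 266) (b (l (nat_lit 1) (nat_lit 263) (nat_lit 267)) (l (nat_lit 1) (nat_lit 262) (nat_lit 265)))) (l (nat_lit 3) (nat_lit 262) (nat_lit 263)))) (n (nat_lit 315) (b (l (nat_lit 0) (nat_lit 287) (nat_lit 316)) (l (nat_lit 0) (nat_lit 286) (nat_lit 314)))))) (l (nat_lit 2) (nat_lit 285) (nat_lit 311)))) (l (nat_lit 2) (nat_lit 284) (nat_lit 309)))) (r (nat_lit 2))))))))) (b (n (nat_lit 212) (b (n (nat_lit 187) (b (n (nat_lit 186) (b (l (nat_lit 7) (nat_lit 186) (nat_lit 211)) (l (nat_lit 7) (nat_lit 161) (nat_lit 161)))) (n (nat_lit 188) (b (l (nat_lit 5) (nat_lit 187) (nat_lit 213)) (l (nat_lit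 5) (nat_lit 162) (nat_lit 163)))))) (l (nat_lit 6) (nat_lit 211) (nat_lit 311)))) (n (nat_lit 263) (b (b (n (nat_lit 212) (b (n (nat_lit 187) (b (n (nat_lit 188) (b (l (nat_lit 5) (nat_lit 187) (nat_lit 213)) (l (nat_lit 5) (nat_lit 162) (nat_lit 163)))) (l (nat_lit 4) (nat_lit 187) (nat_lit 288)))) (n (nat_lit 211) (b (l (nat_lit 7) (nat_lit 211) (nat_lit 236)) (l (nat_lit 7) (nat_lit 186) (nat_lit 186)))))) (n (nat_lit 285) (b (n (nat_lit 264) (b (l (nat_lit 1) (nat_lit 260) (nat_lit 288)) (l (nat_lit 2) (nat_lit 261) (nat_lit 265)))) (l (nat_lit 1) (nat_lit 259) (nat_lit 284))))) (n (nat_lit 234) (b (b (n (nat_lit 236) (b (l (nat_lit 7) (nat_lit 211) (nat_lit 211)) (l (nat_lit 0) (nat_lit 234) (nat_lit 235)))) (n (nat_lit 211) (b (n (nat_lit 212) (b (n (nat_lit 209) (b (n (nat_lit 188) (b (n (nat_lit 187) (b (l (nat_lit 1) (nat_lit 184) (nat_lit 210)) (l (nat_lit 5) (nat_lit 162) (nat_lit 163)))) (l (nat_lit 5) (nat_lit 187) (nat_lit 213)))) (n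 (nat_lit 284) (b (n (nat_lit 259) (b (b (n (nat_lit 184) (b (n (nat_lit 159) (b (n (nat_lit 158) (b (l (nat_lit 7) (nat_lit 158) (nat_lit 183)) (l (nat_lit 7) (nat_lit 133) (nat_lit 133)))) (n (nat_lit 160) (b (l (nat_lit 5) (nat_lit 134) (nat_lit 135)) (l (nat_lit 5) (nat_lit 159) (nat_lit 185)))))) (n (nat_lit 283) (b (l (nat_lit 6) (nat_lit 183) (nat_lit 258)) (l (nat_lit 6) (nat_lit 208) (nat_lit 308)))))) (n (nat_lit 184) (b (n (nat_lit 159) (b (n (nat_lit 258) (b (l (nat_lit 6) (nat_lit 183) (nat_lit 283)) (l (nat_lit 6) (nat_lit 158) (nat_lit 233)))) (n (nat_lit 160) (b (l (nat_lit 5) (nat_lit 134) (nat_lit 135)) (l (nat_lit 5) (nat_lit 159) (nat_lit 185)))))) (n (nat_lit 183) (b (l (nat_lit 7) (nat_lit 158) (nat_lit 158)) (l (nat_lit 7) (nat_lit 183) (nat_lit 208))))))) (b (n (nat_lit 309) (b (n (nat_lit 334) (b (n (nat_lit 233) (b (l (nat_lit 7) (nat_lit 233) (nat_lit 258)) (l (nat_lit 7) (nat_lit 208) (nat_lit 208)))) (n (nat_lit 335) (b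 (l (nat_lit 4) (nat_lit 259) (nat_lit 360)) (l (nat_lit 4) (nat_lit 234) (nat_lit 310)))))) (n (nat_lit 308) (b (l (nat_lit 6) (nat_lit 233) (nat_lit 333)) (l (nat_lit 6) (nat_lit 208) (nat_lit 283)))))) (n (nat_lit 309) (b (n (nat_lit 334) (b (n (nat_lit 333) (b (l (nat_lit 6) (nat_lit 233) (nat_lit 308)) (l (nat_lit 6) (nat_lit 258) (nat_lit 358)))) (n (nat_lit 335) (b (l (nat_lit 4) (nat_lit 259) (nat_lit 360)) (l (nat_lit 4) (nat_lit 234) (nat_lit 310)))))) (n (nat_lit 208) (b (l (nat_lit 7) (nat_lit 183) (nat_lit 183)) (l (nat_lit 7) (nat_lit 208) (nat_lit 233))))))))) (l (nat_lit 1) (nat_lit 259) (nat_lit 285)))))) (l (nat_lit 7) (nat_lit 186) (nat_lit 186)))) (l (nat_lit 7) (nat_lit 211) (nat_lit 236))))) (b (n (nat_lit 284) (b (n (nat_lit 235) (b (n (nat_lit 259) (b (b (n (nat_lit 210) (b (n (nat_lit 185) (b (l (nat_lit 6) (nat_lit 159) (nat_lit 160)) (l (nat_lit 6) (nat_lit 184) (nat_lit 260)))) (l (nat_lit 5) (nat_lit 209) (nat_lit 309))))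 (n (nat_lit 309) (b (b (n (nat_lit 209) (b (n (nat_lit 308) (b (l (nat_lit 6) (nat_lit 233) (nat_lit 333)) (l (nat_lit 6) (nat_lit 208) (nat_lit 283)))) (n (nat_lit 208) (b (l (nat_lit 7) (nat_lit 183) (nat_lit 183)) (l (nat_lit 7) (nat_lit 208) (nat_lit 233)))))) (n (nat_lit 334) (b (n (nat_lit 333) (b (l (nat_lit 6) (nat_lit 233) (nat_lit 308)) (l (nat_lit 6) (nat_lit 258) (nat_lit 358)))) (l (nat_lit 5) (nat_lit 234) (nat_lit 260))))) (n (nat_lit 334) (b (n (nat_lit 233) (b (l (nat_lit 7) (nat_lit 233) (nat_lit 258)) (l (nat_lit 7) (nat_lit 208) (nat_lit 208)))) (l (nat_lit 5) (nat_lit 234) (nat_lit 260))))))) (n (nat_lit 209) (b (b (n (nat_lit 184) (b (n (nat_lit 185) (b (l (nat_lit 5) (nat_lit 184) (nat_lit 210)) (l (nat_lit 5) (nat_lit 159) (nat_lit 160)))) (n (nat_lit 283) (b (l (nat_lit 6) (nat_lit 183) (nat_lit 258)) (l (nat_lit 6) (nat_lit 208) (nat_lit 308)))))) (n (nat_lit 184) (b (n (nat_lit 283) (b (l (nat_lit 6) (nat_lit 183) (nat_lit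 258)) (l (nat_lit 6) (nat_lit 208) (nat_lit 308)))) (n (nat_lit 183) (b (l (nat_lit 7) (nat_lit 158) (nat_lit 158)) (l (nat_lit 7) (nat_lit 183) (nat_lit 208))))))) (b (n (nat_lit 184) (b (n (nat_lit 185) (b (l (nat_lit 5) (nat_lit 184) (nat_lit 210)) (l (nat_lit 5) (nat_lit 159) (nat_lit 160)))) (n (nat_lit 183) (b (l (nat_lit 7) (nat_lit 158) (nat_lit 158)) (l (nat_lit 7) (nat_lit 183) (nat_lit 208)))))) (n (nat_lit 208) (b (n (nat_lit 207) (b (n (nat_lit 210) (b (n (nat_lit 232) (b (n (nat_lit 283) (b (n (nat_lit 182) (b (n (nat_lit 258) (b (l (nat_lit 4) (nat_lit 182) (nat_lit 257)) (l (nat_lit 7) (nat_lit 182) (nat_lit 233)))) (l (nat_lit 3) (nat_lit 181) (nat_lit 181)))) (l (nat_lit 6) (nat_lit 208) (nat_lit 308)))) (l (nat_lit 2) (nat_lit 206) (nat_lit 231)))) (l (nat_lit 5) (nat_lit 184) (nat_lit 185)))) (l (nat_lit 0) (nat_lit 206) (nat_lit 206)))) (l (nat_lit 7) (nat_lit 183) (nat_lit 183))))))))) (l (nat_lit 0) (nat_lit 234) (nat_lit 236))))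 (l (nat_lit 1) (nat_lit 259) (nat_lit 285)))) (n (nat_lit 284) (b (n (nat_lit 259) (b (b (b (n (nat_lit 309) (b (b (n (nat_lit 209) (b (n (nat_lit 308) (b (l (nat_lit 6) (nat_lit 233) (nat_lit 333)) (l (nat_lit 6) (nat_lit 208) (nat_lit 283)))) (n (nat_lit 210) (b (l (nat_lit 5) (nat_lit 184) (nat_lit 185)) (l (nat_lit 5) (nat_lit 209) (nat_lit 235)))))) (n (nat_lit 334) (b (n (nat_lit 333) (b (l (nat_lit 6) (nat_lit 233) (nat_lit 308)) (l (nat_lit 6) (nat_lit 258) (nat_lit 358)))) (n (nat_lit 335) (b (l (nat_lit 4) (nat_lit 259) (nat_lit 360)) (l (nat_lit 4) (nat_lit 234) (nat_lit 310))))))) (n (nat_lit 334) (b (n (nat_lit 235) (b (l (nat_lit 5) (nat_lit 209) (nat_lit 210)) (l (nat_lit 5) (nat_lit 234) (nat_lit 260)))) (n (nat_lit 335) (b (l (nat_lit 4) (nat_lit 259) (nat_lit 360)) (l (nat_lit 4) (nat_lit 234) (nat_lit 310)))))))) (n (nat_lit 309) (b (b (n (nat_lit 334) (b (n (nat_lit 235) (b (l (nat_lit 5) (nat_lit 209) (nat_lit 210)) (l (nat_lit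 5) (nat_lit 234) (nat_lit 260)))) (n (nat_lit 335) (b (l (nat_lit 4) (nat_lit 259) (nat_lit 360)) (l (nat_lit 4) (nat_lit 234) (nat_lit 310)))))) (n (nat_lit 334) (b (n (nat_lit 233) (b (l (nat_lit 7) (nat_lit 233) (nat_lit 258)) (l (nat_lit 7) (nat_lit 208) (nat_lit 208)))) (n (nat_lit 335) (b (l (nat_lit 4) (nat_lit 259) (nat_lit 360)) (l (nat_lit 4) (nat_lit 234) (nat_lit 310))))))) (n (nat_lit 209) (b (n (nat_lit 208) (b (l (nat_lit 7) (nat_lit 183) (nat_lit 183)) (l (nat_lit 7) (nat_lit 208) (nat_lit 233)))) (n (nat_lit 210) (b (l (nat_lit 5) (nat_lit 184) (nat_lit 185)) (l (nat_lit 5) (nat_lit 209) (nat_lit 235))))))))) (b (n (nat_lit 309) (b (b (n (nat_lit 334) (b (n (nat_lit 333) (b (l (nat_lit 6) (nat_lit 233) (nat_lit 308)) (l (nat_lit 6) (nat_lit 258) (nat_lit 358)))) (n (nat_lit 335) (b (l (nat_lit 4) (nat_lit 259) (nat_lit 360)) (l (nat_lit 4) (nat_lit 234) (nat_lit 310)))))) (n (nat_lit 209) (b (n (nat_lit 308) (b (l (nat_lit 6) (nat_lit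 233) (nat_lit 333)) (l (nat_lit 6) (nat_lit 208) (nat_lit 283)))) (n (nat_lit 208) (b (l (nat_lit 7) (nat_lit 183) (nat_lit 183)) (l (nat_lit 7) (nat_lit 208) (nat_lit 233))))))) (n (nat_lit 334) (b (n (nat_lit 233) (b (l (nat_lit 7) (nat_lit 233) (nat_lit 258)) (l (nat_lit 7) (nat_lit 208) (nat_lit 208)))) (n (nat_lit 335) (b (l (nat_lit 4) (nat_lit 259) (nat_lit 360)) (l (nat_lit 4) (nat_lit 234) (nat_lit 310)))))))) (n (nat_lit 309) (b (b (n (nat_lit 334) (b (n (nat_lit 235) (b (l (nat_lit 5) (nat_lit 209) (nat_lit 210)) (l (nat_lit 5) (nat_lit 234) (nat_lit 260)))) (n (nat_lit 333) (b (l (nat_lit 6) (nat_lit 233) (nat_lit 308)) (l (nat_lit 6) (nat_lit 258) (nat_lit 358)))))) (n (nat_lit 334) (b (n (nat_lit 233) (b (l (nat_lit 7) (nat_lit 233) (nat_lit 258)) (l (nat_lit 7) (nat_lit 208) (nat_lit 208)))) (n (nat_lit 335) (b (l (nat_lit 4) (nat_lit 259) (nat_lit 360)) (l (nat_lit 4) (nat_lit 234) (nat_lit 310))))))) (n (nat_lit 233) (b (n (nat_lit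 235) (b (n (nat_lit 232) (b (b (n (nat_lit 231) (b (n (nat_lit 256) (b (l (nat_lit 2) (nat_lit 231) (nat_lit 257)) (l (nat_lit 2) (nat_lit 230) (nat_lit 255)))) (l (nat_lit 0) (nat_lit 231) (nat_lit 260)))) (n (nat_lit 231) (b (n (nat_lit 206) (b (l (nat_lit 3) (nat_lit 205) (nat_lit 205)) (l (nat_lit 3) (nat_lit 206) (nat_lit 207)))) (l (nat_lit 0) (nat_lit 231) (nat_lit 260))))) (n (nat_lit 257) (b (n (nat_lit 308) (b (n (nat_lit 207) (b (n (nat_lit 283) (b (l (nat_lit 4) (nat_lit 207) (nat_lit 282)) (l (nat_lit 7) (nat_lit 207) (nat_lit 258)))) (l (nat_lit 3) (nat_lit 206) (nat_lit 206)))) (l (nat_lit 6) (nat_lit 233) (nat_lit 333)))) (l (nat_lit 2) (nat_lit 231) (nat_lit 256)))))) (l (nat_lit 5) (nat_lit 209) (nat_lit 210)))) (l (nat_lit 7) (nat_lit 208) (nat_lit 208)))))))) (n (nat_lit 209) (b (b (n (nat_lit 184) (b (n (nat_lit 283) (b (l (nat_lit 6) (nat_lit 183) (nat_lit 258)) (l (nat_lit 6) (nat_lit 208) (nat_lit 308)))) (n (nat_lit 183) (b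 (l (nat_lit 7) (nat_lit 158) (nat_lit 158)) (l (nat_lit 7) (nat_lit 183) (nat_lit 208)))))) (n (nat_lit 184) (b (n (nat_lit 185) (b (l (nat_lit 5) (nat_lit 184) (nat_lit 210)) (l (nat_lit 5) (nat_lit 159) (nat_lit 160)))) (n (nat_lit 283) (b (l (nat_lit 6) (nat_lit 183) (nat_lit 258)) (l (nat_lit 6) (nat_lit 208) (nat_lit 308))))))) (n (nat_lit 208) (b (n (nat_lit 210) (b (n (nat_lit 207) (b (n (nat_lit 206) (b (n (nat_lit 181) (b (l (nat_lit 3) (nat_lit 180) (nat_lit 180)) (l (nat_lit 3) (nat_lit 181) (nat_lit 182)))) (l (nat_lit 0) (nat_lit 206) (nat_lit 235)))) (n (nat_lit 211) (b (n (nat_lit 186) (b (l (nat_lit 1) (nat_lit 183) (nat_lit 187)) (l (nat_lit 7) (nat_lit 186) (nat_lit 212)))) (n (nat_lit 232) (b (l (nat_lit 2) (nat_lit 207) (nat_lit 233)) (l (nat_lit 2) (nat_lit 206) (nat_lit 231)))))))) (l (nat_lit 5) (nat_lit 184) (nat_lit 185)))) (l (nat_lit 7) (nat_lit 183) (nat_lit 183)))))))) (l (nat_lit 1) (nat_lit 259) (nat_lit 285)))))))))))))))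
    (envOK_cons p7539 (envOK_cons p7652 (envOK_cons p7947 envOK_nil))) (by decide +kernel)

theorem p8085 : Fam (nat_lit 8) (nat_lit 8343699607727695446330008182125458346706356258762058109116545803775829826266505174114774286336) (nat_lit 3359617221734813890268004765788685885676626998884911823396344166140143991861981931588149183030063267840) (nat_lit 3359617221734813890268004765788685885676626998884911823396344166140143991861981931588149183030063267840) :=
  chk_sound (Env.cons (nat_lit 5) (nat_lit 248661673785096154989464927387483224220423844968266498227702727386220072304568914935808) (nat_lit 489552619663265155052780530761480172973925784780647703816388869684068328166921531817984) Env.nil)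
    (n (nat_lit 264) (b (b (n (nat_lit 265) (b (n (nat_lit 266) (b (n (nat_lit 241) (b (l (nat_lit 1) (nat_lit 238) (nat_lit 242)) (l (nat_lit 1) (nat_lit 237) (nat_lit 240)))) (l (nat_lit 2) (nat_lit 262) (nat_lit 288)))) (l (nat_lit 2) (nat_lit 261) (nat_lit 286)))) (n (nat_lit 286) (b (n (nat_lit 285) (b (l (nat_lit 2) (nat_lit 260) (nat_lit 261)) (l (nat_lit 1) (nat_lit 259) (nat_lit 284)))) (l (nat_lit 2) (nat_lit 261) (nat_lit 265))))) (b (n (nat_lit 265) (b (b (n (nat_lit 261) (b (n (nat_lit 290) (b (l (nat_lit 0) (nat_lit 262) (nat_lit 291)) (l (nat_lit 0) (nat_lit 261) (nat_lit 289)))) (n (nat_lit 240) (b (l (nat_lit 1) (nat_lit 236) (nat_lit 239)) (l (nat_lit 1) (nat_lit 237) (nat_lit 241)))))) (n (nat_lit 266) (b (n (nat_lit 291) (b (l (nat_lit 0) (nat_lit 262) (nat_lit 290)) (l (nat_lit 0) (nat_lit 263) (nat_lit 292)))) (l (nat_lit 2) (nat_lit 262) (nat_lit 288))))) (n (nat_lit 266) (b (n (nat_lit 241) (b (l (nat_lit 1) (nat_lit 238) (nat_lit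 242)) (l (nat_lit 1) (nat_lit 237) (nat_lit 240)))) (l (nat_lit 2) (nat_lit 262) (nat_lit 288)))))) (n (nat_lit 261) (b (b (r (nat_lit 0)) (n (nat_lit 289) (b (n (nat_lit 260) (b (n (nat_lit 259) (b (n (nat_lit 258) (b (n (nat_lit 283) (b (l (nat_lit 2) (nat_lit 257) (nat_lit 282)) (l (nat_lit 2) (nat_lit 258) (nat_lit 284)))) (l (nat_lit 0) (nat_lit 258) (nat_lit 286)))) (n (nat_lit 234) (b (l (nat_lit 3) (nat_lit 234) (nat_lit 235)) (l (nat_lit 3) (nat_lit 233) (nat_lit 233)))))) (l (nat_lit 0) (nat_lit 260) (nat_lit 288)))) (l (nat_lit 0) (nat_lit 261) (nat_lit 290))))) (b (n (nat_lit 260) (b (n (nat_lit 259) (b (n (nat_lit 234) (b (l (nat_lit 3) (nat_lit 234) (nat_lit 235)) (l (nat_lit 3) (nat_lit 233) (nat_lit 233)))) (n (nat_lit 284) (b (l (nat_lit 2) (nat_lit 258) (nat_lit 283)) (l (nat_lit 2) (nat_lit 259) (nat_lit 285)))))) (n (nat_lit 289) (b (l (nat_lit 0) (nat_lit 261) (nat_lit 290)) (l (nat_lit 0) (nat_lit 260) (nat_lit 288)))))) (n (nat_lit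 289) (b (n (nat_lit 314) (b (b (n (nat_lit 315) (b (n (nat_lit 239) (b (l (nat_lit 1) (nat_lit 236) (nat_lit 240)) (l (nat_lit 4) (nat_lit 239) (nat_lit 340)))) (n (nat_lit 286) (b (l (nat_lit 0) (nat_lit 286) (nat_lit 288)) (l (nat_lit 2) (nat_lit 260) (nat_lit 285)))))) (n (nat_lit 238) (b (n (nat_lit 239) (b (l (nat_lit 1) (nat_lit 236) (nat_lit 240)) (l (nat_lit 7) (nat_lit 213) (nat_lit 213)))) (l (nat_lit 7) (nat_lit 238) (nat_lit 339))))) (n (nat_lit 238) (b (n (nat_lit 213) (b (l (nat_lit 6) (nat_lit 212) (nat_lit 288)) (l (nat_lit 6) (nat_lit 187) (nat_lit 188)))) (l (nat_lit 7) (nat_lit 238) (nat_lit 339)))))) (l (nat_lit 0) (nat_lit 261) (nat_lit 290))))))))))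
    (envOK_cons p5323 envOK_nil) (by decide +kernel)

theorem p8127 : Fam (nat_lit 6) (nat_lit 65759192317667330380905456710101436766519111369432956379804147202901852703209036416983571954773523684894179328) (nat_lit 40327953942649546497087876652339266927424110571458886710762334647748547242180420685887175405134017028071823264287031296) (nat_lit 40327953942649546497087876652339266927424110571458886710762334647748547242180420685887175405134017028071823264287031296) :=
  chk_sound Env.nil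
    (n (nat_lit 361) (b (b (n (nat_lit 365) (b (n (nat_lit 390) (b (l (nat_lit 0) (nat_lit 362) (nat_lit 391)) (l (nat_lit 0) (nat_lit 361) (nat_lit 389)))) (n (nat_lit 386) (b (l (nat_lit 2) (nat_lit 361) (nat_lit 387)) (l (nat_lit 2) (nat_lit 360) (nat_lit 385)))))) (n (nat_lit 360) (b (n (nat_lit 359) (b (n (nat_lit 384) (b (l (nat_lit 2) (nat_lit 359) (nat_lit 385)) (l (nat_lit 2) (nat_lit 358) (nat_lit 383)))) (n (nat_lit 334) (b (l (nat_lit 3) (nat_lit 333) (nat_lit 333)) (l (nat_lit 3) (nat_lit 334) (nat_lit 335)))))) (n (nat_lit 389) (b (l (nat_lit 0) (nat_lit 360) (nat_lit 388)) (l (nat_lit 0) (nat_lit 361) (nat_lit 390))))))) (b (n (nat_lit 360) (b (b (n (nat_lit 385) (b (l (nat_lit 2) (nat_lit 360) (nat_lit 386)) (l (nat_lit 2) (nat_lit 359) (nat_lit 384)))) (n (nat_lit 359) (b (n (nat_lit 334) (b (l (nat_lit 3) (nat_lit 333) (nat_lit 333)) (l (nat_lit 3) (nat_lit 334) (nat_lit 335)))) (n (nat_lit 387) (b (n (nat_lit 386) (b (l (nat_lit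 2) (nat_lit 361) (nat_lit 365)) (l (nat_lit 0) (nat_lit 358) (nat_lit 358)))) (l (nat_lit 0) (nat_lit 359) (nat_lit 388))))))) (n (nat_lit 359) (b (n (nat_lit 384) (b (l (nat_lit 2) (nat_lit 359) (nat_lit 385)) (l (nat_lit 2) (nat_lit 358) (nat_lit 383)))) (n (nat_lit 334) (b (l (nat_lit 3) (nat_lit 333) (nat_lit 333)) (l (nat_lit 3) (nat_lit 334) (nat_lit 335)))))))) (n (nat_lit 365) (b (b (n (nat_lit 390) (b (l (nat_lit 0) (nat_lit 362) (nat_lit 391)) (l (nat_lit 0) (nat_lit 361) (nat_lit 389)))) (n (nat_lit 366) (b (n (nat_lit 367) (b (n (nat_lit 392) (b (l (nat_lit 0) (nat_lit 363) (nat_lit 391)) (l (nat_lit 0) (nat_lit 364) (nat_lit 393)))) (n (nat_lit 342) (b (l (nat_lit 1) (nat_lit 339) (nat_lit 343)) (l (nat_lit 1) (nat_lit 338) (nat_lit 341)))))) (n (nat_lit 387) (b (l (nat_lit 2) (nat_lit 362) (nat_lit 388)) (l (nat_lit 2) (nat_lit 361) (nat_lit 386))))))) (n (nat_lit 388) (b (n (nat_lit 387) (b (l (nat_lit 2) (nat_lit 361) (nat_lit 386))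 (l (nat_lit 2) (nat_lit 362) (nat_lit 366)))) (n (nat_lit 389) (b (l (nat_lit 0) (nat_lit 360) (nat_lit 360)) (l (nat_lit 0) (nat_lit 361) (nat_lit 390)))))))))))
    envOK_nil (by decide +kernel)

theorem p8130 : Fam (nat_lit 9) (nat_lit 41718498038638421651447206998853488419458977123614520975990089511408410191692202072271644262400) (nat_lit 40327953942649548456864634526011546151497895817115910369785347400215475666798267217456299178519694667867282599544094720) (nat_lit 40327953942649548456864634526011546151497895817115910369785347400215475666798267217456299178519694667867282599544094720) :=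
  chk_sound (Env.cons (nat_lit 6) (nat_lit 65759192317667330380905456710101436766519111369432956379804147202901852703209036416983571954773523684894179328) (nat_lit 40327953942649546497087876652339266927424110571458886710762334647748547242180420685887175405134017028071823264287031296) Env.nil)
    (n (nat_lit 363) (b (b (n (nat_lit 288) (b (n (nat_lit 286) (b (l (nat_lit 1) (nat_lit 260) (nat_lit 285)) (l (nat_lit 0) (nat_lit 286) (nat_lit 315)))) (n (nat_lit 339) (b (l (nat_lit 6) (nat_lit 263) (nat_lit 338)) (l (nat_lit 7) (nat_lit 263) (nat_lit 364)))))) (n (nat_lit 337) (b (n (nat_lit 286) (b (l (nat_lit 2) (nat_lit 260) (nat_lit 285)) (l (nat_lit 7) (nat_lit 261) (nat_lit 362)))) (l (nat_lit 4) (nat_lit 262) (nat_lit 338))))) (b (n (nat_lit 338) (b (l (nat_lit 4) (nat_lit 262) (nat_lit 337)) (l (nat_lit 6) (nat_lit 263) (nat_lit 339)))) (n (nat_lit 364) (b (b (n (nat_lit 286) (b (n (nat_lit 288) (b (l (nat_lit 0) (nat_lit 286) (nat_lit 315)) (l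 (nat_lit 7) (nat_lit 263) (nat_lit 339)))) (l (nat_lit 2) (nat_lit 260) (nat_lit 285)))) (n (nat_lit 339) (b (l (nat_lit 6) (nat_lit 288) (nat_lit 388)) (l (nat_lit 7) (nat_lit 263) (nat_lit 288))))) (n (nat_lit 362) (b (n (nat_lit 286) (b (l (nat_lit 2) (nat_lit 260) (nat_lit 285)) (l (nat_lit 7) (nat_lit 261) (nat_lit 337)))) (r (nat_lit 0)))))))))
    (envOK_cons p8127 envOK_nil) (by decide +kernel)

theorem p8257 : Fam (nat_lit 13) (nat_lit 8343699607727680624942585805652444129620275146709852890558508601783632775695752161234180374528) (nat_lit 3467376689130951687585789956902485883759911778975574864992038164167562998410913563321606682137981398628306337325383680) (nat_lit 3467376689130951687585789956902485883759911778975574864992038164167562998410913563321606682137981398628306337325383680) :=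
  chk_sound (Env.cons (nat_lit 5) (nat_lit 8343701224028191546055461622408243498244964917166240372659571682295459153178740945527353901056) (nat_lit 16426660086912893543187980730359994683401830518468878293663160813370932200830653188722380505088) Env.nil)
    (n (nat_lit 288) (b (b (b (n (nat_lit 289) (b (b (n (nat_lit 290) (b (n (nat_lit 291) (b (n (nat_lit 266) (b (l (nat_lit 1) (nat_lit 263) (nat_lit 267)) (l (nat_lit 1) (nat_lit 262) (nat_lit 265)))) (l (nat_lit 3) (nat_lit 262) (nat_lit 263)))) (l (nat_lit 2) (nat_lit 286) (nat_lit 311)))) (n (nat_lit 290) (b (b (n (nat_lit 286) (b (n (nat_lit 315) (b (l (nat_lit 0) (nat_lit 287) (nat_lit 316)) (l (nat_lit 0) (nat_lit 286) (nat_lit 314)))) (n (nat_lit 265) (b (l (nat_lit 1) (nat_lit 261) (nat_lit 264)) (l (nat_lit 1) (nat_lit 262) (nat_lit 266)))))) (n (nat_lit 291) (b (n (nat_lit 316) (b (l (nat_lit 0) (nat_lit 288) (nat_lit 317)) (l (nat_lit 0) (nat_lit 287) (nat_lit 315)))) (l (nat_lit 3) (nat_lit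 262) (nat_lit 263))))) (n (nat_lit 291) (b (n (nat_lit 266) (b (l (nat_lit 1) (nat_lit 263) (nat_lit 267)) (l (nat_lit 1) (nat_lit 262) (nat_lit 265)))) (l (nat_lit 3) (nat_lit 262) (nat_lit 263))))))) (b (n (nat_lit 311) (b (n (nat_lit 310) (b (l (nat_lit 1) (nat_lit 284) (nat_lit 309)) (l (nat_lit 2) (nat_lit 285) (nat_lit 286)))) (l (nat_lit 2) (nat_lit 286) (nat_lit 290)))) (n (nat_lit 286) (b (b (n (nat_lit 285) (b (n (nat_lit 263) (b (l (nat_lit 1) (nat_lit 260) (nat_lit 264)) (l (nat_lit 1) (nat_lit 259) (nat_lit 284)))) (n (nat_lit 260) (b (l (nat_lit 3) (nat_lit 260) (nat_lit 261)) (l (nat_lit 3) (nat_lit 259) (nat_lit 259)))))) (r (nat_lit 0))) (b (n (nat_lit 285) (b (n (nat_lit 264) (b (l (nat_lit 1) (nat_lit 261) (nat_lit 265)) (l (nat_lit 1) (nat_lit 260) (nat_lit 263)))) (n (nat_lit 310) (b (l (nat_lit 2) (nat_lit 284) (nat_lit 309)) (l (nat_lit 2) (nat_lit 285) (nat_lit 311)))))) (n (nat_lit 261) (b (n (nat_lit 236) (b (n (nat_lit 235)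 (b (n (nat_lit 311) (b (l (nat_lit 2) (nat_lit 285) (nat_lit 310)) (l (nat_lit 7) (nat_lit 210) (nat_lit 210)))) (n (nat_lit 264) (b (l (nat_lit 1) (nat_lit 261) (nat_lit 265)) (l (nat_lit 3) (nat_lit 235) (nat_lit 263)))))) (l (nat_lit 4) (nat_lit 211) (nat_lit 211)))) (l (nat_lit 3) (nat_lit 260) (nat_lit 260)))))))))) (n (nat_lit 289) (b (b (n (nat_lit 290) (b (n (nat_lit 291) (b (n (nat_lit 266) (b (l (nat_lit 1) (nat_lit 263) (nat_lit 267)) (l (nat_lit 1) (nat_lit 262) (nat_lit 265)))) (l (nat_lit 3) (nat_lit 262) (nat_lit 263)))) (l (nat_lit 2) (nat_lit 286) (nat_lit 311)))) (n (nat_lit 290) (b (b (n (nat_lit 286) (b (n (nat_lit 315) (b (l (nat_lit 0) (nat_lit 287) (nat_lit 316)) (l (nat_lit 0) (nat_lit 286) (nat_lit 314)))) (n (nat_lit 265) (b (l (nat_lit 1) (nat_lit 261) (nat_lit 264)) (l (nat_lit 1) (nat_lit 262) (nat_lit 266)))))) (n (nat_lit 291) (b (n (nat_lit 316) (b (l (nat_lit 0) (nat_lit 288) (nat_lit 317)) (l (nat_lit 0) (nat_lit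 287) (nat_lit 315)))) (l (nat_lit 3) (nat_lit 262) (nat_lit 263))))) (n (nat_lit 291) (b (n (nat_lit 266) (b (l (nat_lit 1) (nat_lit 263) (nat_lit 267)) (l (nat_lit 1) (nat_lit 262) (nat_lit 265)))) (l (nat_lit 3) (nat_lit 262) (nat_lit 263))))))) (b (n (nat_lit 311) (b (n (nat_lit 310) (b (l (nat_lit 1) (nat_lit 284) (nat_lit 309)) (l (nat_lit 2) (nat_lit 285) (nat_lit 286)))) (l (nat_lit 2) (nat_lit 286) (nat_lit 290)))) (n (nat_lit 286) (b (b (n (nat_lit 264) (b (n (nat_lit 285) (b (n (nat_lit 261) (b (n (nat_lit 284) (b (n (nat_lit 309) (b (l (nat_lit 2) (nat_lit 283) (nat_lit 308)) (l (nat_lit 2) (nat_lit 284) (nat_lit 310)))) (l (nat_lit 1) (nat_lit 258) (nat_lit 283)))) (n (nat_lit 337) (b (l (nat_lit 7) (nat_lit 236) (nat_lit 236)) (l (nat_lit 7) (nat_lit 261) (nat_lit 362)))))) (l (nat_lit 1) (nat_lit 260) (nat_lit 263)))) (l (nat_lit 1) (nat_lit 261) (nat_lit 265)))) (n (nat_lit 337) (b (b (n (nat_lit 362) (b (n (nat_lit 363) (b (l (nat_lit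 4) (nat_lit 262) (nat_lit 338)) (l (nat_lit 4) (nat_lit 287) (nat_lit 388)))) (n (nat_lit 311) (b (l (nat_lit 7) (nat_lit 286) (nat_lit 387)) (l (nat_lit 2) (nat_lit 285) (nat_lit 310)))))) (n (nat_lit 261) (b (l (nat_lit 7) (nat_lit 236) (nat_lit 236)) (l (nat_lit 7) (nat_lit 261) (nat_lit 362))))) (n (nat_lit 237) (b (n (nat_lit 311) (b (l (nat_lit 2) (nat_lit 285) (nat_lit 310)) (l (nat_lit 6) (nat_lit 211) (nat_lit 212)))) (n (nat_lit 236) (b (l (nat_lit 7) (nat_lit 211) (nat_lit 211)) (l (nat_lit 7) (nat_lit 236) (nat_lit 261))))))))) (b (n (nat_lit 285) (b (n (nat_lit 264) (b (l (nat_lit 1) (nat_lit 261) (nat_lit 265)) (l (nat_lit 1) (nat_lit 260) (nat_lit 263)))) (n (nat_lit 310) (b (l (nat_lit 2) (nat_lit 284) (nat_lit 309)) (l (nat_lit 2) (nat_lit 285) (nat_lit 311)))))) (n (nat_lit 264) (b (n (nat_lit 237) (b (b (n (nat_lit 212) (b (n (nat_lit 211) (b (l (nat_lit 7) (nat_lit 211) (nat_lit 236)) (l (nat_lit 7) (nat_lit 186) (nat_lit 186))))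 (l (nat_lit 6) (nat_lit 211) (nat_lit 311)))) (n (nat_lit 337) (b (n (nat_lit 263) (b (l (nat_lit 1) (nat_lit 260) (nat_lit 285)) (l (nat_lit 5) (nat_lit 262) (nat_lit 362)))) (n (nat_lit 236) (b (l (nat_lit 7) (nat_lit 211) (nat_lit 211)) (l (nat_lit 7) (nat_lit 236) (nat_lit 261))))))) (n (nat_lit 263) (b (n (nat_lit 212) (b (l (nat_lit 4) (nat_lit 187) (nat_lit 187)) (l (nat_lit 6) (nat_lit 211) (nat_lit 311)))) (l (nat_lit 1) (nat_lit 260) (nat_lit 285)))))) (l (nat_lit 1) (nat_lit 261) (nat_lit 265))))))))))) (b (n (nat_lit 289) (b (b (n (nat_lit 290) (b (n (nat_lit 291) (b (n (nat_lit 266) (b (l (nat_lit 1) (nat_lit 263) (nat_lit 267)) (l (nat_lit 1) (nat_lit 262) (nat_lit 265)))) (l (nat_lit 3) (nat_lit 262) (nat_lit 263)))) (l (nat_lit 2) (nat_lit 286) (nat_lit 311)))) (n (nat_lit 290) (b (b (n (nat_lit 286) (b (n (nat_lit 315) (b (l (nat_lit 0) (nat_lit 287) (nat_lit 316)) (l (nat_lit 0) (nat_lit 286) (nat_lit 314)))) (n (nat_lit 265) (b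 (l (nat_lit 1) (nat_lit 261) (nat_lit 264)) (l (nat_lit 1) (nat_lit 262) (nat_lit 266)))))) (n (nat_lit 291) (b (n (nat_lit 316) (b (l (nat_lit 0) (nat_lit 288) (nat_lit 317)) (l (nat_lit 0) (nat_lit 287) (nat_lit 315)))) (l (nat_lit 3) (nat_lit 262) (nat_lit 263))))) (n (nat_lit 291) (b (n (nat_lit 266) (b (l (nat_lit 1) (nat_lit 263) (nat_lit 267)) (l (nat_lit 1) (nat_lit 262) (nat_lit 265)))) (l (nat_lit 3) (nat_lit 262) (nat_lit 263))))))) (b (n (nat_lit 311) (b (n (nat_lit 310) (b (l (nat_lit 1) (nat_lit 284) (nat_lit 309)) (l (nat_lit 2) (nat_lit 285) (nat_lit 286)))) (l (nat_lit 2) (nat_lit 286) (nat_lit 290)))) (n (nat_lit 286) (b (b (r (nat_lit 0)) (n (nat_lit 285) (b (n (nat_lit 284) (b (n (nat_lit 259) (b (l (nat_lit 3) (nat_lit 258) (nat_lit 258)) (l (nat_lit 3) (nat_lit 259) (nat_lit 260)))) (n (nat_lit 309) (b (l (nat_lit 2) (nat_lit 283) (nat_lit 308)) (l (nat_lit 2) (nat_lit 284) (nat_lit 310)))))) (n (nat_lit 264) (b (l (nat_lit 1)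 (nat_lit 261) (nat_lit 265)) (l (nat_lit 1) (nat_lit 260) (nat_lit 263))))))) (b (n (nat_lit 264) (b (n (nat_lit 285) (b (n (nat_lit 284) (b (n (nat_lit 283) (b (n (nat_lit 308) (b (l (nat_lit 2) (nat_lit 283) (nat_lit 309)) (l (nat_lit 2) (nat_lit 282) (nat_lit 307)))) (l (nat_lit 0) (nat_lit 283) (nat_lit 311)))) (n (nat_lit 259) (b (l (nat_lit 3) (nat_lit 258) (nat_lit 258)) (l (nat_lit 3) (nat_lit 259) (nat_lit 260)))))) (l (nat_lit 1) (nat_lit 260) (nat_lit 263)))) (l (nat_lit 1) (nat_lit 261) (nat_lit 265)))) (n (nat_lit 311) (b (n (nat_lit 314) (b (n (nat_lit 264) (b (n (nat_lit 339) (b (b (n (nat_lit 340) (b (n (nat_lit 338) (b (l (nat_lit 6) (nat_lit 263) (nat_lit 363)) (l (nat_lit 3) (nat_lit 311) (nat_lit 337)))) (l (nat_lit 4) (nat_lit 264) (nat_lit 365)))) (n (nat_lit 364) (b (n (nat_lit 363) (b (l (nat_lit 6) (nat_lit 263) (nat_lit 338)) (l (nat_lit 6) (nat_lit 288) (nat_lit 388)))) (l (nat_lit 7) (nat_lit 263) (nat_lit 263))))) (n (nat_lit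 364) (b (n (nat_lit 365) (b (l (nat_lit 4) (nat_lit 289) (nat_lit 390)) (l (nat_lit 4) (nat_lit 264) (nat_lit 340)))) (l (nat_lit 7) (nat_lit 263) (nat_lit 263)))))) (l (nat_lit 1) (nat_lit 261) (nat_lit 265)))) (l (nat_lit 0) (nat_lit 286) (nat_lit 315)))) (l (nat_lit 2) (nat_lit 285) (nat_lit 310)))))))))) (n (nat_lit 261) (b (n (nat_lit 260) (b (n (nat_lit 289) (b (l (nat_lit 0) (nat_lit 260) (nat_lit 263)) (l (nat_lit 3) (nat_lit 261) (nat_lit 290)))) (l (nat_lit 0) (nat_lit 259) (nat_lit 259)))) (n (nat_lit 236) (b (n (nat_lit 211) (b (l (nat_lit 4) (nat_lit 186) (nat_lit 186)) (l (nat_lit 7) (nat_lit 211) (nat_lit 237)))) (l (nat_lit 7) (nat_lit 236) (nat_lit 337)))))))) (b (n (nat_lit 261) (b (n (nat_lit 289) (b (n (nat_lit 260) (b (l (nat_lit 3) (nat_lit 260) (nat_lit 286)) (l (nat_lit 0) (nat_lit 259) (nat_lit 259)))) (l (nat_lit 3) (nat_lit 261) (nat_lit 290)))) (n (nat_lit 236) (b (n (nat_lit 211) (b (l (nat_lit 4) (nat_lit 186) (nat_lit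 186)) (l (nat_lit 7) (nat_lit 211) (nat_lit 237)))) (l (nat_lit 7) (nat_lit 236) (nat_lit 337)))))) (n (nat_lit 237) (b (b (b (n (nat_lit 212) (b (n (nat_lit 187) (b (n (nat_lit 286) (b (l (nat_lit 6) (nat_lit 211) (nat_lit 311)) (l (nat_lit 6) (nat_lit 186) (nat_lit 261)))) (n (nat_lit 188) (b (l (nat_lit 5) (nat_lit 187) (nat_lit 213)) (l (nat_lit 5) (nat_lit 162) (nat_lit 163)))))) (n (nat_lit 211) (b (l (nat_lit 7) (nat_lit 211) (nat_lit 236)) (l (nat_lit 7) (nat_lit 186) (nat_lit 186)))))) (n (nat_lit 337) (b (n (nat_lit 362) (b (n (nat_lit 363) (b (l (nat_lit 4) (nat_lit 262) (nat_lit 338)) (l (nat_lit 4) (nat_lit 287) (nat_lit 388)))) (l (nat_lit 5) (nat_lit 262) (nat_lit 263)))) (n (nat_lit 236) (b (l (nat_lit 7) (nat_lit 211) (nat_lit 211)) (l (nat_lit 7) (nat_lit 236) (nat_lit 261))))))) (b (n (nat_lit 212) (b (n (nat_lit 187) (b (n (nat_lit 188) (b (l (nat_lit 5) (nat_lit 187) (nat_lit 213)) (l (nat_lit 5) (nat_lit 162) (nat_lit 163))))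 (l (nat_lit 4) (nat_lit 187) (nat_lit 263)))) (n (nat_lit 211) (b (l (nat_lit 7) (nat_lit 211) (nat_lit 236)) (l (nat_lit 7) (nat_lit 186) (nat_lit 186)))))) (n (nat_lit 212) (b (b (n (nat_lit 187) (b (n (nat_lit 286) (b (l (nat_lit 6) (nat_lit 211) (nat_lit 311)) (l (nat_lit 6) (nat_lit 186) (nat_lit 261)))) (n (nat_lit 186) (b (l (nat_lit 7) (nat_lit 186) (nat_lit 211)) (l (nat_lit 7) (nat_lit 161) (nat_lit 161)))))) (n (nat_lit 187) (b (n (nat_lit 188) (b (l (nat_lit 5) (nat_lit 187) (nat_lit 213)) (l (nat_lit 5) (nat_lit 162) (nat_lit 163)))) (l (nat_lit 4) (nat_lit 187) (nat_lit 263))))) (n (nat_lit 211) (b (n (nat_lit 213) (b (n (nat_lit 210) (b (b (b (n (nat_lit 234) (b (n (nat_lit 259) (b (b (n (nat_lit 286) (b (n (nat_lit 260) (b (l (nat_lit 3) (nat_lit 259) (nat_lit 285)) (l (nat_lit 0) (nat_lit 259) (nat_lit 261)))) (l (nat_lit 6) (nat_lit 211) (nat_lit 311)))) (n (nat_lit 209) (b (n (nat_lit 285) (b (n (nat_lit 284) (b (l (nat_lit 5) (nat_lit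 184) (nat_lit 185)) (l (nat_lit 4) (nat_lit 209) (nat_lit 310)))) (n (nat_lit 260) (b (l (nat_lit 0) (nat_lit 259) (nat_lit 261)) (l (nat_lit 3) (nat_lit 259) (nat_lit 286)))))) (l (nat_lit 2) (nat_lit 208) (nat_lit 233))))) (n (nat_lit 209) (b (n (nat_lit 284) (b (n (nat_lit 309) (b (n (nat_lit 310) (b (l (nat_lit 1) (nat_lit 284) (nat_lit 311)) (l (nat_lit 4) (nat_lit 234) (nat_lit 335)))) (n (nat_lit 308) (b (l (nat_lit 6) (nat_lit 233) (nat_lit 333)) (l (nat_lit 6) (nat_lit 208) (nat_lit 283)))))) (l (nat_lit 5) (nat_lit 184) (nat_lit 185)))) (l (nat_lit 2) (nat_lit 208) (nat_lit 233)))))) (l (nat_lit 2) (nat_lit 209) (nat_lit 235)))) (n (nat_lit 286) (b (n (nat_lit 285) (b (n (nat_lit 263) (b (l (nat_lit 1) (nat_lit 260) (nat_lit 264)) (l (nat_lit 1) (nat_lit 259) (nat_lit 284)))) (n (nat_lit 209) (b (b (n (nat_lit 260) (b (n (nat_lit 184) (b (l (nat_lit 7) (nat_lit 184) (nat_lit 235)) (l (nat_lit 3) (nat_lit 183) (nat_lit 183)))) (l (nat_lit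 3) (nat_lit 259) (nat_lit 259)))) (n (nat_lit 234) (b (l (nat_lit 2) (nat_lit 209) (nat_lit 235)) (l (nat_lit 2) (nat_lit 208) (nat_lit 233))))) (n (nat_lit 208) (b (n (nat_lit 183) (b (l (nat_lit 3) (nat_lit 183) (nat_lit 184)) (l (nat_lit 3) (nat_lit 182) (nat_lit 182)))) (n (nat_lit 233) (b (l (nat_lit 2) (nat_lit 207) (nat_lit 232)) (l (nat_lit 2) (nat_lit 208) (nat_lit 234)))))))))) (l (nat_lit 6) (nat_lit 211) (nat_lit 311))))) (b (n (nat_lit 286) (b (n (nat_lit 285) (b (n (nat_lit 263) (b (l (nat_lit 1) (nat_lit 260) (nat_lit 264)) (l (nat_lit 1) (nat_lit 259) (nat_lit 284)))) (n (nat_lit 184) (b (n (nat_lit 260) (b (n (nat_lit 209) (b (l (nat_lit 7) (nat_lit 184) (nat_lit 235)) (l (nat_lit 3) (nat_lit 183) (nat_lit 183)))) (l (nat_lit 3) (nat_lit 259) (nat_lit 259)))) (l (nat_lit 3) (nat_lit 184) (nat_lit 185)))))) (l (nat_lit 6) (nat_lit 211) (nat_lit 311)))) (n (nat_lit 209) (b (n (nat_lit 234) (b (l (nat_lit 2) (nat_lit 209) (nat_lit 235))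 (l (nat_lit 2) (nat_lit 208) (nat_lit 233)))) (n (nat_lit 184) (b (l (nat_lit 3) (nat_lit 183) (nat_lit 183)) (l (nat_lit 3) (nat_lit 184) (nat_lit 185)))))))) (b (n (nat_lit 286) (b (n (nat_lit 260) (b (n (nat_lit 185) (b (n (nat_lit 235) (b (l (nat_lit 4) (nat_lit 185) (nat_lit 261)) (l (nat_lit 2) (nat_lit 209) (nat_lit 234)))) (l (nat_lit 3) (nat_lit 184) (nat_lit 184)))) (n (nat_lit 285) (b (n (nat_lit 263) (b (l (nat_lit 1) (nat_lit 260) (nat_lit 264)) (l (nat_lit 1) (nat_lit 259) (nat_lit 284)))) (l (nat_lit 3) (nat_lit 259) (nat_lit 259)))))) (l (nat_lit 6) (nat_lit 211) (nat_lit 311)))) (n (nat_lit 259) (b (b (n (nat_lit 286) (b (n (nat_lit 260) (b (l (nat_lit 3) (nat_lit 259) (nat_lit 285)) (l (nat_lit 0) (nat_lit 259) (nat_lit 261)))) (l (nat_lit 6) (nat_lit 211) (nat_lit 311)))) (n (nat_lit 184) (b (n (nat_lit 209) (b (n (nat_lit 234) (b (n (nat_lit 260) (b (l (nat_lit 4) (nat_lit 184) (nat_lit 285)) (l (nat_lit 0) (nat_lit 259) (nat_lit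 261)))) (l (nat_lit 2) (nat_lit 208) (nat_lit 233)))) (l (nat_lit 3) (nat_lit 183) (nat_lit 183)))) (l (nat_lit 3) (nat_lit 184) (nat_lit 185))))) (n (nat_lit 209) (b (b (n (nat_lit 184) (b (l (nat_lit 3) (nat_lit 183) (nat_lit 183)) (l (nat_lit 3) (nat_lit 184) (nat_lit 185)))) (n (nat_lit 208) (b (n (nat_lit 183) (b (l (nat_lit 3) (nat_lit 183) (nat_lit 184)) (l (nat_lit 3) (nat_lit 182) (nat_lit 182)))) (n (nat_lit 233) (b (l (nat_lit 2) (nat_lit 207) (nat_lit 232)) (l (nat_lit 2) (nat_lit 208) (nat_lit 234))))))) (n (nat_lit 234) (b (n (nat_lit 284) (b (n (nat_lit 309) (b (n (nat_lit 310) (b (l (nat_lit 1) (nat_lit 284) (nat_lit 311)) (l (nat_lit 4) (nat_lit 234) (nat_lit 335)))) (n (nat_lit 308) (b (l (nat_lit 6) (nat_lit 233) (nat_lit 333)) (l (nat_lit 6) (nat_lit 208) (nat_lit 283)))))) (l (nat_lit 5) (nat_lit 184) (nat_lit 185)))) (l (nat_lit 2) (nat_lit 208) (nat_lit 233))))))))))) (l (nat_lit 5) (nat_lit 187) (nat_lit 188)))) (l (nat_lit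 7) (nat_lit 186) (nat_lit 186)))))))) (n (nat_lit 286) (b (b (n (nat_lit 261) (b (n (nat_lit 337) (b (l (nat_lit 7) (nat_lit 236) (nat_lit 236)) (l (nat_lit 7) (nat_lit 261) (nat_lit 362)))) (n (nat_lit 212) (b (l (nat_lit 6) (nat_lit 211) (nat_lit 311)) (l (nat_lit 6) (nat_lit 186) (nat_lit 187)))))) (n (nat_lit 263) (b (n (nat_lit 285) (b (l (nat_lit 1) (nat_lit 260) (nat_lit 264)) (l (nat_lit 1) (nat_lit 259) (nat_lit 284)))) (n (nat_lit 212) (b (l (nat_lit 4) (nat_lit 187) (nat_lit 187)) (l (nat_lit 6) (nat_lit 211) (nat_lit 311))))))) (n (nat_lit 337) (b (b (n (nat_lit 263) (b (n (nat_lit 264) (b (l (nat_lit 2) (nat_lit 261) (nat_lit 265)) (l (nat_lit 1) (nat_lit 260) (nat_lit 285)))) (l (nat_lit 5) (nat_lit 262) (nat_lit 362)))) (n (nat_lit 261) (b (l (nat_lit 7) (nat_lit 236) (nat_lit 236)) (l (nat_lit 7) (nat_lit 261) (nat_lit 362))))) (n (nat_lit 259) (b (b (n (nat_lit 285) (b (n (nat_lit 284) (b (l (nat_lit 1) (nat_lit 259) (nat_lit 263))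 (l (nat_lit 3) (nat_lit 258) (nat_lit 258)))) (l (nat_lit 3) (nat_lit 259) (nat_lit 260)))) (n (nat_lit 261) (b (l (nat_lit 7) (nat_lit 236) (nat_lit 236)) (l (nat_lit 0) (nat_lit 259) (nat_lit 260))))) (n (nat_lit 284) (b (b (n (nat_lit 285) (b (n (nat_lit 261) (b (l (nat_lit 7) (nat_lit 236) (nat_lit 236)) (l (nat_lit 1) (nat_lit 258) (nat_lit 283)))) (l (nat_lit 1) (nat_lit 259) (nat_lit 263)))) (n (nat_lit 285) (b (n (nat_lit 309) (b (l (nat_lit 2) (nat_lit 283) (nat_lit 308)) (l (nat_lit 2) (nat_lit 284) (nat_lit 310)))) (l (nat_lit 3) (nat_lit 258) (nat_lit 258))))) (n (nat_lit 234) (b (b (n (nat_lit 236) (b (n (nat_lit 235) (b (l (nat_lit 2) (nat_lit 233) (nat_lit 258)) (l (nat_lit 0) (nat_lit 234) (nat_lit 263)))) (l (nat_lit 7) (nat_lit 236) (nat_lit 261)))) (n (nat_lit 309) (b (b (n (nat_lit 334) (b (n (nat_lit 333) (b (l (nat_lit 6) (nat_lit 233) (nat_lit 308)) (l (nat_lit 6) (nat_lit 258) (nat_lit 358)))) (n (nat_lit 335) (b (l (nat_lit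 4) (nat_lit 259) (nat_lit 360)) (l (nat_lit 4) (nat_lit 234) (nat_lit 310)))))) (n (nat_lit 209) (b (n (nat_lit 308) (b (l (nat_lit 6) (nat_lit 233) (nat_lit 333)) (l (nat_lit 6) (nat_lit 208) (nat_lit 283)))) (n (nat_lit 208) (b (l (nat_lit 7) (nat_lit 183) (nat_lit 183)) (l (nat_lit 7) (nat_lit 208) (nat_lit 233))))))) (n (nat_lit 334) (b (n (nat_lit 233) (b (l (nat_lit 7) (nat_lit 233) (nat_lit 258)) (l (nat_lit 7) (nat_lit 208) (nat_lit 208)))) (n (nat_lit 335) (b (l (nat_lit 4) (nat_lit 259) (nat_lit 360)) (l (nat_lit 4) (nat_lit 234) (nat_lit 310))))))))) (n (nat_lit 309) (b (n (nat_lit 235) (b (n (nat_lit 236) (b (l (nat_lit 0) (nat_lit 234) (nat_lit 263)) (l (nat_lit 7) (nat_lit 236) (nat_lit 261)))) (l (nat_lit 5) (nat_lit 209) (nat_lit 210)))) (n (nat_lit 209) (b (n (nat_lit 308) (b (l (nat_lit 6) (nat_lit 233) (nat_lit 333)) (l (nat_lit 6) (nat_lit 208) (nat_lit 283)))) (n (nat_lit 208) (b (l (nat_lit 7) (nat_lit 183) (nat_lit 183)) (l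 (nat_lit 7) (nat_lit 208) (nat_lit 233)))))))))))))))))))))))
    (envOK_cons p6906 envOK_nil) (by decide +kernel)

theorem p8258 : Fam (nat_lit 17) (nat_lit 8343699607727673214248874617415937021077234590683750281279490000787534250410375654793883418624) (nat_lit 40327953942649550696609785284357725420588518424485765898927145582580682979597365035795179918374641127134624562884378624) (nat_lit 40327953942649550696609785284357725420588518424485765898927145582580682979597365035795179918374641127134624562884378624) :=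
  chk_sound (Env.cons (nat_lit 16) (nat_lit 8343699607727680624942585805652444129620275146709852890558508601783632775695752161234180374528) (nat_lit 630432130260501851540323865911278864654541842091759697844693425030595312379532180101495381492217799252673357219364864) (Env.cons (nat_lit 8) (nat_lit 8343699607727695446330008182125458346706356258762058109116545803775829826266505174114774286336) (nat_lit 3359617221734813890268004765788685885676626998884911823396344166140143991861981931588149183030063267840) (Env.cons (nat_lit 5) (nat_lit 248661673785096154989464927387483224220423844968266498227702727386220072304568914935808) (nat_lit 489552619663265155052780530761480172973925784780647703816388869684068328166921531817984) (Env.cons (nat_lit 9) (nat_lit 41718498038638421651447206998853488419458977123614520975990089511408410191692202072271644262400) (nat_lit 40327953942649548456864634526011546151497895817115910369785347400215475666798267217456299178519694667867282599544094720)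 (Env.cons (nat_lit 10) (nat_lit 8343699607727680624942585805652444129620275146709852890558508601783632775695752161234180374528) (nat_lit 69992033622688529813713928583646559922028663025459960989756888442279437884347143401321075261669638144) (Env.cons (nat_lit 7) (nat_lit 8343699607727680624942585805652444129620275146709852890558508601783632775695752161234180374528) (nat_lit 279968101115925631370826124972122519946976102749426172532447790892912305553527025949174321503648350208) (Env.cons (nat_lit 6) (nat_lit 8343699607727680624942585805652444129620275146709852890558508601783632775695752161234180374528) (nat_lit 9394170611063438199332860298361349606235088174462126569252533089252909441328450759599624992557231722672947200) (Env.cons (nat_lit 6) (nat_lit 279968101115925134047360910013641340417649816774606338572351528178982585681152893868361847893131264000) (nat_lit 279968101115928856201009826198818256400376459713981624661858321369479703916519659499012254303434833920)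 (Env.cons (nat_lit 13) (nat_lit 8343699607727680624942585805652444129620275146709852890558508601783632775695752161234180374528) (nat_lit 3467376689130951687585789956902485883759911778975574864992038164167562998410913563321606682137981398628306337325383680) Env.nil)))))))))
    (n (nat_lit 262) (b (b (b (r (nat_lit 0)) (n (nat_lit 263) (b (b (r (nat_lit 1)) (n (nat_lit 238) (b (n (nat_lit 213) (b (l (nat_lit 6) (nat_lit 187) (nat_lit 188)) (l (nat_lit 5) (nat_lit 212) (nat_lit 237)))) (l (nat_lit 5) (nat_lit 237) (nat_lit 337))))) (n (nat_lit 264) (b (b (n (nat_lit 265) (b (n (nat_lit 266) (b (n (nat_lit 241) (b (l (nat_lit 1) (nat_lit 238) (nat_lit 242)) (l (nat_lit 1) (nat_lit 237) (nat_lit 240)))) (l (nat_lit 2) (nat_lit 262) (nat_lit 288)))) (l (nat_lit 2) (nat_lit 261) (nat_lit 286)))) (n (nat_lit 286) (b (n (nat_lit 285) (b (l (nat_lit 2) (nat_lit 260) (nat_lit 261)) (l (nat_lit 1) (nat_lit 259) (nat_lit 284)))) (l (nat_lit 2) (nat_lit 261) (nat_lit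 265))))) (b (n (nat_lit 265) (b (b (n (nat_lit 261) (b (n (nat_lit 290) (b (l (nat_lit 0) (nat_lit 262) (nat_lit 291)) (l (nat_lit 0) (nat_lit 261) (nat_lit 289)))) (n (nat_lit 240) (b (l (nat_lit 1) (nat_lit 236) (nat_lit 239)) (l (nat_lit 1) (nat_lit 237) (nat_lit 241)))))) (n (nat_lit 266) (b (n (nat_lit 291) (b (l (nat_lit 0) (nat_lit 262) (nat_lit 290)) (l (nat_lit 0) (nat_lit 263) (nat_lit 292)))) (l (nat_lit 2) (nat_lit 262) (nat_lit 288))))) (n (nat_lit 266) (b (n (nat_lit 241) (b (l (nat_lit 1) (nat_lit 238) (nat_lit 242)) (l (nat_lit 1) (nat_lit 237) (nat_lit 240)))) (l (nat_lit 2) (nat_lit 262) (nat_lit 288)))))) (n (nat_lit 261) (b (b (r (nat_lit 2)) (n (nat_lit 289) (b (n (nat_lit 260) (b (n (nat_lit 259) (b (n (nat_lit 258) (b (n (nat_lit 283) (b (l (nat_lit 2) (nat_lit 257) (nat_lit 282)) (l (nat_lit 2) (nat_lit 258) (nat_lit 284)))) (l (nat_lit 0) (nat_lit 258) (nat_lit 286)))) (n (nat_lit 234) (b (l (nat_lit 3) (nat_lit 234) (nat_lit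 235)) (l (nat_lit 3) (nat_lit 233) (nat_lit 233)))))) (l (nat_lit 0) (nat_lit 260) (nat_lit 288)))) (l (nat_lit 0) (nat_lit 261) (nat_lit 290))))) (b (n (nat_lit 260) (b (n (nat_lit 259) (b (n (nat_lit 234) (b (l (nat_lit 3) (nat_lit 234) (nat_lit 235)) (l (nat_lit 3) (nat_lit 233) (nat_lit 233)))) (n (nat_lit 284) (b (l (nat_lit 2) (nat_lit 258) (nat_lit 283)) (l (nat_lit 2) (nat_lit 259) (nat_lit 285)))))) (n (nat_lit 289) (b (l (nat_lit 0) (nat_lit 261) (nat_lit 290)) (l (nat_lit 0) (nat_lit 260) (nat_lit 288)))))) (n (nat_lit 289) (b (n (nat_lit 239) (b (n (nat_lit 314) (b (b (b (n (nat_lit 339) (b (b (n (nat_lit 364) (b (n (nat_lit 363) (b (l (nat_lit 6) (nat_lit 263) (nat_lit 338)) (l (nat_lit 6) (nat_lit 288) (nat_lit 388)))) (l (nat_lit 7) (nat_lit 263) (nat_lit 288)))) (n (nat_lit 340) (b (n (nat_lit 337) (b (n (nat_lit 362) (b (l (nat_lit 5) (nat_lit 262) (nat_lit 288)) (l (nat_lit 7) (nat_lit 261) (nat_lit 286)))) (n (nat_lit 338) (b (l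 (nat_lit 3) (nat_lit 311) (nat_lit 311)) (l (nat_lit 6) (nat_lit 263) (nat_lit 363)))))) (l (nat_lit 4) (nat_lit 264) (nat_lit 365))))) (b (n (nat_lit 364) (b (n (nat_lit 363) (b (l (nat_lit 6) (nat_lit 263) (nat_lit 338)) (l (nat_lit 6) (nat_lit 288) (nat_lit 388)))) (n (nat_lit 365) (b (l (nat_lit 4) (nat_lit 289) (nat_lit 390)) (l (nat_lit 4) (nat_lit 264) (nat_lit 340)))))) (n (nat_lit 364) (b (n (nat_lit 365) (b (l (nat_lit 4) (nat_lit 289) (nat_lit 390)) (l (nat_lit 4) (nat_lit 264) (nat_lit 340)))) (l (nat_lit 7) (nat_lit 263) (nat_lit 288))))))) (n (nat_lit 340) (b (n (nat_lit 339) (b (n (nat_lit 337) (b (n (nat_lit 286) (b (l (nat_lit 2) (nat_lit 260) (nat_lit 285)) (l (nat_lit 7) (nat_lit 261) (nat_lit 362)))) (n (nat_lit 338) (b (l (nat_lit 3) (nat_lit 311) (nat_lit 311)) (l (nat_lit 6) (nat_lit 263) (nat_lit 363)))))) (l (nat_lit 4) (nat_lit 264) (nat_lit 365)))) (l (nat_lit 4) (nat_lit 239) (nat_lit 315))))) (b (n (nat_lit 339) (b (n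 (nat_lit 364) (b (n (nat_lit 363) (b (l (nat_lit 6) (nat_lit 263) (nat_lit 338)) (l (nat_lit 6) (nat_lit 288) (nat_lit 388)))) (l (nat_lit 7) (nat_lit 263) (nat_lit 288)))) (n (nat_lit 340) (b (l (nat_lit 4) (nat_lit 239) (nat_lit 315)) (l (nat_lit 4) (nat_lit 264) (nat_lit 365)))))) (n (nat_lit 286) (b (n (nat_lit 315) (b (l (nat_lit 0) (nat_lit 286) (nat_lit 288)) (l (nat_lit 4) (nat_lit 239) (nat_lit 340)))) (l (nat_lit 2) (nat_lit 260) (nat_lit 285)))))) (r (nat_lit 3)))) (l (nat_lit 1) (nat_lit 236) (nat_lit 240)))) (l (nat_lit 0) (nat_lit 261) (nat_lit 290))))))))))))) (b (r (nat_lit 4)) (r (nat_lit 5)))) (b (b (r (nat_lit 6)) (n (nat_lit 337) (b (b (r (nat_lit 7)) (n (nat_lit 362) (b (n (nat_lit 261) (b (l (nat_lit 7) (nat_lit 261) (nat_lit 286)) (l (nat_lit 7) (nat_lit 236) (nat_lit 236)))) (n (nat_lit 363) (b (l (nat_lit 4) (nat_lit 262) (nat_lit 338)) (l (nat_lit 4) (nat_lit 287) (nat_lit 388))))))) (n (nat_lit 362) (b (n (nat_lit 363) (b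 (l (nat_lit 4) (nat_lit 262) (nat_lit 338)) (l (nat_lit 4) (nat_lit 287) (nat_lit 388)))) (n (nat_lit 263) (b (l (nat_lit 5) (nat_lit 237) (nat_lit 238)) (l (nat_lit 5) (nat_lit 262) (nat_lit 288))))))))) (b (n (nat_lit 337) (b (b (n (nat_lit 362) (b (n (nat_lit 363) (b (l (nat_lit 4) (nat_lit 262) (nat_lit 338)) (l (nat_lit 4) (nat_lit 287) (nat_lit 388)))) (n (nat_lit 263) (b (l (nat_lit 5) (nat_lit 237) (nat_lit 238)) (l (nat_lit 5) (nat_lit 262) (nat_lit 288)))))) (n (nat_lit 362) (b (n (nat_lit 261) (b (l (nat_lit 7) (nat_lit 261) (nat_lit 286)) (l (nat_lit 7) (nat_lit 236) (nat_lit 236)))) (n (nat_lit 363) (b (l (nat_lit 4) (nat_lit 262) (nat_lit 338)) (l (nat_lit 4) (nat_lit 287) (nat_lit 388))))))) (n (nat_lit 237) (b (n (nat_lit 238) (b (l (nat_lit 5) (nat_lit 237) (nat_lit 263)) (l (nat_lit 5) (nat_lit 212) (nat_lit 213)))) (n (nat_lit 236) (b (l (nat_lit 7) (nat_lit 211) (nat_lit 211)) (l (nat_lit 7) (nat_lit 236) (nat_lit 261)))))))) (r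 (nat_lit 8))))))
    (envOK_cons p8070 (envOK_cons p8085 (envOK_cons p5323 (envOK_cons p8130 (envOK_cons p7513 (envOK_cons p7522 (envOK_cons p7532 (envOK_cons p7422 (envOK_cons p8257 envOK_nil))))))))) (by decide +kernel)

theorem p8299 : Fam (nat_lit 5) (nat_lit 279968101115925134047360910013641340417649816774606338572351528178982585681152893868361847893131264000) (nat_lit 279968105287774937911201222485707238857749489217991494404944052071059622418318846823047415360286359552) (nat_lit 279968105287774937911201222485707238857749489217991494404944052071059622418318846823047415360286359552) :=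
  chk_sound Env.nil
    (n (nat_lit 237) (b (b (n (nat_lit 212) (b (n (nat_lit 213) (b (l (nat_lit 5) (nat_lit 187) (nat_lit 188)) (l (nat_lit 5) (nat_lit 212) (nat_lit 238)))) (n (nat_lit 211) (b (l (nat_lit 7) (nat_lit 211) (nat_lit 236)) (l (nat_lit 7) (nat_lit 186) (nat_lit 186)))))) (n (nat_lit 236) (b (l (nat_lit 7) (nat_lit 211) (nat_lit 211)) (l (nat_lit 7) (nat_lit 236) (nat_lit 261))))) (b (n (nat_lit 212) (b (n (nat_lit 187) (b (n (nat_lit 286) (b (l (nat_lit 6) (nat_lit 211) (nat_lit 311)) (l (nat_lit 6) (nat_lit 186) (nat_lit 261)))) (n (nat_lit 186) (b (l (nat_lit 7) (nat_lit 186) (nat_lit 211)) (l (nat_lit 7) (nat_lit 161) (nat_lit 161)))))) (n (nat_lit 213) (b (l (nat_lit 5) (nat_lit 187) (nat_lit 188)) (l (nat_lit 5) (nat_lit 212) (nat_lit 238)))))) (n (nat_lit 261) (b (n (nat_lit 212) (b (n (nat_lit 286) (b (l (nat_lit 6) (nat_lit 186) (nat_lit 187)) (l (nat_lit 6) (nat_lit 211) (nat_lit 311)))) (n (nat_lit 213) (b (l (nat_lit 5)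 (nat_lit 187) (nat_lit 188)) (l (nat_lit 5) (nat_lit 212) (nat_lit 238)))))) (l (nat_lit 7) (nat_lit 236) (nat_lit 236)))))))
    envOK_nil (by decide +kernel)

theorem p8328 : Fam (nat_lit 7) (nat_lit 1959776649405578684237761995497388743356439810080318343037490463343317887282640827208267806612656226304) (nat_lit 42307585785168795231805966159250625034204552262779492553314869583590380241066244112376760293837953780374714641820415464308736) (nat_lit 42307585785168795231805966159250625034204552262779492553314869583590380241066244112376760293837953780374714641820415464308736) :=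
  chk_sound Env.nil
    (n (nat_lit 315) (b (b (n (nat_lit 336) (b (n (nat_lit 335) (b (n (nat_lit 364) (b (l (nat_lit 0) (nat_lit 336) (nat_lit 365)) (l (nat_lit 0) (nat_lit 335) (nat_lit 363)))) (n (nat_lit 360) (b (l (nat_lit 2) (nat_lit 334) (nat_lit 359)) (l (nat_lit 2) (nat_lit 335) (nat_lit 361)))))) (l (nat_lit 1) (nat_lit 311) (nat_lit 314)))) (n (nat_lit 340) (b (n (nat_lit 365) (b (n (nat_lit 364) (b (n (nat_lit 290) (b (l (nat_lit 6) (nat_lit 289) (nat_lit 389)) (l (nat_lit 6) (nat_lit 264) (nat_lit 265)))) (l (nat_lit 0) (nat_lit 336) (nat_lit 336)))) (l (nat_lit 0) (nat_lit 337) (nat_lit 366)))) (l (nat_lit 1) (nat_lit 312) (nat_lit 316))))) (b (n (nat_lit 316) (b (n (nat_lit 314) (b (l (nat_lit 2) (nat_lit 313) (nat_lit 317)) (l (nat_lit 1) (nat_lit 311) (nat_lit 336)))) (l (nat_lit 1) (nat_lit 312) (nat_lit 340)))) (n (nat_lit 340) (b (n (nat_lit 365) (b (n (nat_lit 290) (b (b (n (nat_lit 265) (b (n (nat_lit 266) (b (l (nat_lit 5)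 (nat_lit 265) (nat_lit 291)) (l (nat_lit 5) (nat_lit 240) (nat_lit 241)))) (n (nat_lit 264) (b (l (nat_lit 7) (nat_lit 239) (nat_lit 239)) (l (nat_lit 7) (nat_lit 264) (nat_lit 289)))))) (n (nat_lit 364) (b (l (nat_lit 6) (nat_lit 264) (nat_lit 265)) (l (nat_lit 6) (nat_lit 289) (nat_lit 389))))) (n (nat_lit 390) (b (n (nat_lit 389) (b (l (nat_lit 6) (nat_lit 289) (nat_lit 364)) (l (nat_lit 6) (nat_lit 314) (nat_lit 414)))) (n (nat_lit 289) (b (l (nat_lit 7) (nat_lit 289) (nat_lit 314)) (l (nat_lit 7) (nat_lit 264) (nat_lit 264)))))))) (l (nat_lit 0) (nat_lit 337) (nat_lit 366)))) (l (nat_lit 1) (nat_lit 312) (nat_lit 316)))))))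
    envOK_nil (by decide +kernel)

theorem p8349 : Fam (nat_lit 7) (nat_lit 839904286660376186686714069462041221711554082540228166271246194140911952480094604928204714770736087040) (nat_lit 572457263492603329259633548088411981468870299492890432698926686723899943110642842463000860358075562811080048640) (nat_lit 572457263492603329259633548088411981468870299492890432698926686723899943110642842463000860358075562811080048640) :=
  chk_sound (Env.cons (nat_lit 5) (nat_lit 2099760704135390806463657147388470050463855601324298479424414664759186159786946690125199798469327323136) (nat_lit 4109951742100960955004819368139402218156782992635192280282721130874227036299395556358212533809931748645011456) Env.nil)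
    (n (nat_lit 339) (b (b (n (nat_lit 336) (b (n (nat_lit 340) (b (n (nat_lit 315) (b (l (nat_lit 1) (nat_lit 311) (nat_lit 314)) (l (nat_lit 1) (nat_lit 312) (nat_lit 316)))) (n (nat_lit 365) (b (l (nat_lit 0) (nat_lit 337) (nat_lit 366)) (l (nat_lit 0) (nat_lit 336) (nat_lit 364)))))) (n (nat_lit 361) (b (l (nat_lit 2) (nat_lit 335) (nat_lit 360)) (l (nat_lit 6) (nat_lit 261) (nat_lit 262)))))) (n (nat_lit 340) (b (n (nat_lit 341) (b (n (nat_lit 366) (b (l (nat_lit 0) (nat_lit 337) (nat_lit 365)) (l (nat_lit 0) (nat_lit 338) (nat_lit 367)))) (n (nat_lit 316) (b (l (nat_lit 1) (nat_lit 313) (nat_lit 317)) (l (nat_lit 1) (nat_lit 312) (nat_lit 315)))))) (l (nat_lit 3) (nat_lit 311) (nat_lit 311))))) (n (nat_lit 336) (b (b (r (nat_lit 0)) (n (nat_lit 361) (b (l (nat_lit 2) (nat_lit 335) (nat_lit 360)) (l (nat_lit 6) (nat_lit 261) (nat_lit 262))))) (n (nat_lit 262) (b (n (nat_lit 311) (b (l (nat_lit 3) (nat_lit 310) (nat_lit 310)) (l (nat_lit 6) (nat_lit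 236) (nat_lit 237)))) (l (nat_lit 6) (nat_lit 261) (nat_lit 361))))))))
    (envOK_cons p7754 envOK_nil) (by decide +kernel)

theorem p8391 : Fam (nat_lit 9) (nat_lit 1959776657749278291965435209746263360772376831157552933721240744622807888070175077618643461406539644928) (nat_lit 105768959419466855947787775224948421883834745856209217589066142910496125608940857850467790906042328514918821343296610753314816) (nat_lit 105768959419466855947787775224948421883834745856209217589066142910496125608940857850467790906042328514918821343296610753314816) :=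
  chk_sound Env.nil
    (n (nat_lit 363) (b (n (nat_lit 388) (b (n (nat_lit 340) (b (b (b (n (nat_lit 341) (b (n (nat_lit 342) (b (n (nat_lit 317) (b (l (nat_lit 1) (nat_lit 314) (nat_lit 318)) (l (nat_lit 1) (nat_lit 313) (nat_lit 316)))) (l (nat_lit 2) (nat_lit 338) (nat_lit 364)))) (n (nat_lit 366) (b (l (nat_lit 0) (nat_lit 337) (nat_lit 365)) (l (nat_lit 0) (nat_lit 338) (nat_lit 367)))))) (n (nat_lit 341) (b (b (n (nat_lit 316) (b (l (nat_lit 1) (nat_lit 313) (nat_lit 317)) (l (nat_lit 1) (nat_lit 312) (nat_lit 315)))) (n (nat_lit 342) (b (n (nat_lit 343) (b (n (nat_lit 368) (b (l (nat_lit 0) (nat_lit 339) (nat_lit 367)) (l (nat_lit 0) (nat_lit 340) (nat_lit 369)))) (n (nat_lit 318) (b (l (nat_lit 1) (nat_lit 315) (nat_lit 319)) (l (nat_lit 1) (nat_lit 314) (nat_lit 317)))))) (l (nat_lit 2) (nat_lit 338) (nat_lit 364))))) (n (nat_lit 342) (b (n (nat_lit 343) (b (n (nat_lit 368) (b (l (nat_lit 0) (nat_lit 339) (nat_lit 367)) (l (nat_lit 0) (nat_lit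 340) (nat_lit 369)))) (n (nat_lit 315) (b (l (nat_lit 1) (nat_lit 312) (nat_lit 316)) (l (nat_lit 3) (nat_lit 314) (nat_lit 314)))))) (l (nat_lit 2) (nat_lit 338) (nat_lit 364))))))) (b (n (nat_lit 341) (b (n (nat_lit 366) (b (l (nat_lit 0) (nat_lit 337) (nat_lit 365)) (l (nat_lit 0) (nat_lit 338) (nat_lit 367)))) (n (nat_lit 316) (b (l (nat_lit 1) (nat_lit 313) (nat_lit 317)) (l (nat_lit 1) (nat_lit 312) (nat_lit 315)))))) (n (nat_lit 314) (b (b (n (nat_lit 289) (b (l (nat_lit 6) (nat_lit 288) (nat_lit 364)) (l (nat_lit 6) (nat_lit 263) (nat_lit 264)))) (n (nat_lit 365) (b (n (nat_lit 289) (b (n (nat_lit 390) (b (l (nat_lit 7) (nat_lit 314) (nat_lit 415)) (l (nat_lit 7) (nat_lit 289) (nat_lit 315)))) (l (nat_lit 6) (nat_lit 263) (nat_lit 264)))) (l (nat_lit 0) (nat_lit 337) (nat_lit 366))))) (n (nat_lit 341) (b (n (nat_lit 366) (b (l (nat_lit 0) (nat_lit 337) (nat_lit 365)) (l (nat_lit 0) (nat_lit 338) (nat_lit 367)))) (n (nat_lit 342) (b (n (nat_lit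 343) (b (n (nat_lit 318) (b (l (nat_lit 1) (nat_lit 315) (nat_lit 319)) (l (nat_lit 1) (nat_lit 314) (nat_lit 317)))) (l (nat_lit 3) (nat_lit 314) (nat_lit 315)))) (l (nat_lit 2) (nat_lit 338) (nat_lit 364)))))))))) (n (nat_lit 365) (b (n (nat_lit 315) (b (n (nat_lit 289) (b (b (n (nat_lit 290) (b (n (nat_lit 364) (b (l (nat_lit 6) (nat_lit 264) (nat_lit 265)) (l (nat_lit 6) (nat_lit 289) (nat_lit 389)))) (l (nat_lit 7) (nat_lit 264) (nat_lit 264)))) (n (nat_lit 264) (b (l (nat_lit 4) (nat_lit 264) (nat_lit 314)) (l (nat_lit 7) (nat_lit 264) (nat_lit 290))))) (n (nat_lit 314) (b (l (nat_lit 7) (nat_lit 289) (nat_lit 390)) (l (nat_lit 6) (nat_lit 288) (nat_lit 364)))))) (l (nat_lit 1) (nat_lit 312) (nat_lit 316)))) (l (nat_lit 0) (nat_lit 337) (nat_lit 366)))))) (l (nat_lit 7) (nat_lit 312) (nat_lit 413)))) (l (nat_lit 4) (nat_lit 262) (nat_lit 262))))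
    envOK_nil (by decide +kernel)

theorem p8414 : Fam (nat_lit 16) (nat_lit 8343699607727673214248874617415937021077234590683750281279490000787534250410375654793883418624) (nat_lit 29771315389304245144910653852570670197884290805903523930143120008909227127671419152592364936859471240869958889769295550371467880175587295232) (nat_lit 29771315389304245144910653852570670197884290805903523930143120008909227127671419152592364936859471240869958889769295550371467880175587295232) :=
  chk_sound (Env.cons (nat_lit 6) (nat_lit 279968101115925134047353499319930152181142708231565782546248918899963984685054368582985341452834308096) (nat_lit 5954264071585671632640473235457219250118317965616578314692359007695991237948341855571305727012202772721511797286135142050027846770414845952) (Env.cons (nat_lit 7) (nat_lit 279968101115925134047353499319930152181142708231565782546248918899963984685054368582985341452834308096) (nat_lit 26442239539650217605560292892248846548383685772123245804320920171885490245615528655242358014583884891255885470027001695830016)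 (Env.cons (nat_lit 5) (nat_lit 14091255776611100483262017628089521484184247474592627455809528375442173050651635345836562573293953671025917952) (nat_lit 778189696945022438252205827644826465779541947062301697346472512651152089160107238398180989565057761858925853077929984) (Env.cons (nat_lit 5) (nat_lit 279968101115925134047360910013641340417649816774606338572351528178982585681152893868361847893131264000) (nat_lit 279968105287774937911201222485707238857749489217991494404944052071059622418318846823047415360286359552) (Env.cons (nat_lit 7) (nat_lit 1959776649405578684237761995497388743356439810080318343037490463343317887282640827208267806612656226304) (nat_lit 42307585785168795231805966159250625034204552262779492553314869583590380241066244112376760293837953780374714641820415464308736) (Env.cons (nat_lit 7) (nat_lit 839904286660376186686714069462041221711554082540228166271246194140911952480094604928204714770736087040) (nat_lit 572457263492603329259633548088411981468870299492890432698926686723899943110642842463000860358075562811080048640)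 (Env.cons (nat_lit 9) (nat_lit 1959776657749278291965435209746263360772376831157552933721240744622807888070175077618643461406539644928) (nat_lit 105768959419466855947787775224948421883834745856209217589066142910496125608940857850467790906042328514918821343296610753314816) Env.nil)))))))
    (n (nat_lit 337) (b (b (b (b (n (nat_lit 363) (b (b (n (nat_lit 362) (b (n (nat_lit 286) (b (n (nat_lit 387) (b (n (nat_lit 412) (b (n (nat_lit 437) (b (n (nat_lit 438) (b (l (nat_lit 4) (nat_lit 337) (nat_lit 413)) (l (nat_lit 4) (nat_lit 362) (nat_lit 463)))) (l (nat_lit 5) (nat_lit 337) (nat_lit 338)))) (n (nat_lit 411) (b (l (nat_lit 6) (nat_lit 336) (nat_lit 436)) (l (nat_lit 6) (nat_lit 311) (nat_lit 386)))))) (l (nat_lit 7) (nat_lit 286) (nat_lit 311)))) (l (nat_lit 7) (nat_lit 261) (nat_lit 261)))) (l (nat_lit 4) (nat_lit 287) (nat_lit 388)))) (n (nat_lit 262) (b (n (nat_lit 237) (b (n (nat_lit 212) (b (n (nat_lit 311) (b (l (nat_lit 6) (nat_lit 236) (nat_lit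 336)) (l (nat_lit 6) (nat_lit 211) (nat_lit 286)))) (n (nat_lit 213) (b (l (nat_lit 5) (nat_lit 187) (nat_lit 188)) (l (nat_lit 5) (nat_lit 212) (nat_lit 238)))))) (n (nat_lit 236) (b (l (nat_lit 7) (nat_lit 211) (nat_lit 211)) (l (nat_lit 7) (nat_lit 236) (nat_lit 261)))))) (l (nat_lit 4) (nat_lit 262) (nat_lit 338))))) (b (n (nat_lit 388) (b (n (nat_lit 338) (b (l (nat_lit 7) (nat_lit 312) (nat_lit 413)) (l (nat_lit 4) (nat_lit 262) (nat_lit 262)))) (l (nat_lit 4) (nat_lit 287) (nat_lit 362)))) (n (nat_lit 362) (b (n (nat_lit 286) (b (n (nat_lit 311) (b (n (nat_lit 309) (b (b (n (nat_lit 284) (b (b (n (nat_lit 285) (b (n (nat_lit 259) (b (n (nat_lit 260) (b (n (nat_lit 235) (b (l (nat_lit 5) (nat_lit 234) (nat_lit 334)) (l (nat_lit 6) (nat_lit 209) (nat_lit 210)))) (l (nat_lit 3) (nat_lit 259) (nat_lit 288)))) (l (nat_lit 3) (nat_lit 258) (nat_lit 258)))) (l (nat_lit 2) (nat_lit 283) (nat_lit 308)))) (n (nat_lit 285) (b (n (nat_lit 259) (b (n (nat_lit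 260) (b (n (nat_lit 235) (b (l (nat_lit 5) (nat_lit 234) (nat_lit 334)) (l (nat_lit 6) (nat_lit 209) (nat_lit 210)))) (l (nat_lit 3) (nat_lit 259) (nat_lit 288)))) (l (nat_lit 3) (nat_lit 258) (nat_lit 258)))) (l (nat_lit 0) (nat_lit 283) (nat_lit 283))))) (b (n (nat_lit 285) (b (l (nat_lit 2) (nat_lit 283) (nat_lit 308)) (l (nat_lit 0) (nat_lit 283) (nat_lit 283)))) (n (nat_lit 259) (b (b (b (n (nat_lit 334) (b (n (nat_lit 234) (b (n (nat_lit 235) (b (l (nat_lit 5) (nat_lit 209) (nat_lit 210)) (l (nat_lit 5) (nat_lit 234) (nat_lit 260)))) (n (nat_lit 333) (b (l (nat_lit 6) (nat_lit 233) (nat_lit 308)) (l (nat_lit 6) (nat_lit 258) (nat_lit 358)))))) (n (nat_lit 335) (b (l (nat_lit 0) (nat_lit 334) (nat_lit 336)) (l (nat_lit 4) (nat_lit 259) (nat_lit 360)))))) (n (nat_lit 334) (b (n (nat_lit 234) (b (n (nat_lit 233) (b (l (nat_lit 7) (nat_lit 233) (nat_lit 258)) (l (nat_lit 7) (nat_lit 208) (nat_lit 208)))) (n (nat_lit 235) (b (l (nat_lit 5) (nat_lit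 209) (nat_lit 210)) (l (nat_lit 5) (nat_lit 234) (nat_lit 260)))))) (n (nat_lit 335) (b (l (nat_lit 0) (nat_lit 334) (nat_lit 336)) (l (nat_lit 4) (nat_lit 259) (nat_lit 360))))))) (b (n (nat_lit 334) (b (b (n (nat_lit 359) (b (n (nat_lit 258) (b (l (nat_lit 7) (nat_lit 233) (nat_lit 233)) (l (nat_lit 7) (nat_lit 258) (nat_lit 283)))) (n (nat_lit 358) (b (l (nat_lit 6) (nat_lit 258) (nat_lit 333)) (l (nat_lit 6) (nat_lit 283) (nat_lit 383)))))) (n (nat_lit 234) (b (n (nat_lit 235) (b (l (nat_lit 5) (nat_lit 209) (nat_lit 210)) (l (nat_lit 5) (nat_lit 234) (nat_lit 260)))) (n (nat_lit 333) (b (l (nat_lit 6) (nat_lit 233) (nat_lit 308)) (l (nat_lit 6) (nat_lit 258) (nat_lit 358))))))) (n (nat_lit 234) (b (n (nat_lit 233) (b (l (nat_lit 7) (nat_lit 233) (nat_lit 258)) (l (nat_lit 7) (nat_lit 208) (nat_lit 208)))) (n (nat_lit 235) (b (l (nat_lit 5) (nat_lit 209) (nat_lit 210)) (l (nat_lit 5) (nat_lit 234) (nat_lit 260)))))))) (n (nat_lit 334) (b (n (nat_lit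 359) (b (n (nat_lit 258) (b (l (nat_lit 7) (nat_lit 233) (nat_lit 233)) (l (nat_lit 7) (nat_lit 258) (nat_lit 283)))) (n (nat_lit 358) (b (l (nat_lit 6) (nat_lit 258) (nat_lit 333)) (l (nat_lit 6) (nat_lit 283) (nat_lit 383)))))) (n (nat_lit 335) (b (l (nat_lit 0) (nat_lit 334) (nat_lit 336)) (l (nat_lit 4) (nat_lit 259) (nat_lit 360)))))))) (n (nat_lit 234) (b (b (n (nat_lit 209) (b (n (nat_lit 308) (b (l (nat_lit 6) (nat_lit 233) (nat_lit 333)) (l (nat_lit 6) (nat_lit 208) (nat_lit 283)))) (n (nat_lit 210) (b (l (nat_lit 5) (nat_lit 184) (nat_lit 185)) (l (nat_lit 5) (nat_lit 209) (nat_lit 235)))))) (n (nat_lit 209) (b (n (nat_lit 308) (b (l (nat_lit 6) (nat_lit 233) (nat_lit 333)) (l (nat_lit 6) (nat_lit 208) (nat_lit 283)))) (n (nat_lit 208) (b (l (nat_lit 7) (nat_lit 183) (nat_lit 183)) (l (nat_lit 7) (nat_lit 208) (nat_lit 233))))))) (n (nat_lit 233) (b (n (nat_lit 235) (b (n (nat_lit 237) (b (b (n (nat_lit 236) (b (n (nat_lit 212) (b (l (nat_lit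 1) (nat_lit 208) (nat_lit 211)) (l (nat_lit 1) (nat_lit 209) (nat_lit 213)))) (l (nat_lit 2) (nat_lit 233) (nat_lit 258)))) (n (nat_lit 262) (b (l (nat_lit 6) (nat_lit 236) (nat_lit 336)) (l (nat_lit 6) (nat_lit 211) (nat_lit 212))))) (n (nat_lit 262) (b (n (nat_lit 236) (b (l (nat_lit 2) (nat_lit 233) (nat_lit 258)) (l (nat_lit 7) (nat_lit 211) (nat_lit 211)))) (l (nat_lit 6) (nat_lit 236) (nat_lit 336)))))) (l (nat_lit 5) (nat_lit 209) (nat_lit 210)))) (l (nat_lit 7) (nat_lit 208) (nat_lit 208))))))))))) (n (nat_lit 284) (b (b (n (nat_lit 283) (b (l (nat_lit 3) (nat_lit 283) (nat_lit 310)) (l (nat_lit 0) (nat_lit 283) (nat_lit 285)))) (n (nat_lit 285) (b (l (nat_lit 2) (nat_lit 283) (nat_lit 308)) (l (nat_lit 0) (nat_lit 283) (nat_lit 283))))) (b (n (nat_lit 308) (b (l (nat_lit 1) (nat_lit 283) (nat_lit 310)) (l (nat_lit 2) (nat_lit 283) (nat_lit 285)))) (n (nat_lit 310) (b (l (nat_lit 1) (nat_lit 283) (nat_lit 308)) (l (nat_lit 3) (nat_lit 283)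 (nat_lit 283)))))))) (b (n (nat_lit 310) (b (l (nat_lit 1) (nat_lit 283) (nat_lit 308)) (l (nat_lit 1) (nat_lit 284) (nat_lit 288)))) (n (nat_lit 310) (b (n (nat_lit 284) (b (n (nat_lit 334) (b (n (nat_lit 335) (b (n (nat_lit 259) (b (l (nat_lit 4) (nat_lit 259) (nat_lit 360)) (l (nat_lit 4) (nat_lit 234) (nat_lit 234)))) (l (nat_lit 0) (nat_lit 334) (nat_lit 336)))) (l (nat_lit 2) (nat_lit 308) (nat_lit 333)))) (l (nat_lit 3) (nat_lit 283) (nat_lit 283)))) (l (nat_lit 1) (nat_lit 284) (nat_lit 288))))))) (l (nat_lit 7) (nat_lit 286) (nat_lit 387)))) (l (nat_lit 7) (nat_lit 261) (nat_lit 261)))) (l (nat_lit 4) (nat_lit 287) (nat_lit 388))))))) (r (nat_lit 0))) (b (r (nat_lit 1)) (n (nat_lit 362) (b (b (n (nat_lit 361) (b (r (nat_lit 2)) (l (nat_lit 6) (nat_lit 286) (nat_lit 386)))) (n (nat_lit 262) (b (n (nat_lit 261) (b (l (nat_lit 7) (nat_lit 261) (nat_lit 286)) (l (nat_lit 7) (nat_lit 236) (nat_lit 236)))) (n (nat_lit 361) (b (l (nat_lit 6) (nat_lit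 286) (nat_lit 386)) (l (nat_lit 6) (nat_lit 261) (nat_lit 336))))))) (n (nat_lit 262) (b (n (nat_lit 261) (b (l (nat_lit 7) (nat_lit 261) (nat_lit 286)) (l (nat_lit 7) (nat_lit 236) (nat_lit 236)))) (n (nat_lit 363) (b (l (nat_lit 4) (nat_lit 262) (nat_lit 338)) (l (nat_lit 4) (nat_lit 287) (nat_lit 388)))))))))) (b (b (n (nat_lit 362) (b (b (n (nat_lit 387) (b (n (nat_lit 286) (b (l (nat_lit 7) (nat_lit 261) (nat_lit 261)) (l (nat_lit 7) (nat_lit 286) (nat_lit 311)))) (n (nat_lit 386) (b (l (nat_lit 6) (nat_lit 311) (nat_lit 411)) (l (nat_lit 6) (nat_lit 286) (nat_lit 361)))))) (n (nat_lit 387) (b (n (nat_lit 286) (b (l (nat_lit 7) (nat_lit 261) (nat_lit 261)) (l (nat_lit 7) (nat_lit 286) (nat_lit 311)))) (n (nat_lit 388) (b (l (nat_lit 4) (nat_lit 312) (nat_lit 413)) (l (nat_lit 4) (nat_lit 287) (nat_lit 363))))))) (n (nat_lit 361) (b (r (nat_lit 2)) (l (nat_lit 6) (nat_lit 286) (nat_lit 386)))))) (n (nat_lit 262) (b (b (n (nat_lit 336) (b (n (nat_lit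 338) (b (n (nat_lit 311) (b (n (nat_lit 310) (b (l (nat_lit 0) (nat_lit 309) (nat_lit 309)) (l (nat_lit 3) (nat_lit 310) (nat_lit 339)))) (l (nat_lit 6) (nat_lit 236) (nat_lit 237)))) (l (nat_lit 4) (nat_lit 262) (nat_lit 363)))) (l (nat_lit 6) (nat_lit 261) (nat_lit 361)))) (r (nat_lit 3))) (n (nat_lit 362) (b (n (nat_lit 261) (b (l (nat_lit 7) (nat_lit 261) (nat_lit 286)) (l (nat_lit 7) (nat_lit 236) (nat_lit 236)))) (n (nat_lit 361) (b (l (nat_lit 6) (nat_lit 286) (nat_lit 386)) (l (nat_lit 6) (nat_lit 261) (nat_lit 336))))))))) (b (n (nat_lit 262) (b (b (n (nat_lit 336) (b (n (nat_lit 338) (b (n (nat_lit 311) (b (n (nat_lit 310) (b (l (nat_lit 0) (nat_lit 309) (nat_lit 309)) (l (nat_lit 3) (nat_lit 310) (nat_lit 339)))) (l (nat_lit 6) (nat_lit 236) (nat_lit 237)))) (l (nat_lit 4) (nat_lit 262) (nat_lit 363)))) (l (nat_lit 6) (nat_lit 261) (nat_lit 361)))) (r (nat_lit 3))) (n (nat_lit 362) (b (n (nat_lit 261) (b (l (nat_lit 7) (nat_lit 261) (nat_lit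 286)) (l (nat_lit 7) (nat_lit 236) (nat_lit 236)))) (n (nat_lit 363) (b (l (nat_lit 4) (nat_lit 262) (nat_lit 338)) (l (nat_lit 4) (nat_lit 287) (nat_lit 388)))))))) (n (nat_lit 362) (b (b (n (nat_lit 387) (b (n (nat_lit 388) (b (l (nat_lit 4) (nat_lit 312) (nat_lit 413)) (l (nat_lit 4) (nat_lit 287) (nat_lit 363)))) (n (nat_lit 386) (b (l (nat_lit 6) (nat_lit 311) (nat_lit 411)) (l (nat_lit 6) (nat_lit 286) (nat_lit 361)))))) (n (nat_lit 262) (b (n (nat_lit 261) (b (l (nat_lit 7) (nat_lit 261) (nat_lit 286)) (l (nat_lit 7) (nat_lit 236) (nat_lit 236)))) (n (nat_lit 363) (b (l (nat_lit 4) (nat_lit 262) (nat_lit 338)) (l (nat_lit 4) (nat_lit 287) (nat_lit 388))))))) (n (nat_lit 387) (b (n (nat_lit 286) (b (l (nat_lit 7) (nat_lit 261) (nat_lit 261)) (l (nat_lit 7) (nat_lit 286) (nat_lit 311)))) (n (nat_lit 386) (b (l (nat_lit 6) (nat_lit 311) (nat_lit 411)) (l (nat_lit 6) (nat_lit 286) (nat_lit 361))))))))))) (n (nat_lit 338) (b (b (n (nat_lit 339)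 (b (b (r (nat_lit 4)) (n (nat_lit 311) (b (n (nat_lit 336) (b (n (nat_lit 361) (b (l (nat_lit 5) (nat_lit 286) (nat_lit 386)) (l (nat_lit 2) (nat_lit 335) (nat_lit 360)))) (l (nat_lit 3) (nat_lit 310) (nat_lit 310)))) (l (nat_lit 3) (nat_lit 311) (nat_lit 340))))) (b (n (nat_lit 340) (b (n (nat_lit 341) (b (n (nat_lit 366) (b (l (nat_lit 0) (nat_lit 337) (nat_lit 365)) (l (nat_lit 0) (nat_lit 338) (nat_lit 367)))) (n (nat_lit 316) (b (l (nat_lit 1) (nat_lit 313) (nat_lit 317)) (l (nat_lit 1) (nat_lit 312) (nat_lit 315)))))) (l (nat_lit 3) (nat_lit 311) (nat_lit 311)))) (n (nat_lit 336) (b (b (n (nat_lit 335) (b (n (nat_lit 364) (b (l (nat_lit 0) (nat_lit 336) (nat_lit 365)) (l (nat_lit 0) (nat_lit 335) (nat_lit 363)))) (n (nat_lit 360) (b (l (nat_lit 2) (nat_lit 334) (nat_lit 359)) (l (nat_lit 2) (nat_lit 335) (nat_lit 361)))))) (n (nat_lit 311) (b (n (nat_lit 361) (b (l (nat_lit 5) (nat_lit 286) (nat_lit 386)) (l (nat_lit 2) (nat_lit 335) (nat_lit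 360)))) (l (nat_lit 3) (nat_lit 310) (nat_lit 310))))) (n (nat_lit 335) (b (n (nat_lit 364) (b (l (nat_lit 0) (nat_lit 336) (nat_lit 365)) (l (nat_lit 0) (nat_lit 335) (nat_lit 363)))) (n (nat_lit 310) (b (l (nat_lit 3) (nat_lit 309) (nat_lit 309)) (l (nat_lit 3) (nat_lit 310) (nat_lit 311))))))))))) (r (nat_lit 5))) (b (n (nat_lit 262) (b (r (nat_lit 3)) (l (nat_lit 4) (nat_lit 262) (nat_lit 363)))) (n (nat_lit 339) (b (b (b (r (nat_lit 4)) (r (nat_lit 6))) (b (n (nat_lit 363) (b (n (nat_lit 314) (b (n (nat_lit 315) (b (n (nat_lit 316) (b (l (nat_lit 1) (nat_lit 312) (nat_lit 340)) (l (nat_lit 2) (nat_lit 313) (nat_lit 317)))) (l (nat_lit 1) (nat_lit 311) (nat_lit 336)))) (n (nat_lit 388) (b (n (nat_lit 289) (b (l (nat_lit 6) (nat_lit 288) (nat_lit 364)) (l (nat_lit 6) (nat_lit 263) (nat_lit 264)))) (l (nat_lit 7) (nat_lit 312) (nat_lit 413)))))) (l (nat_lit 4) (nat_lit 262) (nat_lit 262)))) (n (nat_lit 336) (b (n (nat_lit 340) (b (n (nat_lit 315)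 (b (l (nat_lit 1) (nat_lit 311) (nat_lit 314)) (l (nat_lit 1) (nat_lit 312) (nat_lit 316)))) (n (nat_lit 365) (b (l (nat_lit 0) (nat_lit 337) (nat_lit 366)) (l (nat_lit 0) (nat_lit 336) (nat_lit 364)))))) (n (nat_lit 361) (b (l (nat_lit 2) (nat_lit 335) (nat_lit 360)) (l (nat_lit 6) (nat_lit 261) (nat_lit 262)))))))) (b (n (nat_lit 336) (b (b (n (nat_lit 335) (b (n (nat_lit 364) (b (l (nat_lit 0) (nat_lit 336) (nat_lit 365)) (l (nat_lit 0) (nat_lit 335) (nat_lit 363)))) (n (nat_lit 360) (b (l (nat_lit 2) (nat_lit 334) (nat_lit 359)) (l (nat_lit 2) (nat_lit 335) (nat_lit 361)))))) (n (nat_lit 363) (b (n (nat_lit 364) (b (l (nat_lit 0) (nat_lit 336) (nat_lit 365)) (l (nat_lit 0) (nat_lit 335) (nat_lit 335)))) (l (nat_lit 4) (nat_lit 262) (nat_lit 262))))) (n (nat_lit 361) (b (l (nat_lit 2) (nat_lit 335) (nat_lit 360)) (l (nat_lit 6) (nat_lit 261) (nat_lit 262)))))) (n (nat_lit 262) (b (n (nat_lit 315) (b (n (nat_lit 336) (b (l (nat_lit 6) (nat_lit 261)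 (nat_lit 361)) (l (nat_lit 1) (nat_lit 311) (nat_lit 314)))) (n (nat_lit 340) (b (n (nat_lit 366) (b (n (nat_lit 236) (b (n (nat_lit 237) (b (n (nat_lit 341) (b (n (nat_lit 238) (b (n (nat_lit 265) (b (n (nat_lit 239) (b (n (nat_lit 240) (b (n (nat_lit 215) (b (l (nat_lit 1) (nat_lit 211) (nat_lit 214)) (l (nat_lit 1) (nat_lit 212) (nat_lit 216)))) (l (nat_lit 0) (nat_lit 237) (nat_lit 266)))) (l (nat_lit 0) (nat_lit 236) (nat_lit 264)))) (l (nat_lit 4) (nat_lit 265) (nat_lit 290)))) (l (nat_lit 5) (nat_lit 212) (nat_lit 213)))) (l (nat_lit 0) (nat_lit 338) (nat_lit 367)))) (l (nat_lit 7) (nat_lit 211) (nat_lit 211)))) (l (nat_lit 7) (nat_lit 236) (nat_lit 261)))) (l (nat_lit 0) (nat_lit 337) (nat_lit 365)))) (l (nat_lit 1) (nat_lit 312) (nat_lit 316)))))) (l (nat_lit 4) (nat_lit 262) (nat_lit 363))))))))))))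
    (envOK_cons p7672 (envOK_cons p7597 (envOK_cons p7417 (envOK_cons p8299 (envOK_cons p8328 (envOK_cons p8349 (envOK_cons p8391 envOK_nil))))))) (by decide +kernel)

theorem p8491 : Fam (nat_lit 11) (nat_lit 279968101115925134047353499319930152181142708231565782546248918899963984685054368582985341452834308096) (nat_lit 26442258767829389991397702426244853265884687900736419174026569651194842794809750381891216160813856708441676446092445488250880) (nat_lit 26442258767829389991397702426244853265884687900736419174026569651194842794809750381891216160813856708441676446092445488250880) :=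
  chk_sound (Env.cons (nat_lit 5) (nat_lit 8343701224028191546055461622408243498244964917166240372659571682295459153178740945527353901056) (nat_lit 16426660086912893543187980730359994683401830518468878293663160813370932200830653188722380505088) Env.nil)
    (n (nat_lit 288) (b (b (n (nat_lit 289) (b (b (n (nat_lit 363) (b (b (n (nat_lit 338) (b (n (nat_lit 339) (b (b (n (nat_lit 340) (b (n (nat_lit 314) (b (n (nat_lit 315) (b (l (nat_lit 1) (nat_lit 312) (nat_lit 316)) (l (nat_lit 0) (nat_lit 286) (nat_lit 286)))) (l (nat_lit 6) (nat_lit 263) (nat_lit 264)))) (n (nat_lit 362) (b (l (nat_lit 2) (nat_lit 336) (nat_lit 361)) (l (nat_lit 2) (nat_lit 337) (nat_lit 341)))))) (n (nat_lit 362) (b (n (nat_lit 286) (b (n (nat_lit 311) (b (l (nat_lit 7) (nat_lit 286) (nat_lit 387)) (l (nat_lit 2) (nat_lit 285) (nat_lit 310)))) (n (nat_lit 314) (b (l (nat_lit 6) (nat_lit 263) (nat_lit 264)) (l (nat_lit 0) (nat_lit 286) (nat_lit 315)))))) (n (nat_lit 361) (b (l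 (nat_lit 6) (nat_lit 286) (nat_lit 386)) (l (nat_lit 1) (nat_lit 335) (nat_lit 360))))))) (b (n (nat_lit 340) (b (n (nat_lit 362) (b (l (nat_lit 2) (nat_lit 336) (nat_lit 361)) (l (nat_lit 2) (nat_lit 337) (nat_lit 341)))) (l (nat_lit 3) (nat_lit 311) (nat_lit 311)))) (n (nat_lit 311) (b (n (nat_lit 310) (b (l (nat_lit 1) (nat_lit 284) (nat_lit 309)) (l (nat_lit 2) (nat_lit 285) (nat_lit 286)))) (l (nat_lit 3) (nat_lit 311) (nat_lit 340))))))) (l (nat_lit 4) (nat_lit 262) (nat_lit 262)))) (n (nat_lit 338) (b (n (nat_lit 339) (b (n (nat_lit 314) (b (n (nat_lit 388) (b (l (nat_lit 6) (nat_lit 288) (nat_lit 364)) (l (nat_lit 7) (nat_lit 312) (nat_lit 413)))) (l (nat_lit 6) (nat_lit 263) (nat_lit 264)))) (n (nat_lit 311) (b (n (nat_lit 310) (b (l (nat_lit 1) (nat_lit 284) (nat_lit 309)) (l (nat_lit 2) (nat_lit 285) (nat_lit 286)))) (l (nat_lit 3) (nat_lit 311) (nat_lit 340)))))) (l (nat_lit 4) (nat_lit 262) (nat_lit 262))))) (b (n (nat_lit 388) (b (n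 (nat_lit 338) (b (l (nat_lit 7) (nat_lit 312) (nat_lit 413)) (l (nat_lit 4) (nat_lit 262) (nat_lit 262)))) (l (nat_lit 4) (nat_lit 287) (nat_lit 362)))) (n (nat_lit 286) (b (r (nat_lit 0)) (n (nat_lit 314) (b (n (nat_lit 364) (b (b (n (nat_lit 388) (b (l (nat_lit 4) (nat_lit 287) (nat_lit 362)) (l (nat_lit 6) (nat_lit 288) (nat_lit 339)))) (n (nat_lit 362) (b (n (nat_lit 386) (b (n (nat_lit 387) (b (l (nat_lit 6) (nat_lit 311) (nat_lit 411)) (l (nat_lit 2) (nat_lit 361) (nat_lit 365)))) (l (nat_lit 6) (nat_lit 286) (nat_lit 361)))) (l (nat_lit 4) (nat_lit 287) (nat_lit 388))))) (b (n (nat_lit 339) (b (n (nat_lit 264) (b (n (nat_lit 365) (b (l (nat_lit 4) (nat_lit 289) (nat_lit 390)) (l (nat_lit 4) (nat_lit 264) (nat_lit 340)))) (l (nat_lit 1) (nat_lit 261) (nat_lit 265)))) (l (nat_lit 6) (nat_lit 288) (nat_lit 388)))) (n (nat_lit 365) (b (b (n (nat_lit 362) (b (n (nat_lit 386) (b (l (nat_lit 2) (nat_lit 361) (nat_lit 387)) (l (nat_lit 6) (nat_lit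 286) (nat_lit 361)))) (n (nat_lit 390) (b (l (nat_lit 0) (nat_lit 362) (nat_lit 391)) (l (nat_lit 4) (nat_lit 289) (nat_lit 339)))))) (n (nat_lit 362) (b (n (nat_lit 366) (b (n (nat_lit 391) (b (l (nat_lit 0) (nat_lit 362) (nat_lit 390)) (l (nat_lit 0) (nat_lit 363) (nat_lit 392)))) (n (nat_lit 341) (b (l (nat_lit 1) (nat_lit 337) (nat_lit 340)) (l (nat_lit 1) (nat_lit 338) (nat_lit 342)))))) (n (nat_lit 386) (b (l (nat_lit 2) (nat_lit 361) (nat_lit 387)) (l (nat_lit 6) (nat_lit 286) (nat_lit 361))))))) (b (n (nat_lit 362) (b (n (nat_lit 386) (b (l (nat_lit 2) (nat_lit 361) (nat_lit 387)) (l (nat_lit 6) (nat_lit 286) (nat_lit 361)))) (n (nat_lit 340) (b (n (nat_lit 264) (b (l (nat_lit 4) (nat_lit 264) (nat_lit 339)) (l (nat_lit 1) (nat_lit 261) (nat_lit 265)))) (l (nat_lit 1) (nat_lit 337) (nat_lit 341)))))) (n (nat_lit 264) (b (n (nat_lit 339) (b (l (nat_lit 4) (nat_lit 264) (nat_lit 340)) (l (nat_lit 4) (nat_lit 289) (nat_lit 390)))) (l (nat_lit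 1) (nat_lit 261) (nat_lit 265)))))))))) (l (nat_lit 0) (nat_lit 286) (nat_lit 315))))))))) (n (nat_lit 290) (b (n (nat_lit 291) (b (n (nat_lit 316) (b (l (nat_lit 0) (nat_lit 288) (nat_lit 317)) (l (nat_lit 0) (nat_lit 287) (nat_lit 315)))) (n (nat_lit 266) (b (l (nat_lit 1) (nat_lit 263) (nat_lit 267)) (l (nat_lit 1) (nat_lit 262) (nat_lit 265)))))) (l (nat_lit 2) (nat_lit 286) (nat_lit 311))))) (b (n (nat_lit 311) (b (n (nat_lit 310) (b (l (nat_lit 1) (nat_lit 284) (nat_lit 309)) (l (nat_lit 2) (nat_lit 285) (nat_lit 286)))) (l (nat_lit 2) (nat_lit 286) (nat_lit 290)))) (n (nat_lit 315) (b (b (b (n (nat_lit 314) (b (n (nat_lit 363) (b (b (n (nat_lit 362) (b (n (nat_lit 365) (b (n (nat_lit 386) (b (n (nat_lit 387) (b (l (nat_lit 6) (nat_lit 311) (nat_lit 411)) (l (nat_lit 2) (nat_lit 361) (nat_lit 364)))) (l (nat_lit 6) (nat_lit 286) (nat_lit 361)))) (n (nat_lit 340) (b (n (nat_lit 264) (b (l (nat_lit 4) (nat_lit 264) (nat_lit 339)) (l (nat_lit 4)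 (nat_lit 239) (nat_lit 239)))) (l (nat_lit 7) (nat_lit 289) (nat_lit 390)))))) (l (nat_lit 4) (nat_lit 287) (nat_lit 388)))) (n (nat_lit 388) (b (n (nat_lit 338) (b (l (nat_lit 7) (nat_lit 312) (nat_lit 413)) (l (nat_lit 4) (nat_lit 262) (nat_lit 262)))) (l (nat_lit 4) (nat_lit 287) (nat_lit 362))))) (n (nat_lit 264) (b (n (nat_lit 338) (b (l (nat_lit 6) (nat_lit 263) (nat_lit 339)) (l (nat_lit 4) (nat_lit 262) (nat_lit 262)))) (n (nat_lit 340) (b (n (nat_lit 365) (b (l (nat_lit 7) (nat_lit 264) (nat_lit 290)) (l (nat_lit 7) (nat_lit 289) (nat_lit 390)))) (l (nat_lit 4) (nat_lit 239) (nat_lit 239)))))))) (l (nat_lit 0) (nat_lit 286) (nat_lit 286)))) (n (nat_lit 314) (b (n (nat_lit 363) (b (b (n (nat_lit 388) (b (n (nat_lit 338) (b (l (nat_lit 7) (nat_lit 312) (nat_lit 413)) (l (nat_lit 4) (nat_lit 262) (nat_lit 262)))) (l (nat_lit 4) (nat_lit 287) (nat_lit 362)))) (n (nat_lit 338) (b (n (nat_lit 339) (b (n (nat_lit 316) (b (l (nat_lit 3) (nat_lit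 288) (nat_lit 317)) (l (nat_lit 1) (nat_lit 312) (nat_lit 340)))) (l (nat_lit 6) (nat_lit 263) (nat_lit 264)))) (l (nat_lit 4) (nat_lit 262) (nat_lit 262))))) (n (nat_lit 362) (b (n (nat_lit 365) (b (n (nat_lit 386) (b (n (nat_lit 387) (b (l (nat_lit 6) (nat_lit 311) (nat_lit 411)) (l (nat_lit 2) (nat_lit 361) (nat_lit 364)))) (l (nat_lit 6) (nat_lit 286) (nat_lit 361)))) (n (nat_lit 340) (b (n (nat_lit 264) (b (l (nat_lit 4) (nat_lit 264) (nat_lit 339)) (l (nat_lit 4) (nat_lit 239) (nat_lit 239)))) (l (nat_lit 7) (nat_lit 289) (nat_lit 390)))))) (l (nat_lit 4) (nat_lit 287) (nat_lit 388)))))) (l (nat_lit 0) (nat_lit 286) (nat_lit 286))))) (b (n (nat_lit 290) (b (n (nat_lit 265) (b (n (nat_lit 264) (b (n (nat_lit 340) (b (l (nat_lit 7) (nat_lit 264) (nat_lit 365)) (l (nat_lit 7) (nat_lit 239) (nat_lit 239)))) (l (nat_lit 1) (nat_lit 261) (nat_lit 286)))) (l (nat_lit 1) (nat_lit 262) (nat_lit 266)))) (l (nat_lit 0) (nat_lit 287) (nat_lit 316)))) (n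 (nat_lit 316) (b (n (nat_lit 314) (b (l (nat_lit 3) (nat_lit 288) (nat_lit 317)) (l (nat_lit 0) (nat_lit 286) (nat_lit 286)))) (l (nat_lit 0) (nat_lit 287) (nat_lit 290)))))) (n (nat_lit 290) (b (n (nat_lit 265) (b (n (nat_lit 340) (b (b (n (nat_lit 365) (b (n (nat_lit 366) (b (l (nat_lit 4) (nat_lit 265) (nat_lit 341)) (l (nat_lit 4) (nat_lit 290) (nat_lit 391)))) (n (nat_lit 364) (b (l (nat_lit 6) (nat_lit 289) (nat_lit 389)) (l (nat_lit 6) (nat_lit 264) (nat_lit 339)))))) (n (nat_lit 264) (b (l (nat_lit 7) (nat_lit 264) (nat_lit 365)) (l (nat_lit 7) (nat_lit 239) (nat_lit 239))))) (n (nat_lit 240) (b (n (nat_lit 339) (b (l (nat_lit 6) (nat_lit 264) (nat_lit 364)) (l (nat_lit 6) (nat_lit 239) (nat_lit 314)))) (n (nat_lit 239) (b (l (nat_lit 7) (nat_lit 214) (nat_lit 214)) (l (nat_lit 7) (nat_lit 239) (nat_lit 264)))))))) (l (nat_lit 1) (nat_lit 262) (nat_lit 266)))) (l (nat_lit 0) (nat_lit 287) (nat_lit 316))))))))) (n (nat_lit 362) (b (n (nat_lit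 387) (b (n (nat_lit 388) (b (l (nat_lit 4) (nat_lit 312) (nat_lit 413)) (l (nat_lit 4) (nat_lit 287) (nat_lit 363)))) (n (nat_lit 386) (b (l (nat_lit 6) (nat_lit 311) (nat_lit 411)) (l (nat_lit 6) (nat_lit 286) (nat_lit 361)))))) (l (nat_lit 5) (nat_lit 262) (nat_lit 263))))) (b (n (nat_lit 263) (b (n (nat_lit 238) (b (l (nat_lit 6) (nat_lit 212) (nat_lit 213)) (l (nat_lit 5) (nat_lit 237) (nat_lit 262)))) (l (nat_lit 5) (nat_lit 262) (nat_lit 362)))) (n (nat_lit 289) (b (b (n (nat_lit 265) (b (b (n (nat_lit 290) (b (n (nat_lit 315) (b (n (nat_lit 314) (b (n (nat_lit 240) (b (l (nat_lit 6) (nat_lit 239) (nat_lit 339)) (l (nat_lit 6) (nat_lit 214) (nat_lit 215)))) (l (nat_lit 0) (nat_lit 286) (nat_lit 286)))) (l (nat_lit 0) (nat_lit 287) (nat_lit 316)))) (l (nat_lit 1) (nat_lit 262) (nat_lit 266)))) (n (nat_lit 266) (b (n (nat_lit 264) (b (l (nat_lit 2) (nat_lit 262) (nat_lit 263)) (l (nat_lit 2) (nat_lit 263) (nat_lit 267)))) (l (nat_lit 1) (nat_lit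 262) (nat_lit 290))))) (b (n (nat_lit 264) (b (n (nat_lit 266) (b (l (nat_lit 2) (nat_lit 262) (nat_lit 263)) (l (nat_lit 2) (nat_lit 263) (nat_lit 267)))) (l (nat_lit 1) (nat_lit 261) (nat_lit 286)))) (n (nat_lit 315) (b (b (n (nat_lit 286) (b (l (nat_lit 0) (nat_lit 286) (nat_lit 314)) (l (nat_lit 1) (nat_lit 261) (nat_lit 264)))) (n (nat_lit 290) (b (n (nat_lit 264) (b (n (nat_lit 340) (b (l (nat_lit 7) (nat_lit 264) (nat_lit 365)) (l (nat_lit 7) (nat_lit 239) (nat_lit 239)))) (l (nat_lit 1) (nat_lit 261) (nat_lit 286)))) (l (nat_lit 0) (nat_lit 287) (nat_lit 316))))) (b (n (nat_lit 316) (b (n (nat_lit 314) (b (l (nat_lit 3) (nat_lit 288) (nat_lit 317)) (l (nat_lit 0) (nat_lit 286) (nat_lit 286)))) (l (nat_lit 0) (nat_lit 287) (nat_lit 290)))) (n (nat_lit 290) (b (n (nat_lit 340) (b (b (n (nat_lit 365) (b (n (nat_lit 366) (b (l (nat_lit 4) (nat_lit 265) (nat_lit 341)) (l (nat_lit 4) (nat_lit 290) (nat_lit 391)))) (n (nat_lit 364) (b (l (nat_lit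 6) (nat_lit 289) (nat_lit 389)) (l (nat_lit 6) (nat_lit 264) (nat_lit 339)))))) (n (nat_lit 264) (b (l (nat_lit 7) (nat_lit 264) (nat_lit 365)) (l (nat_lit 7) (nat_lit 239) (nat_lit 239))))) (n (nat_lit 240) (b (n (nat_lit 339) (b (l (nat_lit 6) (nat_lit 264) (nat_lit 364)) (l (nat_lit 6) (nat_lit 239) (nat_lit 314)))) (n (nat_lit 239) (b (l (nat_lit 7) (nat_lit 214) (nat_lit 214)) (l (nat_lit 7) (nat_lit 239) (nat_lit 264)))))))) (l (nat_lit 0) (nat_lit 287) (nat_lit 316)))))))))) (n (nat_lit 286) (b (b (n (nat_lit 263) (b (n (nat_lit 238) (b (l (nat_lit 6) (nat_lit 212) (nat_lit 213)) (l (nat_lit 5) (nat_lit 237) (nat_lit 262)))) (n (nat_lit 264) (b (l (nat_lit 1) (nat_lit 261) (nat_lit 265)) (l (nat_lit 1) (nat_lit 260) (nat_lit 285)))))) (r (nat_lit 0))) (n (nat_lit 314) (b (n (nat_lit 339) (b (n (nat_lit 338) (b (n (nat_lit 311) (b (l (nat_lit 3) (nat_lit 311) (nat_lit 340)) (l (nat_lit 2) (nat_lit 285) (nat_lit 310)))) (n (nat_lit 264) (b (l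 (nat_lit 6) (nat_lit 263) (nat_lit 363)) (l (nat_lit 1) (nat_lit 261) (nat_lit 265)))))) (n (nat_lit 263) (b (n (nat_lit 238) (b (l (nat_lit 6) (nat_lit 212) (nat_lit 213)) (l (nat_lit 5) (nat_lit 237) (nat_lit 262)))) (l (nat_lit 7) (nat_lit 263) (nat_lit 364)))))) (l (nat_lit 0) (nat_lit 286) (nat_lit 315))))))) (b (n (nat_lit 290) (b (n (nat_lit 291) (b (n (nat_lit 316) (b (l (nat_lit 0) (nat_lit 288) (nat_lit 317)) (l (nat_lit 0) (nat_lit 287) (nat_lit 315)))) (n (nat_lit 266) (b (l (nat_lit 1) (nat_lit 263) (nat_lit 267)) (l (nat_lit 1) (nat_lit 262) (nat_lit 265)))))) (l (nat_lit 2) (nat_lit 286) (nat_lit 311)))) (n (nat_lit 311) (b (n (nat_lit 310) (b (l (nat_lit 1) (nat_lit 284) (nat_lit 309)) (l (nat_lit 2) (nat_lit 285) (nat_lit 286)))) (l (nat_lit 2) (nat_lit 286) (nat_lit 290))))))))))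
    (envOK_cons p6906 envOK_nil) (by decide +kernel)

theorem p8566 : Fam (nat_lit 12) (nat_lit 279968101115925134047353499319930152181142708231565782546248918899963984685054368582985341452834308096) (nat_lit 153364989329972788664938542124393758662454001862904291779254785688414493285426249404424608616068355247471204952343941832769536) (nat_lit 153364989329972788664938542124393758662454001862904291779254785688414493285426249404424608616068355247471204952343941832769536) :=
  chk_sound (Env.cons (nat_lit 7) (nat_lit 839904286660376186686714069462041221711554082540228166271246194140911952480094604928204714770736087040) (nat_lit 572457263492603329259633548088411981468870299492890432698926686723899943110642842463000860358075562811080048640) (Env.cons (nat_lit 5) (nat_lit 279968101115925134047360910013641340417649816774606338572351528178982585681152893868361847893131264000) (nat_lit 419952151673888198394288890848333516035812493409959080429714748387526084211127522542295587743462326272)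 (Env.cons (nat_lit 9) (nat_lit 1959776657749278291965435209746263360772376831157552933721240744622807888070175077618643461406539644928) (nat_lit 105768959419466855947787775224948421883834745856209217589066142910496125608940857850467790906042328514918821343296610753314816) (Env.cons (nat_lit 7) (nat_lit 1959776649405578684237761995497388743356439810080318343037490463343317887282640827208267806612656226304) (nat_lit 42307585785168795231805966159250625034204552262779492553314869583590380241066244112376760293837953780374714641820415464308736) Env.nil))))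
    (n (nat_lit 338) (b (b (b (r (nat_lit 0)) (n (nat_lit 262) (b (r (nat_lit 1)) (l (nat_lit 4) (nat_lit 262) (nat_lit 363))))) (b (n (nat_lit 339) (b (b (n (nat_lit 289) (b (b (n (nat_lit 288) (b (b (n (nat_lit 290) (b (n (nat_lit 291) (b (n (nat_lit 316) (b (l (nat_lit 0) (nat_lit 288) (nat_lit 317)) (l (nat_lit 0) (nat_lit 287) (nat_lit 315)))) (n (nat_lit 266) (b (l (nat_lit 1) (nat_lit 263) (nat_lit 267)) (l (nat_lit 1) (nat_lit 262) (nat_lit 265)))))) (l (nat_lit 2) (nat_lit 286) (nat_lit 311)))) (n (nat_lit 311) (b (n (nat_lit 310) (b (l (nat_lit 1) (nat_lit 284) (nat_lit 309)) (l (nat_lit 2) (nat_lit 285) (nat_lit 286)))) (l (nat_lit 2) (nat_lit 286) (nat_lit 290))))) (n (nat_lit 264) (b (b (n (nat_lit 314) (b (n (nat_lit 263) (b (l (nat_lit 7) (nat_lit 238) (nat_lit 238)) (l (nat_lit 7) (nat_lit 263) (nat_lit 364)))) (l (nat_lit 6) (nat_lit 263) (nat_lit 363)))) (n (nat_lit 265) (b (n (nat_lit 266) (b (l (nat_lit 2) (nat_lit 262) (nat_lit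 263)) (l (nat_lit 2) (nat_lit 263) (nat_lit 267)))) (l (nat_lit 1) (nat_lit 261) (nat_lit 286))))) (n (nat_lit 265) (b (n (nat_lit 314) (b (l (nat_lit 5) (nat_lit 239) (nat_lit 240)) (l (nat_lit 6) (nat_lit 263) (nat_lit 363)))) (l (nat_lit 1) (nat_lit 261) (nat_lit 286)))))))) (n (nat_lit 288) (b (b (n (nat_lit 263) (b (n (nat_lit 286) (b (n (nat_lit 264) (b (l (nat_lit 1) (nat_lit 261) (nat_lit 265)) (l (nat_lit 1) (nat_lit 260) (nat_lit 285)))) (n (nat_lit 314) (b (l (nat_lit 7) (nat_lit 263) (nat_lit 364)) (l (nat_lit 0) (nat_lit 286) (nat_lit 315)))))) (n (nat_lit 238) (b (l (nat_lit 6) (nat_lit 212) (nat_lit 213)) (l (nat_lit 5) (nat_lit 237) (nat_lit 262)))))) (n (nat_lit 311) (b (n (nat_lit 310) (b (l (nat_lit 1) (nat_lit 284) (nat_lit 309)) (l (nat_lit 2) (nat_lit 285) (nat_lit 286)))) (l (nat_lit 2) (nat_lit 286) (nat_lit 290))))) (n (nat_lit 290) (b (n (nat_lit 291) (b (n (nat_lit 316) (b (l (nat_lit 0) (nat_lit 288) (nat_lit 317)) (l (nat_lit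 0) (nat_lit 287) (nat_lit 315)))) (n (nat_lit 266) (b (l (nat_lit 1) (nat_lit 263) (nat_lit 267)) (l (nat_lit 1) (nat_lit 262) (nat_lit 265)))))) (l (nat_lit 2) (nat_lit 286) (nat_lit 311))))))) (b (n (nat_lit 363) (b (n (nat_lit 314) (b (n (nat_lit 388) (b (l (nat_lit 6) (nat_lit 288) (nat_lit 364)) (l (nat_lit 7) (nat_lit 312) (nat_lit 413)))) (l (nat_lit 6) (nat_lit 263) (nat_lit 264)))) (l (nat_lit 4) (nat_lit 262) (nat_lit 262)))) (n (nat_lit 288) (b (n (nat_lit 311) (b (n (nat_lit 310) (b (l (nat_lit 1) (nat_lit 284) (nat_lit 309)) (l (nat_lit 2) (nat_lit 285) (nat_lit 286)))) (l (nat_lit 2) (nat_lit 286) (nat_lit 290)))) (n (nat_lit 262) (b (n (nat_lit 237) (b (b (n (nat_lit 238) (b (l (nat_lit 5) (nat_lit 237) (nat_lit 263)) (l (nat_lit 5) (nat_lit 212) (nat_lit 213)))) (n (nat_lit 212) (b (n (nat_lit 187) (b (n (nat_lit 188) (b (l (nat_lit 5) (nat_lit 187) (nat_lit 213)) (l (nat_lit 5) (nat_lit 162) (nat_lit 163)))) (l (nat_lit 4) (nat_lit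 187) (nat_lit 263)))) (n (nat_lit 211) (b (l (nat_lit 7) (nat_lit 211) (nat_lit 236)) (l (nat_lit 7) (nat_lit 186) (nat_lit 186))))))) (b (n (nat_lit 212) (b (n (nat_lit 263) (b (l (nat_lit 5) (nat_lit 237) (nat_lit 238)) (l (nat_lit 4) (nat_lit 187) (nat_lit 187)))) (n (nat_lit 211) (b (l (nat_lit 7) (nat_lit 211) (nat_lit 236)) (l (nat_lit 7) (nat_lit 186) (nat_lit 186)))))) (n (nat_lit 212) (b (n (nat_lit 213) (b (l (nat_lit 5) (nat_lit 187) (nat_lit 188)) (l (nat_lit 5) (nat_lit 212) (nat_lit 238)))) (n (nat_lit 211) (b (l (nat_lit 7) (nat_lit 211) (nat_lit 236)) (l (nat_lit 7) (nat_lit 186) (nat_lit 186))))))))) (l (nat_lit 4) (nat_lit 262) (nat_lit 363))))))))) (n (nat_lit 340) (b (n (nat_lit 341) (b (n (nat_lit 366) (b (l (nat_lit 0) (nat_lit 337) (nat_lit 365)) (l (nat_lit 0) (nat_lit 338) (nat_lit 367)))) (n (nat_lit 316) (b (l (nat_lit 1) (nat_lit 313) (nat_lit 317)) (l (nat_lit 1) (nat_lit 312) (nat_lit 315)))))) (l (nat_lit 3) (nat_lit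 311) (nat_lit 311))))) (b (n (nat_lit 262) (b (n (nat_lit 237) (b (n (nat_lit 212) (b (n (nat_lit 311) (b (l (nat_lit 3) (nat_lit 311) (nat_lit 340)) (l (nat_lit 6) (nat_lit 211) (nat_lit 286)))) (n (nat_lit 211) (b (l (nat_lit 7) (nat_lit 211) (nat_lit 236)) (l (nat_lit 7) (nat_lit 186) (nat_lit 186)))))) (n (nat_lit 238) (b (l (nat_lit 5) (nat_lit 237) (nat_lit 263)) (l (nat_lit 5) (nat_lit 212) (nat_lit 213)))))) (l (nat_lit 4) (nat_lit 262) (nat_lit 363)))) (r (nat_lit 2))))) (n (nat_lit 339) (b (b (n (nat_lit 311) (b (n (nat_lit 336) (b (n (nat_lit 361) (b (l (nat_lit 5) (nat_lit 286) (nat_lit 386)) (l (nat_lit 2) (nat_lit 335) (nat_lit 360)))) (l (nat_lit 3) (nat_lit 310) (nat_lit 310)))) (l (nat_lit 3) (nat_lit 311) (nat_lit 340)))) (n (nat_lit 340) (b (n (nat_lit 341) (b (n (nat_lit 366) (b (l (nat_lit 0) (nat_lit 337) (nat_lit 365)) (l (nat_lit 0) (nat_lit 338) (nat_lit 367)))) (n (nat_lit 316) (b (l (nat_lit 1) (nat_lit 313) (nat_lit 317))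 (l (nat_lit 1) (nat_lit 312) (nat_lit 315)))))) (l (nat_lit 3) (nat_lit 311) (nat_lit 311))))) (b (n (nat_lit 336) (b (b (n (nat_lit 361) (b (n (nat_lit 386) (b (l (nat_lit 5) (nat_lit 286) (nat_lit 311)) (l (nat_lit 5) (nat_lit 311) (nat_lit 411)))) (l (nat_lit 2) (nat_lit 335) (nat_lit 360)))) (n (nat_lit 335) (b (n (nat_lit 364) (b (l (nat_lit 0) (nat_lit 336) (nat_lit 365)) (l (nat_lit 0) (nat_lit 335) (nat_lit 363)))) (n (nat_lit 360) (b (l (nat_lit 2) (nat_lit 334) (nat_lit 359)) (l (nat_lit 2) (nat_lit 335) (nat_lit 361))))))) (n (nat_lit 335) (b (n (nat_lit 364) (b (l (nat_lit 0) (nat_lit 336) (nat_lit 365)) (l (nat_lit 0) (nat_lit 335) (nat_lit 363)))) (n (nat_lit 310) (b (l (nat_lit 3) (nat_lit 309) (nat_lit 309)) (l (nat_lit 3) (nat_lit 310) (nat_lit 311)))))))) (r (nat_lit 3))))))) (n (nat_lit 339) (b (b (b (r (nat_lit 3)) (r (nat_lit 2))) (b (n (nat_lit 262) (b (n (nat_lit 315) (b (n (nat_lit 336) (b (l (nat_lit 6) (nat_lit 261) (nat_lit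 361)) (l (nat_lit 1) (nat_lit 311) (nat_lit 314)))) (n (nat_lit 340) (b (n (nat_lit 366) (b (n (nat_lit 265) (b (n (nat_lit 341) (b (l (nat_lit 0) (nat_lit 338) (nat_lit 367)) (l (nat_lit 4) (nat_lit 265) (nat_lit 290)))) (n (nat_lit 263) (b (n (nat_lit 264) (b (n (nat_lit 266) (b (n (nat_lit 241) (b (l (nat_lit 1) (nat_lit 238) (nat_lit 242)) (l (nat_lit 1) (nat_lit 237) (nat_lit 240)))) (l (nat_lit 2) (nat_lit 262) (nat_lit 288)))) (l (nat_lit 2) (nat_lit 261) (nat_lit 286)))) (l (nat_lit 5) (nat_lit 237) (nat_lit 238)))))) (l (nat_lit 0) (nat_lit 337) (nat_lit 365)))) (l (nat_lit 1) (nat_lit 312) (nat_lit 316)))))) (l (nat_lit 4) (nat_lit 262) (nat_lit 363)))) (n (nat_lit 363) (b (n (nat_lit 314) (b (n (nat_lit 315) (b (n (nat_lit 316) (b (l (nat_lit 1) (nat_lit 312) (nat_lit 340)) (l (nat_lit 2) (nat_lit 313) (nat_lit 317)))) (l (nat_lit 1) (nat_lit 311) (nat_lit 336)))) (n (nat_lit 388) (b (n (nat_lit 289) (b (l (nat_lit 6) (nat_lit 288) (nat_lit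 364)) (l (nat_lit 6) (nat_lit 263) (nat_lit 264)))) (l (nat_lit 7) (nat_lit 312) (nat_lit 413)))))) (l (nat_lit 4) (nat_lit 262) (nat_lit 262)))))) (b (n (nat_lit 336) (b (n (nat_lit 340) (b (n (nat_lit 315) (b (l (nat_lit 1) (nat_lit 311) (nat_lit 314)) (l (nat_lit 1) (nat_lit 312) (nat_lit 316)))) (n (nat_lit 365) (b (l (nat_lit 0) (nat_lit 337) (nat_lit 366)) (l (nat_lit 0) (nat_lit 336) (nat_lit 364)))))) (n (nat_lit 361) (b (l (nat_lit 2) (nat_lit 335) (nat_lit 360)) (l (nat_lit 6) (nat_lit 261) (nat_lit 262)))))) (n (nat_lit 336) (b (b (n (nat_lit 335) (b (n (nat_lit 364) (b (l (nat_lit 0) (nat_lit 336) (nat_lit 365)) (l (nat_lit 0) (nat_lit 335) (nat_lit 363)))) (n (nat_lit 360) (b (l (nat_lit 2) (nat_lit 334) (nat_lit 359)) (l (nat_lit 2) (nat_lit 335) (nat_lit 361)))))) (n (nat_lit 363) (b (n (nat_lit 364) (b (l (nat_lit 0) (nat_lit 336) (nat_lit 365)) (l (nat_lit 0) (nat_lit 335) (nat_lit 335)))) (l (nat_lit 4) (nat_lit 262) (nat_lit 262)))))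 (n (nat_lit 361) (b (l (nat_lit 2) (nat_lit 335) (nat_lit 360)) (l (nat_lit 6) (nat_lit 261) (nat_lit 262)))))))))))
    (envOK_cons p8349 (envOK_cons p7548 (envOK_cons p8391 (envOK_cons p8328 envOK_nil)))) (by decide +kernel)

theorem p8587 : Fam (nat_lit 9) (nat_lit 279968101115925134047353499319930152181142708231565782546248918899963984685054368582985341452834308096) (nat_lit 18509567677755347986847491964844380715405170859998642824581761462986007416932362922309114896452370866336667475965508616978432) (nat_lit 18509567677755347986847491964844380715405170859998642824581761462986007416932362922309114896452370866336667475965508616978432) :=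
  chk_sound Env.nil
    (n (nat_lit 336) (b (b (n (nat_lit 361) (b (n (nat_lit 386) (b (l (nat_lit 5) (nat_lit 311) (nat_lit 411)) (l (nat_lit 6) (nat_lit 286) (nat_lit 362)))) (l (nat_lit 6) (nat_lit 261) (nat_lit 262)))) (n (nat_lit 262) (b (n (nat_lit 237) (b (n (nat_lit 238) (b (l (nat_lit 5) (nat_lit 237) (nat_lit 263)) (l (nat_lit 5) (nat_lit 212) (nat_lit 213)))) (l (nat_lit 6) (nat_lit 236) (nat_lit 311)))) (l (nat_lit 6) (nat_lit 261) (nat_lit 361))))) (b (n (nat_lit 338) (b (b (n (nat_lit 335) (b (b (b (n (nat_lit 310) (b (n (nat_lit 360) (b (n (nat_lit 386) (b (b (n (nat_lit 385) (b (n (nat_lit 311) (b (l (nat_lit 5) (nat_lit 285) (nat_lit 286)) (l (nat_lit 5) (nat_lit 310) (nat_lit 410)))) (l (nat_lit 4) (nat_lit 310) (nat_lit 411)))) (n (nat_lit 411) (b (l (nat_lit 7) (nat_lit 310) (nat_lit 361)) (l (nat_lit 4) (nat_lit 310) (nat_lit 385))))) (n (nat_lit 361) (b (l (nat_lit 4) (nat_lit 285) (nat_lit 285)) (l (nat_lit 5) (nat_lit 286)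 (nat_lit 311)))))) (l (nat_lit 2) (nat_lit 334) (nat_lit 359)))) (l (nat_lit 3) (nat_lit 309) (nat_lit 309)))) (n (nat_lit 334) (b (n (nat_lit 333) (b (n (nat_lit 358) (b (l (nat_lit 2) (nat_lit 333) (nat_lit 359)) (l (nat_lit 2) (nat_lit 332) (nat_lit 357)))) (l (nat_lit 1) (nat_lit 308) (nat_lit 311)))) (n (nat_lit 309) (b (l (nat_lit 3) (nat_lit 308) (nat_lit 308)) (l (nat_lit 3) (nat_lit 309) (nat_lit 310))))))) (b (n (nat_lit 334) (b (b (n (nat_lit 359) (b (l (nat_lit 2) (nat_lit 333) (nat_lit 358)) (l (nat_lit 2) (nat_lit 334) (nat_lit 360)))) (n (nat_lit 333) (b (n (nat_lit 332) (b (n (nat_lit 357) (b (l (nat_lit 2) (nat_lit 331) (nat_lit 356)) (l (nat_lit 2) (nat_lit 332) (nat_lit 358)))) (n (nat_lit 307) (b (l (nat_lit 3) (nat_lit 306) (nat_lit 306)) (l (nat_lit 3) (nat_lit 307) (nat_lit 308)))))) (l (nat_lit 1) (nat_lit 308) (nat_lit 311))))) (n (nat_lit 333) (b (n (nat_lit 332) (b (n (nat_lit 360) (b (l (nat_lit 2) (nat_lit 334) (nat_lit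 359)) (l (nat_lit 0) (nat_lit 332) (nat_lit 361)))) (n (nat_lit 307) (b (l (nat_lit 3) (nat_lit 306) (nat_lit 306)) (l (nat_lit 3) (nat_lit 307) (nat_lit 308)))))) (l (nat_lit 1) (nat_lit 308) (nat_lit 311)))))) (n (nat_lit 334) (b (n (nat_lit 359) (b (l (nat_lit 2) (nat_lit 333) (nat_lit 358)) (l (nat_lit 2) (nat_lit 334) (nat_lit 360)))) (n (nat_lit 309) (b (l (nat_lit 3) (nat_lit 308) (nat_lit 308)) (l (nat_lit 3) (nat_lit 309) (nat_lit 310)))))))) (n (nat_lit 361) (b (b (n (nat_lit 386) (b (l (nat_lit 5) (nat_lit 286) (nat_lit 311)) (l (nat_lit 5) (nat_lit 311) (nat_lit 411)))) (n (nat_lit 310) (b (n (nat_lit 386) (b (n (nat_lit 285) (b (l (nat_lit 4) (nat_lit 285) (nat_lit 360)) (l (nat_lit 4) (nat_lit 260) (nat_lit 260)))) (l (nat_lit 7) (nat_lit 310) (nat_lit 411)))) (l (nat_lit 3) (nat_lit 309) (nat_lit 309))))) (n (nat_lit 334) (b (n (nat_lit 309) (b (l (nat_lit 3) (nat_lit 308) (nat_lit 308)) (l (nat_lit 3) (nat_lit 309) (nat_lit 310))))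 (n (nat_lit 333) (b (n (nat_lit 332) (b (n (nat_lit 357) (b (l (nat_lit 2) (nat_lit 331) (nat_lit 356)) (l (nat_lit 2) (nat_lit 332) (nat_lit 358)))) (l (nat_lit 0) (nat_lit 332) (nat_lit 360)))) (l (nat_lit 1) (nat_lit 308) (nat_lit 311)))))))))) (n (nat_lit 339) (b (b (n (nat_lit 335) (b (n (nat_lit 364) (b (l (nat_lit 0) (nat_lit 336) (nat_lit 365)) (l (nat_lit 0) (nat_lit 335) (nat_lit 363)))) (n (nat_lit 360) (b (l (nat_lit 2) (nat_lit 334) (nat_lit 359)) (l (nat_lit 2) (nat_lit 335) (nat_lit 361)))))) (n (nat_lit 340) (b (n (nat_lit 361) (b (l (nat_lit 2) (nat_lit 336) (nat_lit 362)) (l (nat_lit 2) (nat_lit 335) (nat_lit 360)))) (n (nat_lit 315) (b (l (nat_lit 1) (nat_lit 311) (nat_lit 314)) (l (nat_lit 1) (nat_lit 312) (nat_lit 316))))))) (n (nat_lit 340) (b (n (nat_lit 315) (b (l (nat_lit 1) (nat_lit 311) (nat_lit 314)) (l (nat_lit 1) (nat_lit 312) (nat_lit 316)))) (n (nat_lit 365) (b (l (nat_lit 0) (nat_lit 337) (nat_lit 366)) (l (nat_lit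 0) (nat_lit 336) (nat_lit 364))))))))) (b (n (nat_lit 339) (b (n (nat_lit 340) (b (n (nat_lit 315) (b (l (nat_lit 1) (nat_lit 311) (nat_lit 314)) (l (nat_lit 1) (nat_lit 312) (nat_lit 316)))) (n (nat_lit 365) (b (l (nat_lit 0) (nat_lit 337) (nat_lit 366)) (l (nat_lit 0) (nat_lit 336) (nat_lit 364)))))) (n (nat_lit 311) (b (n (nat_lit 361) (b (l (nat_lit 5) (nat_lit 286) (nat_lit 386)) (l (nat_lit 2) (nat_lit 335) (nat_lit 360)))) (l (nat_lit 3) (nat_lit 310) (nat_lit 310)))))) (n (nat_lit 339) (b (b (n (nat_lit 340) (b (n (nat_lit 315) (b (l (nat_lit 1) (nat_lit 311) (nat_lit 314)) (l (nat_lit 1) (nat_lit 312) (nat_lit 316)))) (n (nat_lit 365) (b (l (nat_lit 0) (nat_lit 337) (nat_lit 366)) (l (nat_lit 0) (nat_lit 336) (nat_lit 364)))))) (n (nat_lit 335) (b (n (nat_lit 364) (b (l (nat_lit 0) (nat_lit 336) (nat_lit 365)) (l (nat_lit 0) (nat_lit 335) (nat_lit 363)))) (n (nat_lit 310) (b (l (nat_lit 3) (nat_lit 309) (nat_lit 309)) (l (nat_lit 3) (nat_lit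 310) (nat_lit 311))))))) (n (nat_lit 311) (b (l (nat_lit 3) (nat_lit 311) (nat_lit 340)) (l (nat_lit 3) (nat_lit 310) (nat_lit 310))))))))) (n (nat_lit 338) (b (b (n (nat_lit 335) (b (n (nat_lit 334) (b (n (nat_lit 359) (b (l (nat_lit 2) (nat_lit 333) (nat_lit 358)) (l (nat_lit 2) (nat_lit 334) (nat_lit 360)))) (n (nat_lit 309) (b (l (nat_lit 3) (nat_lit 308) (nat_lit 308)) (l (nat_lit 3) (nat_lit 309) (nat_lit 310)))))) (n (nat_lit 363) (b (l (nat_lit 4) (nat_lit 262) (nat_lit 262)) (l (nat_lit 0) (nat_lit 335) (nat_lit 364)))))) (n (nat_lit 262) (b (n (nat_lit 237) (b (n (nat_lit 238) (b (l (nat_lit 5) (nat_lit 237) (nat_lit 263)) (l (nat_lit 5) (nat_lit 212) (nat_lit 213)))) (l (nat_lit 6) (nat_lit 236) (nat_lit 311)))) (l (nat_lit 4) (nat_lit 262) (nat_lit 363))))) (b (n (nat_lit 339) (b (b (n (nat_lit 340) (b (n (nat_lit 315) (b (l (nat_lit 1) (nat_lit 311) (nat_lit 314)) (l (nat_lit 1) (nat_lit 312) (nat_lit 316)))) (n (nat_lit 365) (b (l (nat_lit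 0) (nat_lit 337) (nat_lit 366)) (l (nat_lit 0) (nat_lit 336) (nat_lit 364)))))) (n (nat_lit 335) (b (n (nat_lit 364) (b (l (nat_lit 0) (nat_lit 336) (nat_lit 365)) (l (nat_lit 0) (nat_lit 335) (nat_lit 363)))) (n (nat_lit 310) (b (l (nat_lit 3) (nat_lit 309) (nat_lit 309)) (l (nat_lit 3) (nat_lit 310) (nat_lit 311))))))) (n (nat_lit 311) (b (l (nat_lit 3) (nat_lit 311) (nat_lit 340)) (l (nat_lit 3) (nat_lit 310) (nat_lit 310)))))) (n (nat_lit 339) (b (n (nat_lit 340) (b (n (nat_lit 315) (b (l (nat_lit 1) (nat_lit 311) (nat_lit 314)) (l (nat_lit 1) (nat_lit 312) (nat_lit 316)))) (n (nat_lit 365) (b (l (nat_lit 0) (nat_lit 337) (nat_lit 366)) (l (nat_lit 0) (nat_lit 336) (nat_lit 364)))))) (n (nat_lit 311) (b (n (nat_lit 362) (b (n (nat_lit 262) (b (n (nat_lit 263) (b (l (nat_lit 5) (nat_lit 237) (nat_lit 238)) (l (nat_lit 5) (nat_lit 262) (nat_lit 288)))) (l (nat_lit 6) (nat_lit 236) (nat_lit 237)))) (n (nat_lit 387) (b (l (nat_lit 7) (nat_lit 311)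 (nat_lit 412)) (l (nat_lit 7) (nat_lit 286) (nat_lit 286)))))) (l (nat_lit 3) (nat_lit 310) (nat_lit 310))))))))))))
    envOK_nil (by decide +kernel)

theorem p8648 : Fam (nat_lit 5) (nat_lit 9394171380975680807403646085958417125960985565154606311571133370498727177235873389555239140825399783193575424) (nat_lit 591832739747993152569891624890302243860184343414939709239059799219345131736606172054398406830879423347216613376) (nat_lit 591832739747993152569891624890302243860184343414939709239059799219345131736606172054398406830879423347216613376) :=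
  chk_sound Env.nil
    (n (nat_lit 339) (b (b (n (nat_lit 364) (b (l (nat_lit 0) (nat_lit 336) (nat_lit 365)) (l (nat_lit 0) (nat_lit 335) (nat_lit 363)))) (n (nat_lit 340) (b (n (nat_lit 341) (b (n (nat_lit 366) (b (l (nat_lit 0) (nat_lit 337) (nat_lit 365)) (l (nat_lit 0) (nat_lit 338) (nat_lit 367)))) (l (nat_lit 2) (nat_lit 337) (nat_lit 363)))) (n (nat_lit 315) (b (l (nat_lit 1) (nat_lit 311) (nat_lit 314)) (l (nat_lit 1) (nat_lit 312) (nat_lit 316))))))) (b (n (nat_lit 340) (b (n (nat_lit 315) (b (l (nat_lit 1) (nat_lit 311) (nat_lit 314)) (l (nat_lit 1) (nat_lit 312) (nat_lit 316)))) (n (nat_lit 363) (b (l (nat_lit 0) (nat_lit 335) (nat_lit 364)) (l (nat_lit 2) (nat_lit 337) (nat_lit 341)))))) (n (nat_lit 340) (b (n (nat_lit 315) (b (l (nat_lit 1) (nat_lit 311) (nat_lit 314)) (l (nat_lit 1) (nat_lit 312) (nat_lit 316)))) (n (nat_lit 365) (b (l (nat_lit 0) (nat_lit 337) (nat_lit 366)) (l (nat_lit 0) (nat_lit 336) (nat_lit 364)))))))))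
    envOK_nil (by decide +kernel)

theorem p8662 : Fam (nat_lit 9) (nat_lit 9394170751047480413595570932732785071639572068254757881140492135551675136800690175680777083080753327749726208) (nat_lit 576715316208809145530457301033552023607205243484872930863891470981300953846202044562268920126838888168170149247344678170124099780608) (nat_lit 576715316208809145530457301033552023607205243484872930863891470981300953846202044562268920126838888168170149247344678170124099780608) :=
  chk_sound (Env.cons (nat_lit 5) (nat_lit 9394171380975680807403646085958417125960985565154606311571133370498727177235873389555239140825399783193575424) (nat_lit 591832739747993152569891624890302243860184343414939709239059799219345131736606172054398406830879423347216613376) Env.nil)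
    (n (nat_lit 335) (b (b (n (nat_lit 334) (b (n (nat_lit 333) (b (n (nat_lit 358) (b (l (nat_lit 2) (nat_lit 333) (nat_lit 359)) (l (nat_lit 2) (nat_lit 332) (nat_lit 357)))) (l (nat_lit 1) (nat_lit 308) (nat_lit 311)))) (l (nat_lit 0) (nat_lit 334) (nat_lit 363)))) (n (nat_lit 334) (b (b (n (nat_lit 338) (b (n (nat_lit 309) (b (l (nat_lit 3) (nat_lit 308) (nat_lit 308)) (l (nat_lit 3) (nat_lit 309) (nat_lit 310)))) (n (nat_lit 359) (b (l (nat_lit 2) (nat_lit 333) (nat_lit 358)) (l (nat_lit 2) (nat_lit 334) (nat_lit 360)))))) (n (nat_lit 333) (b (n (nat_lit 308) (b (l (nat_lit 3) (nat_lit 308) (nat_lit 309)) (l (nat_lit 3) (nat_lit 307) (nat_lit 307)))) (l (nat_lit 1) (nat_lit 308) (nat_lit 311))))) (n (nat_lit 333) (b (n (nat_lit 358) (b (l (nat_lit 2) (nat_lit 333) (nat_lit 359)) (l (nat_lit 2) (nat_lit 332) (nat_lit 357)))) (l (nat_lit 1) (nat_lit 308) (nat_lit 311))))))) (b (n (nat_lit 363) (b (n (nat_lit 364) (b (l (nat_lit 0) (nat_lit 335)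 (nat_lit 338)) (l (nat_lit 3) (nat_lit 336) (nat_lit 365)))) (l (nat_lit 0) (nat_lit 334) (nat_lit 334)))) (n (nat_lit 338) (b (b (n (nat_lit 339) (b (n (nat_lit 340) (b (n (nat_lit 315) (b (l (nat_lit 1) (nat_lit 311) (nat_lit 314)) (l (nat_lit 1) (nat_lit 312) (nat_lit 316)))) (n (nat_lit 365) (b (l (nat_lit 0) (nat_lit 337) (nat_lit 366)) (l (nat_lit 0) (nat_lit 336) (nat_lit 364)))))) (n (nat_lit 310) (b (l (nat_lit 3) (nat_lit 309) (nat_lit 309)) (l (nat_lit 3) (nat_lit 310) (nat_lit 311)))))) (r (nat_lit 0))) (b (n (nat_lit 360) (b (n (nat_lit 310) (b (n (nat_lit 385) (b (b (n (nat_lit 410) (b (n (nat_lit 411) (b (l (nat_lit 4) (nat_lit 335) (nat_lit 436)) (l (nat_lit 4) (nat_lit 310) (nat_lit 386)))) (l (nat_lit 5) (nat_lit 310) (nat_lit 311)))) (n (nat_lit 363) (b (n (nat_lit 387) (b (n (nat_lit 412) (b (l (nat_lit 5) (nat_lit 337) (nat_lit 437)) (l (nat_lit 7) (nat_lit 311) (nat_lit 311)))) (n (nat_lit 384) (b (l (nat_lit 1) (nat_lit 359)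 (nat_lit 386)) (l (nat_lit 6) (nat_lit 309) (nat_lit 409)))))) (l (nat_lit 0) (nat_lit 335) (nat_lit 364))))) (b (n (nat_lit 410) (b (n (nat_lit 409) (b (l (nat_lit 6) (nat_lit 334) (nat_lit 434)) (l (nat_lit 6) (nat_lit 309) (nat_lit 384)))) (l (nat_lit 5) (nat_lit 310) (nat_lit 311)))) (n (nat_lit 410) (b (n (nat_lit 411) (b (l (nat_lit 4) (nat_lit 335) (nat_lit 436)) (l (nat_lit 4) (nat_lit 310) (nat_lit 386)))) (n (nat_lit 409) (b (l (nat_lit 6) (nat_lit 334) (nat_lit 434)) (l (nat_lit 6) (nat_lit 309) (nat_lit 384))))))))) (l (nat_lit 3) (nat_lit 309) (nat_lit 309)))) (l (nat_lit 2) (nat_lit 334) (nat_lit 359)))) (n (nat_lit 310) (b (n (nat_lit 339) (b (n (nat_lit 340) (b (n (nat_lit 341) (b (n (nat_lit 366) (b (l (nat_lit 0) (nat_lit 337) (nat_lit 365)) (l (nat_lit 0) (nat_lit 338) (nat_lit 367)))) (l (nat_lit 2) (nat_lit 337) (nat_lit 363)))) (n (nat_lit 315) (b (l (nat_lit 1) (nat_lit 311) (nat_lit 314)) (l (nat_lit 1) (nat_lit 312) (nat_lit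 316)))))) (l (nat_lit 3) (nat_lit 310) (nat_lit 311)))) (l (nat_lit 3) (nat_lit 309) (nat_lit 309))))))))))
    (envOK_cons p8648 envOK_nil) (by decide +kernel)

theorem p8682 : Fam (nat_lit 10) (nat_lit 9394170611063434027483056434510847429432882376775987714394946432377755000422418458909164576524416264962048000) (nat_lit 7442829202227760979900296829744418443077537317065146634608076772250410148557968423997804291875326966805979813321431431583832611570053021696) (nat_lit 7442829202227760979900296829744418443077537317065146634608076772250410148557968423997804291875326966805979813321431431583832611570053021696) :=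
  chk_sound (Env.cons (nat_lit 9) (nat_lit 9394170751047480413595570932732785071639572068254757881140492135551675136800690175680777083080753327749726208) (nat_lit 576715316208809145530457301033552023607205243484872930863891470981300953846202044562268920126838888168170149247344678170124099780608) (Env.cons (nat_lit 5) (nat_lit 9394171380975680807403646085958417125960985565154606311571133370498727177235873389555239140825399783193575424) (nat_lit 591832739747993152569891624890302243860184343414939709239059799219345131736606172054398406830879423347216613376) Env.nil))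
    (n (nat_lit 336) (b (b (n (nat_lit 335) (b (b (n (nat_lit 334) (b (n (nat_lit 333) (b (n (nat_lit 358) (b (l (nat_lit 2) (nat_lit 333) (nat_lit 359)) (l (nat_lit 2) (nat_lit 332) (nat_lit 357)))) (l (nat_lit 1) (nat_lit 308) (nat_lit 311)))) (l (nat_lit 0) (nat_lit 334) (nat_lit 363)))) (n (nat_lit 334) (b (b (n (nat_lit 338) (b (n (nat_lit 309) (b (l (nat_lit 3) (nat_lit 308) (nat_lit 308)) (l (nat_lit 3) (nat_lit 309) (nat_lit 310)))) (n (nat_lit 359) (b (l (nat_lit 2) (nat_lit 333) (nat_lit 358)) (l (nat_lit 2) (nat_lit 334) (nat_lit 360)))))) (n (nat_lit 333) (b (n (nat_lit 308) (b (l (nat_lit 3) (nat_lit 308) (nat_lit 309)) (l (nat_lit 3) (nat_lit 307) (nat_lit 307)))) (l (nat_lit 1) (nat_lit 308) (nat_lit 311))))) (n (nat_lit 333) (b (n (nat_lit 358) (b (l (nat_lit 2) (nat_lit 333) (nat_lit 359)) (l (nat_lit 2) (nat_lit 332) (nat_lit 357)))) (l (nat_lit 1) (nat_lit 308) (nat_lit 311))))))) (b (n (nat_lit 363) (b (n (nat_lit 364) (b (l (nat_lit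 0) (nat_lit 335) (nat_lit 338)) (l (nat_lit 3) (nat_lit 336) (nat_lit 365)))) (l (nat_lit 0) (nat_lit 334) (nat_lit 334)))) (n (nat_lit 363) (b (b (n (nat_lit 364) (b (l (nat_lit 0) (nat_lit 335) (nat_lit 338)) (l (nat_lit 3) (nat_lit 336) (nat_lit 365)))) (n (nat_lit 364) (b (l (nat_lit 3) (nat_lit 335) (nat_lit 361)) (l (nat_lit 3) (nat_lit 336) (nat_lit 365))))) (n (nat_lit 288) (b (n (nat_lit 360) (b (b (n (nat_lit 359) (b (n (nat_lit 358) (b (l (nat_lit 1) (nat_lit 333) (nat_lit 361)) (l (nat_lit 1) (nat_lit 332) (nat_lit 357)))) (l (nat_lit 2) (nat_lit 334) (nat_lit 338)))) (n (nat_lit 385) (b (b (n (nat_lit 410) (b (n (nat_lit 361) (b (l (nat_lit 5) (nat_lit 335) (nat_lit 435)) (l (nat_lit 2) (nat_lit 359) (nat_lit 384)))) (l (nat_lit 5) (nat_lit 310) (nat_lit 311)))) (n (nat_lit 310) (b (n (nat_lit 309) (b (l (nat_lit 3) (nat_lit 309) (nat_lit 338)) (l (nat_lit 7) (nat_lit 284) (nat_lit 284)))) (n (nat_lit 384) (b (l (nat_lit 6) (nat_lit 309)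 (nat_lit 409)) (l (nat_lit 2) (nat_lit 359) (nat_lit 361))))))) (b (n (nat_lit 410) (b (n (nat_lit 310) (b (n (nat_lit 309) (b (l (nat_lit 3) (nat_lit 309) (nat_lit 338)) (l (nat_lit 7) (nat_lit 284) (nat_lit 284)))) (n (nat_lit 409) (b (l (nat_lit 6) (nat_lit 334) (nat_lit 434)) (l (nat_lit 6) (nat_lit 309) (nat_lit 384)))))) (l (nat_lit 5) (nat_lit 310) (nat_lit 311)))) (n (nat_lit 410) (b (n (nat_lit 435) (b (n (nat_lit 434) (b (l (nat_lit 6) (nat_lit 334) (nat_lit 409)) (l (nat_lit 6) (nat_lit 359) (nat_lit 459)))) (l (nat_lit 5) (nat_lit 335) (nat_lit 361)))) (l (nat_lit 5) (nat_lit 310) (nat_lit 311)))))))) (b (n (nat_lit 385) (b (b (b (n (nat_lit 410) (b (n (nat_lit 435) (b (n (nat_lit 434) (b (l (nat_lit 6) (nat_lit 334) (nat_lit 409)) (l (nat_lit 6) (nat_lit 359) (nat_lit 459)))) (l (nat_lit 5) (nat_lit 335) (nat_lit 361)))) (l (nat_lit 5) (nat_lit 310) (nat_lit 311)))) (n (nat_lit 310) (b (n (nat_lit 309) (b (l (nat_lit 1) (nat_lit 284)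 (nat_lit 311)) (l (nat_lit 7) (nat_lit 284) (nat_lit 284)))) (n (nat_lit 384) (b (l (nat_lit 6) (nat_lit 309) (nat_lit 409)) (l (nat_lit 2) (nat_lit 359) (nat_lit 361))))))) (b (n (nat_lit 410) (b (n (nat_lit 361) (b (l (nat_lit 5) (nat_lit 335) (nat_lit 435)) (l (nat_lit 2) (nat_lit 359) (nat_lit 384)))) (l (nat_lit 5) (nat_lit 310) (nat_lit 311)))) (n (nat_lit 310) (b (b (n (nat_lit 285) (b (n (nat_lit 284) (b (l (nat_lit 7) (nat_lit 284) (nat_lit 309)) (l (nat_lit 7) (nat_lit 259) (nat_lit 259)))) (n (nat_lit 384) (b (l (nat_lit 6) (nat_lit 284) (nat_lit 359)) (l (nat_lit 6) (nat_lit 309) (nat_lit 409)))))) (n (nat_lit 410) (b (n (nat_lit 409) (b (l (nat_lit 6) (nat_lit 334) (nat_lit 434)) (l (nat_lit 6) (nat_lit 309) (nat_lit 384)))) (l (nat_lit 5) (nat_lit 310) (nat_lit 311))))) (n (nat_lit 309) (b (l (nat_lit 1) (nat_lit 284) (nat_lit 311)) (l (nat_lit 7) (nat_lit 284) (nat_lit 284)))))))) (n (nat_lit 384) (b (n (nat_lit 409) (b (n (nat_lit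 434) (b (l (nat_lit 5) (nat_lit 334) (nat_lit 359)) (l (nat_lit 6) (nat_lit 334) (nat_lit 410)))) (l (nat_lit 6) (nat_lit 309) (nat_lit 310)))) (l (nat_lit 2) (nat_lit 359) (nat_lit 361)))))) (n (nat_lit 338) (b (n (nat_lit 339) (b (n (nat_lit 340) (b (n (nat_lit 315) (b (l (nat_lit 1) (nat_lit 311) (nat_lit 314)) (l (nat_lit 1) (nat_lit 312) (nat_lit 316)))) (l (nat_lit 2) (nat_lit 337) (nat_lit 341)))) (n (nat_lit 310) (b (l (nat_lit 3) (nat_lit 309) (nat_lit 309)) (l (nat_lit 3) (nat_lit 310) (nat_lit 311)))))) (l (nat_lit 2) (nat_lit 334) (nat_lit 359))))))) (l (nat_lit 5) (nat_lit 262) (nat_lit 263))))))))) (r (nat_lit 0))) (b (n (nat_lit 387) (b (b (n (nat_lit 386) (b (l (nat_lit 6) (nat_lit 311) (nat_lit 411)) (l (nat_lit 6) (nat_lit 286) (nat_lit 361)))) (n (nat_lit 361) (b (n (nat_lit 412) (b (l (nat_lit 7) (nat_lit 336) (nat_lit 437)) (l (nat_lit 7) (nat_lit 311) (nat_lit 311)))) (l (nat_lit 6) (nat_lit 286) (nat_lit 386))))) (b (n (nat_lit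 412) (b (n (nat_lit 411) (b (l (nat_lit 6) (nat_lit 336) (nat_lit 436)) (l (nat_lit 6) (nat_lit 311) (nat_lit 386)))) (l (nat_lit 7) (nat_lit 311) (nat_lit 311)))) (n (nat_lit 412) (b (n (nat_lit 437) (b (n (nat_lit 436) (b (l (nat_lit 6) (nat_lit 361) (nat_lit 461)) (l (nat_lit 6) (nat_lit 336) (nat_lit 411)))) (l (nat_lit 7) (nat_lit 336) (nat_lit 361)))) (l (nat_lit 7) (nat_lit 311) (nat_lit 311))))))) (n (nat_lit 335) (b (b (n (nat_lit 334) (b (n (nat_lit 361) (b (l (nat_lit 6) (nat_lit 286) (nat_lit 386)) (l (nat_lit 0) (nat_lit 333) (nat_lit 333)))) (l (nat_lit 0) (nat_lit 334) (nat_lit 363)))) (n (nat_lit 338) (b (b (n (nat_lit 334) (b (n (nat_lit 359) (b (l (nat_lit 2) (nat_lit 333) (nat_lit 358)) (l (nat_lit 2) (nat_lit 334) (nat_lit 360)))) (n (nat_lit 309) (b (l (nat_lit 3) (nat_lit 308) (nat_lit 308)) (l (nat_lit 3) (nat_lit 309) (nat_lit 310)))))) (n (nat_lit 361) (b (n (nat_lit 339) (b (l (nat_lit 2) (nat_lit 336) (nat_lit 340)) (l (nat_lit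 2) (nat_lit 335) (nat_lit 360)))) (l (nat_lit 6) (nat_lit 286) (nat_lit 386))))) (n (nat_lit 334) (b (n (nat_lit 361) (b (l (nat_lit 6) (nat_lit 286) (nat_lit 386)) (l (nat_lit 0) (nat_lit 333) (nat_lit 333)))) (n (nat_lit 309) (b (l (nat_lit 3) (nat_lit 308) (nat_lit 308)) (l (nat_lit 3) (nat_lit 309) (nat_lit 310))))))))) (b (n (nat_lit 363) (b (n (nat_lit 364) (b (l (nat_lit 0) (nat_lit 335) (nat_lit 338)) (l (nat_lit 3) (nat_lit 336) (nat_lit 365)))) (l (nat_lit 0) (nat_lit 334) (nat_lit 334)))) (n (nat_lit 360) (b (n (nat_lit 338) (b (r (nat_lit 1)) (l (nat_lit 2) (nat_lit 334) (nat_lit 359)))) (n (nat_lit 386) (b (n (nat_lit 411) (b (n (nat_lit 385) (b (n (nat_lit 436) (b (l (nat_lit 4) (nat_lit 335) (nat_lit 410)) (l (nat_lit 7) (nat_lit 360) (nat_lit 461)))) (l (nat_lit 4) (nat_lit 310) (nat_lit 310)))) (l (nat_lit 6) (nat_lit 311) (nat_lit 387)))) (l (nat_lit 6) (nat_lit 286) (nat_lit 361))))))))))))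
    (envOK_cons p8662 (envOK_cons p8648 envOK_nil)) (by decide +kernel)

theorem p8695 : Fam (nat_lit 15) (nat_lit 8343699607727673214248874617415937021077234590683750281279490000787534250410375654793883418624) (nat_lit 31259881251931155554928203199134997192792374109927936029373373614751787063471486513946781613760489102468109121358738165447126635519055757312) (nat_lit 31259881251931155554928203199134997192792374109927936029373373614751787063471486513946781613760489102468109121358738165447126635519055757312) :=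
  chk_sound (Env.cons (nat_lit 11) (nat_lit 279968101115925134047353499319930152181142708231565782546248918899963984685054368582985341452834308096) (nat_lit 26442258767829389991397702426244853265884687900736419174026569651194842794809750381891216160813856708441676446092445488250880) (Env.cons (nat_lit 12) (nat_lit 279968101115925134047353499319930152181142708231565782546248918899963984685054368582985341452834308096) (nat_lit 153364989329972788664938542124393758662454001862904291779254785688414493285426249404424608616068355247471204952343941832769536) (Env.cons (nat_lit 9) (nat_lit 279968101115925134047353499319930152181142708231565782546248918899963984685054368582985341452834308096) (nat_lit 18509567677755347986847491964844380715405170859998642824581761462986007416932362922309114896452370866336667475965508616978432) (Env.cons (nat_lit 5) (nat_lit 9394170611063434027483056434510847429432882376775987714394946432377755000422418458909164576524416264962048000)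 (nat_lit 177450876289075874803087421880208088607266738017457841284784216801857624403325446592737484605557554301072134894488873866160815210496) (Env.cons (nat_lit 7) (nat_lit 279968101115925134047353499319930152181142708231565782546248918899963984685054368582985341452834308096) (nat_lit 26442239539650217605560292892248846548383685772123245804320920171885490245615528655242358014583884891255885470027001695830016) (Env.cons (nat_lit 5) (nat_lit 279968101115925134047360910013641340417649816774606338572351528178982585681152893868361847893131264000) (nat_lit 419952151673888198394288890848333516035812493409959080429714748387526084211127522542295587743462326272) (Env.cons (nat_lit 5) (nat_lit 279968101115925134047353499319930152181142708231565782546248918899963984685054368582985341452834308096) (nat_lit 177450897442867506523146427734411336485097348162650388652590139203872493525610474240721391647487596266893799909252431492147589414912) (Env.cons (nat_lit 10)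 (nat_lit 9394170611063434027483056434510847429432882376775987714394946432377755000422418458909164576524416264962048000) (nat_lit 7442829202227760979900296829744418443077537317065146634608076772250410148557968423997804291875326966805979813321431431583832611570053021696) (Env.cons (nat_lit 5) (nat_lit 9394170611063434027483056434510847429432882376775987714394946432377755000422418458909164576524416264962048000) (nat_lit 5954264071585671632640473235457219250118317965616578190361538789207990921134141548614446717535182129384906055713252806661043994077926785024) Env.nil)))))))))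
    (n (nat_lit 337) (b (b (b (b (r (nat_lit 0)) (n (nat_lit 263) (b (b (n (nat_lit 362) (b (n (nat_lit 387) (b (n (nat_lit 412) (b (n (nat_lit 311) (b (l (nat_lit 7) (nat_lit 286) (nat_lit 286)) (l (nat_lit 7) (nat_lit 311) (nat_lit 336)))) (n (nat_lit 413) (b (l (nat_lit 4) (nat_lit 337) (nat_lit 438)) (l (nat_lit 4) (nat_lit 312) (nat_lit 388)))))) (n (nat_lit 386) (b (l (nat_lit 6) (nat_lit 311) (nat_lit 411)) (l (nat_lit 6) (nat_lit 286) (nat_lit 361)))))) (l (nat_lit 5) (nat_lit 262) (nat_lit 288)))) (n (nat_lit 238) (b (n (nat_lit 288) (b (l (nat_lit 5) (nat_lit 262) (nat_lit 362)) (l (nat_lit 6) (nat_lit 212) (nat_lit 213)))) (l (nat_lit 5) (nat_lit 237) (nat_lit 262))))) (b (n (nat_lit 262) (b (n (nat_lit 336) (b (n (nat_lit 237) (b (n (nat_lit 212) (b (n (nat_lit 187) (b (n (nat_lit 188) (b (l (nat_lit 5) (nat_lit 187) (nat_lit 213)) (l (nat_lit 5) (nat_lit 162) (nat_lit 163)))) (l (nat_lit 4) (nat_lit 187) (nat_lit 288)))) (n (nat_lit 211)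 (b (l (nat_lit 7) (nat_lit 211) (nat_lit 236)) (l (nat_lit 7) (nat_lit 186) (nat_lit 186)))))) (l (nat_lit 6) (nat_lit 236) (nat_lit 311)))) (l (nat_lit 6) (nat_lit 261) (nat_lit 361)))) (l (nat_lit 5) (nat_lit 237) (nat_lit 238)))) (n (nat_lit 262) (b (n (nat_lit 336) (b (n (nat_lit 311) (b (n (nat_lit 309) (b (b (n (nat_lit 334) (b (b (n (nat_lit 335) (b (n (nat_lit 359) (b (n (nat_lit 360) (b (n (nat_lit 284) (b (l (nat_lit 4) (nat_lit 284) (nat_lit 385)) (l (nat_lit 4) (nat_lit 259) (nat_lit 259)))) (l (nat_lit 2) (nat_lit 334) (nat_lit 338)))) (l (nat_lit 2) (nat_lit 333) (nat_lit 358)))) (l (nat_lit 3) (nat_lit 308) (nat_lit 308)))) (n (nat_lit 335) (b (n (nat_lit 359) (b (n (nat_lit 360) (b (n (nat_lit 284) (b (l (nat_lit 4) (nat_lit 284) (nat_lit 385)) (l (nat_lit 4) (nat_lit 259) (nat_lit 259)))) (l (nat_lit 2) (nat_lit 334) (nat_lit 338)))) (l (nat_lit 2) (nat_lit 333) (nat_lit 358)))) (l (nat_lit 1) (nat_lit 308) (nat_lit 333))))) (b (n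 (nat_lit 335) (b (l (nat_lit 3) (nat_lit 308) (nat_lit 308)) (l (nat_lit 1) (nat_lit 308) (nat_lit 333)))) (n (nat_lit 359) (b (b (b (n (nat_lit 284) (b (n (nat_lit 384) (b (n (nat_lit 385) (b (l (nat_lit 4) (nat_lit 309) (nat_lit 410)) (l (nat_lit 4) (nat_lit 284) (nat_lit 360)))) (n (nat_lit 283) (b (l (nat_lit 7) (nat_lit 283) (nat_lit 308)) (l (nat_lit 7) (nat_lit 258) (nat_lit 258)))))) (n (nat_lit 285) (b (l (nat_lit 1) (nat_lit 259) (nat_lit 286)) (l (nat_lit 5) (nat_lit 259) (nat_lit 260)))))) (n (nat_lit 284) (b (b (n (nat_lit 384) (b (n (nat_lit 383) (b (l (nat_lit 6) (nat_lit 283) (nat_lit 358)) (l (nat_lit 6) (nat_lit 308) (nat_lit 408)))) (n (nat_lit 385) (b (l (nat_lit 4) (nat_lit 309) (nat_lit 410)) (l (nat_lit 4) (nat_lit 284) (nat_lit 360)))))) (n (nat_lit 259) (b (n (nat_lit 258) (b (l (nat_lit 7) (nat_lit 233) (nat_lit 233)) (l (nat_lit 7) (nat_lit 258) (nat_lit 283)))) (n (nat_lit 358) (b (l (nat_lit 6) (nat_lit 258) (nat_lit 333))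 (l (nat_lit 6) (nat_lit 283) (nat_lit 383))))))) (n (nat_lit 384) (b (n (nat_lit 385) (b (l (nat_lit 4) (nat_lit 309) (nat_lit 410)) (l (nat_lit 4) (nat_lit 284) (nat_lit 360)))) (n (nat_lit 283) (b (l (nat_lit 7) (nat_lit 283) (nat_lit 308)) (l (nat_lit 7) (nat_lit 258) (nat_lit 258))))))))) (b (n (nat_lit 284) (b (n (nat_lit 259) (b (n (nat_lit 258) (b (l (nat_lit 7) (nat_lit 233) (nat_lit 233)) (l (nat_lit 7) (nat_lit 258) (nat_lit 283)))) (n (nat_lit 358) (b (l (nat_lit 6) (nat_lit 258) (nat_lit 333)) (l (nat_lit 6) (nat_lit 283) (nat_lit 383)))))) (n (nat_lit 285) (b (l (nat_lit 1) (nat_lit 259) (nat_lit 286)) (l (nat_lit 5) (nat_lit 259) (nat_lit 260)))))) (n (nat_lit 284) (b (n (nat_lit 384) (b (n (nat_lit 383) (b (l (nat_lit 6) (nat_lit 283) (nat_lit 358)) (l (nat_lit 6) (nat_lit 308) (nat_lit 408)))) (n (nat_lit 385) (b (l (nat_lit 4) (nat_lit 309) (nat_lit 410)) (l (nat_lit 4) (nat_lit 284) (nat_lit 360)))))) (n (nat_lit 285) (b (l (nat_lit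 1) (nat_lit 259) (nat_lit 286)) (l (nat_lit 5) (nat_lit 259) (nat_lit 260)))))))) (n (nat_lit 384) (b (b (n (nat_lit 409) (b (n (nat_lit 408) (b (l (nat_lit 6) (nat_lit 308) (nat_lit 383)) (l (nat_lit 6) (nat_lit 333) (nat_lit 433)))) (n (nat_lit 308) (b (l (nat_lit 7) (nat_lit 308) (nat_lit 333)) (l (nat_lit 7) (nat_lit 283) (nat_lit 283)))))) (n (nat_lit 409) (b (n (nat_lit 308) (b (l (nat_lit 7) (nat_lit 308) (nat_lit 333)) (l (nat_lit 7) (nat_lit 283) (nat_lit 283)))) (n (nat_lit 410) (b (l (nat_lit 4) (nat_lit 334) (nat_lit 435)) (l (nat_lit 4) (nat_lit 309) (nat_lit 385))))))) (n (nat_lit 383) (b (n (nat_lit 385) (b (n (nat_lit 387) (b (b (n (nat_lit 362) (b (l (nat_lit 7) (nat_lit 286) (nat_lit 286)) (l (nat_lit 7) (nat_lit 311) (nat_lit 412)))) (n (nat_lit 386) (b (n (nat_lit 412) (b (l (nat_lit 0) (nat_lit 384) (nat_lit 413)) (l (nat_lit 0) (nat_lit 383) (nat_lit 411)))) (l (nat_lit 3) (nat_lit 358) (nat_lit 358))))) (n (nat_lit 362) (b (n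 (nat_lit 386) (b (l (nat_lit 6) (nat_lit 311) (nat_lit 411)) (l (nat_lit 3) (nat_lit 358) (nat_lit 358)))) (l (nat_lit 7) (nat_lit 286) (nat_lit 286)))))) (l (nat_lit 4) (nat_lit 309) (nat_lit 410)))) (l (nat_lit 6) (nat_lit 308) (nat_lit 408))))))))))) (n (nat_lit 334) (b (b (n (nat_lit 333) (b (l (nat_lit 2) (nat_lit 308) (nat_lit 310)) (l (nat_lit 1) (nat_lit 308) (nat_lit 335)))) (n (nat_lit 335) (b (l (nat_lit 3) (nat_lit 308) (nat_lit 308)) (l (nat_lit 1) (nat_lit 308) (nat_lit 333))))) (b (n (nat_lit 310) (b (l (nat_lit 2) (nat_lit 308) (nat_lit 333)) (l (nat_lit 0) (nat_lit 308) (nat_lit 308)))) (n (nat_lit 308) (b (l (nat_lit 3) (nat_lit 308) (nat_lit 335)) (l (nat_lit 0) (nat_lit 308) (nat_lit 310)))))))) (b (n (nat_lit 310) (b (l (nat_lit 0) (nat_lit 309) (nat_lit 338)) (l (nat_lit 0) (nat_lit 308) (nat_lit 308)))) (n (nat_lit 310) (b (n (nat_lit 334) (b (n (nat_lit 284) (b (n (nat_lit 285) (b (n (nat_lit 260) (b (l (nat_lit 5) (nat_lit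 259) (nat_lit 359)) (l (nat_lit 6) (nat_lit 234) (nat_lit 235)))) (l (nat_lit 1) (nat_lit 259) (nat_lit 286)))) (l (nat_lit 3) (nat_lit 283) (nat_lit 283)))) (l (nat_lit 2) (nat_lit 308) (nat_lit 333)))) (l (nat_lit 0) (nat_lit 309) (nat_lit 338))))))) (l (nat_lit 6) (nat_lit 236) (nat_lit 237)))) (l (nat_lit 6) (nat_lit 261) (nat_lit 361)))) (l (nat_lit 5) (nat_lit 237) (nat_lit 238)))))))) (b (r (nat_lit 1)) (r (nat_lit 2)))) (b (b (n (nat_lit 362) (b (b (r (nat_lit 3)) (n (nat_lit 387) (b (n (nat_lit 412) (b (n (nat_lit 311) (b (l (nat_lit 7) (nat_lit 286) (nat_lit 286)) (l (nat_lit 7) (nat_lit 311) (nat_lit 336)))) (n (nat_lit 411) (b (l (nat_lit 6) (nat_lit 336) (nat_lit 436)) (l (nat_lit 6) (nat_lit 311) (nat_lit 386)))))) (n (nat_lit 388) (b (l (nat_lit 4) (nat_lit 312) (nat_lit 413)) (l (nat_lit 4) (nat_lit 287) (nat_lit 363))))))) (b (n (nat_lit 262) (b (n (nat_lit 263) (b (l (nat_lit 5) (nat_lit 237) (nat_lit 238)) (l (nat_lit 5) (nat_lit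 262) (nat_lit 288)))) (n (nat_lit 363) (b (l (nat_lit 4) (nat_lit 262) (nat_lit 338)) (l (nat_lit 4) (nat_lit 287) (nat_lit 388)))))) (n (nat_lit 387) (b (b (n (nat_lit 412) (b (n (nat_lit 311) (b (l (nat_lit 7) (nat_lit 286) (nat_lit 286)) (l (nat_lit 7) (nat_lit 311) (nat_lit 336)))) (n (nat_lit 411) (b (l (nat_lit 6) (nat_lit 336) (nat_lit 436)) (l (nat_lit 6) (nat_lit 311) (nat_lit 386)))))) (n (nat_lit 412) (b (n (nat_lit 413) (b (l (nat_lit 4) (nat_lit 337) (nat_lit 438)) (l (nat_lit 4) (nat_lit 312) (nat_lit 388)))) (n (nat_lit 411) (b (l (nat_lit 6) (nat_lit 336) (nat_lit 436)) (l (nat_lit 6) (nat_lit 311) (nat_lit 386))))))) (b (n (nat_lit 412) (b (n (nat_lit 311) (b (l (nat_lit 7) (nat_lit 286) (nat_lit 286)) (l (nat_lit 7) (nat_lit 311) (nat_lit 336)))) (n (nat_lit 413) (b (l (nat_lit 4) (nat_lit 337) (nat_lit 438)) (l (nat_lit 4) (nat_lit 312) (nat_lit 388)))))) (n (nat_lit 262) (b (b (n (nat_lit 237) (b (n (nat_lit 212) (b (n (nat_lit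 213) (b (l (nat_lit 5) (nat_lit 187) (nat_lit 188)) (l (nat_lit 5) (nat_lit 212) (nat_lit 238)))) (n (nat_lit 211) (b (l (nat_lit 7) (nat_lit 211) (nat_lit 236)) (l (nat_lit 7) (nat_lit 186) (nat_lit 186)))))) (n (nat_lit 311) (b (l (nat_lit 6) (nat_lit 236) (nat_lit 336)) (l (nat_lit 7) (nat_lit 286) (nat_lit 286)))))) (n (nat_lit 263) (b (l (nat_lit 5) (nat_lit 237) (nat_lit 238)) (l (nat_lit 5) (nat_lit 262) (nat_lit 288))))) (n (nat_lit 311) (b (n (nat_lit 288) (b (n (nat_lit 388) (b (n (nat_lit 336) (b (n (nat_lit 359) (b (b (n (nat_lit 310) (b (n (nat_lit 360) (b (n (nat_lit 338) (b (l (nat_lit 3) (nat_lit 310) (nat_lit 339)) (l (nat_lit 2) (nat_lit 334) (nat_lit 335)))) (n (nat_lit 386) (b (l (nat_lit 6) (nat_lit 311) (nat_lit 411)) (l (nat_lit 3) (nat_lit 359) (nat_lit 385)))))) (l (nat_lit 1) (nat_lit 284) (nat_lit 309)))) (n (nat_lit 386) (b (n (nat_lit 385) (b (n (nat_lit 384) (b (n (nat_lit 409) (b (l (nat_lit 2) (nat_lit 383) (nat_lit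 408)) (l (nat_lit 2) (nat_lit 384) (nat_lit 410)))) (l (nat_lit 3) (nat_lit 358) (nat_lit 358)))) (l (nat_lit 3) (nat_lit 359) (nat_lit 360)))) (l (nat_lit 6) (nat_lit 311) (nat_lit 411))))) (b (n (nat_lit 310) (b (n (nat_lit 335) (b (n (nat_lit 334) (b (l (nat_lit 1) (nat_lit 308) (nat_lit 333)) (l (nat_lit 2) (nat_lit 333) (nat_lit 358)))) (n (nat_lit 338) (b (l (nat_lit 2) (nat_lit 334) (nat_lit 360)) (l (nat_lit 3) (nat_lit 310) (nat_lit 339)))))) (l (nat_lit 1) (nat_lit 284) (nat_lit 309)))) (n (nat_lit 334) (b (b (n (nat_lit 309) (b (n (nat_lit 384) (b (n (nat_lit 409) (b (n (nat_lit 408) (b (l (nat_lit 6) (nat_lit 308) (nat_lit 383)) (l (nat_lit 6) (nat_lit 333) (nat_lit 433)))) (n (nat_lit 308) (b (l (nat_lit 7) (nat_lit 308) (nat_lit 333)) (l (nat_lit 7) (nat_lit 283) (nat_lit 283)))))) (n (nat_lit 386) (b (n (nat_lit 385) (b (l (nat_lit 3) (nat_lit 358) (nat_lit 358)) (l (nat_lit 4) (nat_lit 309) (nat_lit 410)))) (l (nat_lit 6) (nat_lit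 311) (nat_lit 411)))))) (l (nat_lit 1) (nat_lit 284) (nat_lit 310)))) (n (nat_lit 335) (b (l (nat_lit 2) (nat_lit 333) (nat_lit 358)) (l (nat_lit 1) (nat_lit 308) (nat_lit 333))))) (b (n (nat_lit 309) (b (n (nat_lit 335) (b (l (nat_lit 3) (nat_lit 308) (nat_lit 308)) (l (nat_lit 2) (nat_lit 333) (nat_lit 358)))) (l (nat_lit 1) (nat_lit 284) (nat_lit 310)))) (n (nat_lit 309) (b (n (nat_lit 335) (b (l (nat_lit 3) (nat_lit 308) (nat_lit 308)) (l (nat_lit 1) (nat_lit 308) (nat_lit 333)))) (l (nat_lit 1) (nat_lit 284) (nat_lit 310)))))))))) (l (nat_lit 6) (nat_lit 236) (nat_lit 237)))) (l (nat_lit 4) (nat_lit 312) (nat_lit 413)))) (l (nat_lit 5) (nat_lit 262) (nat_lit 263)))) (l (nat_lit 7) (nat_lit 286) (nat_lit 286)))))))))))) (r (nat_lit 4))) (b (n (nat_lit 262) (b (b (r (nat_lit 5)) (n (nat_lit 336) (b (n (nat_lit 338) (b (n (nat_lit 311) (b (n (nat_lit 310) (b (l (nat_lit 0) (nat_lit 309) (nat_lit 309)) (l (nat_lit 3) (nat_lit 310) (nat_lit 339))))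 (l (nat_lit 6) (nat_lit 236) (nat_lit 237)))) (l (nat_lit 4) (nat_lit 262) (nat_lit 363)))) (l (nat_lit 6) (nat_lit 261) (nat_lit 361))))) (n (nat_lit 362) (b (n (nat_lit 363) (b (l (nat_lit 4) (nat_lit 262) (nat_lit 338)) (l (nat_lit 4) (nat_lit 287) (nat_lit 388)))) (n (nat_lit 263) (b (l (nat_lit 5) (nat_lit 237) (nat_lit 238)) (l (nat_lit 5) (nat_lit 262) (nat_lit 288)))))))) (r (nat_lit 6))))) (b (n (nat_lit 362) (b (b (n (nat_lit 387) (b (n (nat_lit 388) (b (l (nat_lit 4) (nat_lit 312) (nat_lit 413)) (l (nat_lit 4) (nat_lit 287) (nat_lit 363)))) (n (nat_lit 386) (b (l (nat_lit 6) (nat_lit 311) (nat_lit 411)) (l (nat_lit 6) (nat_lit 286) (nat_lit 361)))))) (n (nat_lit 262) (b (n (nat_lit 263) (b (l (nat_lit 5) (nat_lit 237) (nat_lit 238)) (l (nat_lit 5) (nat_lit 262) (nat_lit 288)))) (n (nat_lit 361) (b (l (nat_lit 6) (nat_lit 286) (nat_lit 386)) (l (nat_lit 6) (nat_lit 261) (nat_lit 336))))))) (n (nat_lit 262) (b (n (nat_lit 263) (b (l (nat_lit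 5) (nat_lit 237) (nat_lit 238)) (l (nat_lit 5) (nat_lit 262) (nat_lit 288)))) (n (nat_lit 363) (b (l (nat_lit 4) (nat_lit 262) (nat_lit 338)) (l (nat_lit 4) (nat_lit 287) (nat_lit 388)))))))) (n (nat_lit 362) (b (b (b (r (nat_lit 7)) (n (nat_lit 361) (b (n (nat_lit 363) (b (n (nat_lit 364) (b (b (n (nat_lit 365) (b (n (nat_lit 340) (b (l (nat_lit 1) (nat_lit 336) (nat_lit 339)) (l (nat_lit 1) (nat_lit 337) (nat_lit 341)))) (n (nat_lit 390) (b (l (nat_lit 0) (nat_lit 362) (nat_lit 391)) (l (nat_lit 0) (nat_lit 361) (nat_lit 389)))))) (n (nat_lit 336) (b (l (nat_lit 3) (nat_lit 336) (nat_lit 365)) (l (nat_lit 3) (nat_lit 335) (nat_lit 335))))) (n (nat_lit 360) (b (n (nat_lit 339) (b (l (nat_lit 1) (nat_lit 336) (nat_lit 340)) (l (nat_lit 1) (nat_lit 335) (nat_lit 338)))) (n (nat_lit 335) (b (l (nat_lit 3) (nat_lit 334) (nat_lit 334)) (l (nat_lit 3) (nat_lit 335) (nat_lit 336)))))))) (l (nat_lit 4) (nat_lit 287) (nat_lit 388)))) (l (nat_lit 6) (nat_lit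 286) (nat_lit 386))))) (b (n (nat_lit 311) (b (n (nat_lit 288) (b (n (nat_lit 289) (b (n (nat_lit 310) (b (l (nat_lit 1) (nat_lit 284) (nat_lit 309)) (l (nat_lit 2) (nat_lit 285) (nat_lit 286)))) (l (nat_lit 2) (nat_lit 286) (nat_lit 290)))) (l (nat_lit 5) (nat_lit 262) (nat_lit 263)))) (n (nat_lit 387) (b (b (n (nat_lit 412) (b (n (nat_lit 437) (b (n (nat_lit 363) (b (l (nat_lit 4) (nat_lit 287) (nat_lit 388)) (l (nat_lit 5) (nat_lit 337) (nat_lit 338)))) (n (nat_lit 436) (b (l (nat_lit 6) (nat_lit 361) (nat_lit 461)) (l (nat_lit 6) (nat_lit 336) (nat_lit 411)))))) (l (nat_lit 7) (nat_lit 311) (nat_lit 336)))) (n (nat_lit 388) (b (l (nat_lit 4) (nat_lit 312) (nat_lit 413)) (l (nat_lit 4) (nat_lit 287) (nat_lit 363))))) (n (nat_lit 412) (b (n (nat_lit 437) (b (n (nat_lit 438) (b (l (nat_lit 4) (nat_lit 337) (nat_lit 413)) (l (nat_lit 4) (nat_lit 362) (nat_lit 463)))) (n (nat_lit 436) (b (l (nat_lit 6) (nat_lit 361) (nat_lit 461)) (l (nat_lit 6) (nat_lit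 336) (nat_lit 411)))))) (l (nat_lit 7) (nat_lit 311) (nat_lit 336)))))))) (r (nat_lit 8)))) (n (nat_lit 387) (b (n (nat_lit 388) (b (l (nat_lit 4) (nat_lit 312) (nat_lit 413)) (l (nat_lit 4) (nat_lit 287) (nat_lit 363)))) (n (nat_lit 386) (b (l (nat_lit 6) (nat_lit 311) (nat_lit 411)) (l (nat_lit 6) (nat_lit 286) (nat_lit 361)))))))))))
    (envOK_cons p8491 (envOK_cons p8566 (envOK_cons p8587 (envOK_cons p7685 (envOK_cons p7597 (envOK_cons p7548 (envOK_cons p7413 (envOK_cons p8682 (envOK_cons p7667 envOK_nil))))))))) (by decide +kernel)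

theorem p8891 : Fam (nat_lit 7) (nat_lit 75093296469549125624483272250871997166582476320388676015026577416052694981261769451107623370752) (nat_lit 4479489692948098614307641254100701220036876592903186935595599268836786098011076355663613773278542299136) (nat_lit 4479489692948098614307641254100701220036876592903186935595599268836786098011076355663613773278542299136) :=
  chk_sound Env.nil
    (n (nat_lit 240) (b (b (n (nat_lit 215) (b (n (nat_lit 316) (b (l (nat_lit 4) (nat_lit 240) (nat_lit 341)) (l (nat_lit 4) (nat_lit 215) (nat_lit 291)))) (n (nat_lit 216) (b (l (nat_lit 5) (nat_lit 190) (nat_lit 191)) (l (nat_lit 5) (nat_lit 215) (nat_lit 241)))))) (n (nat_lit 215) (b (n (nat_lit 214) (b (l (nat_lit 7) (nat_lit 214) (nat_lit 239)) (l (nat_lit 7) (nat_lit 189) (nat_lit 189)))) (n (nat_lit 316) (b (l (nat_lit 4) (nat_lit 240) (nat_lit 341)) (l (nat_lit 4) (nat_lit 215) (nat_lit 291))))))) (n (nat_lit 241) (b (n (nat_lit 239) (b (n (nat_lit 242) (b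 (n (nat_lit 243) (b (n (nat_lit 218) (b (l (nat_lit 1) (nat_lit 215) (nat_lit 219)) (l (nat_lit 1) (nat_lit 214) (nat_lit 217)))) (l (nat_lit 2) (nat_lit 239) (nat_lit 264)))) (n (nat_lit 238) (b (n (nat_lit 213) (b (l (nat_lit 3) (nat_lit 212) (nat_lit 212)) (l (nat_lit 5) (nat_lit 212) (nat_lit 237)))) (n (nat_lit 267) (b (l (nat_lit 0) (nat_lit 239) (nat_lit 268)) (l (nat_lit 0) (nat_lit 238) (nat_lit 266)))))))) (l (nat_lit 7) (nat_lit 214) (nat_lit 214)))) (l (nat_lit 5) (nat_lit 215) (nat_lit 216))))))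
    envOK_nil (by decide +kernel)

theorem p8970 : Fam (nat_lit 8) (nat_lit 208592487209252478593747180044298279007222772466092518649927940269766257247828919458810797490176) (nat_lit 27996810320185003597928106624946226797880263572597856532813030662586146428307341177216645598125767000064) (nat_lit 27996810320185003597928106624946226797880263572597856532813030662586146428307341177216645598125767000064) :=
  chk_sound Env.nil
    (n (nat_lit 239) (b (n (nat_lit 314) (b (n (nat_lit 317) (b (n (nat_lit 292) (b (n (nat_lit 267) (b (n (nat_lit 238) (b (b (n (nat_lit 213) (b (l (nat_lit 7) (nat_lit 213) (nat_lit 264)) (l (nat_lit 5) (nat_lit 212) (nat_lit 237)))) (n (nat_lit 237) (b (l (nat_lit 5) (nat_lit 212) (nat_lit 213)) (l (nat_lit 0) (nat_lit 237) (nat_lit 266))))) (b (n (nat_lit 264) (b (l (nat_lit 7) (nat_lit 213) (nat_lit 213)) (l (nat_lit 3) (nat_lit 238) (nat_lit 266)))) (n (nat_lit 266) (b (l (nat_lit 0) (nat_lit 237) (nat_lit 237)) (l (nat_lit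 3) (nat_lit 238) (nat_lit 264))))))) (n (nat_lit 342) (b (n (nat_lit 268) (b (l (nat_lit 5) (nat_lit 242) (nat_lit 243)) (l (nat_lit 1) (nat_lit 264) (nat_lit 291)))) (l (nat_lit 0) (nat_lit 314) (nat_lit 343)))))) (l (nat_lit 1) (nat_lit 289) (nat_lit 293)))) (l (nat_lit 3) (nat_lit 289) (nat_lit 318)))) (l (nat_lit 6) (nat_lit 239) (nat_lit 339)))) (l (nat_lit 7) (nat_lit 214) (nat_lit 214))))
    envOK_nil (by decide +kernel)

theorem p8986 : Fam (nat_lit 9) (nat_lit 66749597110483063204435774369975455494702204521407641441657755018397926271103887402341423382528) (nat_lit 5599362890063262630611687806704753042879431598106582663284214776107505864644589020136134809078984605696) (nat_lit 5599362890063262630611687806704753042879431598106582663284214776107505864644589020136134809078984605696) :=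
  chk_sound Env.nil
    (n (nat_lit 316) (b (n (nat_lit 239) (b (n (nat_lit 289) (b (n (nat_lit 241) (b (n (nat_lit 242) (b (b (n (nat_lit 243) (b (n (nat_lit 218) (b (l (nat_lit 1) (nat_lit 215) (nat_lit 219)) (l (nat_lit 1) (nat_lit 214) (nat_lit 217)))) (l (nat_lit 2) (nat_lit 239) (nat_lit 264)))) (n (nat_lit 292) (b (n (nat_lit 314) (b (n (nat_lit 317) (b (l (nat_lit 1) (nat_lit 289) (nat_lit 293)) (l (nat_lit 3) (nat_lit 289) (nat_lit 318)))) (l (nat_lit 6) (nat_lit 239) (nat_lit 339)))) (n (nat_lit 267) (b (n (nat_lit 217) (b (l (nat_lit 1) (nat_lit 214) (nat_lit 218)) (l (nat_lit 6) (nat_lit 216) (nat_lit 291)))) (l (nat_lit 0) (nat_lit 239) (nat_lit 268))))))) (n (nat_lit 243) (b (n (nat_lit 268) (b (l (nat_lit 0) (nat_lit 240) (nat_lit 269)) (l (nat_lit 0) (nat_lit 239) (nat_lit 267)))) (l (nat_lit 2) (nat_lit 239) (nat_lit 264)))))) (l (nat_lit 5) (nat_lit 215) (nat_lit 216)))) (l (nat_lit 0) (nat_lit 287) (nat_lit 288)))) (l (nat_lit 7)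 (nat_lit 214) (nat_lit 214)))) (l (nat_lit 4) (nat_lit 240) (nat_lit 341))))
    envOK_nil (by decide +kernel)

theorem p9139 : Fam (nat_lit 5) (nat_lit 333747985303753460675077958513294034005075388276471133720107183720398112005017032268344463458304) (nat_lit 25217285017839575134963129992598366326471976858116419799274415302931265201655328300976975754920558545689808124958998528) (nat_lit 25217285017839575134963129992598366326471976858116419799274415302931265201655328300976975754920558545689808124958998528) :=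
  chk_sound Env.nil
    (n (nat_lit 267) (b (b (n (nat_lit 266) (b (n (nat_lit 241) (b (n (nat_lit 216) (b (l (nat_lit 6) (nat_lit 190) (nat_lit 191)) (l (nat_lit 7) (nat_lit 216) (nat_lit 242)))) (l (nat_lit 7) (nat_lit 241) (nat_lit 342)))) (l (nat_lit 2) (nat_lit 264) (nat_lit 268)))) (n (nat_lit 342) (b (b (n (nat_lit 242) (b (n (nat_lit 343) (b (l (nat_lit 4) (nat_lit 267) (nat_lit 368)) (l (nat_lit 4) (nat_lit 242) (nat_lit 318)))) (n (nat_lit 243) (b (l (nat_lit 5) (nat_lit 217) (nat_lit 218)) (l (nat_lit 5) (nat_lit 242) (nat_lit 268)))))) (n (nat_lit 367) (b (n (nat_lit 368) (b (l (nat_lit 4) (nat_lit 267) (nat_lit 343)) (l (nat_lit 4) (nat_lit 292) (nat_lit 393)))) (n (nat_lit 366) (b (l (nat_lit 6) (nat_lit 291) (nat_lit 391)) (l (nat_lit 6) (nat_lit 266) (nat_lit 341))))))) (n (nat_lit 367) (b (n (nat_lit 268) (b (l (nat_lit 5) (nat_lit 267) (nat_lit 293)) (l (nat_lit 5) (nat_lit 242) (nat_lit 243)))) (n (nat_lit 366) (b (l (nat_lit 6)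 (nat_lit 291) (nat_lit 391)) (l (nat_lit 6) (nat_lit 266) (nat_lit 341))))))))) (b (n (nat_lit 242) (b (b (n (nat_lit 217) (b (n (nat_lit 318) (b (l (nat_lit 4) (nat_lit 242) (nat_lit 343)) (l (nat_lit 4) (nat_lit 217) (nat_lit 293)))) (n (nat_lit 218) (b (l (nat_lit 5) (nat_lit 192) (nat_lit 193)) (l (nat_lit 5) (nat_lit 217) (nat_lit 243)))))) (n (nat_lit 342) (b (n (nat_lit 241) (b (l (nat_lit 7) (nat_lit 241) (nat_lit 266)) (l (nat_lit 7) (nat_lit 216) (nat_lit 216)))) (n (nat_lit 343) (b (l (nat_lit 4) (nat_lit 267) (nat_lit 368)) (l (nat_lit 4) (nat_lit 242) (nat_lit 318))))))) (n (nat_lit 266) (b (n (nat_lit 241) (b (l (nat_lit 7) (nat_lit 241) (nat_lit 342)) (l (nat_lit 7) (nat_lit 216) (nat_lit 216)))) (n (nat_lit 264) (b (l (nat_lit 1) (nat_lit 239) (nat_lit 243)) (l (nat_lit 0) (nat_lit 264) (nat_lit 293)))))))) (n (nat_lit 266) (b (n (nat_lit 264) (b (n (nat_lit 239) (b (l (nat_lit 4) (nat_lit 214) (nat_lit 214)) (l (nat_lit 3) (nat_lit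 238) (nat_lit 238)))) (l (nat_lit 0) (nat_lit 264) (nat_lit 293)))) (l (nat_lit 2) (nat_lit 264) (nat_lit 268)))))))
    envOK_nil (by decide +kernel)

theorem p9174 : Fam (nat_lit 12) (nat_lit 279968167865521995868805909554327785637202853736807512251174652647051399950215099434379137766574260224) (nat_lit 25217285078901791894591289461709805286543947468650472435078184742290210291371056143385504687689779382626992824397070336) (nat_lit 25217285078901791894591289461709805286543947468650472435078184742290210291371056143385504687689779382626992824397070336) :=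
  chk_sound (Env.cons (nat_lit 5) (nat_lit 333747985303753460675077958513294034005075388276471133720107183720398112005017032268344463458304) (nat_lit 25217285017839575134963129992598366326471976858116419799274415302931265201655328300976975754920558545689808124958998528) Env.nil)
    (n (nat_lit 289) (b (b (n (nat_lit 288) (b (n (nat_lit 286) (b (l (nat_lit 0) (nat_lit 286) (nat_lit 314)) (l (nat_lit 1) (nat_lit 261) (nat_lit 264)))) (l (nat_lit 1) (nat_lit 262) (nat_lit 266)))) (n (nat_lit 288) (b (n (nat_lit 286) (b (l (nat_lit 0) (nat_lit 286) (nat_lit 314)) (l (nat_lit 1) (nat_lit 261) (nat_lit 264)))) (l (nat_lit 0) (nat_lit 287) (nat_lit 316))))) (b (n (nat_lit 288) (b (l (nat_lit 1) (nat_lit 262) (nat_lit 266)) (l (nat_lit 0) (nat_lit 287) (nat_lit 316)))) (n (nat_lit 292) (b (b (b (n (nat_lit 336) (b (n (nat_lit 213) (b (b (n (nat_lit 264) (b (n (nat_lit 314) (b (n (nat_lit 338) (b (l (nat_lit 4) (nat_lit 262) (nat_lit 363)) (l (nat_lit 1)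 (nat_lit 311) (nat_lit 339)))) (n (nat_lit 239) (b (l (nat_lit 7) (nat_lit 213) (nat_lit 238)) (l (nat_lit 4) (nat_lit 214) (nat_lit 214)))))) (n (nat_lit 267) (b (b (n (nat_lit 268) (b (l (nat_lit 2) (nat_lit 264) (nat_lit 266)) (l (nat_lit 1) (nat_lit 264) (nat_lit 291)))) (n (nat_lit 266) (b (l (nat_lit 2) (nat_lit 264) (nat_lit 268)) (l (nat_lit 0) (nat_lit 264) (nat_lit 293))))) (b (n (nat_lit 293) (b (l (nat_lit 3) (nat_lit 264) (nat_lit 291)) (l (nat_lit 0) (nat_lit 264) (nat_lit 266)))) (n (nat_lit 291) (b (l (nat_lit 3) (nat_lit 264) (nat_lit 293)) (l (nat_lit 1) (nat_lit 264) (nat_lit 268))))))))) (n (nat_lit 237) (b (n (nat_lit 212) (b (n (nat_lit 211) (b (l (nat_lit 7) (nat_lit 211) (nat_lit 236)) (l (nat_lit 7) (nat_lit 186) (nat_lit 186)))) (l (nat_lit 5) (nat_lit 187) (nat_lit 188)))) (l (nat_lit 5) (nat_lit 212) (nat_lit 238))))) (n (nat_lit 212) (b (b (b (n (nat_lit 211) (b (b (n (nat_lit 236) (b (n (nat_lit 235) (b (n (nat_lit 234)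 (b (l (nat_lit 1) (nat_lit 208) (nat_lit 233)) (l (nat_lit 2) (nat_lit 209) (nat_lit 210)))) (l (nat_lit 2) (nat_lit 210) (nat_lit 214)))) (l (nat_lit 7) (nat_lit 211) (nat_lit 237)))) (n (nat_lit 186) (b (n (nat_lit 185) (b (n (nat_lit 184) (b (l (nat_lit 0) (nat_lit 183) (nat_lit 183)) (l (nat_lit 3) (nat_lit 184) (nat_lit 210)))) (l (nat_lit 3) (nat_lit 185) (nat_lit 214)))) (l (nat_lit 7) (nat_lit 186) (nat_lit 237))))) (b (n (nat_lit 237) (b (l (nat_lit 7) (nat_lit 211) (nat_lit 236)) (l (nat_lit 7) (nat_lit 186) (nat_lit 186)))) (n (nat_lit 210) (b (b (n (nat_lit 264) (b (n (nat_lit 214) (b (n (nat_lit 235) (b (l (nat_lit 2) (nat_lit 210) (nat_lit 236)) (l (nat_lit 2) (nat_lit 209) (nat_lit 234)))) (l (nat_lit 4) (nat_lit 214) (nat_lit 239)))) (n (nat_lit 267) (b (b (n (nat_lit 268) (b (l (nat_lit 2) (nat_lit 264) (nat_lit 266)) (l (nat_lit 1) (nat_lit 264) (nat_lit 291)))) (n (nat_lit 266) (b (l (nat_lit 2) (nat_lit 264) (nat_lit 268)) (l (nat_lit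 0) (nat_lit 264) (nat_lit 293))))) (b (n (nat_lit 293) (b (l (nat_lit 3) (nat_lit 264) (nat_lit 291)) (l (nat_lit 0) (nat_lit 264) (nat_lit 266)))) (n (nat_lit 291) (b (l (nat_lit 3) (nat_lit 264) (nat_lit 293)) (l (nat_lit 1) (nat_lit 264) (nat_lit 268))))))))) (n (nat_lit 264) (b (n (nat_lit 267) (b (b (n (nat_lit 268) (b (l (nat_lit 2) (nat_lit 264) (nat_lit 266)) (l (nat_lit 1) (nat_lit 264) (nat_lit 291)))) (n (nat_lit 266) (b (l (nat_lit 2) (nat_lit 264) (nat_lit 268)) (l (nat_lit 0) (nat_lit 264) (nat_lit 293))))) (b (n (nat_lit 293) (b (l (nat_lit 3) (nat_lit 264) (nat_lit 291)) (l (nat_lit 0) (nat_lit 264) (nat_lit 266)))) (n (nat_lit 291) (b (l (nat_lit 3) (nat_lit 264) (nat_lit 293)) (l (nat_lit 1) (nat_lit 264) (nat_lit 268))))))) (n (nat_lit 214) (b (n (nat_lit 185) (b (l (nat_lit 3) (nat_lit 185) (nat_lit 186)) (l (nat_lit 3) (nat_lit 184) (nat_lit 184)))) (l (nat_lit 4) (nat_lit 214) (nat_lit 239))))))) (n (nat_lit 209) (b (n (nat_lit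 234) (b (l (nat_lit 2) (nat_lit 209) (nat_lit 235)) (l (nat_lit 2) (nat_lit 208) (nat_lit 233)))) (n (nat_lit 184) (b (l (nat_lit 3) (nat_lit 183) (nat_lit 183)) (l (nat_lit 3) (nat_lit 184) (nat_lit 185))))))))))) (n (nat_lit 214) (b (n (nat_lit 264) (b (n (nat_lit 267) (b (b (n (nat_lit 268) (b (l (nat_lit 2) (nat_lit 264) (nat_lit 266)) (l (nat_lit 1) (nat_lit 264) (nat_lit 291)))) (n (nat_lit 266) (b (l (nat_lit 2) (nat_lit 264) (nat_lit 268)) (l (nat_lit 0) (nat_lit 264) (nat_lit 293))))) (b (n (nat_lit 293) (b (l (nat_lit 3) (nat_lit 264) (nat_lit 291)) (l (nat_lit 0) (nat_lit 264) (nat_lit 266)))) (n (nat_lit 291) (b (l (nat_lit 3) (nat_lit 264) (nat_lit 293)) (l (nat_lit 1) (nat_lit 264) (nat_lit 268))))))) (l (nat_lit 4) (nat_lit 214) (nat_lit 239)))) (n (nat_lit 211) (b (b (n (nat_lit 210) (b (n (nat_lit 189) (b (l (nat_lit 1) (nat_lit 186) (nat_lit 190)) (l (nat_lit 1) (nat_lit 185) (nat_lit 188)))) (n (nat_lit 185) (b (l (nat_lit 3) (nat_lit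 185) (nat_lit 186)) (l (nat_lit 3) (nat_lit 184) (nat_lit 184)))))) (n (nat_lit 188) (b (n (nat_lit 189) (b (l (nat_lit 1) (nat_lit 186) (nat_lit 190)) (l (nat_lit 1) (nat_lit 185) (nat_lit 210)))) (l (nat_lit 5) (nat_lit 187) (nat_lit 237))))) (n (nat_lit 186) (b (l (nat_lit 3) (nat_lit 185) (nat_lit 185)) (l (nat_lit 7) (nat_lit 186) (nat_lit 237))))))))) (b (n (nat_lit 214) (b (n (nat_lit 264) (b (n (nat_lit 267) (b (b (n (nat_lit 268) (b (l (nat_lit 2) (nat_lit 264) (nat_lit 266)) (l (nat_lit 1) (nat_lit 264) (nat_lit 291)))) (n (nat_lit 266) (b (l (nat_lit 2) (nat_lit 264) (nat_lit 268)) (l (nat_lit 0) (nat_lit 264) (nat_lit 293))))) (b (n (nat_lit 293) (b (l (nat_lit 3) (nat_lit 264) (nat_lit 291)) (l (nat_lit 0) (nat_lit 264) (nat_lit 266)))) (n (nat_lit 291) (b (l (nat_lit 3) (nat_lit 264) (nat_lit 293)) (l (nat_lit 1) (nat_lit 264) (nat_lit 268))))))) (l (nat_lit 4) (nat_lit 214) (nat_lit 239)))) (n (nat_lit 211) (b (b (n (nat_lit 215) (b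 (n (nat_lit 186) (b (l (nat_lit 3) (nat_lit 186) (nat_lit 187)) (l (nat_lit 3) (nat_lit 185) (nat_lit 185)))) (n (nat_lit 190) (b (l (nat_lit 1) (nat_lit 186) (nat_lit 189)) (l (nat_lit 1) (nat_lit 187) (nat_lit 191)))))) (n (nat_lit 210) (b (n (nat_lit 235) (b (l (nat_lit 2) (nat_lit 210) (nat_lit 236)) (l (nat_lit 2) (nat_lit 209) (nat_lit 234)))) (n (nat_lit 189) (b (l (nat_lit 1) (nat_lit 186) (nat_lit 190)) (l (nat_lit 1) (nat_lit 185) (nat_lit 188))))))) (n (nat_lit 210) (b (n (nat_lit 235) (b (l (nat_lit 2) (nat_lit 210) (nat_lit 236)) (l (nat_lit 2) (nat_lit 209) (nat_lit 234)))) (n (nat_lit 185) (b (l (nat_lit 3) (nat_lit 185) (nat_lit 186)) (l (nat_lit 3) (nat_lit 184) (nat_lit 184)))))))))) (n (nat_lit 237) (b (n (nat_lit 211) (b (l (nat_lit 7) (nat_lit 211) (nat_lit 236)) (l (nat_lit 7) (nat_lit 186) (nat_lit 186)))) (l (nat_lit 5) (nat_lit 187) (nat_lit 188)))))) (n (nat_lit 214) (b (b (n (nat_lit 215) (b (n (nat_lit 237) (b (l (nat_lit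 2) (nat_lit 211) (nat_lit 236)) (l (nat_lit 5) (nat_lit 187) (nat_lit 188)))) (n (nat_lit 191) (b (n (nat_lit 216) (b (n (nat_lit 241) (b (l (nat_lit 6) (nat_lit 190) (nat_lit 266)) (l (nat_lit 0) (nat_lit 213) (nat_lit 242)))) (l (nat_lit 1) (nat_lit 188) (nat_lit 192)))) (l (nat_lit 1) (nat_lit 187) (nat_lit 190)))))) (n (nat_lit 264) (b (n (nat_lit 267) (b (b (n (nat_lit 268) (b (l (nat_lit 2) (nat_lit 264) (nat_lit 266)) (l (nat_lit 1) (nat_lit 264) (nat_lit 291)))) (n (nat_lit 266) (b (l (nat_lit 2) (nat_lit 264) (nat_lit 268)) (l (nat_lit 0) (nat_lit 264) (nat_lit 293))))) (b (n (nat_lit 293) (b (l (nat_lit 3) (nat_lit 264) (nat_lit 291)) (l (nat_lit 0) (nat_lit 264) (nat_lit 266)))) (n (nat_lit 291) (b (l (nat_lit 3) (nat_lit 264) (nat_lit 293)) (l (nat_lit 1) (nat_lit 264) (nat_lit 268))))))) (l (nat_lit 4) (nat_lit 214) (nat_lit 239))))) (n (nat_lit 215) (b (n (nat_lit 237) (b (l (nat_lit 2) (nat_lit 211) (nat_lit 236)) (l (nat_lit 5) (nat_lit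 187) (nat_lit 188)))) (n (nat_lit 267) (b (n (nat_lit 291) (b (n (nat_lit 264) (b (l (nat_lit 3) (nat_lit 264) (nat_lit 293)) (l (nat_lit 4) (nat_lit 214) (nat_lit 239)))) (l (nat_lit 1) (nat_lit 264) (nat_lit 268)))) (n (nat_lit 191) (b (n (nat_lit 216) (b (n (nat_lit 242) (b (l (nat_lit 7) (nat_lit 191) (nat_lit 217)) (l (nat_lit 0) (nat_lit 213) (nat_lit 241)))) (l (nat_lit 1) (nat_lit 188) (nat_lit 192)))) (l (nat_lit 1) (nat_lit 187) (nat_lit 190)))))))))))))) (l (nat_lit 6) (nat_lit 261) (nat_lit 361)))) (n (nat_lit 338) (b (n (nat_lit 317) (b (b (n (nat_lit 318) (b (l (nat_lit 0) (nat_lit 289) (nat_lit 291)) (l (nat_lit 3) (nat_lit 289) (nat_lit 316)))) (n (nat_lit 267) (b (b (n (nat_lit 268) (b (l (nat_lit 2) (nat_lit 264) (nat_lit 266)) (l (nat_lit 1) (nat_lit 264) (nat_lit 291)))) (n (nat_lit 342) (b (b (n (nat_lit 367) (b (n (nat_lit 368) (b (l (nat_lit 4) (nat_lit 267) (nat_lit 343)) (l (nat_lit 4) (nat_lit 292) (nat_lit 393)))) (n (nat_lit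 266) (b (l (nat_lit 7) (nat_lit 266) (nat_lit 291)) (l (nat_lit 7) (nat_lit 241) (nat_lit 241)))))) (n (nat_lit 314) (b (n (nat_lit 336) (b (l (nat_lit 6) (nat_lit 261) (nat_lit 361)) (l (nat_lit 1) (nat_lit 311) (nat_lit 339)))) (n (nat_lit 343) (b (l (nat_lit 0) (nat_lit 314) (nat_lit 316)) (l (nat_lit 4) (nat_lit 267) (nat_lit 368))))))) (n (nat_lit 242) (b (n (nat_lit 241) (b (l (nat_lit 7) (nat_lit 241) (nat_lit 266)) (l (nat_lit 7) (nat_lit 216) (nat_lit 216)))) (n (nat_lit 341) (b (l (nat_lit 6) (nat_lit 241) (nat_lit 316)) (l (nat_lit 6) (nat_lit 266) (nat_lit 366))))))))) (b (n (nat_lit 316) (b (b (n (nat_lit 342) (b (n (nat_lit 343) (b (l (nat_lit 0) (nat_lit 314) (nat_lit 314)) (l (nat_lit 4) (nat_lit 267) (nat_lit 368)))) (n (nat_lit 268) (b (l (nat_lit 5) (nat_lit 242) (nat_lit 243)) (l (nat_lit 1) (nat_lit 264) (nat_lit 291)))))) (n (nat_lit 341) (b (n (nat_lit 366) (b (l (nat_lit 7) (nat_lit 265) (nat_lit 291)) (l (nat_lit 7) (nat_lit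 290) (nat_lit 391)))) (l (nat_lit 6) (nat_lit 241) (nat_lit 242))))) (n (nat_lit 341) (b (n (nat_lit 366) (b (l (nat_lit 6) (nat_lit 266) (nat_lit 342)) (l (nat_lit 7) (nat_lit 290) (nat_lit 391)))) (l (nat_lit 6) (nat_lit 241) (nat_lit 242)))))) (n (nat_lit 266) (b (n (nat_lit 241) (b (n (nat_lit 216) (b (l (nat_lit 6) (nat_lit 190) (nat_lit 191)) (l (nat_lit 7) (nat_lit 216) (nat_lit 242)))) (l (nat_lit 7) (nat_lit 241) (nat_lit 342)))) (l (nat_lit 2) (nat_lit 264) (nat_lit 268)))))))) (b (n (nat_lit 316) (b (n (nat_lit 342) (b (n (nat_lit 314) (b (l (nat_lit 0) (nat_lit 314) (nat_lit 343)) (l (nat_lit 2) (nat_lit 313) (nat_lit 339)))) (n (nat_lit 267) (b (n (nat_lit 341) (b (l (nat_lit 6) (nat_lit 241) (nat_lit 242)) (l (nat_lit 6) (nat_lit 266) (nat_lit 366)))) (n (nat_lit 268) (b (l (nat_lit 5) (nat_lit 242) (nat_lit 243)) (l (nat_lit 2) (nat_lit 264) (nat_lit 266)))))))) (l (nat_lit 3) (nat_lit 289) (nat_lit 318)))) (n (nat_lit 267) (b (b (n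 (nat_lit 266) (b (n (nat_lit 241) (b (n (nat_lit 216) (b (l (nat_lit 6) (nat_lit 190) (nat_lit 191)) (l (nat_lit 7) (nat_lit 216) (nat_lit 242)))) (l (nat_lit 7) (nat_lit 241) (nat_lit 342)))) (l (nat_lit 2) (nat_lit 264) (nat_lit 268)))) (n (nat_lit 266) (b (b (n (nat_lit 242) (b (n (nat_lit 243) (b (l (nat_lit 1) (nat_lit 239) (nat_lit 264)) (l (nat_lit 5) (nat_lit 217) (nat_lit 218)))) (n (nat_lit 318) (b (l (nat_lit 4) (nat_lit 242) (nat_lit 343)) (l (nat_lit 0) (nat_lit 289) (nat_lit 291)))))) (n (nat_lit 241) (b (n (nat_lit 216) (b (l (nat_lit 6) (nat_lit 215) (nat_lit 291)) (l (nat_lit 6) (nat_lit 190) (nat_lit 191)))) (l (nat_lit 7) (nat_lit 241) (nat_lit 342))))) (n (nat_lit 241) (b (n (nat_lit 216) (b (l (nat_lit 6) (nat_lit 190) (nat_lit 191)) (l (nat_lit 7) (nat_lit 216) (nat_lit 242)))) (l (nat_lit 7) (nat_lit 241) (nat_lit 342))))))) (n (nat_lit 291) (b (l (nat_lit 0) (nat_lit 289) (nat_lit 318)) (l (nat_lit 1) (nat_lit 264) (nat_lit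 268))))))))) (l (nat_lit 4) (nat_lit 262) (nat_lit 363))))) (b (n (nat_lit 317) (b (b (r (nat_lit 0)) (n (nat_lit 316) (b (n (nat_lit 314) (b (n (nat_lit 339) (b (l (nat_lit 5) (nat_lit 264) (nat_lit 364)) (l (nat_lit 2) (nat_lit 313) (nat_lit 338)))) (l (nat_lit 1) (nat_lit 289) (nat_lit 293)))) (l (nat_lit 3) (nat_lit 289) (nat_lit 318))))) (b (n (nat_lit 267) (b (b (n (nat_lit 266) (b (n (nat_lit 264) (b (n (nat_lit 239) (b (l (nat_lit 4) (nat_lit 214) (nat_lit 214)) (l (nat_lit 3) (nat_lit 238) (nat_lit 238)))) (l (nat_lit 0) (nat_lit 264) (nat_lit 293)))) (l (nat_lit 2) (nat_lit 264) (nat_lit 268)))) (n (nat_lit 266) (b (n (nat_lit 241) (b (n (nat_lit 216) (b (l (nat_lit 6) (nat_lit 190) (nat_lit 191)) (l (nat_lit 7) (nat_lit 216) (nat_lit 242)))) (l (nat_lit 7) (nat_lit 241) (nat_lit 342)))) (l (nat_lit 2) (nat_lit 264) (nat_lit 268))))) (n (nat_lit 316) (b (n (nat_lit 314) (b (n (nat_lit 338) (b (l (nat_lit 2) (nat_lit 313) (nat_lit 339)) (l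 (nat_lit 4) (nat_lit 262) (nat_lit 363)))) (l (nat_lit 1) (nat_lit 289) (nat_lit 293)))) (n (nat_lit 341) (b (n (nat_lit 366) (b (l (nat_lit 6) (nat_lit 266) (nat_lit 342)) (l (nat_lit 7) (nat_lit 290) (nat_lit 391)))) (l (nat_lit 6) (nat_lit 241) (nat_lit 242)))))))) (n (nat_lit 316) (b (n (nat_lit 342) (b (b (n (nat_lit 343) (b (n (nat_lit 344) (b (l (nat_lit 3) (nat_lit 315) (nat_lit 341)) (l (nat_lit 3) (nat_lit 316) (nat_lit 345)))) (l (nat_lit 0) (nat_lit 314) (nat_lit 314)))) (n (nat_lit 267) (b (n (nat_lit 341) (b (l (nat_lit 6) (nat_lit 241) (nat_lit 242)) (l (nat_lit 6) (nat_lit 266) (nat_lit 366)))) (n (nat_lit 266) (b (l (nat_lit 7) (nat_lit 241) (nat_lit 241)) (l (nat_lit 2) (nat_lit 264) (nat_lit 268))))))) (n (nat_lit 267) (b (n (nat_lit 268) (b (l (nat_lit 5) (nat_lit 242) (nat_lit 243)) (l (nat_lit 2) (nat_lit 264) (nat_lit 266)))) (n (nat_lit 343) (b (l (nat_lit 0) (nat_lit 314) (nat_lit 314)) (l (nat_lit 4) (nat_lit 267) (nat_lit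 368)))))))) (l (nat_lit 3) (nat_lit 289) (nat_lit 318))))))) (n (nat_lit 314) (b (n (nat_lit 336) (b (n (nat_lit 338) (b (l (nat_lit 4) (nat_lit 262) (nat_lit 363)) (l (nat_lit 1) (nat_lit 311) (nat_lit 339)))) (l (nat_lit 6) (nat_lit 261) (nat_lit 361)))) (n (nat_lit 317) (b (b (n (nat_lit 318) (b (l (nat_lit 0) (nat_lit 289) (nat_lit 291)) (l (nat_lit 3) (nat_lit 289) (nat_lit 316)))) (n (nat_lit 316) (b (l (nat_lit 3) (nat_lit 289) (nat_lit 318)) (l (nat_lit 1) (nat_lit 289) (nat_lit 293))))) (b (n (nat_lit 293) (b (l (nat_lit 2) (nat_lit 289) (nat_lit 291)) (l (nat_lit 1) (nat_lit 289) (nat_lit 316)))) (n (nat_lit 291) (b (l (nat_lit 2) (nat_lit 289) (nat_lit 293)) (l (nat_lit 0) (nat_lit 289) (nat_lit 318))))))))))) (n (nat_lit 317) (b (b (r (nat_lit 0)) (n (nat_lit 318) (b (l (nat_lit 0) (nat_lit 289) (nat_lit 291)) (l (nat_lit 3) (nat_lit 289) (nat_lit 316))))) (n (nat_lit 267) (b (b (n (nat_lit 342) (b (b (n (nat_lit 242) (b (n (nat_lit 341)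 (b (l (nat_lit 6) (nat_lit 241) (nat_lit 316)) (l (nat_lit 6) (nat_lit 266) (nat_lit 366)))) (n (nat_lit 243) (b (l (nat_lit 5) (nat_lit 217) (nat_lit 218)) (l (nat_lit 5) (nat_lit 242) (nat_lit 268)))))) (n (nat_lit 367) (b (n (nat_lit 368) (b (l (nat_lit 4) (nat_lit 267) (nat_lit 343)) (l (nat_lit 4) (nat_lit 292) (nat_lit 393)))) (n (nat_lit 366) (b (l (nat_lit 6) (nat_lit 291) (nat_lit 391)) (l (nat_lit 6) (nat_lit 266) (nat_lit 341))))))) (n (nat_lit 367) (b (n (nat_lit 368) (b (l (nat_lit 4) (nat_lit 267) (nat_lit 343)) (l (nat_lit 4) (nat_lit 292) (nat_lit 393)))) (n (nat_lit 268) (b (l (nat_lit 5) (nat_lit 267) (nat_lit 293)) (l (nat_lit 5) (nat_lit 242) (nat_lit 243)))))))) (n (nat_lit 266) (b (n (nat_lit 264) (b (n (nat_lit 239) (b (l (nat_lit 4) (nat_lit 214) (nat_lit 214)) (l (nat_lit 3) (nat_lit 238) (nat_lit 238)))) (l (nat_lit 0) (nat_lit 264) (nat_lit 293)))) (l (nat_lit 2) (nat_lit 264) (nat_lit 268))))) (b (n (nat_lit 266) (b (n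 (nat_lit 241) (b (n (nat_lit 216) (b (l (nat_lit 6) (nat_lit 190) (nat_lit 191)) (l (nat_lit 7) (nat_lit 216) (nat_lit 242)))) (l (nat_lit 7) (nat_lit 241) (nat_lit 342)))) (l (nat_lit 2) (nat_lit 264) (nat_lit 268)))) (n (nat_lit 266) (b (n (nat_lit 264) (b (n (nat_lit 239) (b (l (nat_lit 4) (nat_lit 214) (nat_lit 214)) (l (nat_lit 3) (nat_lit 238) (nat_lit 238)))) (l (nat_lit 0) (nat_lit 264) (nat_lit 293)))) (n (nat_lit 241) (b (n (nat_lit 216) (b (l (nat_lit 6) (nat_lit 190) (nat_lit 191)) (l (nat_lit 7) (nat_lit 216) (nat_lit 242)))) (l (nat_lit 7) (nat_lit 241) (nat_lit 342))))))))))))))))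
    (envOK_cons p9139 envOK_nil) (by decide +kernel)

end Crest.Agent.R35
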