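import Crest.Agent.R35.C4

/-! Generated strategy certificate for Snaky (part 5). -/

set_option autoImplicit false
set_option maxRecDepth 100000

namespace Crest.Agent.R35

local notation "l" => T.leaf
local notation "n" => T.node
local notation "b" => T.both
local notation "r" => T.ref

theorem p9176 : Fam (nat_lit 14) (nat_lit 279968101115925134047420195563330846309706685118930786781172402411131393649941096151373899415506911232) (nat_lit 26478149352339780117891624215181990583956133366570428595350874415740881802299884349981972527493028703030217282506719232) (nat_lit 26478149352339780117891624215181990583956133366570428595350874415740881802299884349981972527493028703030217282506719232) :=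
  chk_sound (Env.cons (nat_lit 7) (nat_lit 75093296469549125624483272250871997166582476320388676015026577416052694981261769451107623370752) (nat_lit 4479489692948098614307641254100701220036876592903186935595599268836786098011076355663613773278542299136) (Env.cons (nat_lit 8) (nat_lit 208592487209252478593747180044298279007222772466092518649927940269766257247828919458810797490176) (nat_lit 27996810320185003597928106624946226797880263572597856532813030662586146428307341177216645598125767000064) (Env.cons (nat_lit 9) (nat_lit 66749597110483063204435774369975455494702204521407641441657755018397926271103887402341423382528) (nat_lit 5599362890063262630611687806704753042879431598106582663284214776107505864644589020136134809078984605696) (Env.cons (nat_lit 12) (nat_lit 279968167865521995868805909554327785637202853736807512251174652647051399950215099434379137766574260224) (nat_lit 25217285078901791894591289461709805286543947468650472435078184742290210291371056143385504687689779382626992824397070336)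 Env.nil))))
    (n (nat_lit 315) (b (b (b (n (nat_lit 290) (b (b (b (n (nat_lit 340) (b (b (n (nat_lit 289) (b (n (nat_lit 288) (b (l (nat_lit 1) (nat_lit 262) (nat_lit 266)) (l (nat_lit 0) (nat_lit 287) (nat_lit 316)))) (n (nat_lit 264) (b (l (nat_lit 7) (nat_lit 264) (nat_lit 365)) (l (nat_lit 7) (nat_lit 239) (nat_lit 239)))))) (n (nat_lit 365) (b (n (nat_lit 266) (b (l (nat_lit 5) (nat_lit 265) (nat_lit 291)) (l (nat_lit 5) (nat_lit 240) (nat_lit 241)))) (n (nat_lit 366) (b (l (nat_lit 4) (nat_lit 265) (nat_lit 341)) (l (nat_lit 4) (nat_lit 290) (nat_lit 391))))))) (b (n (nat_lit 365) (b (n (nat_lit 264) (b (l (nat_lit 7) (nat_lit 239) (nat_lit 239)) (l (nat_lit 7) (nat_lit 264) (nat_lit 289)))) (n (nat_lit 366) (b (l (nat_lit 4) (nat_lit 265) (nat_lit 341)) (l (nat_lit 4) (nat_lit 290) (nat_lit 391)))))) (n (nat_lit 266) (b (n (nat_lit 289) (b (n (nat_lit 267) (b (n (nat_lit 264) (b (n (nat_lit 292) (b (n (nat_lit 341) (b (n (nat_lit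 242) (b (n (nat_lit 316) (b (l (nat_lit 5) (nat_lit 241) (nat_lit 291)) (l (nat_lit 6) (nat_lit 241) (nat_lit 317)))) (l (nat_lit 1) (nat_lit 239) (nat_lit 243)))) (l (nat_lit 4) (nat_lit 265) (nat_lit 366)))) (l (nat_lit 0) (nat_lit 264) (nat_lit 293)))) (l (nat_lit 7) (nat_lit 239) (nat_lit 239)))) (l (nat_lit 2) (nat_lit 264) (nat_lit 268)))) (l (nat_lit 1) (nat_lit 262) (nat_lit 288)))) (l (nat_lit 5) (nat_lit 240) (nat_lit 241))))))) (n (nat_lit 289) (b (b (n (nat_lit 288) (b (n (nat_lit 286) (b (l (nat_lit 0) (nat_lit 286) (nat_lit 314)) (l (nat_lit 1) (nat_lit 261) (nat_lit 264)))) (l (nat_lit 0) (nat_lit 287) (nat_lit 316)))) (n (nat_lit 288) (b (l (nat_lit 1) (nat_lit 262) (nat_lit 266)) (l (nat_lit 0) (nat_lit 287) (nat_lit 316))))) (b (n (nat_lit 340) (b (b (n (nat_lit 240) (b (n (nat_lit 341) (b (l (nat_lit 4) (nat_lit 240) (nat_lit 316)) (l (nat_lit 4) (nat_lit 265) (nat_lit 366)))) (n (nat_lit 241) (b (l (nat_lit 5) (nat_lit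 240) (nat_lit 266)) (l (nat_lit 5) (nat_lit 215) (nat_lit 216)))))) (n (nat_lit 365) (b (n (nat_lit 366) (b (l (nat_lit 4) (nat_lit 265) (nat_lit 341)) (l (nat_lit 4) (nat_lit 290) (nat_lit 391)))) (l (nat_lit 7) (nat_lit 264) (nat_lit 264))))) (n (nat_lit 365) (b (n (nat_lit 266) (b (l (nat_lit 5) (nat_lit 265) (nat_lit 291)) (l (nat_lit 5) (nat_lit 240) (nat_lit 241)))) (l (nat_lit 7) (nat_lit 264) (nat_lit 264)))))) (n (nat_lit 288) (b (n (nat_lit 286) (b (l (nat_lit 0) (nat_lit 286) (nat_lit 314)) (l (nat_lit 1) (nat_lit 261) (nat_lit 264)))) (l (nat_lit 1) (nat_lit 262) (nat_lit 266)))))))) (b (r (nat_lit 0)) (n (nat_lit 289) (b (b (n (nat_lit 288) (b (l (nat_lit 1) (nat_lit 262) (nat_lit 266)) (l (nat_lit 0) (nat_lit 287) (nat_lit 316)))) (n (nat_lit 240) (b (b (n (nat_lit 340) (b (n (nat_lit 264) (b (l (nat_lit 7) (nat_lit 264) (nat_lit 365)) (l (nat_lit 7) (nat_lit 239) (nat_lit 239)))) (n (nat_lit 341) (b (l (nat_lit 4) (nat_lit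 240) (nat_lit 316)) (l (nat_lit 4) (nat_lit 265) (nat_lit 366)))))) (n (nat_lit 215) (b (n (nat_lit 316) (b (l (nat_lit 4) (nat_lit 240) (nat_lit 341)) (l (nat_lit 4) (nat_lit 215) (nat_lit 291)))) (l (nat_lit 6) (nat_lit 214) (nat_lit 314))))) (n (nat_lit 214) (b (n (nat_lit 215) (b (l (nat_lit 6) (nat_lit 214) (nat_lit 314)) (l (nat_lit 7) (nat_lit 189) (nat_lit 189)))) (l (nat_lit 7) (nat_lit 214) (nat_lit 239))))))) (n (nat_lit 264) (b (n (nat_lit 340) (b (l (nat_lit 7) (nat_lit 264) (nat_lit 365)) (l (nat_lit 7) (nat_lit 239) (nat_lit 239)))) (n (nat_lit 288) (b (l (nat_lit 1) (nat_lit 261) (nat_lit 286)) (l (nat_lit 1) (nat_lit 262) (nat_lit 266)))))))))) (b (b (n (nat_lit 340) (b (b (n (nat_lit 365) (b (n (nat_lit 266) (b (l (nat_lit 5) (nat_lit 265) (nat_lit 291)) (l (nat_lit 5) (nat_lit 240) (nat_lit 241)))) (n (nat_lit 366) (b (l (nat_lit 4) (nat_lit 265) (nat_lit 341)) (l (nat_lit 4) (nat_lit 290) (nat_lit 391)))))) (n (nat_lit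 365) (b (n (nat_lit 264) (b (l (nat_lit 7) (nat_lit 239) (nat_lit 239)) (l (nat_lit 7) (nat_lit 264) (nat_lit 289)))) (n (nat_lit 366) (b (l (nat_lit 4) (nat_lit 265) (nat_lit 341)) (l (nat_lit 4) (nat_lit 290) (nat_lit 391))))))) (n (nat_lit 240) (b (n (nat_lit 241) (b (l (nat_lit 5) (nat_lit 240) (nat_lit 266)) (l (nat_lit 5) (nat_lit 215) (nat_lit 216)))) (n (nat_lit 239) (b (l (nat_lit 7) (nat_lit 214) (nat_lit 214)) (l (nat_lit 7) (nat_lit 239) (nat_lit 264)))))))) (n (nat_lit 240) (b (b (n (nat_lit 340) (b (n (nat_lit 341) (b (l (nat_lit 4) (nat_lit 240) (nat_lit 316)) (l (nat_lit 4) (nat_lit 265) (nat_lit 366)))) (n (nat_lit 241) (b (l (nat_lit 5) (nat_lit 240) (nat_lit 266)) (l (nat_lit 5) (nat_lit 215) (nat_lit 216)))))) (n (nat_lit 215) (b (n (nat_lit 216) (b (l (nat_lit 5) (nat_lit 190) (nat_lit 191)) (l (nat_lit 5) (nat_lit 215) (nat_lit 241)))) (n (nat_lit 214) (b (l (nat_lit 7) (nat_lit 214) (nat_lit 239)) (l (nat_lit 7)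 (nat_lit 189) (nat_lit 189))))))) (n (nat_lit 215) (b (n (nat_lit 214) (b (l (nat_lit 7) (nat_lit 214) (nat_lit 239)) (l (nat_lit 7) (nat_lit 189) (nat_lit 189)))) (n (nat_lit 316) (b (l (nat_lit 4) (nat_lit 240) (nat_lit 341)) (l (nat_lit 4) (nat_lit 215) (nat_lit 291))))))))) (b (n (nat_lit 240) (b (b (n (nat_lit 340) (b (n (nat_lit 239) (b (l (nat_lit 7) (nat_lit 214) (nat_lit 214)) (l (nat_lit 7) (nat_lit 239) (nat_lit 264)))) (n (nat_lit 341) (b (l (nat_lit 4) (nat_lit 240) (nat_lit 316)) (l (nat_lit 4) (nat_lit 265) (nat_lit 366)))))) (n (nat_lit 215) (b (n (nat_lit 316) (b (l (nat_lit 4) (nat_lit 240) (nat_lit 341)) (l (nat_lit 4) (nat_lit 215) (nat_lit 291)))) (n (nat_lit 216) (b (l (nat_lit 5) (nat_lit 190) (nat_lit 191)) (l (nat_lit 5) (nat_lit 215) (nat_lit 241))))))) (n (nat_lit 215) (b (n (nat_lit 216) (b (l (nat_lit 5) (nat_lit 190) (nat_lit 191)) (l (nat_lit 5) (nat_lit 215) (nat_lit 241)))) (n (nat_lit 214) (b (l (nat_lit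 7) (nat_lit 214) (nat_lit 239)) (l (nat_lit 7) (nat_lit 189) (nat_lit 189)))))))) (n (nat_lit 289) (b (b (n (nat_lit 288) (b (n (nat_lit 286) (b (l (nat_lit 0) (nat_lit 286) (nat_lit 314)) (l (nat_lit 1) (nat_lit 261) (nat_lit 264)))) (l (nat_lit 0) (nat_lit 287) (nat_lit 316)))) (n (nat_lit 288) (b (l (nat_lit 1) (nat_lit 262) (nat_lit 266)) (l (nat_lit 0) (nat_lit 287) (nat_lit 316))))) (n (nat_lit 240) (b (b (n (nat_lit 215) (b (n (nat_lit 216) (b (l (nat_lit 5) (nat_lit 190) (nat_lit 191)) (l (nat_lit 5) (nat_lit 215) (nat_lit 241)))) (l (nat_lit 6) (nat_lit 214) (nat_lit 314)))) (n (nat_lit 340) (b (n (nat_lit 239) (b (l (nat_lit 7) (nat_lit 214) (nat_lit 214)) (l (nat_lit 7) (nat_lit 239) (nat_lit 264)))) (n (nat_lit 241) (b (l (nat_lit 5) (nat_lit 240) (nat_lit 266)) (l (nat_lit 5) (nat_lit 215) (nat_lit 216))))))) (n (nat_lit 214) (b (n (nat_lit 215) (b (l (nat_lit 6) (nat_lit 214) (nat_lit 314)) (l (nat_lit 7) (nat_lit 189) (nat_lit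 189)))) (l (nat_lit 7) (nat_lit 214) (nat_lit 239)))))))))))) (n (nat_lit 290) (b (b (b (n (nat_lit 340) (b (b (n (nat_lit 316) (b (n (nat_lit 341) (b (l (nat_lit 4) (nat_lit 265) (nat_lit 366)) (l (nat_lit 4) (nat_lit 240) (nat_lit 240)))) (n (nat_lit 339) (b (l (nat_lit 1) (nat_lit 312) (nat_lit 338)) (l (nat_lit 6) (nat_lit 264) (nat_lit 364)))))) (n (nat_lit 365) (b (n (nat_lit 266) (b (l (nat_lit 5) (nat_lit 265) (nat_lit 291)) (l (nat_lit 5) (nat_lit 240) (nat_lit 241)))) (n (nat_lit 366) (b (l (nat_lit 4) (nat_lit 265) (nat_lit 341)) (l (nat_lit 4) (nat_lit 290) (nat_lit 391))))))) (n (nat_lit 365) (b (n (nat_lit 266) (b (l (nat_lit 5) (nat_lit 265) (nat_lit 291)) (l (nat_lit 5) (nat_lit 240) (nat_lit 241)))) (n (nat_lit 364) (b (l (nat_lit 6) (nat_lit 289) (nat_lit 389)) (l (nat_lit 6) (nat_lit 264) (nat_lit 339)))))))) (n (nat_lit 340) (b (b (n (nat_lit 365) (b (n (nat_lit 266) (b (l (nat_lit 5) (nat_lit 265) (nat_lit 291)) (l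 (nat_lit 5) (nat_lit 240) (nat_lit 241)))) (n (nat_lit 366) (b (l (nat_lit 4) (nat_lit 265) (nat_lit 341)) (l (nat_lit 4) (nat_lit 290) (nat_lit 391)))))) (n (nat_lit 365) (b (n (nat_lit 264) (b (l (nat_lit 7) (nat_lit 239) (nat_lit 239)) (l (nat_lit 7) (nat_lit 264) (nat_lit 289)))) (n (nat_lit 366) (b (l (nat_lit 4) (nat_lit 265) (nat_lit 341)) (l (nat_lit 4) (nat_lit 290) (nat_lit 391))))))) (n (nat_lit 240) (b (n (nat_lit 241) (b (l (nat_lit 5) (nat_lit 240) (nat_lit 266)) (l (nat_lit 5) (nat_lit 215) (nat_lit 216)))) (n (nat_lit 239) (b (l (nat_lit 7) (nat_lit 214) (nat_lit 214)) (l (nat_lit 7) (nat_lit 239) (nat_lit 264))))))))) (b (n (nat_lit 340) (b (n (nat_lit 365) (b (n (nat_lit 264) (b (l (nat_lit 7) (nat_lit 239) (nat_lit 239)) (l (nat_lit 7) (nat_lit 264) (nat_lit 289)))) (n (nat_lit 366) (b (l (nat_lit 4) (nat_lit 265) (nat_lit 341)) (l (nat_lit 4) (nat_lit 290) (nat_lit 391)))))) (n (nat_lit 338) (b (n (nat_lit 339) (b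 (l (nat_lit 1) (nat_lit 312) (nat_lit 316)) (l (nat_lit 6) (nat_lit 264) (nat_lit 364)))) (l (nat_lit 4) (nat_lit 262) (nat_lit 363)))))) (n (nat_lit 340) (b (n (nat_lit 365) (b (n (nat_lit 264) (b (l (nat_lit 7) (nat_lit 239) (nat_lit 239)) (l (nat_lit 7) (nat_lit 264) (nat_lit 289)))) (n (nat_lit 266) (b (l (nat_lit 5) (nat_lit 265) (nat_lit 291)) (l (nat_lit 5) (nat_lit 240) (nat_lit 241)))))) (n (nat_lit 338) (b (n (nat_lit 339) (b (l (nat_lit 1) (nat_lit 312) (nat_lit 316)) (l (nat_lit 6) (nat_lit 264) (nat_lit 364)))) (l (nat_lit 4) (nat_lit 262) (nat_lit 363)))))))) (r (nat_lit 0))))) (b (n (nat_lit 338) (b (n (nat_lit 336) (b (n (nat_lit 339) (b (n (nat_lit 340) (b (n (nat_lit 290) (b (n (nat_lit 240) (b (n (nat_lit 241) (b (l (nat_lit 5) (nat_lit 240) (nat_lit 266)) (l (nat_lit 5) (nat_lit 215) (nat_lit 216)))) (n (nat_lit 239) (b (l (nat_lit 7) (nat_lit 214) (nat_lit 214)) (l (nat_lit 7) (nat_lit 239) (nat_lit 264)))))) (l (nat_lit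 6) (nat_lit 264) (nat_lit 364)))) (l (nat_lit 1) (nat_lit 312) (nat_lit 316)))) (l (nat_lit 1) (nat_lit 311) (nat_lit 314)))) (l (nat_lit 6) (nat_lit 261) (nat_lit 361)))) (l (nat_lit 4) (nat_lit 262) (nat_lit 363)))) (n (nat_lit 338) (b (n (nat_lit 336) (b (n (nat_lit 339) (b (n (nat_lit 340) (b (b (n (nat_lit 290) (b (n (nat_lit 240) (b (n (nat_lit 241) (b (l (nat_lit 5) (nat_lit 240) (nat_lit 266)) (l (nat_lit 5) (nat_lit 215) (nat_lit 216)))) (n (nat_lit 239) (b (l (nat_lit 7) (nat_lit 214) (nat_lit 214)) (l (nat_lit 7) (nat_lit 239) (nat_lit 264)))))) (l (nat_lit 6) (nat_lit 264) (nat_lit 364)))) (n (nat_lit 366) (b (n (nat_lit 341) (b (l (nat_lit 0) (nat_lit 338) (nat_lit 367)) (l (nat_lit 4) (nat_lit 265) (nat_lit 290)))) (l (nat_lit 0) (nat_lit 337) (nat_lit 365))))) (n (nat_lit 365) (b (l (nat_lit 0) (nat_lit 337) (nat_lit 366)) (l (nat_lit 0) (nat_lit 336) (nat_lit 364)))))) (l (nat_lit 1) (nat_lit 311) (nat_lit 314)))) (l (nat_lit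 6) (nat_lit 261) (nat_lit 361)))) (l (nat_lit 4) (nat_lit 262) (nat_lit 363)))))) (b (n (nat_lit 338) (b (n (nat_lit 336) (b (n (nat_lit 339) (b (n (nat_lit 340) (b (n (nat_lit 365) (b (l (nat_lit 0) (nat_lit 337) (nat_lit 366)) (l (nat_lit 0) (nat_lit 336) (nat_lit 364)))) (l (nat_lit 1) (nat_lit 312) (nat_lit 316)))) (l (nat_lit 1) (nat_lit 311) (nat_lit 314)))) (l (nat_lit 6) (nat_lit 261) (nat_lit 361)))) (l (nat_lit 4) (nat_lit 262) (nat_lit 363)))) (n (nat_lit 290) (b (b (b (n (nat_lit 240) (b (b (n (nat_lit 241) (b (n (nat_lit 239) (b (n (nat_lit 242) (b (n (nat_lit 243) (b (n (nat_lit 218) (b (l (nat_lit 1) (nat_lit 215) (nat_lit 219)) (l (nat_lit 1) (nat_lit 214) (nat_lit 217)))) (l (nat_lit 2) (nat_lit 239) (nat_lit 264)))) (n (nat_lit 238) (b (n (nat_lit 213) (b (l (nat_lit 3) (nat_lit 212) (nat_lit 212)) (l (nat_lit 5) (nat_lit 212) (nat_lit 237)))) (n (nat_lit 267) (b (l (nat_lit 0) (nat_lit 239) (nat_lit 268)) (l (nat_lit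 0) (nat_lit 238) (nat_lit 266)))))))) (l (nat_lit 7) (nat_lit 214) (nat_lit 214)))) (l (nat_lit 5) (nat_lit 215) (nat_lit 216)))) (n (nat_lit 215) (b (n (nat_lit 216) (b (l (nat_lit 5) (nat_lit 190) (nat_lit 191)) (l (nat_lit 5) (nat_lit 215) (nat_lit 241)))) (n (nat_lit 314) (b (l (nat_lit 6) (nat_lit 214) (nat_lit 289)) (l (nat_lit 6) (nat_lit 239) (nat_lit 339))))))) (n (nat_lit 215) (b (n (nat_lit 314) (b (l (nat_lit 6) (nat_lit 214) (nat_lit 289)) (l (nat_lit 6) (nat_lit 239) (nat_lit 339)))) (n (nat_lit 214) (b (l (nat_lit 7) (nat_lit 214) (nat_lit 239)) (l (nat_lit 7) (nat_lit 189) (nat_lit 189)))))))) (r (nat_lit 0))) (b (n (nat_lit 240) (b (b (n (nat_lit 316) (b (n (nat_lit 289) (b (n (nat_lit 317) (b (n (nat_lit 241) (b (n (nat_lit 342) (b (n (nat_lit 314) (b (l (nat_lit 0) (nat_lit 314) (nat_lit 343)) (l (nat_lit 6) (nat_lit 239) (nat_lit 339)))) (n (nat_lit 266) (b (n (nat_lit 267) (b (l (nat_lit 2) (nat_lit 264) (nat_lit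 268)) (l (nat_lit 7) (nat_lit 241) (nat_lit 292)))) (l (nat_lit 4) (nat_lit 241) (nat_lit 291)))))) (l (nat_lit 5) (nat_lit 215) (nat_lit 216)))) (l (nat_lit 3) (nat_lit 289) (nat_lit 318)))) (l (nat_lit 0) (nat_lit 287) (nat_lit 288)))) (l (nat_lit 4) (nat_lit 240) (nat_lit 341)))) (n (nat_lit 289) (b (n (nat_lit 316) (b (l (nat_lit 0) (nat_lit 287) (nat_lit 288)) (l (nat_lit 4) (nat_lit 240) (nat_lit 341)))) (n (nat_lit 314) (b (l (nat_lit 6) (nat_lit 214) (nat_lit 215)) (l (nat_lit 6) (nat_lit 239) (nat_lit 339))))))) (b (n (nat_lit 215) (b (n (nat_lit 216) (b (l (nat_lit 5) (nat_lit 190) (nat_lit 191)) (l (nat_lit 5) (nat_lit 215) (nat_lit 241)))) (n (nat_lit 314) (b (l (nat_lit 6) (nat_lit 214) (nat_lit 289)) (l (nat_lit 6) (nat_lit 239) (nat_lit 339)))))) (n (nat_lit 215) (b (n (nat_lit 316) (b (l (nat_lit 4) (nat_lit 240) (nat_lit 341)) (l (nat_lit 4) (nat_lit 215) (nat_lit 291)))) (n (nat_lit 216) (b (l (nat_lit 5) (nat_lit 190)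 (nat_lit 191)) (l (nat_lit 5) (nat_lit 215) (nat_lit 241))))))))) (n (nat_lit 240) (b (b (n (nat_lit 316) (b (n (nat_lit 239) (b (n (nat_lit 241) (b (n (nat_lit 289) (b (n (nat_lit 238) (b (b (n (nat_lit 314) (b (n (nat_lit 213) (b (l (nat_lit 3) (nat_lit 212) (nat_lit 212)) (l (nat_lit 7) (nat_lit 213) (nat_lit 264)))) (l (nat_lit 6) (nat_lit 239) (nat_lit 339)))) (n (nat_lit 237) (b (n (nat_lit 236) (b (l (nat_lit 7) (nat_lit 211) (nat_lit 211)) (l (nat_lit 0) (nat_lit 236) (nat_lit 264)))) (l (nat_lit 0) (nat_lit 237) (nat_lit 266))))) (n (nat_lit 237) (b (l (nat_lit 5) (nat_lit 212) (nat_lit 213)) (l (nat_lit 0) (nat_lit 237) (nat_lit 266)))))) (l (nat_lit 0) (nat_lit 287) (nat_lit 288)))) (l (nat_lit 5) (nat_lit 215) (nat_lit 216)))) (l (nat_lit 7) (nat_lit 214) (nat_lit 214)))) (l (nat_lit 4) (nat_lit 240) (nat_lit 341)))) (n (nat_lit 215) (b (n (nat_lit 314) (b (l (nat_lit 6) (nat_lit 214) (nat_lit 289)) (l (nat_lit 6) (nat_lit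 239) (nat_lit 339)))) (n (nat_lit 214) (b (l (nat_lit 7) (nat_lit 214) (nat_lit 239)) (l (nat_lit 7) (nat_lit 189) (nat_lit 189))))))) (n (nat_lit 215) (b (n (nat_lit 316) (b (l (nat_lit 4) (nat_lit 240) (nat_lit 341)) (l (nat_lit 4) (nat_lit 215) (nat_lit 291)))) (n (nat_lit 216) (b (l (nat_lit 5) (nat_lit 190) (nat_lit 191)) (l (nat_lit 5) (nat_lit 215) (nat_lit 241)))))))))) (b (b (n (nat_lit 289) (b (b (n (nat_lit 316) (b (n (nat_lit 341) (b (n (nat_lit 366) (b (l (nat_lit 7) (nat_lit 265) (nat_lit 291)) (l (nat_lit 7) (nat_lit 290) (nat_lit 391)))) (l (nat_lit 4) (nat_lit 240) (nat_lit 240)))) (l (nat_lit 0) (nat_lit 287) (nat_lit 288)))) (n (nat_lit 288) (b (n (nat_lit 286) (b (l (nat_lit 0) (nat_lit 286) (nat_lit 314)) (l (nat_lit 1) (nat_lit 261) (nat_lit 264)))) (l (nat_lit 1) (nat_lit 262) (nat_lit 266))))) (n (nat_lit 240) (b (b (n (nat_lit 215) (b (n (nat_lit 214) (b (l (nat_lit 7) (nat_lit 214) (nat_lit 239)) (l (nat_lit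 7) (nat_lit 189) (nat_lit 189)))) (n (nat_lit 316) (b (l (nat_lit 4) (nat_lit 240) (nat_lit 341)) (l (nat_lit 4) (nat_lit 215) (nat_lit 291)))))) (n (nat_lit 314) (b (l (nat_lit 6) (nat_lit 214) (nat_lit 215)) (l (nat_lit 6) (nat_lit 239) (nat_lit 339))))) (n (nat_lit 316) (b (r (nat_lit 1)) (l (nat_lit 4) (nat_lit 240) (nat_lit 341)))))))) (n (nat_lit 240) (b (b (b (n (nat_lit 316) (b (n (nat_lit 289) (b (r (nat_lit 1)) (l (nat_lit 0) (nat_lit 287) (nat_lit 288)))) (l (nat_lit 4) (nat_lit 240) (nat_lit 341)))) (n (nat_lit 316) (b (n (nat_lit 239) (b (n (nat_lit 241) (b (n (nat_lit 289) (b (n (nat_lit 238) (b (b (n (nat_lit 314) (b (n (nat_lit 213) (b (l (nat_lit 3) (nat_lit 212) (nat_lit 212)) (l (nat_lit 7) (nat_lit 213) (nat_lit 264)))) (l (nat_lit 6) (nat_lit 239) (nat_lit 339)))) (n (nat_lit 237) (b (n (nat_lit 236) (b (l (nat_lit 7) (nat_lit 211) (nat_lit 211)) (l (nat_lit 0) (nat_lit 236) (nat_lit 264)))) (l (nat_lit 0) (nat_lit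 237) (nat_lit 266))))) (n (nat_lit 237) (b (l (nat_lit 5) (nat_lit 212) (nat_lit 213)) (l (nat_lit 0) (nat_lit 237) (nat_lit 266)))))) (l (nat_lit 0) (nat_lit 287) (nat_lit 288)))) (l (nat_lit 5) (nat_lit 215) (nat_lit 216)))) (l (nat_lit 7) (nat_lit 214) (nat_lit 214)))) (l (nat_lit 4) (nat_lit 240) (nat_lit 341))))) (b (r (nat_lit 2)) (n (nat_lit 316) (b (n (nat_lit 289) (b (n (nat_lit 317) (b (n (nat_lit 241) (b (n (nat_lit 342) (b (n (nat_lit 314) (b (l (nat_lit 0) (nat_lit 314) (nat_lit 343)) (l (nat_lit 6) (nat_lit 239) (nat_lit 339)))) (n (nat_lit 266) (b (n (nat_lit 267) (b (l (nat_lit 2) (nat_lit 264) (nat_lit 268)) (l (nat_lit 7) (nat_lit 241) (nat_lit 292)))) (l (nat_lit 4) (nat_lit 241) (nat_lit 291)))))) (l (nat_lit 5) (nat_lit 215) (nat_lit 216)))) (l (nat_lit 3) (nat_lit 289) (nat_lit 318)))) (l (nat_lit 0) (nat_lit 287) (nat_lit 288)))) (l (nat_lit 4) (nat_lit 240) (nat_lit 341)))))) (n (nat_lit 241) (b (n (nat_lit 239)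 (b (n (nat_lit 242) (b (n (nat_lit 243) (b (n (nat_lit 218) (b (l (nat_lit 1) (nat_lit 215) (nat_lit 219)) (l (nat_lit 1) (nat_lit 214) (nat_lit 217)))) (l (nat_lit 2) (nat_lit 239) (nat_lit 264)))) (n (nat_lit 238) (b (n (nat_lit 213) (b (l (nat_lit 3) (nat_lit 212) (nat_lit 212)) (l (nat_lit 5) (nat_lit 212) (nat_lit 237)))) (n (nat_lit 267) (b (l (nat_lit 0) (nat_lit 239) (nat_lit 268)) (l (nat_lit 0) (nat_lit 238) (nat_lit 266)))))))) (l (nat_lit 7) (nat_lit 214) (nat_lit 214)))) (l (nat_lit 5) (nat_lit 215) (nat_lit 216))))))) (b (n (nat_lit 240) (b (b (r (nat_lit 2)) (n (nat_lit 215) (b (n (nat_lit 314) (b (l (nat_lit 6) (nat_lit 214) (nat_lit 289)) (l (nat_lit 6) (nat_lit 239) (nat_lit 339)))) (n (nat_lit 214) (b (l (nat_lit 7) (nat_lit 214) (nat_lit 239)) (l (nat_lit 7) (nat_lit 189) (nat_lit 189))))))) (n (nat_lit 215) (b (n (nat_lit 316) (b (l (nat_lit 4) (nat_lit 240) (nat_lit 341)) (l (nat_lit 4) (nat_lit 215) (nat_lit 291))))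 (n (nat_lit 216) (b (l (nat_lit 5) (nat_lit 190) (nat_lit 191)) (l (nat_lit 5) (nat_lit 215) (nat_lit 241)))))))) (r (nat_lit 3)))))))))
    (envOK_cons p8891 (envOK_cons p8970 (envOK_cons p8986 (envOK_cons p9174 envOK_nil)))) (by decide +kernel)

theorem p9178 : Fam (nat_lit 16) (nat_lit 8343699607727680624942585805652444129620275146709852890558508601783632775695752161234180374528) (nat_lit 27266189485661840033232537928774613934360123994002788661238733386502618289845899946855539607950353090588812145672060928) (nat_lit 27266189485661840033232537928774613934360123994002788661238733386502618289845899946855539607950353090588812145672060928) :=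
  chk_sound (Env.cons (nat_lit 14) (nat_lit 279968101115925134047420195563330846309706685118930786781172402411131393649941096151373899415506911232) (nat_lit 26478149352339780117891624215181990583956133366570428595350874415740881802299884349981972527493028703030217282506719232) Env.nil)
    (n (nat_lit 337) (b (b (n (nat_lit 362) (b (n (nat_lit 263) (b (l (nat_lit 5) (nat_lit 237) (nat_lit 238)) (l (nat_lit 5) (nat_lit 262) (nat_lit 288)))) (n (nat_lit 361) (b (l (nat_lit 6) (nat_lit 286) (nat_lit 386)) (l (nat_lit 6) (nat_lit 261) (nat_lit 336)))))) (n (nat_lit 362) (b (n (nat_lit 363) (b (l (nat_lit 4) (nat_lit 262) (nat_lit 338)) (l (nat_lit 4) (nat_lit 287) (nat_lit 388)))) (n (nat_lit 263) (b (l (nat_lit 5) (nat_lit 237) (nat_lit 238)) (l (nat_lit 5) (nat_lit 262) (nat_lit 288))))))) (b (n (nat_lit 362) (b (n (nat_lit 361) (b (l (nat_lit 6) (nat_lit 286) (nat_lit 386)) (l (nat_lit 6) (nat_lit 261) (nat_lit 336)))) (n (nat_lit 363)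 (b (l (nat_lit 4) (nat_lit 262) (nat_lit 338)) (l (nat_lit 4) (nat_lit 287) (nat_lit 388)))))) (n (nat_lit 265) (b (b (b (n (nat_lit 264) (b (b (b (n (nat_lit 263) (b (n (nat_lit 290) (b (n (nat_lit 240) (b (n (nat_lit 315) (b (n (nat_lit 289) (b (n (nat_lit 215) (b (l (nat_lit 6) (nat_lit 214) (nat_lit 314)) (l (nat_lit 6) (nat_lit 189) (nat_lit 190)))) (n (nat_lit 316) (b (l (nat_lit 0) (nat_lit 287) (nat_lit 288)) (l (nat_lit 4) (nat_lit 240) (nat_lit 341)))))) (n (nat_lit 239) (b (l (nat_lit 7) (nat_lit 214) (nat_lit 214)) (l (nat_lit 7) (nat_lit 239) (nat_lit 340)))))) (l (nat_lit 1) (nat_lit 237) (nat_lit 241)))) (l (nat_lit 0) (nat_lit 262) (nat_lit 291)))) (l (nat_lit 2) (nat_lit 261) (nat_lit 286)))) (n (nat_lit 338) (b (n (nat_lit 336) (b (n (nat_lit 339) (b (b (n (nat_lit 340) (b (n (nat_lit 315) (b (l (nat_lit 1) (nat_lit 311) (nat_lit 314)) (l (nat_lit 1) (nat_lit 312) (nat_lit 316)))) (n (nat_lit 365) (b (l (nat_lit 0) (nat_lit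 337) (nat_lit 366)) (l (nat_lit 0) (nat_lit 336) (nat_lit 364)))))) (n (nat_lit 289) (b (n (nat_lit 288) (b (n (nat_lit 266) (b (l (nat_lit 1) (nat_lit 262) (nat_lit 290)) (l (nat_lit 2) (nat_lit 263) (nat_lit 267)))) (l (nat_lit 1) (nat_lit 261) (nat_lit 286)))) (n (nat_lit 314) (b (n (nat_lit 365) (b (l (nat_lit 4) (nat_lit 264) (nat_lit 340)) (l (nat_lit 0) (nat_lit 336) (nat_lit 364)))) (l (nat_lit 5) (nat_lit 239) (nat_lit 240))))))) (b (n (nat_lit 340) (b (b (n (nat_lit 365) (b (l (nat_lit 0) (nat_lit 337) (nat_lit 366)) (l (nat_lit 0) (nat_lit 336) (nat_lit 364)))) (n (nat_lit 315) (b (n (nat_lit 290) (b (l (nat_lit 6) (nat_lit 264) (nat_lit 364)) (l (nat_lit 7) (nat_lit 239) (nat_lit 239)))) (l (nat_lit 1) (nat_lit 312) (nat_lit 316))))) (n (nat_lit 341) (b (n (nat_lit 366) (b (l (nat_lit 0) (nat_lit 337) (nat_lit 365)) (l (nat_lit 0) (nat_lit 338) (nat_lit 367)))) (n (nat_lit 316) (b (l (nat_lit 1) (nat_lit 313) (nat_lit 317))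 (l (nat_lit 1) (nat_lit 312) (nat_lit 315)))))))) (n (nat_lit 289) (b (n (nat_lit 314) (b (l (nat_lit 5) (nat_lit 239) (nat_lit 240)) (l (nat_lit 1) (nat_lit 311) (nat_lit 315)))) (n (nat_lit 288) (b (n (nat_lit 266) (b (l (nat_lit 1) (nat_lit 262) (nat_lit 290)) (l (nat_lit 2) (nat_lit 263) (nat_lit 267)))) (l (nat_lit 1) (nat_lit 261) (nat_lit 286))))))))) (l (nat_lit 6) (nat_lit 261) (nat_lit 361)))) (l (nat_lit 4) (nat_lit 262) (nat_lit 363))))) (b (n (nat_lit 263) (b (n (nat_lit 266) (b (n (nat_lit 291) (b (l (nat_lit 0) (nat_lit 262) (nat_lit 290)) (l (nat_lit 0) (nat_lit 263) (nat_lit 292)))) (l (nat_lit 2) (nat_lit 262) (nat_lit 288)))) (l (nat_lit 2) (nat_lit 261) (nat_lit 286)))) (n (nat_lit 263) (b (n (nat_lit 266) (b (n (nat_lit 291) (b (l (nat_lit 0) (nat_lit 262) (nat_lit 290)) (l (nat_lit 0) (nat_lit 263) (nat_lit 292)))) (n (nat_lit 241) (b (l (nat_lit 1) (nat_lit 238) (nat_lit 242)) (l (nat_lit 1) (nat_lit 237) (nat_lit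 240)))))) (l (nat_lit 2) (nat_lit 261) (nat_lit 286)))))) (b (n (nat_lit 263) (b (n (nat_lit 266) (b (n (nat_lit 241) (b (l (nat_lit 1) (nat_lit 238) (nat_lit 242)) (l (nat_lit 1) (nat_lit 237) (nat_lit 240)))) (l (nat_lit 2) (nat_lit 262) (nat_lit 288)))) (l (nat_lit 2) (nat_lit 261) (nat_lit 286)))) (n (nat_lit 263) (b (b (n (nat_lit 266) (b (n (nat_lit 291) (b (l (nat_lit 0) (nat_lit 262) (nat_lit 290)) (l (nat_lit 0) (nat_lit 263) (nat_lit 292)))) (n (nat_lit 241) (b (l (nat_lit 1) (nat_lit 238) (nat_lit 242)) (l (nat_lit 1) (nat_lit 237) (nat_lit 240)))))) (n (nat_lit 266) (b (n (nat_lit 291) (b (l (nat_lit 0) (nat_lit 262) (nat_lit 290)) (l (nat_lit 0) (nat_lit 263) (nat_lit 292)))) (l (nat_lit 2) (nat_lit 262) (nat_lit 288))))) (b (n (nat_lit 266) (b (n (nat_lit 241) (b (l (nat_lit 1) (nat_lit 238) (nat_lit 242)) (l (nat_lit 1) (nat_lit 237) (nat_lit 240)))) (l (nat_lit 2) (nat_lit 262) (nat_lit 288)))) (n (nat_lit 290) (b (n (nat_lit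 240) (b (n (nat_lit 315) (b (n (nat_lit 289) (b (n (nat_lit 215) (b (l (nat_lit 6) (nat_lit 214) (nat_lit 314)) (l (nat_lit 6) (nat_lit 189) (nat_lit 190)))) (n (nat_lit 316) (b (l (nat_lit 0) (nat_lit 287) (nat_lit 288)) (l (nat_lit 4) (nat_lit 240) (nat_lit 341)))))) (n (nat_lit 239) (b (l (nat_lit 7) (nat_lit 214) (nat_lit 214)) (l (nat_lit 7) (nat_lit 239) (nat_lit 340)))))) (l (nat_lit 1) (nat_lit 237) (nat_lit 241)))) (l (nat_lit 0) (nat_lit 262) (nat_lit 291)))))))))) (n (nat_lit 263) (b (n (nat_lit 264) (b (n (nat_lit 290) (b (n (nat_lit 240) (b (n (nat_lit 315) (b (n (nat_lit 289) (b (n (nat_lit 215) (b (l (nat_lit 6) (nat_lit 214) (nat_lit 314)) (l (nat_lit 6) (nat_lit 189) (nat_lit 190)))) (n (nat_lit 316) (b (l (nat_lit 0) (nat_lit 287) (nat_lit 288)) (l (nat_lit 4) (nat_lit 240) (nat_lit 341)))))) (n (nat_lit 239) (b (l (nat_lit 7) (nat_lit 214) (nat_lit 214)) (l (nat_lit 7) (nat_lit 239) (nat_lit 340)))))) (l (nat_lit 1)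 (nat_lit 237) (nat_lit 241)))) (l (nat_lit 0) (nat_lit 262) (nat_lit 291)))) (l (nat_lit 2) (nat_lit 261) (nat_lit 286)))) (l (nat_lit 5) (nat_lit 237) (nat_lit 238))))) (b (n (nat_lit 238) (b (n (nat_lit 237) (b (n (nat_lit 240) (b (n (nat_lit 211) (b (n (nat_lit 212) (b (l (nat_lit 3) (nat_lit 211) (nat_lit 239)) (l (nat_lit 7) (nat_lit 186) (nat_lit 186)))) (l (nat_lit 7) (nat_lit 211) (nat_lit 236)))) (n (nat_lit 338) (b (n (nat_lit 290) (b (b (b (n (nat_lit 215) (b (b (n (nat_lit 266) (b (n (nat_lit 289) (b (l (nat_lit 6) (nat_lit 214) (nat_lit 314)) (l (nat_lit 1) (nat_lit 262) (nat_lit 288)))) (n (nat_lit 291) (b (l (nat_lit 4) (nat_lit 190) (nat_lit 190)) (l (nat_lit 4) (nat_lit 215) (nat_lit 316)))))) (n (nat_lit 190) (b (n (nat_lit 191) (b (l (nat_lit 5) (nat_lit 190) (nat_lit 216)) (l (nat_lit 5) (nat_lit 165) (nat_lit 166)))) (n (nat_lit 189) (b (l (nat_lit 7) (nat_lit 164) (nat_lit 164)) (l (nat_lit 7) (nat_lit 189) (nat_lit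 214))))))) (n (nat_lit 289) (b (n (nat_lit 266) (b (n (nat_lit 291) (b (n (nat_lit 292) (b (n (nat_lit 216) (b (n (nat_lit 317) (b (l (nat_lit 0) (nat_lit 289) (nat_lit 318)) (l (nat_lit 4) (nat_lit 216) (nat_lit 241)))) (l (nat_lit 5) (nat_lit 190) (nat_lit 191)))) (n (nat_lit 268) (b (n (nat_lit 293) (b (l (nat_lit 3) (nat_lit 265) (nat_lit 294)) (l (nat_lit 1) (nat_lit 265) (nat_lit 269)))) (l (nat_lit 2) (nat_lit 264) (nat_lit 267)))))) (l (nat_lit 4) (nat_lit 215) (nat_lit 316)))) (l (nat_lit 1) (nat_lit 262) (nat_lit 288)))) (l (nat_lit 6) (nat_lit 214) (nat_lit 314)))))) (n (nat_lit 215) (b (b (n (nat_lit 315) (b (n (nat_lit 316) (b (l (nat_lit 4) (nat_lit 240) (nat_lit 341)) (l (nat_lit 4) (nat_lit 215) (nat_lit 291)))) (n (nat_lit 216) (b (l (nat_lit 5) (nat_lit 190) (nat_lit 191)) (l (nat_lit 5) (nat_lit 215) (nat_lit 241)))))) (n (nat_lit 190) (b (n (nat_lit 191) (b (l (nat_lit 5) (nat_lit 190) (nat_lit 216)) (l (nat_lit 5)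 (nat_lit 165) (nat_lit 166)))) (n (nat_lit 189) (b (l (nat_lit 7) (nat_lit 164) (nat_lit 164)) (l (nat_lit 7) (nat_lit 189) (nat_lit 214))))))) (n (nat_lit 190) (b (n (nat_lit 291) (b (l (nat_lit 4) (nat_lit 190) (nat_lit 266)) (l (nat_lit 4) (nat_lit 215) (nat_lit 316)))) (n (nat_lit 189) (b (l (nat_lit 7) (nat_lit 164) (nat_lit 164)) (l (nat_lit 7) (nat_lit 189) (nat_lit 214))))))))) (b (n (nat_lit 215) (b (n (nat_lit 190) (b (n (nat_lit 191) (b (l (nat_lit 5) (nat_lit 190) (nat_lit 216)) (l (nat_lit 5) (nat_lit 165) (nat_lit 166)))) (n (nat_lit 189) (b (l (nat_lit 7) (nat_lit 164) (nat_lit 164)) (l (nat_lit 7) (nat_lit 189) (nat_lit 214)))))) (n (nat_lit 315) (b (n (nat_lit 314) (b (l (nat_lit 6) (nat_lit 214) (nat_lit 289)) (l (nat_lit 6) (nat_lit 239) (nat_lit 339)))) (n (nat_lit 316) (b (l (nat_lit 4) (nat_lit 240) (nat_lit 341)) (l (nat_lit 4) (nat_lit 215) (nat_lit 291)))))))) (n (nat_lit 316) (b (b (n (nat_lit 291) (b (n (nat_lit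 341) (b (l (nat_lit 7) (nat_lit 240) (nat_lit 266)) (l (nat_lit 7) (nat_lit 265) (nat_lit 366)))) (l (nat_lit 4) (nat_lit 215) (nat_lit 215)))) (n (nat_lit 289) (b (n (nat_lit 288) (b (l (nat_lit 1) (nat_lit 262) (nat_lit 266)) (l (nat_lit 0) (nat_lit 287) (nat_lit 315)))) (n (nat_lit 215) (b (l (nat_lit 4) (nat_lit 215) (nat_lit 291)) (l (nat_lit 6) (nat_lit 214) (nat_lit 314))))))) (n (nat_lit 315) (b (n (nat_lit 339) (b (l (nat_lit 1) (nat_lit 312) (nat_lit 340)) (l (nat_lit 6) (nat_lit 239) (nat_lit 314)))) (l (nat_lit 4) (nat_lit 240) (nat_lit 341)))))))) (b (b (n (nat_lit 315) (b (b (n (nat_lit 289) (b (n (nat_lit 316) (b (l (nat_lit 0) (nat_lit 287) (nat_lit 288)) (l (nat_lit 4) (nat_lit 240) (nat_lit 341)))) (n (nat_lit 314) (b (l (nat_lit 6) (nat_lit 214) (nat_lit 215)) (l (nat_lit 6) (nat_lit 239) (nat_lit 339)))))) (n (nat_lit 340) (b (n (nat_lit 341) (b (l (nat_lit 4) (nat_lit 240) (nat_lit 316)) (l (nat_lit 4) (nat_lit 265)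 (nat_lit 366)))) (n (nat_lit 241) (b (l (nat_lit 5) (nat_lit 240) (nat_lit 266)) (l (nat_lit 5) (nat_lit 215) (nat_lit 216))))))) (n (nat_lit 340) (b (n (nat_lit 241) (b (l (nat_lit 5) (nat_lit 240) (nat_lit 266)) (l (nat_lit 5) (nat_lit 215) (nat_lit 216)))) (n (nat_lit 339) (b (l (nat_lit 6) (nat_lit 264) (nat_lit 364)) (l (nat_lit 6) (nat_lit 239) (nat_lit 314)))))))) (n (nat_lit 215) (b (b (n (nat_lit 190) (b (n (nat_lit 191) (b (l (nat_lit 5) (nat_lit 190) (nat_lit 216)) (l (nat_lit 5) (nat_lit 165) (nat_lit 166)))) (n (nat_lit 189) (b (l (nat_lit 7) (nat_lit 164) (nat_lit 164)) (l (nat_lit 7) (nat_lit 189) (nat_lit 214)))))) (n (nat_lit 315) (b (n (nat_lit 216) (b (l (nat_lit 5) (nat_lit 190) (nat_lit 191)) (l (nat_lit 5) (nat_lit 215) (nat_lit 241)))) (n (nat_lit 314) (b (l (nat_lit 6) (nat_lit 214) (nat_lit 289)) (l (nat_lit 6) (nat_lit 239) (nat_lit 339))))))) (n (nat_lit 189) (b (n (nat_lit 266) (b (n (nat_lit 289) (b (l (nat_lit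 6) (nat_lit 214) (nat_lit 314)) (l (nat_lit 1) (nat_lit 262) (nat_lit 288)))) (n (nat_lit 190) (b (l (nat_lit 7) (nat_lit 164) (nat_lit 164)) (l (nat_lit 4) (nat_lit 190) (nat_lit 291)))))) (l (nat_lit 7) (nat_lit 189) (nat_lit 214))))))) (n (nat_lit 315) (b (b (n (nat_lit 340) (b (n (nat_lit 341) (b (l (nat_lit 4) (nat_lit 240) (nat_lit 316)) (l (nat_lit 4) (nat_lit 265) (nat_lit 366)))) (n (nat_lit 241) (b (l (nat_lit 5) (nat_lit 240) (nat_lit 266)) (l (nat_lit 5) (nat_lit 215) (nat_lit 216)))))) (n (nat_lit 340) (b (n (nat_lit 241) (b (l (nat_lit 5) (nat_lit 240) (nat_lit 266)) (l (nat_lit 5) (nat_lit 215) (nat_lit 216)))) (n (nat_lit 339) (b (l (nat_lit 6) (nat_lit 264) (nat_lit 364)) (l (nat_lit 6) (nat_lit 239) (nat_lit 314))))))) (b (n (nat_lit 339) (b (n (nat_lit 316) (b (l (nat_lit 1) (nat_lit 312) (nat_lit 340)) (l (nat_lit 4) (nat_lit 240) (nat_lit 341)))) (l (nat_lit 6) (nat_lit 239) (nat_lit 314)))) (n (nat_lit 316) (b (n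 (nat_lit 317) (b (n (nat_lit 289) (b (l (nat_lit 3) (nat_lit 289) (nat_lit 318)) (l (nat_lit 0) (nat_lit 287) (nat_lit 288)))) (n (nat_lit 314) (b (n (nat_lit 292) (b (n (nat_lit 241) (b (n (nat_lit 342) (b (n (nat_lit 266) (b (l (nat_lit 4) (nat_lit 241) (nat_lit 291)) (l (nat_lit 7) (nat_lit 241) (nat_lit 267)))) (l (nat_lit 0) (nat_lit 314) (nat_lit 343)))) (l (nat_lit 5) (nat_lit 215) (nat_lit 216)))) (l (nat_lit 1) (nat_lit 289) (nat_lit 293)))) (l (nat_lit 2) (nat_lit 313) (nat_lit 339)))))) (l (nat_lit 4) (nat_lit 240) (nat_lit 341)))))))))) (l (nat_lit 4) (nat_lit 262) (nat_lit 363)))))) (l (nat_lit 5) (nat_lit 212) (nat_lit 213)))) (l (nat_lit 5) (nat_lit 237) (nat_lit 263)))) (n (nat_lit 238) (b (n (nat_lit 237) (b (n (nat_lit 236) (b (n (nat_lit 239) (b (n (nat_lit 240) (b (n (nat_lit 215) (b (l (nat_lit 1) (nat_lit 211) (nat_lit 214)) (l (nat_lit 1) (nat_lit 212) (nat_lit 216)))) (l (nat_lit 0) (nat_lit 237) (nat_lit 266))))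 (l (nat_lit 0) (nat_lit 236) (nat_lit 264)))) (l (nat_lit 7) (nat_lit 211) (nat_lit 211)))) (l (nat_lit 5) (nat_lit 212) (nat_lit 213)))) (l (nat_lit 5) (nat_lit 237) (nat_lit 263)))))) (b (n (nat_lit 263) (b (n (nat_lit 264) (b (n (nat_lit 266) (b (n (nat_lit 291) (b (l (nat_lit 0) (nat_lit 262) (nat_lit 290)) (l (nat_lit 0) (nat_lit 263) (nat_lit 292)))) (l (nat_lit 2) (nat_lit 262) (nat_lit 288)))) (l (nat_lit 2) (nat_lit 261) (nat_lit 286)))) (l (nat_lit 5) (nat_lit 237) (nat_lit 238)))) (r (nat_lit 0))))))))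
    (envOK_cons p9176 envOK_nil) (by decide +kernel)

theorem p9271 : Fam (nat_lit 7) (nat_lit 9386662058693640703060409031358999645822809540048584501878322177006586872657721181388452921344) (nat_lit 17498015706407379571602959986395385048949622522892890559918240643285649124702041538859921942851354624) (nat_lit 17498015706407379571602959986395385048949622522892890559918240643285649124702041538859921942851354624) :=
  chk_sound Env.nil
    (n (nat_lit 234) (b (b (n (nat_lit 209) (b (n (nat_lit 308) (b (l (nat_lit 6) (nat_lit 233) (nat_lit 333)) (l (nat_lit 6) (nat_lit 208) (nat_lit 283)))) (n (nat_lit 210) (b (l (nat_lit 5) (nat_lit 184) (nat_lit 185)) (l (nat_lit 5) (nat_lit 209) (nat_lit 235)))))) (n (nat_lit 209) (b (n (nat_lit 308) (b (l (nat_lit 6) (nat_lit 233) (nat_lit 333)) (l (nat_lit 6) (nat_lit 208) (nat_lit 283)))) (n (nat_lit 208) (b (l (nat_lit 7) (nat_lit 183) (nat_lit 183)) (l (nat_lit 7) (nat_lit 208) (nat_lit 233)))))))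 (n (nat_lit 233) (b (n (nat_lit 235) (b (n (nat_lit 232) (b (n (nat_lit 231) (b (n (nat_lit 206) (b (l (nat_lit 3) (nat_lit 205) (nat_lit 205)) (l (nat_lit 3) (nat_lit 206) (nat_lit 207)))) (l (nat_lit 0) (nat_lit 231) (nat_lit 260)))) (n (nat_lit 236) (b (n (nat_lit 211) (b (l (nat_lit 1) (nat_lit 208) (nat_lit 212)) (l (nat_lit 7) (nat_lit 211) (nat_lit 237)))) (n (nat_lit 257) (b (l (nat_lit 2) (nat_lit 232) (nat_lit 258)) (l (nat_lit 2) (nat_lit 231) (nat_lit 256)))))))) (l (nat_lit 5) (nat_lit 209) (nat_lit 210)))) (l (nat_lit 7) (nat_lit 208) (nat_lit 208))))))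
    envOK_nil (by decide +kernel)

theorem p9355 : Fam (nat_lit 7) (nat_lit 11994068170567187444707377388931171872576443835521450860462856436674080729545949941966768701440) (nat_lit 13123516733877176767010941012274089116383114271558616372125175648791267375540672946211265699710500864) (nat_lit 13123516733877176767010941012274089116383114271558616372125175648791267375540672946211265699710500864) :=
  chk_sound Env.nil
    (n (nat_lit 307) (b (n (nat_lit 282) (b (n (nat_lit 235) (b (n (nat_lit 257) (b (n (nat_lit 236) (b (b (n (nat_lit 260) (b (l (nat_lit 1) (nat_lit 232) (nat_lit 258)) (l (nat_lit 5) (nat_lit 210) (nat_lit 211)))) (n (nat_lit 211) (b (l (nat_lit 7) (nat_lit 211) (nat_lit 237)) (l (nat_lit 5) (nat_lit 210) (nat_lit 260))))) (b (n (nat_lit 237) (b (l (nat_lit 7) (nat_lit 211) (nat_lit 211)) (l (nat_lit 2) (nat_lit 233) (nat_lit 258)))) (n (nat_lit 258) (b (l (nat_lit 1) (nat_lit 232) (nat_lit 260)) (l (nat_lit 2) (nat_lit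 233) (nat_lit 237))))))) (n (nat_lit 332) (b (n (nat_lit 256) (b (l (nat_lit 7) (nat_lit 231) (nat_lit 231)) (l (nat_lit 3) (nat_lit 256) (nat_lit 283)))) (l (nat_lit 2) (nat_lit 306) (nat_lit 331)))))) (l (nat_lit 5) (nat_lit 209) (nat_lit 210)))) (l (nat_lit 3) (nat_lit 281) (nat_lit 281)))) (l (nat_lit 1) (nat_lit 281) (nat_lit 306))))
    envOK_nil (by decide +kernel)

theorem p9370 : Fam (nat_lit 11) (nat_lit 1042962699627578283011171910383066751868104182590256118095482099890831225087938176517855510528) (nat_lit 87490033032800347460422293859046117227823618695002576669331834567911575306192728718903551432568340480) (nat_lit 87490033032800347460422293859046117227823618695002576669331834567911575306192728718903551432568340480) :=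
  chk_sound Env.nil
    (n (nat_lit 308) (b (n (nat_lit 285) (b (n (nat_lit 235) (b (n (nat_lit 233) (b (n (nat_lit 310) (b (n (nat_lit 307) (b (n (nat_lit 282) (b (n (nat_lit 232) (b (b (n (nat_lit 207) (b (n (nat_lit 257) (b (l (nat_lit 4) (nat_lit 207) (nat_lit 283)) (l (nat_lit 2) (nat_lit 231) (nat_lit 256)))) (l (nat_lit 3) (nat_lit 206) (nat_lit 206)))) (n (nat_lit 231) (b (n (nat_lit 256) (b (l (nat_lit 2) (nat_lit 231) (nat_lit 257)) (l (nat_lit 2) (nat_lit 230) (nat_lit 255)))) (l (nat_lit 0) (nat_lit 231) (nat_lit 260))))) (n (nat_lit 231) (b (n (nat_lit 206) (b (l (nat_lit 3) (nat_lit 205) (nat_lit 205)) (l (nat_lit 3) (nat_lit 206) (nat_lit 207)))) (l (nat_lit 0) (nat_lit 231) (nat_lit 260)))))) (l (nat_lit 3) (nat_lit 281) (nat_lit 281)))) (l (nat_lit 1) (nat_lit 281) (nat_lit 306)))) (l (nat_lit 4) (nat_lit 234) (nat_lit 335)))) (l (nat_lit 7) (nat_lit 208) (nat_lit 208)))) (l (nat_lit 5) (nat_lit 209) (nat_lit 210))))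 (l (nat_lit 2) (nat_lit 283) (nat_lit 286)))) (l (nat_lit 6) (nat_lit 233) (nat_lit 333))))
    envOK_nil (by decide +kernel)

theorem p9525 : Fam (nat_lit 5) (nat_lit 1303703125872854417286430826923584566463802986854617657278262317805561653932230385933253345280) (nat_lit 24626254900233960092738018299836704540515443479350254364707530735689522514471311212843019206178701825344161336786944) (nat_lit 24626254900233960092738018299836704540515443479350254364707530735689522514471311212843019206178701825344161336786944) :=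
  chk_sound Env.nil
    (n (nat_lit 257) (b (b (n (nat_lit 258) (b (n (nat_lit 233) (b (n (nat_lit 208) (b (l (nat_lit 6) (nat_lit 182) (nat_lit 183)) (l (nat_lit 5) (nat_lit 207) (nat_lit 232)))) (l (nat_lit 5) (nat_lit 232) (nat_lit 332)))) (l (nat_lit 0) (nat_lit 256) (nat_lit 256)))) (n (nat_lit 332) (b (b (n (nat_lit 357) (b (n (nat_lit 356) (b (l (nat_lit 6) (nat_lit 256) (nat_lit 331)) (l (nat_lit 6) (nat_lit 281) (nat_lit 381)))) (n (nat_lit 358) (b (l (nat_lit 4) (nat_lit 282) (nat_lit 383)) (l (nat_lit 4) (nat_lit 257) (nat_lit 333)))))) (n (nat_lit 232) (b (n (nat_lit 231) (b (l (nat_lit 7) (nat_lit 231) (nat_lit 256)) (l (nat_lit 7) (nat_lit 206) (nat_lit 206)))) (n (nat_lit 331) (b (l (nat_lit 6) (nat_lit 231) (nat_lit 306)) (l (nat_lit 6) (nat_lit 256) (nat_lit 356))))))) (n (nat_lit 357) (b (n (nat_lit 358) (b (l (nat_lit 4) (nat_lit 282) (nat_lit 383)) (l (nat_lit 4) (nat_lit 257) (nat_lit 333)))) (n (nat_lit 256) (b (l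 (nat_lit 7) (nat_lit 256) (nat_lit 281)) (l (nat_lit 7) (nat_lit 231) (nat_lit 231))))))))) (b (n (nat_lit 232) (b (b (n (nat_lit 207) (b (n (nat_lit 306) (b (l (nat_lit 6) (nat_lit 231) (nat_lit 331)) (l (nat_lit 6) (nat_lit 206) (nat_lit 281)))) (n (nat_lit 206) (b (l (nat_lit 7) (nat_lit 181) (nat_lit 181)) (l (nat_lit 7) (nat_lit 206) (nat_lit 231)))))) (n (nat_lit 258) (b (n (nat_lit 260) (b (l (nat_lit 3) (nat_lit 231) (nat_lit 231)) (l (nat_lit 2) (nat_lit 256) (nat_lit 281)))) (n (nat_lit 233) (b (l (nat_lit 5) (nat_lit 207) (nat_lit 208)) (l (nat_lit 5) (nat_lit 232) (nat_lit 332))))))) (n (nat_lit 332) (b (n (nat_lit 233) (b (l (nat_lit 5) (nat_lit 207) (nat_lit 208)) (l (nat_lit 5) (nat_lit 232) (nat_lit 258)))) (n (nat_lit 331) (b (l (nat_lit 6) (nat_lit 231) (nat_lit 306)) (l (nat_lit 6) (nat_lit 256) (nat_lit 356)))))))) (n (nat_lit 258) (b (n (nat_lit 260) (b (n (nat_lit 235) (b (l (nat_lit 6) (nat_lit 209) (nat_lit 210))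 (l (nat_lit 1) (nat_lit 232) (nat_lit 236)))) (l (nat_lit 2) (nat_lit 256) (nat_lit 281)))) (l (nat_lit 0) (nat_lit 256) (nat_lit 256)))))))
    envOK_nil (by decide +kernel)

theorem p9549 : Fam (nat_lit 12) (nat_lit 279968102158887585013320988131464566124205332977140731911083139498796160904106990830330868047403810816) (nat_lit 24626278385660837711429144146662945123312371601582911245034138848000714675371507185747046222638019307031559835484160) (nat_lit 24626278385660837711429144146662945123312371601582911245034138848000714675371507185747046222638019307031559835484160) :=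
  chk_sound (Env.cons (nat_lit 5) (nat_lit 1303703125872854417286430826923584566463802986854617657278262317805561653932230385933253345280) (nat_lit 24626254900233960092738018299836704540515443479350254364707530735689522514471311212843019206178701825344161336786944) Env.nil)
    (n (nat_lit 285) (b (b (n (nat_lit 286) (b (n (nat_lit 288) (b (l (nat_lit 2) (nat_lit 284) (nat_lit 310)) (l (nat_lit 3) (nat_lit 259) (nat_lit 260)))) (l (nat_lit 2) (nat_lit 283) (nat_lit 308)))) (n (nat_lit 286) (b (n (nat_lit 288) (b (l (nat_lit 2) (nat_lit 284) (nat_lit 310)) (l (nat_lit 3) (nat_lit 259) (nat_lit 260)))) (l (nat_lit 3) (nat_lit 258) (nat_lit 258))))) (b (n (nat_lit 286) (b (l (nat_lit 2) (nat_lit 283) (nat_lit 308)) (l (nat_lit 3) (nat_lit 258) (nat_lit 258)))) (n (nat_lit 282) (b (b (b (n (nat_lit 336) (b (n (nat_lit 307) (b (b (n (nat_lit 308) (b (n (nat_lit 332) (b (n (nat_lit 310) (b (l (nat_lit 2) (nat_lit 306) (nat_lit 331)) (l (nat_lit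 0) (nat_lit 307) (nat_lit 335)))) (n (nat_lit 257) (b (n (nat_lit 333) (b (l (nat_lit 4) (nat_lit 232) (nat_lit 232)) (l (nat_lit 4) (nat_lit 257) (nat_lit 358)))) (n (nat_lit 256) (b (l (nat_lit 7) (nat_lit 231) (nat_lit 231)) (l (nat_lit 0) (nat_lit 256) (nat_lit 258)))))))) (l (nat_lit 1) (nat_lit 281) (nat_lit 306)))) (n (nat_lit 257) (b (b (n (nat_lit 256) (b (l (nat_lit 0) (nat_lit 256) (nat_lit 258)) (l (nat_lit 3) (nat_lit 256) (nat_lit 283)))) (n (nat_lit 232) (b (b (n (nat_lit 258) (b (n (nat_lit 231) (b (l (nat_lit 7) (nat_lit 206) (nat_lit 206)) (l (nat_lit 3) (nat_lit 231) (nat_lit 260)))) (n (nat_lit 233) (b (l (nat_lit 5) (nat_lit 207) (nat_lit 208)) (l (nat_lit 5) (nat_lit 232) (nat_lit 332)))))) (n (nat_lit 207) (b (n (nat_lit 208) (b (l (nat_lit 5) (nat_lit 207) (nat_lit 233)) (l (nat_lit 5) (nat_lit 182) (nat_lit 183)))) (n (nat_lit 308) (b (l (nat_lit 4) (nat_lit 207) (nat_lit 283)) (l (nat_lit 4) (nat_lit 232) (nat_lit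 333))))))) (n (nat_lit 207) (b (n (nat_lit 308) (b (l (nat_lit 4) (nat_lit 207) (nat_lit 283)) (l (nat_lit 4) (nat_lit 232) (nat_lit 333)))) (n (nat_lit 206) (b (l (nat_lit 7) (nat_lit 181) (nat_lit 181)) (l (nat_lit 7) (nat_lit 206) (nat_lit 231))))))))) (b (n (nat_lit 308) (b (b (n (nat_lit 332) (b (n (nat_lit 310) (b (l (nat_lit 2) (nat_lit 306) (nat_lit 331)) (l (nat_lit 0) (nat_lit 307) (nat_lit 335)))) (n (nat_lit 256) (b (l (nat_lit 7) (nat_lit 231) (nat_lit 231)) (l (nat_lit 3) (nat_lit 256) (nat_lit 283)))))) (n (nat_lit 333) (b (n (nat_lit 358) (b (l (nat_lit 7) (nat_lit 257) (nat_lit 283)) (l (nat_lit 5) (nat_lit 283) (nat_lit 383)))) (l (nat_lit 4) (nat_lit 232) (nat_lit 232))))) (n (nat_lit 333) (b (n (nat_lit 358) (b (l (nat_lit 4) (nat_lit 257) (nat_lit 332)) (l (nat_lit 5) (nat_lit 283) (nat_lit 383)))) (l (nat_lit 4) (nat_lit 232) (nat_lit 232)))))) (n (nat_lit 310) (b (n (nat_lit 332) (b (n (nat_lit 331) (b (l (nat_lit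 2) (nat_lit 306) (nat_lit 308)) (l (nat_lit 6) (nat_lit 256) (nat_lit 356)))) (n (nat_lit 256) (b (l (nat_lit 7) (nat_lit 231) (nat_lit 231)) (l (nat_lit 0) (nat_lit 256) (nat_lit 258)))))) (n (nat_lit 338) (b (l (nat_lit 3) (nat_lit 309) (nat_lit 335)) (l (nat_lit 4) (nat_lit 262) (nat_lit 363)))))))))) (b (n (nat_lit 306) (b (l (nat_lit 1) (nat_lit 281) (nat_lit 308)) (l (nat_lit 2) (nat_lit 281) (nat_lit 283)))) (n (nat_lit 257) (b (b (n (nat_lit 232) (b (n (nat_lit 258) (b (n (nat_lit 231) (b (l (nat_lit 7) (nat_lit 206) (nat_lit 206)) (l (nat_lit 3) (nat_lit 231) (nat_lit 260)))) (n (nat_lit 233) (b (l (nat_lit 5) (nat_lit 207) (nat_lit 208)) (l (nat_lit 5) (nat_lit 232) (nat_lit 332)))))) (n (nat_lit 306) (b (l (nat_lit 2) (nat_lit 281) (nat_lit 283)) (l (nat_lit 6) (nat_lit 231) (nat_lit 331)))))) (n (nat_lit 258) (b (n (nat_lit 233) (b (n (nat_lit 208) (b (l (nat_lit 6) (nat_lit 182) (nat_lit 183)) (l (nat_lit 5) (nat_lit 207)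 (nat_lit 232)))) (l (nat_lit 5) (nat_lit 232) (nat_lit 332)))) (l (nat_lit 0) (nat_lit 256) (nat_lit 256))))) (n (nat_lit 283) (b (l (nat_lit 2) (nat_lit 281) (nat_lit 306)) (l (nat_lit 3) (nat_lit 256) (nat_lit 256))))))))) (l (nat_lit 6) (nat_lit 261) (nat_lit 361)))) (n (nat_lit 338) (b (n (nat_lit 211) (b (b (n (nat_lit 260) (b (n (nat_lit 310) (b (n (nat_lit 235) (b (l (nat_lit 6) (nat_lit 209) (nat_lit 210)) (l (nat_lit 5) (nat_lit 210) (nat_lit 236)))) (n (nat_lit 336) (b (l (nat_lit 6) (nat_lit 261) (nat_lit 361)) (l (nat_lit 3) (nat_lit 309) (nat_lit 335)))))) (n (nat_lit 257) (b (b (n (nat_lit 256) (b (l (nat_lit 0) (nat_lit 256) (nat_lit 258)) (l (nat_lit 3) (nat_lit 256) (nat_lit 283)))) (n (nat_lit 258) (b (l (nat_lit 2) (nat_lit 256) (nat_lit 281)) (l (nat_lit 0) (nat_lit 256) (nat_lit 256))))) (b (n (nat_lit 281) (b (l (nat_lit 2) (nat_lit 256) (nat_lit 258)) (l (nat_lit 1) (nat_lit 256) (nat_lit 283)))) (n (nat_lit 283)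 (b (l (nat_lit 3) (nat_lit 256) (nat_lit 256)) (l (nat_lit 1) (nat_lit 256) (nat_lit 281))))))))) (n (nat_lit 237) (b (n (nat_lit 212) (b (n (nat_lit 213) (b (l (nat_lit 5) (nat_lit 187) (nat_lit 188)) (l (nat_lit 5) (nat_lit 212) (nat_lit 238)))) (l (nat_lit 7) (nat_lit 186) (nat_lit 186)))) (l (nat_lit 7) (nat_lit 211) (nat_lit 236))))) (n (nat_lit 212) (b (b (b (n (nat_lit 213) (b (b (n (nat_lit 238) (b (n (nat_lit 239) (b (n (nat_lit 240) (b (l (nat_lit 0) (nat_lit 211) (nat_lit 214)) (l (nat_lit 3) (nat_lit 212) (nat_lit 241)))) (l (nat_lit 0) (nat_lit 210) (nat_lit 210)))) (l (nat_lit 5) (nat_lit 212) (nat_lit 237)))) (n (nat_lit 188) (b (n (nat_lit 189) (b (n (nat_lit 190) (b (l (nat_lit 2) (nat_lit 186) (nat_lit 187)) (l (nat_lit 2) (nat_lit 187) (nat_lit 191)))) (l (nat_lit 1) (nat_lit 185) (nat_lit 210)))) (l (nat_lit 5) (nat_lit 187) (nat_lit 237))))) (b (n (nat_lit 237) (b (l (nat_lit 5) (nat_lit 212) (nat_lit 238)) (l (nat_lit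 5) (nat_lit 187) (nat_lit 188)))) (n (nat_lit 214) (b (b (n (nat_lit 260) (b (n (nat_lit 210) (b (n (nat_lit 239) (b (l (nat_lit 0) (nat_lit 210) (nat_lit 238)) (l (nat_lit 0) (nat_lit 211) (nat_lit 240)))) (l (nat_lit 6) (nat_lit 209) (nat_lit 235)))) (n (nat_lit 257) (b (b (n (nat_lit 256) (b (l (nat_lit 0) (nat_lit 256) (nat_lit 258)) (l (nat_lit 3) (nat_lit 256) (nat_lit 283)))) (n (nat_lit 258) (b (l (nat_lit 2) (nat_lit 256) (nat_lit 281)) (l (nat_lit 0) (nat_lit 256) (nat_lit 256))))) (b (n (nat_lit 281) (b (l (nat_lit 2) (nat_lit 256) (nat_lit 258)) (l (nat_lit 1) (nat_lit 256) (nat_lit 283)))) (n (nat_lit 283) (b (l (nat_lit 3) (nat_lit 256) (nat_lit 256)) (l (nat_lit 1) (nat_lit 256) (nat_lit 281))))))))) (n (nat_lit 260) (b (n (nat_lit 210) (b (n (nat_lit 189) (b (l (nat_lit 1) (nat_lit 186) (nat_lit 190)) (l (nat_lit 1) (nat_lit 185) (nat_lit 188)))) (l (nat_lit 6) (nat_lit 209) (nat_lit 235)))) (n (nat_lit 257) (b (b (n (nat_lit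 256) (b (l (nat_lit 0) (nat_lit 256) (nat_lit 258)) (l (nat_lit 3) (nat_lit 256) (nat_lit 283)))) (n (nat_lit 258) (b (l (nat_lit 2) (nat_lit 256) (nat_lit 281)) (l (nat_lit 0) (nat_lit 256) (nat_lit 256))))) (b (n (nat_lit 281) (b (l (nat_lit 2) (nat_lit 256) (nat_lit 258)) (l (nat_lit 1) (nat_lit 256) (nat_lit 283)))) (n (nat_lit 283) (b (l (nat_lit 3) (nat_lit 256) (nat_lit 256)) (l (nat_lit 1) (nat_lit 256) (nat_lit 281)))))))))) (n (nat_lit 215) (b (n (nat_lit 190) (b (l (nat_lit 1) (nat_lit 186) (nat_lit 189)) (l (nat_lit 1) (nat_lit 187) (nat_lit 191)))) (n (nat_lit 240) (b (l (nat_lit 0) (nat_lit 211) (nat_lit 239)) (l (nat_lit 0) (nat_lit 212) (nat_lit 241))))))))))) (n (nat_lit 210) (b (n (nat_lit 260) (b (n (nat_lit 257) (b (b (n (nat_lit 256) (b (l (nat_lit 0) (nat_lit 256) (nat_lit 258)) (l (nat_lit 3) (nat_lit 256) (nat_lit 283)))) (n (nat_lit 258) (b (l (nat_lit 2) (nat_lit 256) (nat_lit 281)) (l (nat_lit 0) (nat_lit 256)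 (nat_lit 256))))) (b (n (nat_lit 281) (b (l (nat_lit 2) (nat_lit 256) (nat_lit 258)) (l (nat_lit 1) (nat_lit 256) (nat_lit 283)))) (n (nat_lit 283) (b (l (nat_lit 3) (nat_lit 256) (nat_lit 256)) (l (nat_lit 1) (nat_lit 256) (nat_lit 281))))))) (l (nat_lit 6) (nat_lit 209) (nat_lit 235)))) (n (nat_lit 213) (b (b (n (nat_lit 214) (b (n (nat_lit 189) (b (l (nat_lit 1) (nat_lit 186) (nat_lit 190)) (l (nat_lit 1) (nat_lit 185) (nat_lit 188)))) (n (nat_lit 239) (b (l (nat_lit 0) (nat_lit 210) (nat_lit 238)) (l (nat_lit 0) (nat_lit 211) (nat_lit 240)))))) (n (nat_lit 214) (b (n (nat_lit 185) (b (l (nat_lit 3) (nat_lit 185) (nat_lit 186)) (l (nat_lit 3) (nat_lit 184) (nat_lit 184)))) (n (nat_lit 239) (b (l (nat_lit 0) (nat_lit 210) (nat_lit 238)) (l (nat_lit 0) (nat_lit 211) (nat_lit 240))))))) (n (nat_lit 209) (b (n (nat_lit 188) (b (l (nat_lit 1) (nat_lit 184) (nat_lit 187)) (l (nat_lit 1) (nat_lit 185) (nat_lit 189)))) (n (nat_lit 184) (b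 (l (nat_lit 3) (nat_lit 183) (nat_lit 183)) (l (nat_lit 3) (nat_lit 184) (nat_lit 185))))))))))) (b (n (nat_lit 237) (b (n (nat_lit 213) (b (l (nat_lit 5) (nat_lit 187) (nat_lit 188)) (l (nat_lit 5) (nat_lit 212) (nat_lit 238)))) (l (nat_lit 7) (nat_lit 186) (nat_lit 186)))) (n (nat_lit 210) (b (n (nat_lit 260) (b (n (nat_lit 257) (b (b (n (nat_lit 256) (b (l (nat_lit 0) (nat_lit 256) (nat_lit 258)) (l (nat_lit 3) (nat_lit 256) (nat_lit 283)))) (n (nat_lit 258) (b (l (nat_lit 2) (nat_lit 256) (nat_lit 281)) (l (nat_lit 0) (nat_lit 256) (nat_lit 256))))) (b (n (nat_lit 281) (b (l (nat_lit 2) (nat_lit 256) (nat_lit 258)) (l (nat_lit 1) (nat_lit 256) (nat_lit 283)))) (n (nat_lit 283) (b (l (nat_lit 3) (nat_lit 256) (nat_lit 256)) (l (nat_lit 1) (nat_lit 256) (nat_lit 281))))))) (l (nat_lit 6) (nat_lit 209) (nat_lit 235)))) (n (nat_lit 237) (b (n (nat_lit 188) (b (n (nat_lit 187) (b (l (nat_lit 1) (nat_lit 184) (nat_lit 209)) (l (nat_lit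 5) (nat_lit 162) (nat_lit 163)))) (l (nat_lit 5) (nat_lit 187) (nat_lit 213)))) (l (nat_lit 7) (nat_lit 186) (nat_lit 186)))))))) (n (nat_lit 210) (b (b (n (nat_lit 209) (b (n (nat_lit 237) (b (l (nat_lit 0) (nat_lit 209) (nat_lit 238)) (l (nat_lit 7) (nat_lit 186) (nat_lit 186)))) (n (nat_lit 183) (b (n (nat_lit 208) (b (n (nat_lit 233) (b (l (nat_lit 4) (nat_lit 183) (nat_lit 258)) (l (nat_lit 2) (nat_lit 207) (nat_lit 232)))) (l (nat_lit 3) (nat_lit 182) (nat_lit 182)))) (l (nat_lit 3) (nat_lit 183) (nat_lit 184)))))) (n (nat_lit 260) (b (n (nat_lit 257) (b (b (n (nat_lit 256) (b (l (nat_lit 0) (nat_lit 256) (nat_lit 258)) (l (nat_lit 3) (nat_lit 256) (nat_lit 283)))) (n (nat_lit 258) (b (l (nat_lit 2) (nat_lit 256) (nat_lit 281)) (l (nat_lit 0) (nat_lit 256) (nat_lit 256))))) (b (n (nat_lit 281) (b (l (nat_lit 2) (nat_lit 256) (nat_lit 258)) (l (nat_lit 1) (nat_lit 256) (nat_lit 283)))) (n (nat_lit 283) (b (l (nat_lit 3) (nat_lit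 256) (nat_lit 256)) (l (nat_lit 1) (nat_lit 256) (nat_lit 281))))))) (l (nat_lit 6) (nat_lit 209) (nat_lit 235))))) (n (nat_lit 209) (b (n (nat_lit 237) (b (l (nat_lit 0) (nat_lit 209) (nat_lit 238)) (l (nat_lit 7) (nat_lit 186) (nat_lit 186)))) (n (nat_lit 257) (b (n (nat_lit 283) (b (n (nat_lit 260) (b (l (nat_lit 1) (nat_lit 256) (nat_lit 281)) (l (nat_lit 6) (nat_lit 209) (nat_lit 235)))) (l (nat_lit 3) (nat_lit 256) (nat_lit 256)))) (n (nat_lit 183) (b (n (nat_lit 208) (b (n (nat_lit 232) (b (l (nat_lit 5) (nat_lit 182) (nat_lit 207)) (l (nat_lit 2) (nat_lit 207) (nat_lit 233)))) (l (nat_lit 3) (nat_lit 182) (nat_lit 182)))) (l (nat_lit 3) (nat_lit 183) (nat_lit 184)))))))))))))) (l (nat_lit 4) (nat_lit 262) (nat_lit 363))))) (b (n (nat_lit 307) (b (b (n (nat_lit 257) (b (b (n (nat_lit 258) (b (n (nat_lit 260) (b (n (nat_lit 235) (b (l (nat_lit 6) (nat_lit 209) (nat_lit 210)) (l (nat_lit 1) (nat_lit 232) (nat_lit 236)))) (l (nat_lit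 2) (nat_lit 256) (nat_lit 281)))) (l (nat_lit 0) (nat_lit 256) (nat_lit 256)))) (n (nat_lit 258) (b (n (nat_lit 233) (b (n (nat_lit 208) (b (l (nat_lit 6) (nat_lit 182) (nat_lit 183)) (l (nat_lit 5) (nat_lit 207) (nat_lit 232)))) (l (nat_lit 5) (nat_lit 232) (nat_lit 332)))) (l (nat_lit 0) (nat_lit 256) (nat_lit 256))))) (n (nat_lit 308) (b (n (nat_lit 310) (b (n (nat_lit 336) (b (l (nat_lit 0) (nat_lit 307) (nat_lit 335)) (l (nat_lit 6) (nat_lit 261) (nat_lit 361)))) (l (nat_lit 3) (nat_lit 281) (nat_lit 281)))) (n (nat_lit 333) (b (n (nat_lit 358) (b (l (nat_lit 4) (nat_lit 257) (nat_lit 332)) (l (nat_lit 5) (nat_lit 283) (nat_lit 383)))) (l (nat_lit 4) (nat_lit 232) (nat_lit 232)))))))) (r (nat_lit 0))) (b (n (nat_lit 308) (b (n (nat_lit 310) (b (n (nat_lit 336) (b (l (nat_lit 0) (nat_lit 307) (nat_lit 335)) (l (nat_lit 6) (nat_lit 261) (nat_lit 361)))) (l (nat_lit 3) (nat_lit 281) (nat_lit 281)))) (l (nat_lit 1) (nat_lit 281) (nat_lit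 306)))) (n (nat_lit 308) (b (n (nat_lit 332) (b (n (nat_lit 310) (b (n (nat_lit 336) (b (l (nat_lit 0) (nat_lit 307) (nat_lit 335)) (l (nat_lit 6) (nat_lit 261) (nat_lit 361)))) (l (nat_lit 2) (nat_lit 306) (nat_lit 331)))) (n (nat_lit 257) (b (n (nat_lit 333) (b (l (nat_lit 4) (nat_lit 232) (nat_lit 232)) (l (nat_lit 4) (nat_lit 257) (nat_lit 358)))) (n (nat_lit 256) (b (l (nat_lit 7) (nat_lit 231) (nat_lit 231)) (l (nat_lit 0) (nat_lit 256) (nat_lit 258)))))))) (l (nat_lit 1) (nat_lit 281) (nat_lit 306))))))) (n (nat_lit 310) (b (n (nat_lit 307) (b (b (n (nat_lit 306) (b (l (nat_lit 1) (nat_lit 281) (nat_lit 308)) (l (nat_lit 2) (nat_lit 281) (nat_lit 283)))) (n (nat_lit 308) (b (l (nat_lit 1) (nat_lit 281) (nat_lit 306)) (l (nat_lit 3) (nat_lit 281) (nat_lit 281))))) (b (n (nat_lit 283) (b (l (nat_lit 2) (nat_lit 281) (nat_lit 306)) (l (nat_lit 0) (nat_lit 281) (nat_lit 281)))) (n (nat_lit 281) (b (l (nat_lit 3) (nat_lit 281) (nat_lit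 308)) (l (nat_lit 0) (nat_lit 281) (nat_lit 283))))))) (n (nat_lit 338) (b (n (nat_lit 336) (b (l (nat_lit 6) (nat_lit 261) (nat_lit 361)) (l (nat_lit 3) (nat_lit 309) (nat_lit 335)))) (l (nat_lit 4) (nat_lit 262) (nat_lit 363)))))))) (n (nat_lit 307) (b (b (r (nat_lit 0)) (n (nat_lit 306) (b (l (nat_lit 1) (nat_lit 281) (nat_lit 308)) (l (nat_lit 2) (nat_lit 281) (nat_lit 283))))) (n (nat_lit 257) (b (b (n (nat_lit 258) (b (n (nat_lit 260) (b (n (nat_lit 235) (b (l (nat_lit 6) (nat_lit 209) (nat_lit 210)) (l (nat_lit 1) (nat_lit 232) (nat_lit 236)))) (l (nat_lit 2) (nat_lit 256) (nat_lit 281)))) (l (nat_lit 0) (nat_lit 256) (nat_lit 256)))) (n (nat_lit 258) (b (n (nat_lit 233) (b (n (nat_lit 208) (b (l (nat_lit 6) (nat_lit 182) (nat_lit 183)) (l (nat_lit 5) (nat_lit 207) (nat_lit 232)))) (l (nat_lit 5) (nat_lit 232) (nat_lit 332)))) (l (nat_lit 0) (nat_lit 256) (nat_lit 256))))) (b (n (nat_lit 258) (b (n (nat_lit 260) (b (n (nat_lit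 235) (b (l (nat_lit 6) (nat_lit 209) (nat_lit 210)) (l (nat_lit 1) (nat_lit 232) (nat_lit 236)))) (l (nat_lit 2) (nat_lit 256) (nat_lit 281)))) (n (nat_lit 233) (b (n (nat_lit 208) (b (l (nat_lit 6) (nat_lit 182) (nat_lit 183)) (l (nat_lit 5) (nat_lit 207) (nat_lit 232)))) (l (nat_lit 5) (nat_lit 232) (nat_lit 332)))))) (n (nat_lit 283) (b (n (nat_lit 308) (b (n (nat_lit 281) (b (l (nat_lit 0) (nat_lit 280) (nat_lit 280)) (l (nat_lit 1) (nat_lit 256) (nat_lit 260)))) (n (nat_lit 333) (b (l (nat_lit 5) (nat_lit 258) (nat_lit 358)) (l (nat_lit 4) (nat_lit 232) (nat_lit 232)))))) (l (nat_lit 3) (nat_lit 256) (nat_lit 256))))))))))))))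
    (envOK_cons p9525 envOK_nil) (by decide +kernel)

theorem p9555 : Fam (nat_lit 14) (nat_lit 279968101115925134047361836350355238947213205342486408075614354338859910805665209529033911198168383488) (nat_lit 103430294301263705292748662709361857877570921160205117130417484067358654549386692396790690569382890555712126922522624) (nat_lit 103430294301263705292748662709361857877570921160205117130417484067358654549386692396790690569382890555712126922522624) :=
  chk_sound (Env.cons (nat_lit 7) (nat_lit 9386662058693640703060409031358999645822809540048584501878322177006586872657721181388452921344) (nat_lit 17498015706407379571602959986395385048949622522892890559918240643285649124702041538859921942851354624) (Env.cons (nat_lit 7) (nat_lit 11994068170567187444707377388931171872576443835521450860462856436674080729545949941966768701440) (nat_lit 13123516733877176767010941012274089116383114271558616372125175648791267375540672946211265699710500864)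 (Env.cons (nat_lit 11) (nat_lit 1042962699627578283011171910383066751868104182590256118095482099890831225087938176517855510528) (nat_lit 87490033032800347460422293859046117227823618695002576669331834567911575306192728718903551432568340480) (Env.cons (nat_lit 12) (nat_lit 279968102158887585013320988131464566124205332977140731911083139498796160904106990830330868047403810816) (nat_lit 24626278385660837711429144146662945123312371601582911245034138848000714675371507185747046222638019307031559835484160) Env.nil))))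
    (n (nat_lit 309) (b (b (b (n (nat_lit 284) (b (b (b (r (nat_lit 0)) (n (nat_lit 285) (b (b (n (nat_lit 286) (b (l (nat_lit 2) (nat_lit 283) (nat_lit 308)) (l (nat_lit 3) (nat_lit 258) (nat_lit 258)))) (n (nat_lit 234) (b (b (n (nat_lit 209) (b (n (nat_lit 308) (b (l (nat_lit 6) (nat_lit 233) (nat_lit 333)) (l (nat_lit 6) (nat_lit 208) (nat_lit 283)))) (l (nat_lit 4) (nat_lit 209) (nat_lit 310)))) (n (nat_lit 334) (b (n (nat_lit 260) (b (l (nat_lit 5) (nat_lit 234) (nat_lit 235)) (l (nat_lit 5) (nat_lit 259) (nat_lit 359)))) (n (nat_lit 333) (b (l (nat_lit 6) (nat_lit 233) (nat_lit 308)) (l (nat_lit 6) (nat_lit 258) (nat_lit 358))))))) (n (nat_lit 210) (b (n (nat_lit 209) (b (l (nat_lit 5) (nat_lit 184) (nat_lit 185)) (l (nat_lit 4) (nat_lit 209) (nat_lit 310)))) (l (nat_lit 5) (nat_lit 209) (nat_lit 235))))))) (n (nat_lit 260) (b (n (nat_lit 334) (b (l (nat_lit 5) (nat_lit 234) (nat_lit 235)) (l (nat_lit 5) (nat_lit 259) (nat_lit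 359)))) (n (nat_lit 286) (b (l (nat_lit 3) (nat_lit 259) (nat_lit 288)) (l (nat_lit 3) (nat_lit 258) (nat_lit 258))))))))) (b (n (nat_lit 334) (b (b (n (nat_lit 359) (b (n (nat_lit 358) (b (l (nat_lit 6) (nat_lit 258) (nat_lit 333)) (l (nat_lit 6) (nat_lit 283) (nat_lit 383)))) (n (nat_lit 260) (b (l (nat_lit 5) (nat_lit 234) (nat_lit 235)) (l (nat_lit 5) (nat_lit 259) (nat_lit 285)))))) (n (nat_lit 359) (b (n (nat_lit 258) (b (l (nat_lit 7) (nat_lit 233) (nat_lit 233)) (l (nat_lit 7) (nat_lit 258) (nat_lit 283)))) (n (nat_lit 358) (b (l (nat_lit 6) (nat_lit 258) (nat_lit 333)) (l (nat_lit 6) (nat_lit 283) (nat_lit 383))))))) (n (nat_lit 234) (b (n (nat_lit 233) (b (l (nat_lit 7) (nat_lit 233) (nat_lit 258)) (l (nat_lit 7) (nat_lit 208) (nat_lit 208)))) (n (nat_lit 235) (b (l (nat_lit 5) (nat_lit 209) (nat_lit 210)) (l (nat_lit 5) (nat_lit 234) (nat_lit 260)))))))) (n (nat_lit 234) (b (b (n (nat_lit 334) (b (n (nat_lit 233) (b (l (nat_lit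 7) (nat_lit 233) (nat_lit 258)) (l (nat_lit 7) (nat_lit 208) (nat_lit 208)))) (n (nat_lit 333) (b (l (nat_lit 6) (nat_lit 233) (nat_lit 308)) (l (nat_lit 6) (nat_lit 258) (nat_lit 358)))))) (n (nat_lit 209) (b (n (nat_lit 308) (b (l (nat_lit 6) (nat_lit 233) (nat_lit 333)) (l (nat_lit 6) (nat_lit 208) (nat_lit 283)))) (n (nat_lit 210) (b (l (nat_lit 5) (nat_lit 184) (nat_lit 185)) (l (nat_lit 5) (nat_lit 209) (nat_lit 235))))))) (n (nat_lit 209) (b (n (nat_lit 208) (b (l (nat_lit 7) (nat_lit 183) (nat_lit 183)) (l (nat_lit 7) (nat_lit 208) (nat_lit 233)))) (n (nat_lit 210) (b (l (nat_lit 5) (nat_lit 184) (nat_lit 185)) (l (nat_lit 5) (nat_lit 209) (nat_lit 235)))))))))) (b (b (n (nat_lit 234) (b (b (n (nat_lit 334) (b (n (nat_lit 235) (b (l (nat_lit 5) (nat_lit 209) (nat_lit 210)) (l (nat_lit 5) (nat_lit 234) (nat_lit 260)))) (n (nat_lit 333) (b (l (nat_lit 6) (nat_lit 233) (nat_lit 308)) (l (nat_lit 6) (nat_lit 258) (nat_lit 358))))))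 (n (nat_lit 209) (b (n (nat_lit 308) (b (l (nat_lit 6) (nat_lit 233) (nat_lit 333)) (l (nat_lit 6) (nat_lit 208) (nat_lit 283)))) (n (nat_lit 208) (b (l (nat_lit 7) (nat_lit 183) (nat_lit 183)) (l (nat_lit 7) (nat_lit 208) (nat_lit 233))))))) (n (nat_lit 209) (b (n (nat_lit 208) (b (l (nat_lit 7) (nat_lit 183) (nat_lit 183)) (l (nat_lit 7) (nat_lit 208) (nat_lit 233)))) (n (nat_lit 210) (b (l (nat_lit 5) (nat_lit 184) (nat_lit 185)) (l (nat_lit 5) (nat_lit 209) (nat_lit 235)))))))) (n (nat_lit 285) (b (b (n (nat_lit 286) (b (l (nat_lit 2) (nat_lit 283) (nat_lit 308)) (l (nat_lit 3) (nat_lit 258) (nat_lit 258)))) (n (nat_lit 234) (b (b (n (nat_lit 334) (b (n (nat_lit 233) (b (l (nat_lit 7) (nat_lit 233) (nat_lit 258)) (l (nat_lit 7) (nat_lit 208) (nat_lit 208)))) (n (nat_lit 333) (b (l (nat_lit 6) (nat_lit 233) (nat_lit 308)) (l (nat_lit 6) (nat_lit 258) (nat_lit 358)))))) (n (nat_lit 209) (b (n (nat_lit 208) (b (l (nat_lit 7) (nat_lit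 183) (nat_lit 183)) (l (nat_lit 7) (nat_lit 208) (nat_lit 233)))) (l (nat_lit 4) (nat_lit 209) (nat_lit 310))))) (n (nat_lit 209) (b (n (nat_lit 308) (b (l (nat_lit 6) (nat_lit 233) (nat_lit 333)) (l (nat_lit 6) (nat_lit 208) (nat_lit 283)))) (l (nat_lit 4) (nat_lit 209) (nat_lit 310))))))) (b (n (nat_lit 286) (b (n (nat_lit 288) (b (l (nat_lit 2) (nat_lit 284) (nat_lit 310)) (l (nat_lit 3) (nat_lit 259) (nat_lit 260)))) (l (nat_lit 3) (nat_lit 258) (nat_lit 258)))) (n (nat_lit 286) (b (n (nat_lit 288) (b (l (nat_lit 2) (nat_lit 284) (nat_lit 310)) (l (nat_lit 3) (nat_lit 259) (nat_lit 260)))) (l (nat_lit 2) (nat_lit 283) (nat_lit 308)))))))) (b (n (nat_lit 334) (b (b (n (nat_lit 359) (b (n (nat_lit 358) (b (l (nat_lit 6) (nat_lit 258) (nat_lit 333)) (l (nat_lit 6) (nat_lit 283) (nat_lit 383)))) (n (nat_lit 260) (b (l (nat_lit 5) (nat_lit 234) (nat_lit 235)) (l (nat_lit 5) (nat_lit 259) (nat_lit 285)))))) (n (nat_lit 359) (b (n (nat_lit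 258) (b (l (nat_lit 7) (nat_lit 233) (nat_lit 233)) (l (nat_lit 7) (nat_lit 258) (nat_lit 283)))) (n (nat_lit 358) (b (l (nat_lit 6) (nat_lit 258) (nat_lit 333)) (l (nat_lit 6) (nat_lit 283) (nat_lit 383))))))) (b (n (nat_lit 359) (b (n (nat_lit 260) (b (l (nat_lit 5) (nat_lit 234) (nat_lit 235)) (l (nat_lit 5) (nat_lit 259) (nat_lit 285)))) (n (nat_lit 258) (b (l (nat_lit 7) (nat_lit 233) (nat_lit 233)) (l (nat_lit 7) (nat_lit 258) (nat_lit 283)))))) (n (nat_lit 258) (b (n (nat_lit 285) (b (n (nat_lit 257) (b (n (nat_lit 260) (b (n (nat_lit 282) (b (n (nat_lit 333) (b (n (nat_lit 232) (b (n (nat_lit 308) (b (l (nat_lit 4) (nat_lit 232) (nat_lit 307)) (l (nat_lit 7) (nat_lit 232) (nat_lit 283)))) (l (nat_lit 3) (nat_lit 231) (nat_lit 231)))) (l (nat_lit 6) (nat_lit 258) (nat_lit 358)))) (l (nat_lit 2) (nat_lit 256) (nat_lit 281)))) (l (nat_lit 5) (nat_lit 234) (nat_lit 235)))) (l (nat_lit 0) (nat_lit 256) (nat_lit 256)))) (l (nat_lit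 3) (nat_lit 258) (nat_lit 286)))) (l (nat_lit 7) (nat_lit 233) (nat_lit 233))))))) (n (nat_lit 285) (b (b (n (nat_lit 286) (b (n (nat_lit 288) (b (l (nat_lit 2) (nat_lit 284) (nat_lit 310)) (l (nat_lit 3) (nat_lit 259) (nat_lit 260)))) (l (nat_lit 2) (nat_lit 283) (nat_lit 308)))) (n (nat_lit 286) (b (l (nat_lit 2) (nat_lit 283) (nat_lit 308)) (l (nat_lit 3) (nat_lit 258) (nat_lit 258))))) (n (nat_lit 234) (b (b (n (nat_lit 334) (b (n (nat_lit 260) (b (l (nat_lit 5) (nat_lit 234) (nat_lit 235)) (l (nat_lit 5) (nat_lit 259) (nat_lit 359)))) (n (nat_lit 233) (b (l (nat_lit 7) (nat_lit 233) (nat_lit 258)) (l (nat_lit 7) (nat_lit 208) (nat_lit 208)))))) (n (nat_lit 209) (b (n (nat_lit 208) (b (l (nat_lit 7) (nat_lit 183) (nat_lit 183)) (l (nat_lit 7) (nat_lit 208) (nat_lit 233)))) (l (nat_lit 4) (nat_lit 209) (nat_lit 310))))) (n (nat_lit 210) (b (n (nat_lit 209) (b (l (nat_lit 5) (nat_lit 184) (nat_lit 185)) (l (nat_lit 4) (nat_lit 209)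 (nat_lit 310)))) (l (nat_lit 5) (nat_lit 209) (nat_lit 235)))))))))))) (n (nat_lit 284) (b (b (b (n (nat_lit 334) (b (b (n (nat_lit 308) (b (n (nat_lit 335) (b (l (nat_lit 4) (nat_lit 259) (nat_lit 360)) (l (nat_lit 3) (nat_lit 308) (nat_lit 336)))) (n (nat_lit 333) (b (l (nat_lit 6) (nat_lit 233) (nat_lit 234)) (l (nat_lit 6) (nat_lit 258) (nat_lit 358)))))) (n (nat_lit 359) (b (n (nat_lit 258) (b (l (nat_lit 7) (nat_lit 233) (nat_lit 233)) (l (nat_lit 7) (nat_lit 258) (nat_lit 283)))) (n (nat_lit 360) (b (l (nat_lit 4) (nat_lit 284) (nat_lit 385)) (l (nat_lit 4) (nat_lit 259) (nat_lit 335))))))) (n (nat_lit 359) (b (n (nat_lit 258) (b (l (nat_lit 7) (nat_lit 233) (nat_lit 233)) (l (nat_lit 7) (nat_lit 258) (nat_lit 283)))) (n (nat_lit 358) (b (l (nat_lit 6) (nat_lit 258) (nat_lit 333)) (l (nat_lit 6) (nat_lit 283) (nat_lit 383)))))))) (n (nat_lit 334) (b (b (n (nat_lit 308) (b (n (nat_lit 335) (b (l (nat_lit 4) (nat_lit 259) (nat_lit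 360)) (l (nat_lit 3) (nat_lit 308) (nat_lit 336)))) (n (nat_lit 333) (b (l (nat_lit 6) (nat_lit 233) (nat_lit 234)) (l (nat_lit 6) (nat_lit 258) (nat_lit 358)))))) (n (nat_lit 359) (b (n (nat_lit 260) (b (l (nat_lit 5) (nat_lit 234) (nat_lit 235)) (l (nat_lit 5) (nat_lit 259) (nat_lit 285)))) (n (nat_lit 360) (b (l (nat_lit 4) (nat_lit 284) (nat_lit 385)) (l (nat_lit 4) (nat_lit 259) (nat_lit 335))))))) (n (nat_lit 359) (b (n (nat_lit 358) (b (l (nat_lit 6) (nat_lit 258) (nat_lit 333)) (l (nat_lit 6) (nat_lit 283) (nat_lit 383)))) (n (nat_lit 260) (b (l (nat_lit 5) (nat_lit 234) (nat_lit 235)) (l (nat_lit 5) (nat_lit 259) (nat_lit 285))))))))) (b (n (nat_lit 334) (b (b (n (nat_lit 359) (b (n (nat_lit 358) (b (l (nat_lit 6) (nat_lit 258) (nat_lit 333)) (l (nat_lit 6) (nat_lit 283) (nat_lit 383)))) (n (nat_lit 260) (b (l (nat_lit 5) (nat_lit 234) (nat_lit 235)) (l (nat_lit 5) (nat_lit 259) (nat_lit 285)))))) (n (nat_lit 359) (b (n (nat_lit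 258) (b (l (nat_lit 7) (nat_lit 233) (nat_lit 233)) (l (nat_lit 7) (nat_lit 258) (nat_lit 283)))) (n (nat_lit 358) (b (l (nat_lit 6) (nat_lit 258) (nat_lit 333)) (l (nat_lit 6) (nat_lit 283) (nat_lit 383))))))) (n (nat_lit 234) (b (n (nat_lit 233) (b (l (nat_lit 7) (nat_lit 233) (nat_lit 258)) (l (nat_lit 7) (nat_lit 208) (nat_lit 208)))) (n (nat_lit 235) (b (l (nat_lit 5) (nat_lit 209) (nat_lit 210)) (l (nat_lit 5) (nat_lit 234) (nat_lit 260)))))))) (n (nat_lit 334) (b (n (nat_lit 359) (b (n (nat_lit 260) (b (l (nat_lit 5) (nat_lit 234) (nat_lit 235)) (l (nat_lit 5) (nat_lit 259) (nat_lit 285)))) (n (nat_lit 258) (b (l (nat_lit 7) (nat_lit 233) (nat_lit 233)) (l (nat_lit 7) (nat_lit 258) (nat_lit 283)))))) (n (nat_lit 336) (b (n (nat_lit 335) (b (l (nat_lit 3) (nat_lit 308) (nat_lit 308)) (l (nat_lit 4) (nat_lit 259) (nat_lit 360)))) (l (nat_lit 6) (nat_lit 261) (nat_lit 361)))))))) (r (nat_lit 0))))) (b (n (nat_lit 336) (b (n (nat_lit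 338) (b (n (nat_lit 335) (b (n (nat_lit 334) (b (n (nat_lit 284) (b (n (nat_lit 234) (b (n (nat_lit 233) (b (l (nat_lit 7) (nat_lit 233) (nat_lit 258)) (l (nat_lit 7) (nat_lit 208) (nat_lit 208)))) (n (nat_lit 235) (b (l (nat_lit 5) (nat_lit 209) (nat_lit 210)) (l (nat_lit 5) (nat_lit 234) (nat_lit 260)))))) (l (nat_lit 4) (nat_lit 259) (nat_lit 360)))) (l (nat_lit 3) (nat_lit 308) (nat_lit 308)))) (l (nat_lit 3) (nat_lit 309) (nat_lit 310)))) (l (nat_lit 4) (nat_lit 262) (nat_lit 363)))) (l (nat_lit 6) (nat_lit 261) (nat_lit 361)))) (n (nat_lit 338) (b (n (nat_lit 336) (b (n (nat_lit 335) (b (n (nat_lit 334) (b (b (n (nat_lit 358) (b (n (nat_lit 333) (b (l (nat_lit 6) (nat_lit 258) (nat_lit 284)) (l (nat_lit 2) (nat_lit 332) (nat_lit 357)))) (l (nat_lit 2) (nat_lit 333) (nat_lit 359)))) (n (nat_lit 284) (b (n (nat_lit 234) (b (n (nat_lit 233) (b (l (nat_lit 7) (nat_lit 233) (nat_lit 258)) (l (nat_lit 7) (nat_lit 208) (nat_lit 208))))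 (n (nat_lit 235) (b (l (nat_lit 5) (nat_lit 209) (nat_lit 210)) (l (nat_lit 5) (nat_lit 234) (nat_lit 260)))))) (l (nat_lit 4) (nat_lit 259) (nat_lit 360))))) (n (nat_lit 359) (b (l (nat_lit 2) (nat_lit 333) (nat_lit 358)) (l (nat_lit 2) (nat_lit 334) (nat_lit 360)))))) (l (nat_lit 3) (nat_lit 309) (nat_lit 310)))) (l (nat_lit 6) (nat_lit 261) (nat_lit 361)))) (l (nat_lit 4) (nat_lit 262) (nat_lit 363)))))) (b (n (nat_lit 336) (b (n (nat_lit 338) (b (n (nat_lit 335) (b (n (nat_lit 334) (b (n (nat_lit 359) (b (l (nat_lit 2) (nat_lit 333) (nat_lit 358)) (l (nat_lit 2) (nat_lit 334) (nat_lit 360)))) (l (nat_lit 3) (nat_lit 308) (nat_lit 308)))) (l (nat_lit 3) (nat_lit 309) (nat_lit 310)))) (l (nat_lit 4) (nat_lit 262) (nat_lit 363)))) (l (nat_lit 6) (nat_lit 261) (nat_lit 361)))) (n (nat_lit 284) (b (b (b (n (nat_lit 234) (b (b (n (nat_lit 233) (b (n (nat_lit 235) (b (n (nat_lit 232) (b (n (nat_lit 231) (b (n (nat_lit 206) (b (l (nat_lit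 3) (nat_lit 205) (nat_lit 205)) (l (nat_lit 3) (nat_lit 206) (nat_lit 207)))) (l (nat_lit 0) (nat_lit 231) (nat_lit 260)))) (n (nat_lit 236) (b (n (nat_lit 211) (b (l (nat_lit 1) (nat_lit 208) (nat_lit 212)) (l (nat_lit 7) (nat_lit 211) (nat_lit 237)))) (n (nat_lit 257) (b (l (nat_lit 2) (nat_lit 232) (nat_lit 258)) (l (nat_lit 2) (nat_lit 231) (nat_lit 256)))))))) (l (nat_lit 5) (nat_lit 209) (nat_lit 210)))) (l (nat_lit 7) (nat_lit 208) (nat_lit 208)))) (n (nat_lit 209) (b (n (nat_lit 310) (b (l (nat_lit 4) (nat_lit 209) (nat_lit 285)) (l (nat_lit 4) (nat_lit 234) (nat_lit 335)))) (n (nat_lit 208) (b (l (nat_lit 7) (nat_lit 183) (nat_lit 183)) (l (nat_lit 7) (nat_lit 208) (nat_lit 233))))))) (n (nat_lit 209) (b (n (nat_lit 210) (b (l (nat_lit 5) (nat_lit 184) (nat_lit 185)) (l (nat_lit 5) (nat_lit 209) (nat_lit 235)))) (n (nat_lit 310) (b (l (nat_lit 4) (nat_lit 209) (nat_lit 285)) (l (nat_lit 4) (nat_lit 234) (nat_lit 335)))))))) (r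 (nat_lit 0))) (b (n (nat_lit 234) (b (b (n (nat_lit 308) (b (n (nat_lit 285) (b (n (nat_lit 307) (b (n (nat_lit 233) (b (n (nat_lit 332) (b (n (nat_lit 310) (b (l (nat_lit 2) (nat_lit 306) (nat_lit 331)) (l (nat_lit 4) (nat_lit 234) (nat_lit 335)))) (n (nat_lit 258) (b (n (nat_lit 257) (b (l (nat_lit 5) (nat_lit 232) (nat_lit 282)) (l (nat_lit 0) (nat_lit 256) (nat_lit 256)))) (l (nat_lit 6) (nat_lit 232) (nat_lit 283)))))) (l (nat_lit 7) (nat_lit 208) (nat_lit 208)))) (l (nat_lit 1) (nat_lit 281) (nat_lit 306)))) (l (nat_lit 2) (nat_lit 283) (nat_lit 286)))) (l (nat_lit 6) (nat_lit 233) (nat_lit 333)))) (n (nat_lit 285) (b (n (nat_lit 308) (b (l (nat_lit 2) (nat_lit 283) (nat_lit 286)) (l (nat_lit 6) (nat_lit 233) (nat_lit 333)))) (n (nat_lit 310) (b (l (nat_lit 4) (nat_lit 209) (nat_lit 209)) (l (nat_lit 4) (nat_lit 234) (nat_lit 335))))))) (b (n (nat_lit 209) (b (n (nat_lit 310) (b (l (nat_lit 4) (nat_lit 209) (nat_lit 285)) (l (nat_lit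 4) (nat_lit 234) (nat_lit 335)))) (n (nat_lit 208) (b (l (nat_lit 7) (nat_lit 183) (nat_lit 183)) (l (nat_lit 7) (nat_lit 208) (nat_lit 233)))))) (n (nat_lit 209) (b (n (nat_lit 308) (b (l (nat_lit 6) (nat_lit 233) (nat_lit 333)) (l (nat_lit 6) (nat_lit 208) (nat_lit 283)))) (n (nat_lit 208) (b (l (nat_lit 7) (nat_lit 183) (nat_lit 183)) (l (nat_lit 7) (nat_lit 208) (nat_lit 233))))))))) (n (nat_lit 285) (b (b (n (nat_lit 286) (b (n (nat_lit 288) (b (l (nat_lit 2) (nat_lit 284) (nat_lit 310)) (l (nat_lit 3) (nat_lit 259) (nat_lit 260)))) (l (nat_lit 2) (nat_lit 283) (nat_lit 308)))) (n (nat_lit 286) (b (n (nat_lit 288) (b (l (nat_lit 2) (nat_lit 284) (nat_lit 310)) (l (nat_lit 3) (nat_lit 259) (nat_lit 260)))) (l (nat_lit 3) (nat_lit 258) (nat_lit 258))))) (b (n (nat_lit 286) (b (l (nat_lit 2) (nat_lit 283) (nat_lit 308)) (l (nat_lit 3) (nat_lit 258) (nat_lit 258)))) (n (nat_lit 234) (b (b (n (nat_lit 209) (b (n (nat_lit 308) (b (l (nat_lit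 6) (nat_lit 233) (nat_lit 333)) (l (nat_lit 6) (nat_lit 208) (nat_lit 283)))) (n (nat_lit 210) (b (l (nat_lit 5) (nat_lit 184) (nat_lit 185)) (l (nat_lit 5) (nat_lit 209) (nat_lit 235)))))) (n (nat_lit 310) (b (l (nat_lit 4) (nat_lit 209) (nat_lit 209)) (l (nat_lit 4) (nat_lit 234) (nat_lit 335))))) (n (nat_lit 310) (b (n (nat_lit 308) (b (r (nat_lit 1)) (l (nat_lit 6) (nat_lit 233) (nat_lit 333)))) (l (nat_lit 4) (nat_lit 234) (nat_lit 335))))))))))) (b (b (n (nat_lit 234) (b (b (r (nat_lit 2)) (n (nat_lit 285) (b (n (nat_lit 308) (b (l (nat_lit 2) (nat_lit 283) (nat_lit 286)) (l (nat_lit 6) (nat_lit 233) (nat_lit 333)))) (n (nat_lit 310) (b (l (nat_lit 4) (nat_lit 209) (nat_lit 209)) (l (nat_lit 4) (nat_lit 234) (nat_lit 335))))))) (b (n (nat_lit 209) (b (n (nat_lit 210) (b (l (nat_lit 5) (nat_lit 184) (nat_lit 185)) (l (nat_lit 5) (nat_lit 209) (nat_lit 235)))) (n (nat_lit 310) (b (l (nat_lit 4) (nat_lit 209) (nat_lit 285)) (l (nat_lit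 4) (nat_lit 234) (nat_lit 335)))))) (n (nat_lit 209) (b (n (nat_lit 308) (b (l (nat_lit 6) (nat_lit 233) (nat_lit 333)) (l (nat_lit 6) (nat_lit 208) (nat_lit 283)))) (n (nat_lit 210) (b (l (nat_lit 5) (nat_lit 184) (nat_lit 185)) (l (nat_lit 5) (nat_lit 209) (nat_lit 235))))))))) (n (nat_lit 234) (b (b (n (nat_lit 308) (b (n (nat_lit 235) (b (n (nat_lit 285) (b (n (nat_lit 236) (b (b (n (nat_lit 211) (b (n (nat_lit 233) (b (l (nat_lit 7) (nat_lit 208) (nat_lit 208)) (l (nat_lit 1) (nat_lit 208) (nat_lit 212)))) (n (nat_lit 310) (b (l (nat_lit 5) (nat_lit 210) (nat_lit 260)) (l (nat_lit 4) (nat_lit 234) (nat_lit 335)))))) (n (nat_lit 237) (b (l (nat_lit 7) (nat_lit 211) (nat_lit 211)) (l (nat_lit 2) (nat_lit 233) (nat_lit 258))))) (n (nat_lit 237) (b (n (nat_lit 238) (b (l (nat_lit 5) (nat_lit 212) (nat_lit 213)) (l (nat_lit 2) (nat_lit 234) (nat_lit 260)))) (l (nat_lit 2) (nat_lit 233) (nat_lit 258)))))) (l (nat_lit 2) (nat_lit 283) (nat_lit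 286)))) (l (nat_lit 5) (nat_lit 209) (nat_lit 210)))) (l (nat_lit 6) (nat_lit 233) (nat_lit 333)))) (n (nat_lit 285) (b (n (nat_lit 308) (b (l (nat_lit 2) (nat_lit 283) (nat_lit 286)) (l (nat_lit 6) (nat_lit 233) (nat_lit 333)))) (n (nat_lit 310) (b (l (nat_lit 4) (nat_lit 209) (nat_lit 209)) (l (nat_lit 4) (nat_lit 234) (nat_lit 335))))))) (b (n (nat_lit 209) (b (n (nat_lit 210) (b (l (nat_lit 5) (nat_lit 184) (nat_lit 185)) (l (nat_lit 5) (nat_lit 209) (nat_lit 235)))) (n (nat_lit 310) (b (l (nat_lit 4) (nat_lit 209) (nat_lit 285)) (l (nat_lit 4) (nat_lit 234) (nat_lit 335)))))) (n (nat_lit 209) (b (n (nat_lit 308) (b (l (nat_lit 6) (nat_lit 233) (nat_lit 333)) (l (nat_lit 6) (nat_lit 208) (nat_lit 283)))) (n (nat_lit 210) (b (l (nat_lit 5) (nat_lit 184) (nat_lit 185)) (l (nat_lit 5) (nat_lit 209) (nat_lit 235)))))))))) (b (r (nat_lit 3)) (n (nat_lit 234) (b (b (b (n (nat_lit 308) (b (n (nat_lit 285) (b (n (nat_lit 310) (b (r (nat_lit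 1)) (l (nat_lit 4) (nat_lit 234) (nat_lit 335)))) (l (nat_lit 2) (nat_lit 283) (nat_lit 286)))) (l (nat_lit 6) (nat_lit 233) (nat_lit 333)))) (n (nat_lit 308) (b (n (nat_lit 235) (b (n (nat_lit 285) (b (n (nat_lit 236) (b (b (n (nat_lit 211) (b (n (nat_lit 233) (b (l (nat_lit 7) (nat_lit 208) (nat_lit 208)) (l (nat_lit 1) (nat_lit 208) (nat_lit 212)))) (n (nat_lit 310) (b (l (nat_lit 5) (nat_lit 210) (nat_lit 260)) (l (nat_lit 4) (nat_lit 234) (nat_lit 335)))))) (n (nat_lit 237) (b (l (nat_lit 7) (nat_lit 211) (nat_lit 211)) (l (nat_lit 2) (nat_lit 233) (nat_lit 258))))) (n (nat_lit 237) (b (n (nat_lit 238) (b (l (nat_lit 5) (nat_lit 212) (nat_lit 213)) (l (nat_lit 2) (nat_lit 234) (nat_lit 260)))) (l (nat_lit 2) (nat_lit 233) (nat_lit 258)))))) (l (nat_lit 2) (nat_lit 283) (nat_lit 286)))) (l (nat_lit 5) (nat_lit 209) (nat_lit 210)))) (l (nat_lit 6) (nat_lit 233) (nat_lit 333))))) (b (r (nat_lit 2)) (n (nat_lit 308) (b (n (nat_lit 285)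 (b (n (nat_lit 307) (b (n (nat_lit 233) (b (n (nat_lit 332) (b (n (nat_lit 310) (b (l (nat_lit 2) (nat_lit 306) (nat_lit 331)) (l (nat_lit 4) (nat_lit 234) (nat_lit 335)))) (n (nat_lit 258) (b (n (nat_lit 257) (b (l (nat_lit 5) (nat_lit 232) (nat_lit 282)) (l (nat_lit 0) (nat_lit 256) (nat_lit 256)))) (l (nat_lit 6) (nat_lit 232) (nat_lit 283)))))) (l (nat_lit 7) (nat_lit 208) (nat_lit 208)))) (l (nat_lit 1) (nat_lit 281) (nat_lit 306)))) (l (nat_lit 2) (nat_lit 283) (nat_lit 286)))) (l (nat_lit 6) (nat_lit 233) (nat_lit 333)))))) (n (nat_lit 233) (b (n (nat_lit 235) (b (n (nat_lit 232) (b (n (nat_lit 231) (b (n (nat_lit 206) (b (l (nat_lit 3) (nat_lit 205) (nat_lit 205)) (l (nat_lit 3) (nat_lit 206) (nat_lit 207)))) (l (nat_lit 0) (nat_lit 231) (nat_lit 260)))) (n (nat_lit 236) (b (n (nat_lit 211) (b (l (nat_lit 1) (nat_lit 208) (nat_lit 212)) (l (nat_lit 7) (nat_lit 211) (nat_lit 237)))) (n (nat_lit 257) (b (l (nat_lit 2) (nat_lit 232)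 (nat_lit 258)) (l (nat_lit 2) (nat_lit 231) (nat_lit 256)))))))) (l (nat_lit 5) (nat_lit 209) (nat_lit 210)))) (l (nat_lit 7) (nat_lit 208) (nat_lit 208)))))))))))))
    (envOK_cons p9271 (envOK_cons p9355 (envOK_cons p9370 (envOK_cons p9549 envOK_nil)))) (by decide +kernel)

theorem p9557 : Fam (nat_lit 16) (nat_lit 8343699607727680624942585805652444129620275146709852890558508601783632775695752161234180374528) (nat_lit 891470427623323620633662376270156521140219162927838364376217106501716816036518308221458042177180734952947288920555520) (nat_lit 891470427623323620633662376270156521140219162927838364376217106501716816036518308221458042177180734952947288920555520) :=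
  chk_sound (Env.cons (nat_lit 14) (nat_lit 279968101115925134047361836350355238947213205342486408075614354338859910805665209529033911198168383488) (nat_lit 103430294301263705292748662709361857877570921160205117130417484067358654549386692396790690569382890555712126922522624) Env.nil)
    (n (nat_lit 337) (b (b (n (nat_lit 362) (b (n (nat_lit 261) (b (l (nat_lit 7) (nat_lit 261) (nat_lit 286)) (l (nat_lit 7) (nat_lit 236) (nat_lit 236)))) (n (nat_lit 361) (b (l (nat_lit 6) (nat_lit 286) (nat_lit 386)) (l (nat_lit 6) (nat_lit 261) (nat_lit 336)))))) (n (nat_lit 362) (b (n (nat_lit 261) (b (l (nat_lit 7) (nat_lit 261) (nat_lit 286)) (l (nat_lit 7) (nat_lit 236) (nat_lit 236)))) (n (nat_lit 363) (b (l (nat_lit 4) (nat_lit 262) (nat_lit 338)) (l (nat_lit 4) (nat_lit 287) (nat_lit 388))))))) (b (n (nat_lit 362) (b (n (nat_lit 361) (b (l (nat_lit 6) (nat_lit 286) (nat_lit 386)) (l (nat_lit 6) (nat_lit 261) (nat_lit 336)))) (n (nat_lit 363) (b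 (l (nat_lit 4) (nat_lit 262) (nat_lit 338)) (l (nat_lit 4) (nat_lit 287) (nat_lit 388)))))) (n (nat_lit 259) (b (b (b (n (nat_lit 260) (b (b (b (n (nat_lit 261) (b (n (nat_lit 284) (b (n (nat_lit 234) (b (n (nat_lit 309) (b (n (nat_lit 285) (b (n (nat_lit 308) (b (l (nat_lit 2) (nat_lit 283) (nat_lit 286)) (l (nat_lit 6) (nat_lit 233) (nat_lit 333)))) (n (nat_lit 310) (b (l (nat_lit 4) (nat_lit 209) (nat_lit 209)) (l (nat_lit 4) (nat_lit 234) (nat_lit 335)))))) (n (nat_lit 235) (b (l (nat_lit 5) (nat_lit 234) (nat_lit 334)) (l (nat_lit 5) (nat_lit 209) (nat_lit 210)))))) (l (nat_lit 3) (nat_lit 233) (nat_lit 233)))) (l (nat_lit 2) (nat_lit 258) (nat_lit 283)))) (l (nat_lit 0) (nat_lit 259) (nat_lit 288)))) (n (nat_lit 336) (b (n (nat_lit 338) (b (n (nat_lit 335) (b (b (n (nat_lit 334) (b (n (nat_lit 359) (b (l (nat_lit 2) (nat_lit 333) (nat_lit 358)) (l (nat_lit 2) (nat_lit 334) (nat_lit 360)))) (n (nat_lit 309) (b (l (nat_lit 3) (nat_lit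 308) (nat_lit 308)) (l (nat_lit 3) (nat_lit 309) (nat_lit 310)))))) (n (nat_lit 285) (b (n (nat_lit 286) (b (n (nat_lit 258) (b (l (nat_lit 0) (nat_lit 257) (nat_lit 257)) (l (nat_lit 3) (nat_lit 258) (nat_lit 284)))) (l (nat_lit 3) (nat_lit 259) (nat_lit 288)))) (n (nat_lit 310) (b (n (nat_lit 359) (b (l (nat_lit 6) (nat_lit 259) (nat_lit 334)) (l (nat_lit 2) (nat_lit 334) (nat_lit 360)))) (l (nat_lit 7) (nat_lit 234) (nat_lit 234))))))) (b (n (nat_lit 334) (b (b (n (nat_lit 359) (b (l (nat_lit 2) (nat_lit 333) (nat_lit 358)) (l (nat_lit 2) (nat_lit 334) (nat_lit 360)))) (n (nat_lit 309) (b (n (nat_lit 284) (b (l (nat_lit 5) (nat_lit 234) (nat_lit 235)) (l (nat_lit 4) (nat_lit 259) (nat_lit 360)))) (l (nat_lit 3) (nat_lit 308) (nat_lit 308))))) (n (nat_lit 333) (b (n (nat_lit 358) (b (l (nat_lit 2) (nat_lit 333) (nat_lit 359)) (l (nat_lit 2) (nat_lit 332) (nat_lit 357)))) (n (nat_lit 308) (b (l (nat_lit 3) (nat_lit 308) (nat_lit 309))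 (l (nat_lit 3) (nat_lit 307) (nat_lit 307)))))))) (n (nat_lit 285) (b (n (nat_lit 310) (b (l (nat_lit 7) (nat_lit 234) (nat_lit 234)) (l (nat_lit 3) (nat_lit 309) (nat_lit 309)))) (n (nat_lit 286) (b (n (nat_lit 258) (b (l (nat_lit 0) (nat_lit 257) (nat_lit 257)) (l (nat_lit 3) (nat_lit 258) (nat_lit 284)))) (l (nat_lit 3) (nat_lit 259) (nat_lit 288))))))))) (l (nat_lit 4) (nat_lit 262) (nat_lit 363)))) (l (nat_lit 6) (nat_lit 261) (nat_lit 361))))) (b (n (nat_lit 261) (b (n (nat_lit 258) (b (n (nat_lit 233) (b (l (nat_lit 3) (nat_lit 233) (nat_lit 234)) (l (nat_lit 3) (nat_lit 232) (nat_lit 232)))) (l (nat_lit 0) (nat_lit 258) (nat_lit 286)))) (l (nat_lit 0) (nat_lit 259) (nat_lit 288)))) (n (nat_lit 261) (b (n (nat_lit 258) (b (n (nat_lit 283) (b (l (nat_lit 2) (nat_lit 257) (nat_lit 282)) (l (nat_lit 2) (nat_lit 258) (nat_lit 284)))) (n (nat_lit 233) (b (l (nat_lit 3) (nat_lit 233) (nat_lit 234)) (l (nat_lit 3) (nat_lit 232) (nat_lit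 232)))))) (l (nat_lit 0) (nat_lit 259) (nat_lit 288)))))) (b (n (nat_lit 261) (b (n (nat_lit 258) (b (n (nat_lit 283) (b (l (nat_lit 2) (nat_lit 257) (nat_lit 282)) (l (nat_lit 2) (nat_lit 258) (nat_lit 284)))) (l (nat_lit 0) (nat_lit 258) (nat_lit 286)))) (l (nat_lit 0) (nat_lit 259) (nat_lit 288)))) (n (nat_lit 261) (b (b (n (nat_lit 258) (b (n (nat_lit 283) (b (l (nat_lit 2) (nat_lit 257) (nat_lit 282)) (l (nat_lit 2) (nat_lit 258) (nat_lit 284)))) (n (nat_lit 233) (b (l (nat_lit 3) (nat_lit 233) (nat_lit 234)) (l (nat_lit 3) (nat_lit 232) (nat_lit 232)))))) (n (nat_lit 258) (b (n (nat_lit 233) (b (l (nat_lit 3) (nat_lit 233) (nat_lit 234)) (l (nat_lit 3) (nat_lit 232) (nat_lit 232)))) (l (nat_lit 0) (nat_lit 258) (nat_lit 286))))) (b (n (nat_lit 258) (b (n (nat_lit 283) (b (l (nat_lit 2) (nat_lit 257) (nat_lit 282)) (l (nat_lit 2) (nat_lit 258) (nat_lit 284)))) (l (nat_lit 0) (nat_lit 258) (nat_lit 286)))) (n (nat_lit 284) (b (n (nat_lit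 234) (b (n (nat_lit 309) (b (n (nat_lit 285) (b (n (nat_lit 209) (b (l (nat_lit 4) (nat_lit 209) (nat_lit 310)) (l (nat_lit 4) (nat_lit 184) (nat_lit 184)))) (n (nat_lit 308) (b (l (nat_lit 2) (nat_lit 283) (nat_lit 286)) (l (nat_lit 6) (nat_lit 233) (nat_lit 333)))))) (n (nat_lit 235) (b (l (nat_lit 5) (nat_lit 234) (nat_lit 334)) (l (nat_lit 5) (nat_lit 209) (nat_lit 210)))))) (l (nat_lit 3) (nat_lit 233) (nat_lit 233)))) (l (nat_lit 2) (nat_lit 258) (nat_lit 283)))))))))) (n (nat_lit 261) (b (n (nat_lit 260) (b (n (nat_lit 284) (b (n (nat_lit 234) (b (n (nat_lit 309) (b (n (nat_lit 285) (b (n (nat_lit 308) (b (l (nat_lit 2) (nat_lit 283) (nat_lit 286)) (l (nat_lit 6) (nat_lit 233) (nat_lit 333)))) (n (nat_lit 310) (b (l (nat_lit 4) (nat_lit 209) (nat_lit 209)) (l (nat_lit 4) (nat_lit 234) (nat_lit 335)))))) (n (nat_lit 235) (b (l (nat_lit 5) (nat_lit 234) (nat_lit 334)) (l (nat_lit 5) (nat_lit 209) (nat_lit 210)))))) (l (nat_lit 3)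 (nat_lit 233) (nat_lit 233)))) (l (nat_lit 2) (nat_lit 258) (nat_lit 283)))) (l (nat_lit 0) (nat_lit 259) (nat_lit 288)))) (l (nat_lit 7) (nat_lit 236) (nat_lit 236))))) (b (n (nat_lit 236) (b (n (nat_lit 237) (b (n (nat_lit 234) (b (n (nat_lit 213) (b (n (nat_lit 212) (b (l (nat_lit 1) (nat_lit 209) (nat_lit 235)) (l (nat_lit 5) (nat_lit 187) (nat_lit 188)))) (l (nat_lit 5) (nat_lit 212) (nat_lit 238)))) (n (nat_lit 336) (b (n (nat_lit 284) (b (b (b (n (nat_lit 309) (b (b (n (nat_lit 209) (b (n (nat_lit 308) (b (l (nat_lit 6) (nat_lit 233) (nat_lit 333)) (l (nat_lit 6) (nat_lit 208) (nat_lit 283)))) (n (nat_lit 208) (b (l (nat_lit 7) (nat_lit 183) (nat_lit 183)) (l (nat_lit 7) (nat_lit 208) (nat_lit 233)))))) (n (nat_lit 209) (b (n (nat_lit 310) (b (l (nat_lit 4) (nat_lit 209) (nat_lit 285)) (l (nat_lit 4) (nat_lit 234) (nat_lit 335)))) (n (nat_lit 208) (b (l (nat_lit 7) (nat_lit 183) (nat_lit 183)) (l (nat_lit 7) (nat_lit 208) (nat_lit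 233))))))) (n (nat_lit 335) (b (n (nat_lit 308) (b (l (nat_lit 6) (nat_lit 233) (nat_lit 333)) (l (nat_lit 3) (nat_lit 308) (nat_lit 334)))) (l (nat_lit 4) (nat_lit 234) (nat_lit 310)))))) (n (nat_lit 209) (b (b (n (nat_lit 309) (b (n (nat_lit 208) (b (l (nat_lit 7) (nat_lit 183) (nat_lit 183)) (l (nat_lit 7) (nat_lit 208) (nat_lit 233)))) (n (nat_lit 308) (b (l (nat_lit 6) (nat_lit 233) (nat_lit 333)) (l (nat_lit 6) (nat_lit 208) (nat_lit 283)))))) (n (nat_lit 184) (b (n (nat_lit 185) (b (l (nat_lit 5) (nat_lit 184) (nat_lit 210)) (l (nat_lit 5) (nat_lit 159) (nat_lit 160)))) (n (nat_lit 283) (b (l (nat_lit 6) (nat_lit 183) (nat_lit 258)) (l (nat_lit 6) (nat_lit 208) (nat_lit 308))))))) (n (nat_lit 184) (b (n (nat_lit 185) (b (l (nat_lit 5) (nat_lit 184) (nat_lit 210)) (l (nat_lit 5) (nat_lit 159) (nat_lit 160)))) (n (nat_lit 183) (b (l (nat_lit 7) (nat_lit 158) (nat_lit 158)) (l (nat_lit 7) (nat_lit 183) (nat_lit 208))))))))) (b (n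 (nat_lit 308) (b (b (n (nat_lit 283) (b (n (nat_lit 333) (b (l (nat_lit 5) (nat_lit 258) (nat_lit 358)) (l (nat_lit 5) (nat_lit 233) (nat_lit 258)))) (l (nat_lit 6) (nat_lit 208) (nat_lit 209)))) (n (nat_lit 285) (b (n (nat_lit 286) (b (l (nat_lit 3) (nat_lit 258) (nat_lit 258)) (l (nat_lit 2) (nat_lit 283) (nat_lit 309)))) (n (nat_lit 209) (b (l (nat_lit 4) (nat_lit 209) (nat_lit 310)) (l (nat_lit 6) (nat_lit 208) (nat_lit 283))))))) (n (nat_lit 309) (b (n (nat_lit 335) (b (l (nat_lit 4) (nat_lit 234) (nat_lit 310)) (l (nat_lit 3) (nat_lit 308) (nat_lit 334)))) (l (nat_lit 6) (nat_lit 233) (nat_lit 333)))))) (n (nat_lit 309) (b (b (n (nat_lit 334) (b (n (nat_lit 233) (b (l (nat_lit 7) (nat_lit 233) (nat_lit 258)) (l (nat_lit 7) (nat_lit 208) (nat_lit 208)))) (n (nat_lit 335) (b (l (nat_lit 4) (nat_lit 259) (nat_lit 360)) (l (nat_lit 4) (nat_lit 234) (nat_lit 310)))))) (n (nat_lit 334) (b (n (nat_lit 233) (b (l (nat_lit 7) (nat_lit 233)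 (nat_lit 258)) (l (nat_lit 7) (nat_lit 208) (nat_lit 208)))) (n (nat_lit 333) (b (l (nat_lit 6) (nat_lit 233) (nat_lit 308)) (l (nat_lit 6) (nat_lit 258) (nat_lit 358))))))) (n (nat_lit 285) (b (n (nat_lit 308) (b (l (nat_lit 2) (nat_lit 283) (nat_lit 286)) (l (nat_lit 6) (nat_lit 233) (nat_lit 333)))) (n (nat_lit 310) (b (l (nat_lit 4) (nat_lit 209) (nat_lit 209)) (l (nat_lit 4) (nat_lit 234) (nat_lit 335)))))))))) (b (b (n (nat_lit 309) (b (b (n (nat_lit 334) (b (n (nat_lit 233) (b (l (nat_lit 7) (nat_lit 233) (nat_lit 258)) (l (nat_lit 7) (nat_lit 208) (nat_lit 208)))) (n (nat_lit 335) (b (l (nat_lit 4) (nat_lit 259) (nat_lit 360)) (l (nat_lit 4) (nat_lit 234) (nat_lit 310)))))) (n (nat_lit 334) (b (n (nat_lit 233) (b (l (nat_lit 7) (nat_lit 233) (nat_lit 258)) (l (nat_lit 7) (nat_lit 208) (nat_lit 208)))) (n (nat_lit 333) (b (l (nat_lit 6) (nat_lit 233) (nat_lit 308)) (l (nat_lit 6) (nat_lit 258) (nat_lit 358))))))) (b (n (nat_lit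 335) (b (n (nat_lit 334) (b (l (nat_lit 4) (nat_lit 259) (nat_lit 360)) (l (nat_lit 3) (nat_lit 308) (nat_lit 308)))) (l (nat_lit 4) (nat_lit 234) (nat_lit 310)))) (n (nat_lit 308) (b (n (nat_lit 307) (b (n (nat_lit 285) (b (l (nat_lit 1) (nat_lit 281) (nat_lit 306)) (l (nat_lit 2) (nat_lit 283) (nat_lit 286)))) (n (nat_lit 310) (b (n (nat_lit 282) (b (n (nat_lit 233) (b (n (nat_lit 332) (b (n (nat_lit 258) (b (l (nat_lit 5) (nat_lit 232) (nat_lit 257)) (l (nat_lit 6) (nat_lit 232) (nat_lit 283)))) (l (nat_lit 2) (nat_lit 306) (nat_lit 331)))) (l (nat_lit 7) (nat_lit 208) (nat_lit 208)))) (l (nat_lit 3) (nat_lit 281) (nat_lit 281)))) (l (nat_lit 0) (nat_lit 307) (nat_lit 335)))))) (l (nat_lit 6) (nat_lit 233) (nat_lit 333))))))) (n (nat_lit 209) (b (b (n (nat_lit 258) (b (n (nat_lit 283) (b (l (nat_lit 6) (nat_lit 208) (nat_lit 308)) (l (nat_lit 6) (nat_lit 183) (nat_lit 184)))) (n (nat_lit 285) (b (l (nat_lit 3) (nat_lit 258) (nat_lit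 286)) (l (nat_lit 4) (nat_lit 209) (nat_lit 310)))))) (n (nat_lit 184) (b (n (nat_lit 185) (b (l (nat_lit 5) (nat_lit 184) (nat_lit 210)) (l (nat_lit 5) (nat_lit 159) (nat_lit 160)))) (n (nat_lit 183) (b (l (nat_lit 7) (nat_lit 158) (nat_lit 158)) (l (nat_lit 7) (nat_lit 183) (nat_lit 208))))))) (n (nat_lit 285) (b (n (nat_lit 258) (b (n (nat_lit 283) (b (n (nat_lit 282) (b (n (nat_lit 208) (b (n (nat_lit 307) (b (l (nat_lit 6) (nat_lit 207) (nat_lit 233)) (l (nat_lit 2) (nat_lit 281) (nat_lit 306)))) (l (nat_lit 7) (nat_lit 183) (nat_lit 183)))) (n (nat_lit 256) (b (n (nat_lit 281) (b (l (nat_lit 3) (nat_lit 255) (nat_lit 255)) (l (nat_lit 1) (nat_lit 255) (nat_lit 280)))) (l (nat_lit 3) (nat_lit 256) (nat_lit 257)))))) (l (nat_lit 6) (nat_lit 208) (nat_lit 308)))) (l (nat_lit 3) (nat_lit 258) (nat_lit 286)))) (l (nat_lit 4) (nat_lit 209) (nat_lit 310))))))) (n (nat_lit 209) (b (b (n (nat_lit 184) (b (n (nat_lit 185) (b (l (nat_lit 5)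 (nat_lit 184) (nat_lit 210)) (l (nat_lit 5) (nat_lit 159) (nat_lit 160)))) (n (nat_lit 183) (b (l (nat_lit 7) (nat_lit 158) (nat_lit 158)) (l (nat_lit 7) (nat_lit 183) (nat_lit 208)))))) (n (nat_lit 309) (b (n (nat_lit 208) (b (l (nat_lit 7) (nat_lit 183) (nat_lit 183)) (l (nat_lit 7) (nat_lit 208) (nat_lit 233)))) (n (nat_lit 310) (b (l (nat_lit 4) (nat_lit 209) (nat_lit 285)) (l (nat_lit 4) (nat_lit 234) (nat_lit 335))))))) (n (nat_lit 285) (b (n (nat_lit 184) (b (n (nat_lit 258) (b (l (nat_lit 3) (nat_lit 258) (nat_lit 286)) (l (nat_lit 6) (nat_lit 183) (nat_lit 283)))) (n (nat_lit 185) (b (l (nat_lit 5) (nat_lit 184) (nat_lit 210)) (l (nat_lit 5) (nat_lit 159) (nat_lit 160)))))) (l (nat_lit 4) (nat_lit 209) (nat_lit 310))))))))) (l (nat_lit 6) (nat_lit 261) (nat_lit 361)))))) (l (nat_lit 7) (nat_lit 211) (nat_lit 211)))) (l (nat_lit 7) (nat_lit 236) (nat_lit 261)))) (n (nat_lit 236) (b (n (nat_lit 237) (b (n (nat_lit 238) (b (n (nat_lit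 235) (b (n (nat_lit 234) (b (n (nat_lit 209) (b (l (nat_lit 3) (nat_lit 209) (nat_lit 210)) (l (nat_lit 3) (nat_lit 208) (nat_lit 208)))) (l (nat_lit 2) (nat_lit 233) (nat_lit 258)))) (l (nat_lit 2) (nat_lit 234) (nat_lit 260)))) (l (nat_lit 5) (nat_lit 212) (nat_lit 213)))) (l (nat_lit 7) (nat_lit 211) (nat_lit 211)))) (l (nat_lit 7) (nat_lit 236) (nat_lit 261)))))) (b (n (nat_lit 261) (b (n (nat_lit 260) (b (n (nat_lit 258) (b (n (nat_lit 283) (b (l (nat_lit 2) (nat_lit 257) (nat_lit 282)) (l (nat_lit 2) (nat_lit 258) (nat_lit 284)))) (l (nat_lit 0) (nat_lit 258) (nat_lit 286)))) (l (nat_lit 0) (nat_lit 259) (nat_lit 288)))) (l (nat_lit 7) (nat_lit 236) (nat_lit 236)))) (r (nat_lit 0))))))))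
    (envOK_cons p9555 envOK_nil) (by decide +kernel)

theorem p9558 : Fam (nat_lit 17) (nat_lit 8343699607727673214248874617415937021077234590683750281279490000787534250410375654793883418624) (nat_lit 40332879795091460591738425459046847265612129276608437931910774933033070505196194993865704283045075871392962867997179904) (nat_lit 40332879795091460591738425459046847265612129276608437931910774933033070505196194993865704283045075871392962867997179904) :=
  chk_sound (Env.cons (nat_lit 8) (nat_lit 8343699607727695446330008182125458346706356258762058109116545803775829826266505174114774286336) (nat_lit 3359617221734813890268004765788685885676626998884911823396344166140143991861981931588149183030063267840) (Env.cons (nat_lit 5) (nat_lit 248661673785096154989464927387483224220423844968266498227702727386220072304568914935808) (nat_lit 489552619663265155052780530761480172973925784780647703816388869684068328166921531817984) (Env.cons (nat_lit 9)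 (nat_lit 41718498038638421651447206998853488419458977123614520975990089511408410191692202072271644262400) (nat_lit 40327953942649548456864634526011546151497895817115910369785347400215475666798267217456299178519694667867282599544094720) (Env.cons (nat_lit 6) (nat_lit 65759192317667330380905456710101436766519111369432956379804147202901852703209036416983571954773523684894179328) (nat_lit 40327953942649546497087876652339266927424110571458886710762334647748547242180420685887175405134017028071823264287031296) (Env.cons (nat_lit 10) (nat_lit 8343699607727680624942585805652444129620275146709852890558508601783632775695752161234180374528) (nat_lit 69992033622688529813713928583646559922028663025459960989756888442279437884347143401321075261669638144) (Env.cons (nat_lit 16) (nat_lit 8343699607727680624942585805652444129620275146709852890558508601783632775695752161234180374528) (nat_lit 27266189485661840033232537928774613934360123994002788661238733386502618289845899946855539607950353090588812145672060928)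 (Env.cons (nat_lit 16) (nat_lit 8343699607727680624942585805652444129620275146709852890558508601783632775695752161234180374528) (nat_lit 891470427623323620633662376270156521140219162927838364376217106501716816036518308221458042177180734952947288920555520) Env.nil)))))))
    (n (nat_lit 262) (b (b (b (n (nat_lit 337) (b (b (n (nat_lit 261) (b (n (nat_lit 288) (b (b (n (nat_lit 362) (b (l (nat_lit 5) (nat_lit 262) (nat_lit 263)) (l (nat_lit 7) (nat_lit 261) (nat_lit 286)))) (n (nat_lit 289) (b (n (nat_lit 260) (b (l (nat_lit 3) (nat_lit 260) (nat_lit 286)) (l (nat_lit 0) (nat_lit 259) (nat_lit 259)))) (l (nat_lit 3) (nat_lit 261) (nat_lit 290))))) (n (nat_lit 260) (b (n (nat_lit 263) (b (l (nat_lit 0) (nat_lit 260) (nat_lit 289)) (l (nat_lit 5) (nat_lit 262) (nat_lit 362)))) (l (nat_lit 0) (nat_lit 259) (nat_lit 259)))))) (l (nat_lit 7) (nat_lit 236) (nat_lit 236)))) (n (nat_lit 362) (b (n (nat_lit 361) (b (l (nat_lit 6) (nat_lit 286) (nat_lit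 386)) (l (nat_lit 6) (nat_lit 261) (nat_lit 336)))) (n (nat_lit 363) (b (l (nat_lit 4) (nat_lit 262) (nat_lit 338)) (l (nat_lit 4) (nat_lit 287) (nat_lit 388))))))) (n (nat_lit 336) (b (n (nat_lit 338) (b (n (nat_lit 335) (b (b (b (n (nat_lit 309) (b (n (nat_lit 259) (b (b (n (nat_lit 334) (b (n (nat_lit 284) (b (n (nat_lit 234) (b (n (nat_lit 233) (b (l (nat_lit 7) (nat_lit 233) (nat_lit 258)) (l (nat_lit 7) (nat_lit 208) (nat_lit 208)))) (n (nat_lit 235) (b (l (nat_lit 5) (nat_lit 209) (nat_lit 210)) (l (nat_lit 5) (nat_lit 234) (nat_lit 260)))))) (l (nat_lit 4) (nat_lit 259) (nat_lit 360)))) (l (nat_lit 3) (nat_lit 308) (nat_lit 308)))) (n (nat_lit 261) (b (n (nat_lit 260) (b (n (nat_lit 258) (b (n (nat_lit 233) (b (l (nat_lit 3) (nat_lit 233) (nat_lit 234)) (l (nat_lit 3) (nat_lit 232) (nat_lit 232)))) (l (nat_lit 0) (nat_lit 258) (nat_lit 286)))) (l (nat_lit 0) (nat_lit 259) (nat_lit 288)))) (l (nat_lit 7) (nat_lit 236) (nat_lit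 236))))) (b (n (nat_lit 334) (b (n (nat_lit 260) (b (n (nat_lit 261) (b (l (nat_lit 7) (nat_lit 236) (nat_lit 236)) (l (nat_lit 0) (nat_lit 259) (nat_lit 288)))) (n (nat_lit 284) (b (l (nat_lit 5) (nat_lit 234) (nat_lit 235)) (l (nat_lit 4) (nat_lit 259) (nat_lit 360)))))) (l (nat_lit 3) (nat_lit 308) (nat_lit 308)))) (n (nat_lit 334) (b (n (nat_lit 284) (b (n (nat_lit 236) (b (n (nat_lit 234) (b (b (n (nat_lit 237) (b (n (nat_lit 235) (b (l (nat_lit 5) (nat_lit 209) (nat_lit 210)) (l (nat_lit 2) (nat_lit 233) (nat_lit 258)))) (l (nat_lit 7) (nat_lit 211) (nat_lit 211)))) (n (nat_lit 233) (b (l (nat_lit 7) (nat_lit 233) (nat_lit 258)) (l (nat_lit 7) (nat_lit 208) (nat_lit 208))))) (n (nat_lit 209) (b (n (nat_lit 208) (b (l (nat_lit 7) (nat_lit 183) (nat_lit 183)) (l (nat_lit 7) (nat_lit 208) (nat_lit 233)))) (n (nat_lit 210) (b (l (nat_lit 5) (nat_lit 184) (nat_lit 185)) (l (nat_lit 5) (nat_lit 209) (nat_lit 235)))))))) (l (nat_lit 7)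 (nat_lit 236) (nat_lit 261)))) (l (nat_lit 4) (nat_lit 259) (nat_lit 360)))) (l (nat_lit 3) (nat_lit 308) (nat_lit 308))))))) (l (nat_lit 3) (nat_lit 309) (nat_lit 310)))) (n (nat_lit 309) (b (n (nat_lit 334) (b (n (nat_lit 358) (b (n (nat_lit 259) (b (n (nat_lit 333) (b (l (nat_lit 6) (nat_lit 258) (nat_lit 284)) (l (nat_lit 2) (nat_lit 332) (nat_lit 357)))) (n (nat_lit 261) (b (n (nat_lit 260) (b (n (nat_lit 258) (b (n (nat_lit 233) (b (l (nat_lit 3) (nat_lit 233) (nat_lit 234)) (l (nat_lit 3) (nat_lit 232) (nat_lit 232)))) (l (nat_lit 0) (nat_lit 258) (nat_lit 286)))) (l (nat_lit 0) (nat_lit 259) (nat_lit 288)))) (l (nat_lit 7) (nat_lit 236) (nat_lit 236)))))) (l (nat_lit 2) (nat_lit 333) (nat_lit 359)))) (l (nat_lit 3) (nat_lit 308) (nat_lit 308)))) (l (nat_lit 3) (nat_lit 309) (nat_lit 310))))) (b (n (nat_lit 310) (b (n (nat_lit 360) (b (n (nat_lit 261) (b (n (nat_lit 285) (b (n (nat_lit 259) (b (n (nat_lit 260) (b (l (nat_lit 0)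 (nat_lit 259) (nat_lit 288)) (l (nat_lit 7) (nat_lit 234) (nat_lit 234)))) (l (nat_lit 7) (nat_lit 259) (nat_lit 284)))) (l (nat_lit 5) (nat_lit 260) (nat_lit 286)))) (l (nat_lit 7) (nat_lit 236) (nat_lit 236)))) (l (nat_lit 2) (nat_lit 334) (nat_lit 359)))) (l (nat_lit 3) (nat_lit 309) (nat_lit 309)))) (n (nat_lit 261) (b (n (nat_lit 260) (b (b (n (nat_lit 288) (b (n (nat_lit 289) (b (l (nat_lit 3) (nat_lit 260) (nat_lit 286)) (l (nat_lit 3) (nat_lit 261) (nat_lit 290)))) (l (nat_lit 0) (nat_lit 259) (nat_lit 259)))) (n (nat_lit 285) (b (n (nat_lit 284) (b (n (nat_lit 283) (b (l (nat_lit 1) (nat_lit 258) (nat_lit 286)) (l (nat_lit 1) (nat_lit 257) (nat_lit 282)))) (l (nat_lit 2) (nat_lit 259) (nat_lit 263)))) (n (nat_lit 359) (b (n (nat_lit 334) (b (l (nat_lit 6) (nat_lit 259) (nat_lit 310)) (l (nat_lit 2) (nat_lit 333) (nat_lit 358)))) (l (nat_lit 2) (nat_lit 334) (nat_lit 360))))))) (n (nat_lit 288) (b (n (nat_lit 289) (b (l (nat_lit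 0) (nat_lit 260) (nat_lit 263)) (l (nat_lit 3) (nat_lit 261) (nat_lit 290)))) (l (nat_lit 0) (nat_lit 259) (nat_lit 259)))))) (l (nat_lit 7) (nat_lit 236) (nat_lit 236)))))) (b (n (nat_lit 334) (b (n (nat_lit 359) (b (l (nat_lit 2) (nat_lit 333) (nat_lit 358)) (l (nat_lit 2) (nat_lit 334) (nat_lit 360)))) (n (nat_lit 309) (b (l (nat_lit 3) (nat_lit 308) (nat_lit 308)) (l (nat_lit 3) (nat_lit 309) (nat_lit 310)))))) (n (nat_lit 261) (b (n (nat_lit 259) (b (b (n (nat_lit 260) (b (n (nat_lit 258) (b (n (nat_lit 283) (b (l (nat_lit 2) (nat_lit 257) (nat_lit 282)) (l (nat_lit 2) (nat_lit 258) (nat_lit 284)))) (l (nat_lit 0) (nat_lit 258) (nat_lit 286)))) (l (nat_lit 0) (nat_lit 259) (nat_lit 288)))) (n (nat_lit 260) (b (n (nat_lit 263) (b (n (nat_lit 234) (b (l (nat_lit 3) (nat_lit 234) (nat_lit 235)) (l (nat_lit 3) (nat_lit 233) (nat_lit 233)))) (n (nat_lit 284) (b (l (nat_lit 2) (nat_lit 258) (nat_lit 283)) (l (nat_lit 2) (nat_lit 259) (nat_lit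 285)))))) (l (nat_lit 0) (nat_lit 259) (nat_lit 288))))) (b (n (nat_lit 260) (b (n (nat_lit 258) (b (n (nat_lit 233) (b (l (nat_lit 3) (nat_lit 233) (nat_lit 234)) (l (nat_lit 3) (nat_lit 232) (nat_lit 232)))) (l (nat_lit 0) (nat_lit 258) (nat_lit 286)))) (l (nat_lit 0) (nat_lit 259) (nat_lit 288)))) (n (nat_lit 334) (b (b (n (nat_lit 359) (b (l (nat_lit 2) (nat_lit 333) (nat_lit 358)) (l (nat_lit 2) (nat_lit 334) (nat_lit 360)))) (n (nat_lit 309) (b (n (nat_lit 360) (b (l (nat_lit 4) (nat_lit 259) (nat_lit 284)) (l (nat_lit 2) (nat_lit 334) (nat_lit 359)))) (l (nat_lit 3) (nat_lit 308) (nat_lit 308))))) (n (nat_lit 308) (b (n (nat_lit 333) (b (n (nat_lit 358) (b (n (nat_lit 283) (b (n (nat_lit 258) (b (n (nat_lit 257) (b (l (nat_lit 7) (nat_lit 257) (nat_lit 282)) (l (nat_lit 7) (nat_lit 232) (nat_lit 232)))) (l (nat_lit 5) (nat_lit 233) (nat_lit 234)))) (l (nat_lit 5) (nat_lit 258) (nat_lit 284)))) (l (nat_lit 2) (nat_lit 332) (nat_lit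 357)))) (l (nat_lit 3) (nat_lit 307) (nat_lit 307)))) (l (nat_lit 3) (nat_lit 308) (nat_lit 309))))))))) (l (nat_lit 7) (nat_lit 236) (nat_lit 236))))))) (l (nat_lit 4) (nat_lit 262) (nat_lit 363)))) (l (nat_lit 6) (nat_lit 261) (nat_lit 361)))))) (n (nat_lit 263) (b (b (r (nat_lit 0)) (n (nat_lit 337) (b (n (nat_lit 362) (b (n (nat_lit 361) (b (l (nat_lit 6) (nat_lit 286) (nat_lit 386)) (l (nat_lit 6) (nat_lit 261) (nat_lit 336)))) (n (nat_lit 363) (b (l (nat_lit 4) (nat_lit 262) (nat_lit 338)) (l (nat_lit 4) (nat_lit 287) (nat_lit 388)))))) (l (nat_lit 5) (nat_lit 237) (nat_lit 238))))) (n (nat_lit 264) (b (b (n (nat_lit 265) (b (n (nat_lit 266) (b (n (nat_lit 241) (b (l (nat_lit 1) (nat_lit 238) (nat_lit 242)) (l (nat_lit 1) (nat_lit 237) (nat_lit 240)))) (l (nat_lit 2) (nat_lit 262) (nat_lit 288)))) (l (nat_lit 2) (nat_lit 261) (nat_lit 286)))) (n (nat_lit 286) (b (n (nat_lit 285) (b (l (nat_lit 2) (nat_lit 260) (nat_lit 261)) (l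 (nat_lit 1) (nat_lit 259) (nat_lit 284)))) (l (nat_lit 2) (nat_lit 261) (nat_lit 265))))) (b (n (nat_lit 265) (b (b (n (nat_lit 261) (b (n (nat_lit 290) (b (l (nat_lit 0) (nat_lit 262) (nat_lit 291)) (l (nat_lit 0) (nat_lit 261) (nat_lit 289)))) (n (nat_lit 240) (b (l (nat_lit 1) (nat_lit 236) (nat_lit 239)) (l (nat_lit 1) (nat_lit 237) (nat_lit 241)))))) (n (nat_lit 266) (b (n (nat_lit 291) (b (l (nat_lit 0) (nat_lit 262) (nat_lit 290)) (l (nat_lit 0) (nat_lit 263) (nat_lit 292)))) (l (nat_lit 2) (nat_lit 262) (nat_lit 288))))) (n (nat_lit 266) (b (n (nat_lit 241) (b (l (nat_lit 1) (nat_lit 238) (nat_lit 242)) (l (nat_lit 1) (nat_lit 237) (nat_lit 240)))) (l (nat_lit 2) (nat_lit 262) (nat_lit 288)))))) (n (nat_lit 261) (b (b (r (nat_lit 1)) (n (nat_lit 289) (b (n (nat_lit 260) (b (n (nat_lit 259) (b (n (nat_lit 258) (b (n (nat_lit 283) (b (l (nat_lit 2) (nat_lit 257) (nat_lit 282)) (l (nat_lit 2) (nat_lit 258) (nat_lit 284)))) (l (nat_lit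 0) (nat_lit 258) (nat_lit 286)))) (n (nat_lit 234) (b (l (nat_lit 3) (nat_lit 234) (nat_lit 235)) (l (nat_lit 3) (nat_lit 233) (nat_lit 233)))))) (l (nat_lit 0) (nat_lit 260) (nat_lit 288)))) (l (nat_lit 0) (nat_lit 261) (nat_lit 290))))) (b (n (nat_lit 260) (b (n (nat_lit 259) (b (n (nat_lit 234) (b (l (nat_lit 3) (nat_lit 234) (nat_lit 235)) (l (nat_lit 3) (nat_lit 233) (nat_lit 233)))) (n (nat_lit 284) (b (l (nat_lit 2) (nat_lit 258) (nat_lit 283)) (l (nat_lit 2) (nat_lit 259) (nat_lit 285)))))) (n (nat_lit 289) (b (l (nat_lit 0) (nat_lit 261) (nat_lit 290)) (l (nat_lit 0) (nat_lit 260) (nat_lit 288)))))) (n (nat_lit 289) (b (n (nat_lit 239) (b (n (nat_lit 314) (b (b (b (r (nat_lit 2)) (n (nat_lit 339) (b (n (nat_lit 364) (b (n (nat_lit 363) (b (l (nat_lit 6) (nat_lit 263) (nat_lit 338)) (l (nat_lit 6) (nat_lit 288) (nat_lit 388)))) (l (nat_lit 7) (nat_lit 263) (nat_lit 288)))) (n (nat_lit 340) (b (l (nat_lit 4) (nat_lit 239) (nat_lit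 315)) (l (nat_lit 4) (nat_lit 264) (nat_lit 365))))))) (b (n (nat_lit 286) (b (n (nat_lit 315) (b (l (nat_lit 0) (nat_lit 286) (nat_lit 288)) (l (nat_lit 4) (nat_lit 239) (nat_lit 340)))) (l (nat_lit 2) (nat_lit 260) (nat_lit 285)))) (n (nat_lit 337) (b (n (nat_lit 338) (b (n (nat_lit 336) (b (n (nat_lit 315) (b (l (nat_lit 1) (nat_lit 311) (nat_lit 339)) (l (nat_lit 4) (nat_lit 239) (nat_lit 340)))) (l (nat_lit 6) (nat_lit 261) (nat_lit 361)))) (l (nat_lit 4) (nat_lit 262) (nat_lit 363)))) (n (nat_lit 286) (b (l (nat_lit 2) (nat_lit 260) (nat_lit 285)) (l (nat_lit 7) (nat_lit 261) (nat_lit 362)))))))) (n (nat_lit 363) (b (b (n (nat_lit 337) (b (n (nat_lit 286) (b (l (nat_lit 2) (nat_lit 260) (nat_lit 285)) (l (nat_lit 7) (nat_lit 261) (nat_lit 362)))) (l (nat_lit 4) (nat_lit 262) (nat_lit 338)))) (n (nat_lit 339) (b (n (nat_lit 364) (b (l (nat_lit 6) (nat_lit 288) (nat_lit 388)) (l (nat_lit 7) (nat_lit 263) (nat_lit 288)))) (l (nat_lit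 6) (nat_lit 263) (nat_lit 338))))) (n (nat_lit 362) (b (n (nat_lit 286) (b (l (nat_lit 2) (nat_lit 260) (nat_lit 285)) (l (nat_lit 7) (nat_lit 261) (nat_lit 337)))) (n (nat_lit 364) (b (b (r (nat_lit 3)) (n (nat_lit 339) (b (l (nat_lit 6) (nat_lit 288) (nat_lit 388)) (l (nat_lit 7) (nat_lit 263) (nat_lit 288))))) (n (nat_lit 339) (b (n (nat_lit 340) (b (l (nat_lit 4) (nat_lit 264) (nat_lit 365)) (l (nat_lit 1) (nat_lit 336) (nat_lit 361)))) (l (nat_lit 7) (nat_lit 263) (nat_lit 288)))))))))))) (l (nat_lit 1) (nat_lit 236) (nat_lit 240)))) (l (nat_lit 0) (nat_lit 261) (nat_lit 290))))))))))))) (b (r (nat_lit 4)) (n (nat_lit 337) (b (n (nat_lit 362) (b (n (nat_lit 361) (b (l (nat_lit 6) (nat_lit 286) (nat_lit 386)) (l (nat_lit 6) (nat_lit 261) (nat_lit 336)))) (n (nat_lit 363) (b (l (nat_lit 4) (nat_lit 262) (nat_lit 338)) (l (nat_lit 4) (nat_lit 287) (nat_lit 388)))))) (n (nat_lit 237) (b (n (nat_lit 238) (b (l (nat_lit 5) (nat_lit 237)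 (nat_lit 263)) (l (nat_lit 5) (nat_lit 212) (nat_lit 213)))) (n (nat_lit 236) (b (l (nat_lit 7) (nat_lit 211) (nat_lit 211)) (l (nat_lit 7) (nat_lit 236) (nat_lit 261)))))))))) (b (r (nat_lit 5)) (r (nat_lit 6)))))
    (envOK_cons p8085 (envOK_cons p5323 (envOK_cons p8130 (envOK_cons p8127 (envOK_cons p7513 (envOK_cons p9178 (envOK_cons p9557 envOK_nil))))))) (by decide +kernel)

theorem p9711 : Fam (nat_lit 14) (nat_lit 279968101115925134047353499319930152181142708231565782546248918899963984685054368582985341452834308096) (nat_lit 34981295531415214688267915741215682975103378476578881805223125929536103616942374986816885430533028280876181846825409158523378937861706350592) (nat_lit 34981295531415214688267915741215682975103378476578881805223125929536103616942374986816885430533028280876181846825409158523378937861706350592) :=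
  chk_sound (Env.cons (nat_lit 9) (nat_lit 9394170751047480413595570932732785071639572068254757881140492135551675136800690175680777083080753327749726208) (nat_lit 576715316208809145530457301033552023607205243484872930863891470981300953846202044562268920126838888168170149247344678170124099780608) (Env.cons (nat_lit 10) (nat_lit 9394170611063434027483056434510847429432882376775987714394946432377755000422418458909164576524416264962048000) (nat_lit 7442829202227760979900296829744418443077537317065146634608076772250410148557968423997804291875326966805979813321431431583832611570053021696) (Env.cons (nat_lit 5) (nat_lit 9394170611063434027483056434510847429432882376775987714394946432377755000422418458909164576524416264962048000) (nat_lit 5954264071585671632640473235457219250118317965616578190361538789207990921134141548614446717535182129384906055713252806661043994077926785024) Env.nil)))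
    (n (nat_lit 362) (b (b (b (n (nat_lit 336) (b (b (r (nat_lit 0)) (n (nat_lit 387) (b (n (nat_lit 412) (b (n (nat_lit 411) (b (l (nat_lit 6) (nat_lit 336) (nat_lit 436)) (l (nat_lit 6) (nat_lit 311) (nat_lit 386)))) (l (nat_lit 7) (nat_lit 311) (nat_lit 311)))) (n (nat_lit 388) (b (l (nat_lit 4) (nat_lit 312) (nat_lit 413)) (l (nat_lit 4) (nat_lit 287) (nat_lit 363))))))) (b (n (nat_lit 363) (b (n (nat_lit 335) (b (n (nat_lit 364) (b (l (nat_lit 0) (nat_lit 335) (nat_lit 338)) (l (nat_lit 3) (nat_lit 336) (nat_lit 365)))) (l (nat_lit 0) (nat_lit 334) (nat_lit 334)))) (l (nat_lit 4) (nat_lit 287) (nat_lit 388)))) (n (nat_lit 387) (b (b (n (nat_lit 412) (b (n (nat_lit 413) (b (l (nat_lit 4) (nat_lit 337) (nat_lit 438)) (l (nat_lit 4) (nat_lit 312) (nat_lit 388)))) (n (nat_lit 411) (b (l (nat_lit 6) (nat_lit 336) (nat_lit 436)) (l (nat_lit 6) (nat_lit 311) (nat_lit 386)))))) (n (nat_lit 412) (b (n (nat_lit 411) (b (l (nat_lit 6) (nat_lit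 336) (nat_lit 436)) (l (nat_lit 6) (nat_lit 311) (nat_lit 386)))) (l (nat_lit 7) (nat_lit 311) (nat_lit 311))))) (b (n (nat_lit 412) (b (n (nat_lit 413) (b (l (nat_lit 4) (nat_lit 337) (nat_lit 438)) (l (nat_lit 4) (nat_lit 312) (nat_lit 388)))) (l (nat_lit 7) (nat_lit 311) (nat_lit 311)))) (n (nat_lit 386) (b (n (nat_lit 388) (b (n (nat_lit 359) (b (b (n (nat_lit 335) (b (b (n (nat_lit 334) (b (n (nat_lit 333) (b (n (nat_lit 308) (b (l (nat_lit 3) (nat_lit 308) (nat_lit 309)) (l (nat_lit 3) (nat_lit 307) (nat_lit 307)))) (l (nat_lit 1) (nat_lit 308) (nat_lit 311)))) (l (nat_lit 2) (nat_lit 333) (nat_lit 358)))) (n (nat_lit 358) (b (n (nat_lit 360) (b (l (nat_lit 1) (nat_lit 332) (nat_lit 357)) (l (nat_lit 2) (nat_lit 334) (nat_lit 338)))) (l (nat_lit 2) (nat_lit 333) (nat_lit 334))))) (n (nat_lit 338) (b (n (nat_lit 339) (b (n (nat_lit 340) (b (n (nat_lit 315) (b (l (nat_lit 1) (nat_lit 311) (nat_lit 314)) (l (nat_lit 1) (nat_lit 312)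 (nat_lit 316)))) (n (nat_lit 365) (b (l (nat_lit 0) (nat_lit 337) (nat_lit 366)) (l (nat_lit 0) (nat_lit 336) (nat_lit 364)))))) (n (nat_lit 310) (b (l (nat_lit 3) (nat_lit 309) (nat_lit 309)) (l (nat_lit 3) (nat_lit 310) (nat_lit 311)))))) (l (nat_lit 2) (nat_lit 334) (nat_lit 360)))))) (n (nat_lit 385) (b (n (nat_lit 384) (b (n (nat_lit 409) (b (l (nat_lit 2) (nat_lit 383) (nat_lit 408)) (l (nat_lit 2) (nat_lit 384) (nat_lit 410)))) (l (nat_lit 3) (nat_lit 358) (nat_lit 358)))) (l (nat_lit 3) (nat_lit 359) (nat_lit 360))))) (b (n (nat_lit 384) (b (b (n (nat_lit 334) (b (b (n (nat_lit 309) (b (n (nat_lit 409) (b (n (nat_lit 408) (b (l (nat_lit 6) (nat_lit 308) (nat_lit 383)) (l (nat_lit 6) (nat_lit 333) (nat_lit 433)))) (n (nat_lit 308) (b (l (nat_lit 7) (nat_lit 308) (nat_lit 333)) (l (nat_lit 7) (nat_lit 283) (nat_lit 283)))))) (n (nat_lit 310) (b (n (nat_lit 311) (b (l (nat_lit 0) (nat_lit 309) (nat_lit 338)) (l (nat_lit 1) (nat_lit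 284) (nat_lit 288)))) (l (nat_lit 5) (nat_lit 284) (nat_lit 285)))))) (n (nat_lit 335) (b (n (nat_lit 310) (b (n (nat_lit 309) (b (l (nat_lit 3) (nat_lit 309) (nat_lit 338)) (l (nat_lit 5) (nat_lit 284) (nat_lit 285)))) (l (nat_lit 5) (nat_lit 309) (nat_lit 409)))) (l (nat_lit 2) (nat_lit 333) (nat_lit 358))))) (b (n (nat_lit 335) (b (n (nat_lit 409) (b (n (nat_lit 333) (b (l (nat_lit 7) (nat_lit 308) (nat_lit 308)) (l (nat_lit 1) (nat_lit 308) (nat_lit 311)))) (l (nat_lit 5) (nat_lit 309) (nat_lit 310)))) (l (nat_lit 2) (nat_lit 333) (nat_lit 358)))) (n (nat_lit 335) (b (n (nat_lit 333) (b (n (nat_lit 308) (b (l (nat_lit 3) (nat_lit 308) (nat_lit 309)) (l (nat_lit 3) (nat_lit 307) (nat_lit 307)))) (l (nat_lit 1) (nat_lit 308) (nat_lit 311)))) (l (nat_lit 2) (nat_lit 333) (nat_lit 358))))))) (n (nat_lit 409) (b (b (n (nat_lit 385) (b (l (nat_lit 2) (nat_lit 384) (nat_lit 410)) (l (nat_lit 2) (nat_lit 383) (nat_lit 408)))) (n (nat_lit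 334) (b (n (nat_lit 333) (b (n (nat_lit 335) (b (l (nat_lit 5) (nat_lit 309) (nat_lit 310)) (l (nat_lit 1) (nat_lit 308) (nat_lit 311)))) (l (nat_lit 7) (nat_lit 308) (nat_lit 308)))) (n (nat_lit 434) (b (n (nat_lit 433) (b (l (nat_lit 6) (nat_lit 333) (nat_lit 408)) (l (nat_lit 6) (nat_lit 358) (nat_lit 458)))) (n (nat_lit 435) (b (l (nat_lit 4) (nat_lit 359) (nat_lit 460)) (l (nat_lit 4) (nat_lit 334) (nat_lit 410))))))))) (b (n (nat_lit 334) (b (n (nat_lit 333) (b (n (nat_lit 335) (b (l (nat_lit 5) (nat_lit 309) (nat_lit 310)) (l (nat_lit 1) (nat_lit 308) (nat_lit 311)))) (l (nat_lit 7) (nat_lit 308) (nat_lit 308)))) (n (nat_lit 410) (b (l (nat_lit 2) (nat_lit 384) (nat_lit 385)) (l (nat_lit 4) (nat_lit 334) (nat_lit 435)))))) (n (nat_lit 334) (b (n (nat_lit 333) (b (n (nat_lit 335) (b (l (nat_lit 5) (nat_lit 309) (nat_lit 310)) (l (nat_lit 1) (nat_lit 308) (nat_lit 311)))) (l (nat_lit 7) (nat_lit 308) (nat_lit 308)))) (n (nat_lit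 408) (b (l (nat_lit 2) (nat_lit 383) (nat_lit 385)) (l (nat_lit 6) (nat_lit 333) (nat_lit 433)))))))))) (b (n (nat_lit 385) (b (n (nat_lit 409) (b (l (nat_lit 2) (nat_lit 383) (nat_lit 408)) (l (nat_lit 2) (nat_lit 384) (nat_lit 410)))) (l (nat_lit 3) (nat_lit 358) (nat_lit 358)))) (n (nat_lit 358) (b (n (nat_lit 334) (b (n (nat_lit 309) (b (n (nat_lit 310) (b (n (nat_lit 311) (b (l (nat_lit 2) (nat_lit 308) (nat_lit 333)) (l (nat_lit 0) (nat_lit 309) (nat_lit 338)))) (l (nat_lit 5) (nat_lit 284) (nat_lit 285)))) (n (nat_lit 283) (b (n (nat_lit 284) (b (l (nat_lit 7) (nat_lit 258) (nat_lit 258)) (l (nat_lit 6) (nat_lit 283) (nat_lit 383)))) (l (nat_lit 7) (nat_lit 283) (nat_lit 308)))))) (l (nat_lit 2) (nat_lit 333) (nat_lit 335)))) (l (nat_lit 3) (nat_lit 358) (nat_lit 385))))))) (n (nat_lit 360) (b (n (nat_lit 335) (b (n (nat_lit 334) (b (b (n (nat_lit 310) (b (n (nat_lit 311) (b (n (nat_lit 288) (b (l (nat_lit 5) (nat_lit 262) (nat_lit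 263)) (l (nat_lit 1) (nat_lit 284) (nat_lit 309)))) (l (nat_lit 1) (nat_lit 308) (nat_lit 333)))) (n (nat_lit 285) (b (l (nat_lit 6) (nat_lit 284) (nat_lit 384)) (l (nat_lit 6) (nat_lit 259) (nat_lit 260)))))) (n (nat_lit 333) (b (n (nat_lit 332) (b (n (nat_lit 307) (b (l (nat_lit 3) (nat_lit 306) (nat_lit 306)) (l (nat_lit 3) (nat_lit 307) (nat_lit 308)))) (l (nat_lit 0) (nat_lit 331) (nat_lit 331)))) (l (nat_lit 1) (nat_lit 308) (nat_lit 311))))) (n (nat_lit 309) (b (n (nat_lit 384) (b (n (nat_lit 409) (b (n (nat_lit 408) (b (l (nat_lit 6) (nat_lit 308) (nat_lit 383)) (l (nat_lit 6) (nat_lit 333) (nat_lit 433)))) (l (nat_lit 5) (nat_lit 334) (nat_lit 434)))) (n (nat_lit 285) (b (n (nat_lit 284) (b (l (nat_lit 5) (nat_lit 259) (nat_lit 260)) (l (nat_lit 4) (nat_lit 259) (nat_lit 259)))) (l (nat_lit 6) (nat_lit 284) (nat_lit 310)))))) (l (nat_lit 3) (nat_lit 308) (nat_lit 308)))))) (l (nat_lit 2) (nat_lit 334) (nat_lit 338)))) (l (nat_lit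 3) (nat_lit 359) (nat_lit 385))))))) (l (nat_lit 4) (nat_lit 312) (nat_lit 413)))) (l (nat_lit 6) (nat_lit 311) (nat_lit 411)))))))))) (r (nat_lit 1))) (b (n (nat_lit 361) (b (n (nat_lit 363) (b (n (nat_lit 364) (b (b (n (nat_lit 365) (b (n (nat_lit 340) (b (l (nat_lit 1) (nat_lit 336) (nat_lit 339)) (l (nat_lit 1) (nat_lit 337) (nat_lit 341)))) (n (nat_lit 390) (b (l (nat_lit 0) (nat_lit 362) (nat_lit 391)) (l (nat_lit 0) (nat_lit 361) (nat_lit 389)))))) (n (nat_lit 336) (b (l (nat_lit 3) (nat_lit 336) (nat_lit 365)) (l (nat_lit 3) (nat_lit 335) (nat_lit 335))))) (n (nat_lit 360) (b (n (nat_lit 339) (b (l (nat_lit 1) (nat_lit 336) (nat_lit 340)) (l (nat_lit 1) (nat_lit 335) (nat_lit 338)))) (n (nat_lit 335) (b (l (nat_lit 3) (nat_lit 334) (nat_lit 334)) (l (nat_lit 3) (nat_lit 335) (nat_lit 336)))))))) (l (nat_lit 4) (nat_lit 287) (nat_lit 388)))) (l (nat_lit 6) (nat_lit 286) (nat_lit 386)))) (r (nat_lit 2)))) (b (n (nat_lit 387) (b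 (n (nat_lit 388) (b (l (nat_lit 4) (nat_lit 312) (nat_lit 413)) (l (nat_lit 4) (nat_lit 287) (nat_lit 363)))) (n (nat_lit 386) (b (l (nat_lit 6) (nat_lit 311) (nat_lit 411)) (l (nat_lit 6) (nat_lit 286) (nat_lit 361)))))) (n (nat_lit 387) (b (b (n (nat_lit 363) (b (n (nat_lit 336) (b (b (n (nat_lit 412) (b (n (nat_lit 437) (b (l (nat_lit 5) (nat_lit 337) (nat_lit 338)) (l (nat_lit 7) (nat_lit 336) (nat_lit 361)))) (l (nat_lit 7) (nat_lit 311) (nat_lit 311)))) (n (nat_lit 335) (b (n (nat_lit 364) (b (l (nat_lit 3) (nat_lit 335) (nat_lit 361)) (l (nat_lit 3) (nat_lit 336) (nat_lit 365)))) (l (nat_lit 0) (nat_lit 334) (nat_lit 334))))) (n (nat_lit 335) (b (n (nat_lit 364) (b (l (nat_lit 0) (nat_lit 335) (nat_lit 338)) (l (nat_lit 3) (nat_lit 336) (nat_lit 365)))) (l (nat_lit 0) (nat_lit 334) (nat_lit 334)))))) (l (nat_lit 4) (nat_lit 287) (nat_lit 388)))) (n (nat_lit 388) (b (l (nat_lit 4) (nat_lit 312) (nat_lit 413)) (l (nat_lit 4) (nat_lit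 287) (nat_lit 363))))) (b (n (nat_lit 412) (b (n (nat_lit 437) (b (n (nat_lit 436) (b (l (nat_lit 6) (nat_lit 361) (nat_lit 461)) (l (nat_lit 6) (nat_lit 336) (nat_lit 411)))) (n (nat_lit 336) (b (l (nat_lit 7) (nat_lit 336) (nat_lit 361)) (l (nat_lit 7) (nat_lit 311) (nat_lit 311)))))) (n (nat_lit 413) (b (l (nat_lit 4) (nat_lit 337) (nat_lit 438)) (l (nat_lit 4) (nat_lit 312) (nat_lit 388)))))) (n (nat_lit 412) (b (b (n (nat_lit 437) (b (n (nat_lit 336) (b (l (nat_lit 7) (nat_lit 336) (nat_lit 361)) (l (nat_lit 7) (nat_lit 311) (nat_lit 311)))) (n (nat_lit 438) (b (l (nat_lit 4) (nat_lit 337) (nat_lit 413)) (l (nat_lit 4) (nat_lit 362) (nat_lit 463)))))) (n (nat_lit 437) (b (n (nat_lit 436) (b (l (nat_lit 6) (nat_lit 361) (nat_lit 461)) (l (nat_lit 6) (nat_lit 336) (nat_lit 411)))) (n (nat_lit 336) (b (l (nat_lit 7) (nat_lit 336) (nat_lit 361)) (l (nat_lit 7) (nat_lit 311) (nat_lit 311))))))) (b (n (nat_lit 437) (b (n (nat_lit 438)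 (b (l (nat_lit 4) (nat_lit 337) (nat_lit 413)) (l (nat_lit 4) (nat_lit 362) (nat_lit 463)))) (n (nat_lit 436) (b (l (nat_lit 6) (nat_lit 361) (nat_lit 461)) (l (nat_lit 6) (nat_lit 336) (nat_lit 411)))))) (n (nat_lit 411) (b (n (nat_lit 413) (b (n (nat_lit 410) (b (b (b (n (nat_lit 385) (b (n (nat_lit 435) (b (n (nat_lit 336) (b (n (nat_lit 360) (b (n (nat_lit 334) (b (n (nat_lit 335) (b (l (nat_lit 0) (nat_lit 334) (nat_lit 363)) (l (nat_lit 7) (nat_lit 309) (nat_lit 309)))) (l (nat_lit 7) (nat_lit 334) (nat_lit 359)))) (l (nat_lit 5) (nat_lit 335) (nat_lit 361)))) (l (nat_lit 7) (nat_lit 311) (nat_lit 311)))) (l (nat_lit 2) (nat_lit 409) (nat_lit 434)))) (l (nat_lit 3) (nat_lit 384) (nat_lit 384)))) (n (nat_lit 336) (b (n (nat_lit 335) (b (b (n (nat_lit 363) (b (n (nat_lit 364) (b (l (nat_lit 3) (nat_lit 335) (nat_lit 361)) (l (nat_lit 3) (nat_lit 336) (nat_lit 365)))) (l (nat_lit 0) (nat_lit 334) (nat_lit 334)))) (n (nat_lit 360) (b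 (n (nat_lit 359) (b (n (nat_lit 358) (b (l (nat_lit 1) (nat_lit 333) (nat_lit 361)) (l (nat_lit 1) (nat_lit 332) (nat_lit 357)))) (l (nat_lit 2) (nat_lit 334) (nat_lit 338)))) (n (nat_lit 434) (b (n (nat_lit 409) (b (l (nat_lit 6) (nat_lit 334) (nat_lit 385)) (l (nat_lit 2) (nat_lit 408) (nat_lit 433)))) (l (nat_lit 2) (nat_lit 409) (nat_lit 435))))))) (n (nat_lit 363) (b (n (nat_lit 364) (b (l (nat_lit 0) (nat_lit 335) (nat_lit 338)) (l (nat_lit 3) (nat_lit 336) (nat_lit 365)))) (l (nat_lit 0) (nat_lit 334) (nat_lit 334)))))) (l (nat_lit 7) (nat_lit 311) (nat_lit 311))))) (b (n (nat_lit 409) (b (n (nat_lit 434) (b (l (nat_lit 2) (nat_lit 409) (nat_lit 435)) (l (nat_lit 2) (nat_lit 408) (nat_lit 433)))) (n (nat_lit 384) (b (l (nat_lit 3) (nat_lit 383) (nat_lit 383)) (l (nat_lit 3) (nat_lit 384) (nat_lit 385)))))) (n (nat_lit 384) (b (n (nat_lit 409) (b (n (nat_lit 359) (b (b (n (nat_lit 336) (b (n (nat_lit 360) (b (n (nat_lit 434) (b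 (l (nat_lit 5) (nat_lit 334) (nat_lit 335)) (l (nat_lit 2) (nat_lit 408) (nat_lit 433)))) (n (nat_lit 361) (b (l (nat_lit 1) (nat_lit 333) (nat_lit 358)) (l (nat_lit 1) (nat_lit 334) (nat_lit 338)))))) (l (nat_lit 7) (nat_lit 311) (nat_lit 311)))) (n (nat_lit 433) (b (n (nat_lit 408) (b (l (nat_lit 6) (nat_lit 333) (nat_lit 334)) (l (nat_lit 2) (nat_lit 407) (nat_lit 432)))) (l (nat_lit 2) (nat_lit 408) (nat_lit 434))))) (n (nat_lit 336) (b (n (nat_lit 335) (b (n (nat_lit 360) (b (n (nat_lit 358) (b (l (nat_lit 1) (nat_lit 333) (nat_lit 361)) (l (nat_lit 1) (nat_lit 332) (nat_lit 357)))) (l (nat_lit 2) (nat_lit 334) (nat_lit 338)))) (n (nat_lit 334) (b (l (nat_lit 0) (nat_lit 334) (nat_lit 363)) (l (nat_lit 5) (nat_lit 309) (nat_lit 310)))))) (l (nat_lit 7) (nat_lit 311) (nat_lit 311)))))) (l (nat_lit 3) (nat_lit 383) (nat_lit 383)))) (l (nat_lit 3) (nat_lit 384) (nat_lit 385)))))) (b (n (nat_lit 384) (b (n (nat_lit 334) (b (b (n (nat_lit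 409) (b (n (nat_lit 335) (b (n (nat_lit 336) (b (l (nat_lit 7) (nat_lit 311) (nat_lit 311)) (l (nat_lit 0) (nat_lit 334) (nat_lit 363)))) (n (nat_lit 359) (b (l (nat_lit 5) (nat_lit 309) (nat_lit 310)) (l (nat_lit 4) (nat_lit 334) (nat_lit 435)))))) (l (nat_lit 3) (nat_lit 383) (nat_lit 383)))) (n (nat_lit 336) (b (n (nat_lit 335) (b (n (nat_lit 333) (b (n (nat_lit 308) (b (l (nat_lit 3) (nat_lit 308) (nat_lit 309)) (l (nat_lit 3) (nat_lit 307) (nat_lit 307)))) (l (nat_lit 0) (nat_lit 333) (nat_lit 361)))) (l (nat_lit 0) (nat_lit 334) (nat_lit 363)))) (l (nat_lit 7) (nat_lit 311) (nat_lit 311))))) (b (n (nat_lit 409) (b (n (nat_lit 359) (b (n (nat_lit 309) (b (n (nat_lit 310) (b (l (nat_lit 5) (nat_lit 284) (nat_lit 285)) (l (nat_lit 5) (nat_lit 309) (nat_lit 335)))) (n (nat_lit 308) (b (l (nat_lit 7) (nat_lit 308) (nat_lit 333)) (l (nat_lit 7) (nat_lit 283) (nat_lit 283)))))) (l (nat_lit 4) (nat_lit 334) (nat_lit 435)))) (l (nat_lit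 3) (nat_lit 383) (nat_lit 383)))) (n (nat_lit 311) (b (n (nat_lit 309) (b (n (nat_lit 359) (b (b (n (nat_lit 409) (b (n (nat_lit 308) (b (l (nat_lit 7) (nat_lit 308) (nat_lit 333)) (l (nat_lit 7) (nat_lit 283) (nat_lit 283)))) (l (nat_lit 4) (nat_lit 334) (nat_lit 435)))) (n (nat_lit 284) (b (n (nat_lit 383) (b (l (nat_lit 6) (nat_lit 283) (nat_lit 358)) (l (nat_lit 6) (nat_lit 308) (nat_lit 408)))) (n (nat_lit 283) (b (l (nat_lit 7) (nat_lit 283) (nat_lit 308)) (l (nat_lit 7) (nat_lit 258) (nat_lit 258))))))) (n (nat_lit 409) (b (l (nat_lit 3) (nat_lit 383) (nat_lit 383)) (l (nat_lit 4) (nat_lit 334) (nat_lit 435)))))) (n (nat_lit 310) (b (l (nat_lit 1) (nat_lit 284) (nat_lit 288)) (l (nat_lit 0) (nat_lit 309) (nat_lit 338)))))) (l (nat_lit 7) (nat_lit 311) (nat_lit 336))))))) (l (nat_lit 3) (nat_lit 384) (nat_lit 385)))) (n (nat_lit 409) (b (b (n (nat_lit 408) (b (n (nat_lit 433) (b (l (nat_lit 2) (nat_lit 408) (nat_lit 434)) (l (nat_lit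 2) (nat_lit 407) (nat_lit 432)))) (n (nat_lit 383) (b (l (nat_lit 3) (nat_lit 382) (nat_lit 382)) (l (nat_lit 3) (nat_lit 383) (nat_lit 384)))))) (n (nat_lit 434) (b (l (nat_lit 2) (nat_lit 409) (nat_lit 435)) (l (nat_lit 2) (nat_lit 408) (nat_lit 433))))) (b (n (nat_lit 334) (b (b (n (nat_lit 384) (b (n (nat_lit 335) (b (n (nat_lit 336) (b (l (nat_lit 7) (nat_lit 311) (nat_lit 311)) (l (nat_lit 0) (nat_lit 334) (nat_lit 363)))) (n (nat_lit 359) (b (l (nat_lit 5) (nat_lit 309) (nat_lit 310)) (l (nat_lit 4) (nat_lit 334) (nat_lit 435)))))) (l (nat_lit 3) (nat_lit 383) (nat_lit 383)))) (n (nat_lit 336) (b (n (nat_lit 335) (b (n (nat_lit 333) (b (n (nat_lit 308) (b (l (nat_lit 3) (nat_lit 308) (nat_lit 309)) (l (nat_lit 3) (nat_lit 307) (nat_lit 307)))) (l (nat_lit 0) (nat_lit 333) (nat_lit 361)))) (l (nat_lit 0) (nat_lit 334) (nat_lit 363)))) (l (nat_lit 7) (nat_lit 311) (nat_lit 311))))) (b (n (nat_lit 384) (b (n (nat_lit 359) (b (n (nat_lit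 309) (b (n (nat_lit 310) (b (l (nat_lit 5) (nat_lit 284) (nat_lit 285)) (l (nat_lit 5) (nat_lit 309) (nat_lit 335)))) (n (nat_lit 308) (b (l (nat_lit 7) (nat_lit 308) (nat_lit 333)) (l (nat_lit 7) (nat_lit 283) (nat_lit 283)))))) (l (nat_lit 4) (nat_lit 334) (nat_lit 435)))) (l (nat_lit 3) (nat_lit 383) (nat_lit 383)))) (n (nat_lit 383) (b (n (nat_lit 408) (b (n (nat_lit 309) (b (n (nat_lit 433) (b (n (nat_lit 358) (b (l (nat_lit 5) (nat_lit 333) (nat_lit 359)) (l (nat_lit 5) (nat_lit 308) (nat_lit 333)))) (l (nat_lit 2) (nat_lit 407) (nat_lit 432)))) (n (nat_lit 311) (b (n (nat_lit 310) (b (l (nat_lit 1) (nat_lit 284) (nat_lit 288)) (l (nat_lit 0) (nat_lit 309) (nat_lit 338)))) (l (nat_lit 7) (nat_lit 311) (nat_lit 336)))))) (l (nat_lit 3) (nat_lit 382) (nat_lit 382)))) (l (nat_lit 3) (nat_lit 383) (nat_lit 384))))))) (n (nat_lit 384) (b (n (nat_lit 336) (b (n (nat_lit 359) (b (b (n (nat_lit 360) (b (n (nat_lit 434) (b (l (nat_lit 5)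 (nat_lit 334) (nat_lit 335)) (l (nat_lit 2) (nat_lit 409) (nat_lit 435)))) (n (nat_lit 361) (b (l (nat_lit 1) (nat_lit 333) (nat_lit 358)) (l (nat_lit 1) (nat_lit 334) (nat_lit 338)))))) (n (nat_lit 435) (b (l (nat_lit 4) (nat_lit 334) (nat_lit 334)) (l (nat_lit 2) (nat_lit 409) (nat_lit 434))))) (b (n (nat_lit 335) (b (n (nat_lit 360) (b (l (nat_lit 2) (nat_lit 334) (nat_lit 338)) (l (nat_lit 5) (nat_lit 334) (nat_lit 434)))) (n (nat_lit 334) (b (l (nat_lit 0) (nat_lit 334) (nat_lit 363)) (l (nat_lit 5) (nat_lit 309) (nat_lit 310)))))) (n (nat_lit 334) (b (n (nat_lit 335) (b (l (nat_lit 2) (nat_lit 333) (nat_lit 358)) (l (nat_lit 5) (nat_lit 309) (nat_lit 310)))) (l (nat_lit 4) (nat_lit 334) (nat_lit 435))))))) (l (nat_lit 7) (nat_lit 311) (nat_lit 311)))) (l (nat_lit 3) (nat_lit 383) (nat_lit 383)))))))))) (l (nat_lit 4) (nat_lit 337) (nat_lit 438)))) (l (nat_lit 6) (nat_lit 336) (nat_lit 436)))))))))))))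
    (envOK_cons p8662 (envOK_cons p8682 (envOK_cons p7667 envOK_nil))) (by decide +kernel)

theorem p9949 : Fam (nat_lit 15) (nat_lit 2519712843293729344604795779888374430302788205466215317446238019863755855865215313963862834724441423872) (nat_lit 7098039816454519656974362191627578873538646230521487392796676288882611567372933306833321596587978611035177328050136620796162766536704) (nat_lit 7098039816454519656974362191627578873538646230521487392796676288882611567372933306833321596587978611035177328050136620796162766536704) :=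
  chk_sound Env.nil
    (n (nat_lit 262) (b (b (n (nat_lit 362) (b (n (nat_lit 387) (b (n (nat_lit 388) (b (l (nat_lit 4) (nat_lit 312) (nat_lit 413)) (l (nat_lit 4) (nat_lit 287) (nat_lit 363)))) (n (nat_lit 386) (b (l (nat_lit 6) (nat_lit 311) (nat_lit 411)) (l (nat_lit 6) (nat_lit 286) (nat_lit 361)))))) (n (nat_lit 263) (b (l (nat_lit 5) (nat_lit 237) (nat_lit 238)) (l (nat_lit 5) (nat_lit 262) (nat_lit 288)))))) (n (nat_lit 237) (b (n (nat_lit 238) (b (l (nat_lit 5) (nat_lit 237) (nat_lit 263)) (l (nat_lit 5) (nat_lit 212) (nat_lit 213)))) (n (nat_lit 236) (b (l (nat_lit 7) (nat_lit 211) (nat_lit 211)) (l (nat_lit 7) (nat_lit 236) (nat_lit 261))))))) (n (nat_lit 363) (b (n (nat_lit 362) (b (n (nat_lit 365) (b (n (nat_lit 386) (b (n (nat_lit 387) (b (l (nat_lit 6) (nat_lit 311) (nat_lit 411)) (l (nat_lit 2) (nat_lit 361) (nat_lit 364)))) (l (nat_lit 6) (nat_lit 286) (nat_lit 361)))) (n (nat_lit 315) (b (b (b (n (nat_lit 290) (b (b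 (n (nat_lit 289) (b (n (nat_lit 390) (b (n (nat_lit 291) (b (l (nat_lit 5) (nat_lit 290) (nat_lit 316)) (l (nat_lit 5) (nat_lit 265) (nat_lit 266)))) (l (nat_lit 7) (nat_lit 289) (nat_lit 314)))) (n (nat_lit 261) (b (l (nat_lit 7) (nat_lit 236) (nat_lit 236)) (l (nat_lit 3) (nat_lit 261) (nat_lit 288)))))) (n (nat_lit 265) (b (n (nat_lit 240) (b (n (nat_lit 239) (b (l (nat_lit 7) (nat_lit 214) (nat_lit 214)) (l (nat_lit 7) (nat_lit 239) (nat_lit 264)))) (n (nat_lit 341) (b (l (nat_lit 4) (nat_lit 240) (nat_lit 316)) (l (nat_lit 4) (nat_lit 265) (nat_lit 366)))))) (n (nat_lit 266) (b (l (nat_lit 5) (nat_lit 265) (nat_lit 291)) (l (nat_lit 5) (nat_lit 240) (nat_lit 241))))))) (n (nat_lit 289) (b (n (nat_lit 288) (b (l (nat_lit 3) (nat_lit 261) (nat_lit 261)) (l (nat_lit 2) (nat_lit 286) (nat_lit 311)))) (l (nat_lit 7) (nat_lit 264) (nat_lit 264)))))) (n (nat_lit 290) (b (b (n (nat_lit 289) (b (n (nat_lit 288) (b (l (nat_lit 3) (nat_lit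 261) (nat_lit 261)) (l (nat_lit 0) (nat_lit 287) (nat_lit 316)))) (l (nat_lit 7) (nat_lit 264) (nat_lit 264)))) (n (nat_lit 265) (b (n (nat_lit 240) (b (n (nat_lit 241) (b (l (nat_lit 5) (nat_lit 240) (nat_lit 266)) (l (nat_lit 5) (nat_lit 215) (nat_lit 216)))) (n (nat_lit 239) (b (l (nat_lit 7) (nat_lit 214) (nat_lit 214)) (l (nat_lit 7) (nat_lit 239) (nat_lit 264)))))) (n (nat_lit 366) (b (l (nat_lit 4) (nat_lit 265) (nat_lit 341)) (l (nat_lit 4) (nat_lit 290) (nat_lit 391))))))) (n (nat_lit 289) (b (n (nat_lit 390) (b (n (nat_lit 391) (b (l (nat_lit 4) (nat_lit 315) (nat_lit 416)) (l (nat_lit 4) (nat_lit 290) (nat_lit 366)))) (l (nat_lit 7) (nat_lit 289) (nat_lit 314)))) (n (nat_lit 288) (b (l (nat_lit 3) (nat_lit 261) (nat_lit 261)) (l (nat_lit 0) (nat_lit 287) (nat_lit 316))))))))) (b (n (nat_lit 390) (b (n (nat_lit 415) (b (n (nat_lit 416) (b (l (nat_lit 4) (nat_lit 315) (nat_lit 391)) (l (nat_lit 4) (nat_lit 340) (nat_lit 441))))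 (n (nat_lit 414) (b (l (nat_lit 6) (nat_lit 339) (nat_lit 439)) (l (nat_lit 6) (nat_lit 314) (nat_lit 389)))))) (n (nat_lit 290) (b (n (nat_lit 289) (b (l (nat_lit 7) (nat_lit 289) (nat_lit 314)) (l (nat_lit 7) (nat_lit 264) (nat_lit 264)))) (n (nat_lit 291) (b (l (nat_lit 5) (nat_lit 290) (nat_lit 316)) (l (nat_lit 5) (nat_lit 265) (nat_lit 266)))))))) (n (nat_lit 290) (b (n (nat_lit 265) (b (n (nat_lit 266) (b (l (nat_lit 5) (nat_lit 265) (nat_lit 291)) (l (nat_lit 5) (nat_lit 240) (nat_lit 241)))) (n (nat_lit 366) (b (l (nat_lit 4) (nat_lit 265) (nat_lit 341)) (l (nat_lit 4) (nat_lit 290) (nat_lit 391)))))) (n (nat_lit 289) (b (n (nat_lit 288) (b (l (nat_lit 3) (nat_lit 261) (nat_lit 261)) (l (nat_lit 2) (nat_lit 286) (nat_lit 311)))) (l (nat_lit 7) (nat_lit 264) (nat_lit 264)))))))) (b (n (nat_lit 390) (b (b (n (nat_lit 290) (b (n (nat_lit 391) (b (l (nat_lit 4) (nat_lit 315) (nat_lit 416)) (l (nat_lit 4) (nat_lit 290) (nat_lit 366))))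 (n (nat_lit 291) (b (l (nat_lit 5) (nat_lit 290) (nat_lit 316)) (l (nat_lit 5) (nat_lit 265) (nat_lit 266)))))) (n (nat_lit 415) (b (n (nat_lit 416) (b (l (nat_lit 4) (nat_lit 315) (nat_lit 391)) (l (nat_lit 4) (nat_lit 340) (nat_lit 441)))) (n (nat_lit 414) (b (l (nat_lit 6) (nat_lit 339) (nat_lit 439)) (l (nat_lit 6) (nat_lit 314) (nat_lit 389))))))) (n (nat_lit 415) (b (n (nat_lit 316) (b (l (nat_lit 5) (nat_lit 315) (nat_lit 341)) (l (nat_lit 5) (nat_lit 290) (nat_lit 291)))) (n (nat_lit 414) (b (l (nat_lit 6) (nat_lit 339) (nat_lit 439)) (l (nat_lit 6) (nat_lit 314) (nat_lit 389)))))))) (n (nat_lit 390) (b (b (n (nat_lit 415) (b (n (nat_lit 416) (b (l (nat_lit 4) (nat_lit 315) (nat_lit 391)) (l (nat_lit 4) (nat_lit 340) (nat_lit 441)))) (n (nat_lit 414) (b (l (nat_lit 6) (nat_lit 339) (nat_lit 439)) (l (nat_lit 6) (nat_lit 314) (nat_lit 389)))))) (n (nat_lit 415) (b (n (nat_lit 316) (b (l (nat_lit 5) (nat_lit 315) (nat_lit 341))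 (l (nat_lit 5) (nat_lit 290) (nat_lit 291)))) (n (nat_lit 414) (b (l (nat_lit 6) (nat_lit 339) (nat_lit 439)) (l (nat_lit 6) (nat_lit 314) (nat_lit 389))))))) (b (n (nat_lit 415) (b (n (nat_lit 316) (b (l (nat_lit 5) (nat_lit 315) (nat_lit 341)) (l (nat_lit 5) (nat_lit 290) (nat_lit 291)))) (n (nat_lit 416) (b (l (nat_lit 4) (nat_lit 315) (nat_lit 391)) (l (nat_lit 4) (nat_lit 340) (nat_lit 441)))))) (n (nat_lit 316) (b (n (nat_lit 389) (b (n (nat_lit 317) (b (b (b (n (nat_lit 314) (b (n (nat_lit 318) (b (n (nat_lit 293) (b (l (nat_lit 1) (nat_lit 289) (nat_lit 292)) (l (nat_lit 1) (nat_lit 290) (nat_lit 294)))) (n (nat_lit 343) (b (l (nat_lit 0) (nat_lit 315) (nat_lit 344)) (l (nat_lit 0) (nat_lit 314) (nat_lit 342)))))) (l (nat_lit 7) (nat_lit 289) (nat_lit 289)))) (n (nat_lit 318) (b (n (nat_lit 314) (b (n (nat_lit 343) (b (l (nat_lit 0) (nat_lit 315) (nat_lit 344)) (l (nat_lit 0) (nat_lit 314) (nat_lit 342)))) (l (nat_lit 7) (nat_lit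 289) (nat_lit 289)))) (n (nat_lit 319) (b (n (nat_lit 294) (b (l (nat_lit 1) (nat_lit 291) (nat_lit 295)) (l (nat_lit 1) (nat_lit 290) (nat_lit 293)))) (l (nat_lit 2) (nat_lit 315) (nat_lit 341))))))) (b (n (nat_lit 391) (b (n (nat_lit 292) (b (n (nat_lit 314) (b (l (nat_lit 1) (nat_lit 289) (nat_lit 293)) (l (nat_lit 7) (nat_lit 289) (nat_lit 289)))) (n (nat_lit 366) (b (n (nat_lit 367) (b (l (nat_lit 2) (nat_lit 364) (nat_lit 368)) (l (nat_lit 6) (nat_lit 291) (nat_lit 342)))) (l (nat_lit 5) (nat_lit 291) (nat_lit 341)))))) (l (nat_lit 4) (nat_lit 315) (nat_lit 416)))) (n (nat_lit 391) (b (n (nat_lit 392) (b (b (n (nat_lit 393) (b (n (nat_lit 368) (b (l (nat_lit 1) (nat_lit 364) (nat_lit 367)) (l (nat_lit 1) (nat_lit 365) (nat_lit 369)))) (n (nat_lit 418) (b (l (nat_lit 0) (nat_lit 390) (nat_lit 419)) (l (nat_lit 0) (nat_lit 389) (nat_lit 417)))))) (n (nat_lit 368) (b (n (nat_lit 366) (b (n (nat_lit 341) (b (l (nat_lit 4) (nat_lit 316)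 (nat_lit 417)) (l (nat_lit 5) (nat_lit 291) (nat_lit 292)))) (n (nat_lit 393) (b (l (nat_lit 3) (nat_lit 365) (nat_lit 394)) (l (nat_lit 1) (nat_lit 365) (nat_lit 369)))))) (l (nat_lit 1) (nat_lit 364) (nat_lit 367))))) (b (n (nat_lit 343) (b (n (nat_lit 341) (b (n (nat_lit 318) (b (l (nat_lit 0) (nat_lit 315) (nat_lit 344)) (l (nat_lit 2) (nat_lit 315) (nat_lit 319)))) (n (nat_lit 417) (b (l (nat_lit 0) (nat_lit 389) (nat_lit 418)) (l (nat_lit 4) (nat_lit 316) (nat_lit 366)))))) (n (nat_lit 314) (b (l (nat_lit 7) (nat_lit 289) (nat_lit 289)) (l (nat_lit 0) (nat_lit 314) (nat_lit 342)))))) (n (nat_lit 393) (b (n (nat_lit 394) (b (n (nat_lit 419) (b (l (nat_lit 0) (nat_lit 391) (nat_lit 420)) (l (nat_lit 0) (nat_lit 390) (nat_lit 418)))) (l (nat_lit 3) (nat_lit 365) (nat_lit 366)))) (n (nat_lit 368) (b (l (nat_lit 1) (nat_lit 364) (nat_lit 367)) (l (nat_lit 1) (nat_lit 365) (nat_lit 369))))))))) (l (nat_lit 4) (nat_lit 315) (nat_lit 416))))))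 (n (nat_lit 318) (b (b (n (nat_lit 319) (b (n (nat_lit 294) (b (l (nat_lit 1) (nat_lit 291) (nat_lit 295)) (l (nat_lit 1) (nat_lit 290) (nat_lit 293)))) (l (nat_lit 2) (nat_lit 315) (nat_lit 341)))) (n (nat_lit 319) (b (n (nat_lit 344) (b (l (nat_lit 0) (nat_lit 316) (nat_lit 345)) (l (nat_lit 0) (nat_lit 315) (nat_lit 343)))) (l (nat_lit 2) (nat_lit 315) (nat_lit 341))))) (n (nat_lit 343) (b (n (nat_lit 293) (b (n (nat_lit 368) (b (n (nat_lit 292) (b (l (nat_lit 7) (nat_lit 267) (nat_lit 267)) (l (nat_lit 7) (nat_lit 292) (nat_lit 393)))) (n (nat_lit 367) (b (l (nat_lit 6) (nat_lit 292) (nat_lit 392)) (l (nat_lit 2) (nat_lit 364) (nat_lit 366)))))) (l (nat_lit 1) (nat_lit 290) (nat_lit 294)))) (l (nat_lit 0) (nat_lit 315) (nat_lit 344)))))))) (l (nat_lit 6) (nat_lit 314) (nat_lit 414)))) (l (nat_lit 5) (nat_lit 290) (nat_lit 291)))))))))))) (l (nat_lit 4) (nat_lit 287) (nat_lit 388)))) (l (nat_lit 4) (nat_lit 262) (nat_lit 338))))))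
    envOK_nil (by decide +kernel)

theorem p10036 : Fam (nat_lit 7) (nat_lit 2519712910043326206426181493879371369630284374084092042916240270099675862165489317246868073075508772864) (nat_lit 211537990392973385369017536738813425575187981879009211953626495778980628073351906609037963642524146622984676182334975804178432) (nat_lit 211537990392973385369017536738813425575187981879009211953626495778980628073351906609037963642524146622984676182334975804178432) :=
  chk_sound Env.nil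
    (n (nat_lit 365) (b (b (n (nat_lit 390) (b (n (nat_lit 291) (b (l (nat_lit 5) (nat_lit 290) (nat_lit 316)) (l (nat_lit 5) (nat_lit 265) (nat_lit 266)))) (n (nat_lit 391) (b (l (nat_lit 4) (nat_lit 315) (nat_lit 416)) (l (nat_lit 4) (nat_lit 290) (nat_lit 366)))))) (n (nat_lit 390) (b (n (nat_lit 291) (b (l (nat_lit 5) (nat_lit 290) (nat_lit 316)) (l (nat_lit 5) (nat_lit 265) (nat_lit 266)))) (n (nat_lit 389) (b (l (nat_lit 6) (nat_lit 289) (nat_lit 364)) (l (nat_lit 6) (nat_lit 314) (nat_lit 414))))))) (n (nat_lit 366) (b (n (nat_lit 364) (b (n (nat_lit 367) (b (n (nat_lit 368) (b (n (nat_lit 393) (b (l (nat_lit 0) (nat_lit 365) (nat_lit 394)) (l (nat_lit 0) (nat_lit 364) (nat_lit 392)))) (l (nat_lit 3) (nat_lit 339) (nat_lit 339)))) (n (nat_lit 363) (b (n (nat_lit 388) (b (l (nat_lit 2) (nat_lit 362) (nat_lit 387)) (l (nat_lit 4) (nat_lit 287) (nat_lit 362)))) (n (nat_lit 342) (b (l (nat_lit 1) (nat_lit 339) (nat_lit 343)) (l (nat_lit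 1) (nat_lit 338) (nat_lit 341)))))))) (l (nat_lit 6) (nat_lit 289) (nat_lit 389)))) (l (nat_lit 4) (nat_lit 290) (nat_lit 391))))))
    envOK_nil (by decide +kernel)

theorem p10046 : Fam (nat_lit 7) (nat_lit 2519712910043326206426181493879371369630284374084092042916240270099675862165489317246868073075508772864) (nat_lit 150306732296727854483079975541116700240044413128961668613730915165433658224257996822922543229738264635482570752) (nat_lit 150306732296727854483079975541116700240044413128961668613730915165433658224257996822922543229738264635482570752) :=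
  chk_sound Env.nil
    (n (nat_lit 265) (b (b (n (nat_lit 240) (b (n (nat_lit 239) (b (l (nat_lit 7) (nat_lit 214) (nat_lit 214)) (l (nat_lit 7) (nat_lit 239) (nat_lit 264)))) (n (nat_lit 341) (b (l (nat_lit 4) (nat_lit 240) (nat_lit 316)) (l (nat_lit 4) (nat_lit 265) (nat_lit 366)))))) (n (nat_lit 240) (b (n (nat_lit 341) (b (l (nat_lit 4) (nat_lit 240) (nat_lit 316)) (l (nat_lit 4) (nat_lit 265) (nat_lit 366)))) (n (nat_lit 241) (b (l (nat_lit 5) (nat_lit 240) (nat_lit 266)) (l (nat_lit 5) (nat_lit 215) (nat_lit 216))))))) (n (nat_lit 266) (b (n (nat_lit 264) (b (n (nat_lit 267) (b (n (nat_lit 268) (b (n (nat_lit 243) (b (l (nat_lit 1) (nat_lit 239) (nat_lit 242)) (l (nat_lit 1) (nat_lit 240) (nat_lit 244)))) (l (nat_lit 2) (nat_lit 264) (nat_lit 289)))) (n (nat_lit 263) (b (n (nat_lit 238) (b (l (nat_lit 3) (nat_lit 237) (nat_lit 237)) (l (nat_lit 5) (nat_lit 237) (nat_lit 262)))) (n (nat_lit 292) (b (l (nat_lit 0) (nat_lit 264) (nat_lit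 293)) (l (nat_lit 0) (nat_lit 263) (nat_lit 291)))))))) (l (nat_lit 7) (nat_lit 239) (nat_lit 239)))) (l (nat_lit 5) (nat_lit 240) (nat_lit 241))))))
    envOK_nil (by decide +kernel)

theorem p10084 : Fam (nat_lit 12) (nat_lit 2519712843293729344604795779888374430302788205466215317446238019863755855865215313963862834724441423872) (nat_lit 237980229302191358809757231457211428399829214887606474238530429113120595684911636471515038727313110138622906478954394526154752) (nat_lit 237980229302191358809757231457211428399829214887606474238530429113120595684911636471515038727313110138622906478954394526154752) :=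
  chk_sound (Env.cons (nat_lit 7) (nat_lit 2519712910043326206426181493879371369630284374084092042916240270099675862165489317246868073075508772864) (nat_lit 211537990392973385369017536738813425575187981879009211953626495778980628073351906609037963642524146622984676182334975804178432) (Env.cons (nat_lit 7) (nat_lit 2519712910043326206426181493879371369630284374084092042916240270099675862165489317246868073075508772864) (nat_lit 150306732296727854483079975541116700240044413128961668613730915165433658224257996822922543229738264635482570752) Env.nil))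
    (n (nat_lit 290) (b (b (b (n (nat_lit 315) (b (b (r (nat_lit 0)) (n (nat_lit 265) (b (b (n (nat_lit 365) (b (n (nat_lit 266) (b (l (nat_lit 5) (nat_lit 265) (nat_lit 291)) (l (nat_lit 5) (nat_lit 240) (nat_lit 241)))) (n (nat_lit 364) (b (l (nat_lit 6) (nat_lit 289) (nat_lit 389)) (l (nat_lit 6) (nat_lit 264) (nat_lit 339)))))) (n (nat_lit 240) (b (n (nat_lit 339) (b (l (nat_lit 6) (nat_lit 264) (nat_lit 364)) (l (nat_lit 6) (nat_lit 239) (nat_lit 314)))) (n (nat_lit 239) (b (l (nat_lit 7) (nat_lit 214) (nat_lit 214)) (l (nat_lit 7) (nat_lit 239) (nat_lit 264))))))) (n (nat_lit 240) (b (n (nat_lit 241) (b (l (nat_lit 5) (nat_lit 240) (nat_lit 266)) (l (nat_lit 5) (nat_lit 215) (nat_lit 216)))) (n (nat_lit 239) (b (l (nat_lit 7) (nat_lit 214) (nat_lit 214)) (l (nat_lit 7) (nat_lit 239) (nat_lit 264))))))))) (b (n (nat_lit 265) (b (b (n (nat_lit 365) (b (n (nat_lit 366) (b (l (nat_lit 4) (nat_lit 265) (nat_lit 341)) (l (nat_lit 4) (nat_lit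 290) (nat_lit 391)))) (n (nat_lit 364) (b (l (nat_lit 6) (nat_lit 289) (nat_lit 389)) (l (nat_lit 6) (nat_lit 264) (nat_lit 339)))))) (n (nat_lit 240) (b (n (nat_lit 339) (b (l (nat_lit 6) (nat_lit 264) (nat_lit 364)) (l (nat_lit 6) (nat_lit 239) (nat_lit 314)))) (n (nat_lit 239) (b (l (nat_lit 7) (nat_lit 214) (nat_lit 214)) (l (nat_lit 7) (nat_lit 239) (nat_lit 264))))))) (n (nat_lit 240) (b (n (nat_lit 239) (b (l (nat_lit 7) (nat_lit 214) (nat_lit 214)) (l (nat_lit 7) (nat_lit 239) (nat_lit 264)))) (n (nat_lit 341) (b (l (nat_lit 4) (nat_lit 240) (nat_lit 316)) (l (nat_lit 4) (nat_lit 265) (nat_lit 366)))))))) (r (nat_lit 1))))) (n (nat_lit 315) (b (b (r (nat_lit 0)) (n (nat_lit 265) (b (b (n (nat_lit 365) (b (n (nat_lit 266) (b (l (nat_lit 5) (nat_lit 265) (nat_lit 291)) (l (nat_lit 5) (nat_lit 240) (nat_lit 241)))) (n (nat_lit 364) (b (l (nat_lit 6) (nat_lit 289) (nat_lit 389)) (l (nat_lit 6) (nat_lit 264) (nat_lit 339)))))) (n (nat_lit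 240) (b (n (nat_lit 339) (b (l (nat_lit 6) (nat_lit 264) (nat_lit 364)) (l (nat_lit 6) (nat_lit 239) (nat_lit 314)))) (n (nat_lit 239) (b (l (nat_lit 7) (nat_lit 214) (nat_lit 214)) (l (nat_lit 7) (nat_lit 239) (nat_lit 264))))))) (n (nat_lit 240) (b (n (nat_lit 241) (b (l (nat_lit 5) (nat_lit 240) (nat_lit 266)) (l (nat_lit 5) (nat_lit 215) (nat_lit 216)))) (n (nat_lit 239) (b (l (nat_lit 7) (nat_lit 214) (nat_lit 214)) (l (nat_lit 7) (nat_lit 239) (nat_lit 264))))))))) (b (n (nat_lit 265) (b (b (n (nat_lit 365) (b (n (nat_lit 366) (b (l (nat_lit 4) (nat_lit 265) (nat_lit 341)) (l (nat_lit 4) (nat_lit 290) (nat_lit 391)))) (n (nat_lit 364) (b (l (nat_lit 6) (nat_lit 289) (nat_lit 389)) (l (nat_lit 6) (nat_lit 264) (nat_lit 339)))))) (n (nat_lit 240) (b (n (nat_lit 339) (b (l (nat_lit 6) (nat_lit 264) (nat_lit 364)) (l (nat_lit 6) (nat_lit 239) (nat_lit 314)))) (n (nat_lit 239) (b (l (nat_lit 7) (nat_lit 214) (nat_lit 214)) (l (nat_lit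 7) (nat_lit 239) (nat_lit 264))))))) (n (nat_lit 240) (b (n (nat_lit 239) (b (l (nat_lit 7) (nat_lit 214) (nat_lit 214)) (l (nat_lit 7) (nat_lit 239) (nat_lit 264)))) (n (nat_lit 341) (b (l (nat_lit 4) (nat_lit 240) (nat_lit 316)) (l (nat_lit 4) (nat_lit 265) (nat_lit 366)))))))) (n (nat_lit 265) (b (b (n (nat_lit 240) (b (n (nat_lit 341) (b (l (nat_lit 4) (nat_lit 240) (nat_lit 316)) (l (nat_lit 4) (nat_lit 265) (nat_lit 366)))) (n (nat_lit 241) (b (l (nat_lit 5) (nat_lit 240) (nat_lit 266)) (l (nat_lit 5) (nat_lit 215) (nat_lit 216)))))) (n (nat_lit 264) (b (n (nat_lit 263) (b (n (nat_lit 262) (b (l (nat_lit 0) (nat_lit 262) (nat_lit 291)) (l (nat_lit 5) (nat_lit 237) (nat_lit 238)))) (n (nat_lit 288) (b (l (nat_lit 5) (nat_lit 262) (nat_lit 362)) (l (nat_lit 2) (nat_lit 262) (nat_lit 266)))))) (l (nat_lit 7) (nat_lit 239) (nat_lit 239))))) (n (nat_lit 240) (b (n (nat_lit 239) (b (l (nat_lit 7) (nat_lit 214) (nat_lit 214)) (l (nat_lit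 7) (nat_lit 239) (nat_lit 264)))) (n (nat_lit 341) (b (l (nat_lit 4) (nat_lit 240) (nat_lit 316)) (l (nat_lit 4) (nat_lit 265) (nat_lit 366)))))))))))) (b (n (nat_lit 263) (b (n (nat_lit 362) (b (n (nat_lit 387) (b (n (nat_lit 388) (b (l (nat_lit 4) (nat_lit 312) (nat_lit 413)) (l (nat_lit 4) (nat_lit 287) (nat_lit 363)))) (n (nat_lit 386) (b (l (nat_lit 6) (nat_lit 311) (nat_lit 411)) (l (nat_lit 6) (nat_lit 286) (nat_lit 361)))))) (l (nat_lit 5) (nat_lit 262) (nat_lit 288)))) (n (nat_lit 262) (b (n (nat_lit 261) (b (n (nat_lit 264) (b (n (nat_lit 265) (b (n (nat_lit 240) (b (l (nat_lit 1) (nat_lit 236) (nat_lit 239)) (l (nat_lit 1) (nat_lit 237) (nat_lit 241)))) (l (nat_lit 0) (nat_lit 262) (nat_lit 291)))) (l (nat_lit 0) (nat_lit 261) (nat_lit 289)))) (l (nat_lit 7) (nat_lit 236) (nat_lit 236)))) (l (nat_lit 5) (nat_lit 237) (nat_lit 238)))))) (n (nat_lit 288) (b (n (nat_lit 289) (b (n (nat_lit 315) (b (n (nat_lit 264) (b (n (nat_lit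 239) (b (l (nat_lit 4) (nat_lit 239) (nat_lit 314)) (l (nat_lit 4) (nat_lit 214) (nat_lit 214)))) (l (nat_lit 7) (nat_lit 264) (nat_lit 365)))) (l (nat_lit 0) (nat_lit 287) (nat_lit 316)))) (l (nat_lit 2) (nat_lit 286) (nat_lit 311)))) (n (nat_lit 263) (b (n (nat_lit 238) (b (l (nat_lit 6) (nat_lit 212) (nat_lit 213)) (l (nat_lit 5) (nat_lit 237) (nat_lit 262)))) (l (nat_lit 5) (nat_lit 262) (nat_lit 362)))))))) (b (b (n (nat_lit 288) (b (n (nat_lit 362) (b (n (nat_lit 387) (b (n (nat_lit 388) (b (l (nat_lit 4) (nat_lit 312) (nat_lit 413)) (l (nat_lit 4) (nat_lit 287) (nat_lit 363)))) (n (nat_lit 386) (b (l (nat_lit 6) (nat_lit 311) (nat_lit 411)) (l (nat_lit 6) (nat_lit 286) (nat_lit 361)))))) (l (nat_lit 5) (nat_lit 262) (nat_lit 263)))) (n (nat_lit 289) (b (n (nat_lit 291) (b (n (nat_lit 316) (b (l (nat_lit 0) (nat_lit 288) (nat_lit 317)) (l (nat_lit 0) (nat_lit 287) (nat_lit 315)))) (n (nat_lit 266) (b (l (nat_lit 1) (nat_lit 263)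 (nat_lit 267)) (l (nat_lit 1) (nat_lit 262) (nat_lit 265)))))) (l (nat_lit 2) (nat_lit 286) (nat_lit 311)))))) (n (nat_lit 315) (b (b (b (r (nat_lit 0)) (n (nat_lit 265) (b (b (n (nat_lit 365) (b (n (nat_lit 266) (b (l (nat_lit 5) (nat_lit 265) (nat_lit 291)) (l (nat_lit 5) (nat_lit 240) (nat_lit 241)))) (n (nat_lit 364) (b (l (nat_lit 6) (nat_lit 289) (nat_lit 389)) (l (nat_lit 6) (nat_lit 264) (nat_lit 339)))))) (n (nat_lit 240) (b (n (nat_lit 339) (b (l (nat_lit 6) (nat_lit 264) (nat_lit 364)) (l (nat_lit 6) (nat_lit 239) (nat_lit 314)))) (n (nat_lit 239) (b (l (nat_lit 7) (nat_lit 214) (nat_lit 214)) (l (nat_lit 7) (nat_lit 239) (nat_lit 264))))))) (n (nat_lit 240) (b (n (nat_lit 241) (b (l (nat_lit 5) (nat_lit 240) (nat_lit 266)) (l (nat_lit 5) (nat_lit 215) (nat_lit 216)))) (n (nat_lit 239) (b (l (nat_lit 7) (nat_lit 214) (nat_lit 214)) (l (nat_lit 7) (nat_lit 239) (nat_lit 264))))))))) (b (n (nat_lit 265) (b (b (n (nat_lit 365)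 (b (n (nat_lit 366) (b (l (nat_lit 4) (nat_lit 265) (nat_lit 341)) (l (nat_lit 4) (nat_lit 290) (nat_lit 391)))) (n (nat_lit 364) (b (l (nat_lit 6) (nat_lit 289) (nat_lit 389)) (l (nat_lit 6) (nat_lit 264) (nat_lit 339)))))) (n (nat_lit 240) (b (n (nat_lit 339) (b (l (nat_lit 6) (nat_lit 264) (nat_lit 364)) (l (nat_lit 6) (nat_lit 239) (nat_lit 314)))) (n (nat_lit 239) (b (l (nat_lit 7) (nat_lit 214) (nat_lit 214)) (l (nat_lit 7) (nat_lit 239) (nat_lit 264))))))) (n (nat_lit 240) (b (n (nat_lit 239) (b (l (nat_lit 7) (nat_lit 214) (nat_lit 214)) (l (nat_lit 7) (nat_lit 239) (nat_lit 264)))) (n (nat_lit 341) (b (l (nat_lit 4) (nat_lit 240) (nat_lit 316)) (l (nat_lit 4) (nat_lit 265) (nat_lit 366)))))))) (n (nat_lit 365) (b (n (nat_lit 265) (b (n (nat_lit 266) (b (l (nat_lit 5) (nat_lit 265) (nat_lit 291)) (l (nat_lit 5) (nat_lit 240) (nat_lit 241)))) (n (nat_lit 366) (b (l (nat_lit 4) (nat_lit 265) (nat_lit 341)) (l (nat_lit 4) (nat_lit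 290) (nat_lit 391)))))) (n (nat_lit 289) (b (n (nat_lit 288) (b (l (nat_lit 2) (nat_lit 286) (nat_lit 311)) (l (nat_lit 0) (nat_lit 287) (nat_lit 316)))) (l (nat_lit 7) (nat_lit 264) (nat_lit 264)))))))) (n (nat_lit 289) (b (b (n (nat_lit 265) (b (n (nat_lit 288) (b (l (nat_lit 1) (nat_lit 262) (nat_lit 266)) (l (nat_lit 2) (nat_lit 286) (nat_lit 311)))) (n (nat_lit 240) (b (n (nat_lit 339) (b (l (nat_lit 6) (nat_lit 264) (nat_lit 364)) (l (nat_lit 6) (nat_lit 239) (nat_lit 314)))) (n (nat_lit 239) (b (l (nat_lit 7) (nat_lit 214) (nat_lit 214)) (l (nat_lit 7) (nat_lit 239) (nat_lit 264)))))))) (n (nat_lit 288) (b (l (nat_lit 2) (nat_lit 286) (nat_lit 311)) (l (nat_lit 0) (nat_lit 287) (nat_lit 316))))) (n (nat_lit 264) (b (b (n (nat_lit 239) (b (l (nat_lit 4) (nat_lit 239) (nat_lit 314)) (l (nat_lit 4) (nat_lit 214) (nat_lit 214)))) (n (nat_lit 239) (b (l (nat_lit 4) (nat_lit 214) (nat_lit 214)) (l (nat_lit 7) (nat_lit 239) (nat_lit 265)))))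 (n (nat_lit 265) (b (b (n (nat_lit 240) (b (n (nat_lit 341) (b (l (nat_lit 4) (nat_lit 240) (nat_lit 316)) (l (nat_lit 4) (nat_lit 265) (nat_lit 366)))) (n (nat_lit 339) (b (l (nat_lit 5) (nat_lit 239) (nat_lit 314)) (l (nat_lit 6) (nat_lit 264) (nat_lit 364)))))) (n (nat_lit 240) (b (n (nat_lit 241) (b (l (nat_lit 5) (nat_lit 240) (nat_lit 266)) (l (nat_lit 5) (nat_lit 215) (nat_lit 216)))) (n (nat_lit 339) (b (l (nat_lit 5) (nat_lit 239) (nat_lit 314)) (l (nat_lit 6) (nat_lit 264) (nat_lit 364))))))) (n (nat_lit 266) (b (n (nat_lit 267) (b (n (nat_lit 292) (b (n (nat_lit 341) (b (n (nat_lit 242) (b (n (nat_lit 316) (b (l (nat_lit 5) (nat_lit 241) (nat_lit 291)) (l (nat_lit 6) (nat_lit 241) (nat_lit 317)))) (l (nat_lit 1) (nat_lit 239) (nat_lit 243)))) (l (nat_lit 4) (nat_lit 265) (nat_lit 366)))) (l (nat_lit 0) (nat_lit 264) (nat_lit 293)))) (l (nat_lit 2) (nat_lit 264) (nat_lit 268)))) (l (nat_lit 5) (nat_lit 240) (nat_lit 241)))))))))))))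 (n (nat_lit 315) (b (b (r (nat_lit 1)) (n (nat_lit 265) (b (b (n (nat_lit 365) (b (n (nat_lit 266) (b (l (nat_lit 5) (nat_lit 265) (nat_lit 291)) (l (nat_lit 5) (nat_lit 240) (nat_lit 241)))) (n (nat_lit 364) (b (l (nat_lit 6) (nat_lit 289) (nat_lit 389)) (l (nat_lit 6) (nat_lit 264) (nat_lit 339)))))) (n (nat_lit 240) (b (n (nat_lit 339) (b (l (nat_lit 6) (nat_lit 264) (nat_lit 364)) (l (nat_lit 6) (nat_lit 239) (nat_lit 314)))) (n (nat_lit 239) (b (l (nat_lit 7) (nat_lit 214) (nat_lit 214)) (l (nat_lit 7) (nat_lit 239) (nat_lit 264))))))) (n (nat_lit 240) (b (n (nat_lit 241) (b (l (nat_lit 5) (nat_lit 240) (nat_lit 266)) (l (nat_lit 5) (nat_lit 215) (nat_lit 216)))) (n (nat_lit 239) (b (l (nat_lit 7) (nat_lit 214) (nat_lit 214)) (l (nat_lit 7) (nat_lit 239) (nat_lit 264))))))))) (b (n (nat_lit 365) (b (b (n (nat_lit 265) (b (n (nat_lit 364) (b (l (nat_lit 6) (nat_lit 289) (nat_lit 389)) (l (nat_lit 6) (nat_lit 264) (nat_lit 339))))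 (n (nat_lit 266) (b (l (nat_lit 5) (nat_lit 265) (nat_lit 291)) (l (nat_lit 5) (nat_lit 240) (nat_lit 241)))))) (n (nat_lit 390) (b (n (nat_lit 391) (b (l (nat_lit 4) (nat_lit 315) (nat_lit 416)) (l (nat_lit 4) (nat_lit 290) (nat_lit 366)))) (n (nat_lit 389) (b (l (nat_lit 6) (nat_lit 289) (nat_lit 364)) (l (nat_lit 6) (nat_lit 314) (nat_lit 414))))))) (n (nat_lit 390) (b (n (nat_lit 291) (b (l (nat_lit 5) (nat_lit 290) (nat_lit 316)) (l (nat_lit 5) (nat_lit 265) (nat_lit 266)))) (n (nat_lit 391) (b (l (nat_lit 4) (nat_lit 315) (nat_lit 416)) (l (nat_lit 4) (nat_lit 290) (nat_lit 366)))))))) (n (nat_lit 365) (b (n (nat_lit 390) (b (n (nat_lit 391) (b (l (nat_lit 4) (nat_lit 315) (nat_lit 416)) (l (nat_lit 4) (nat_lit 290) (nat_lit 366)))) (n (nat_lit 389) (b (l (nat_lit 6) (nat_lit 289) (nat_lit 364)) (l (nat_lit 6) (nat_lit 314) (nat_lit 414)))))) (n (nat_lit 289) (b (n (nat_lit 288) (b (l (nat_lit 2) (nat_lit 286) (nat_lit 311)) (l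 (nat_lit 0) (nat_lit 287) (nat_lit 316)))) (l (nat_lit 7) (nat_lit 264) (nat_lit 264))))))))))))
    (envOK_cons p10036 (envOK_cons p10046 envOK_nil)) (by decide +kernel)

theorem p10172 : Fam (nat_lit 14) (nat_lit 2519712843293729344604795779888374430302788205466215317446238019863755855865215313963862834724441423872) (nat_lit 296153113262431925361609677961270490847804581615329341145342588744012666578209635824016665589996937297310284666623483657060352) (nat_lit 296153113262431925361609677961270490847804581615329341145342588744012666578209635824016665589996937297310284666623483657060352) :=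
  chk_sound Env.nil
    (n (nat_lit 339) (b (b (b (n (nat_lit 288) (b (n (nat_lit 263) (b (n (nat_lit 238) (b (l (nat_lit 6) (nat_lit 212) (nat_lit 213)) (l (nat_lit 5) (nat_lit 237) (nat_lit 262)))) (l (nat_lit 5) (nat_lit 262) (nat_lit 362)))) (n (nat_lit 290) (b (b (n (nat_lit 289) (b (n (nat_lit 315) (b (n (nat_lit 264) (b (n (nat_lit 239) (b (l (nat_lit 4) (nat_lit 239) (nat_lit 314)) (l (nat_lit 4) (nat_lit 214) (nat_lit 214)))) (l (nat_lit 7) (nat_lit 264) (nat_lit 365)))) (l (nat_lit 0) (nat_lit 287) (nat_lit 316)))) (l (nat_lit 2) (nat_lit 286) (nat_lit 311)))) (n (nat_lit 289) (b (n (nat_lit 291) (b (n (nat_lit 316) (b (l (nat_lit 0) (nat_lit 288) (nat_lit 317)) (l (nat_lit 0) (nat_lit 287) (nat_lit 315)))) (n (nat_lit 266) (b (l (nat_lit 1) (nat_lit 263) (nat_lit 267)) (l (nat_lit 1) (nat_lit 262) (nat_lit 265)))))) (l (nat_lit 2) (nat_lit 286) (nat_lit 311))))) (b (n (nat_lit 289) (b (n (nat_lit 265) (b (n (nat_lit 314) (b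 (n (nat_lit 240) (b (l (nat_lit 6) (nat_lit 214) (nat_lit 215)) (l (nat_lit 5) (nat_lit 239) (nat_lit 264)))) (l (nat_lit 5) (nat_lit 264) (nat_lit 364)))) (l (nat_lit 1) (nat_lit 262) (nat_lit 266)))) (l (nat_lit 2) (nat_lit 286) (nat_lit 311)))) (n (nat_lit 315) (b (b (n (nat_lit 364) (b (n (nat_lit 389) (b (l (nat_lit 5) (nat_lit 314) (nat_lit 414)) (l (nat_lit 5) (nat_lit 289) (nat_lit 314)))) (l (nat_lit 6) (nat_lit 264) (nat_lit 265)))) (n (nat_lit 265) (b (n (nat_lit 240) (b (n (nat_lit 239) (b (l (nat_lit 7) (nat_lit 214) (nat_lit 214)) (l (nat_lit 7) (nat_lit 239) (nat_lit 264)))) (l (nat_lit 6) (nat_lit 239) (nat_lit 314)))) (n (nat_lit 365) (b (n (nat_lit 266) (b (l (nat_lit 5) (nat_lit 265) (nat_lit 291)) (l (nat_lit 5) (nat_lit 240) (nat_lit 241)))) (n (nat_lit 366) (b (l (nat_lit 4) (nat_lit 265) (nat_lit 341)) (l (nat_lit 4) (nat_lit 290) (nat_lit 391))))))))) (n (nat_lit 365) (b (b (n (nat_lit 390) (b (n (nat_lit 391)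 (b (l (nat_lit 4) (nat_lit 315) (nat_lit 416)) (l (nat_lit 4) (nat_lit 290) (nat_lit 366)))) (n (nat_lit 389) (b (l (nat_lit 6) (nat_lit 289) (nat_lit 364)) (l (nat_lit 6) (nat_lit 314) (nat_lit 414)))))) (n (nat_lit 390) (b (n (nat_lit 291) (b (l (nat_lit 5) (nat_lit 290) (nat_lit 316)) (l (nat_lit 5) (nat_lit 265) (nat_lit 266)))) (n (nat_lit 389) (b (l (nat_lit 6) (nat_lit 289) (nat_lit 364)) (l (nat_lit 6) (nat_lit 314) (nat_lit 414))))))) (b (n (nat_lit 390) (b (n (nat_lit 291) (b (l (nat_lit 5) (nat_lit 290) (nat_lit 316)) (l (nat_lit 5) (nat_lit 265) (nat_lit 266)))) (n (nat_lit 391) (b (l (nat_lit 4) (nat_lit 315) (nat_lit 416)) (l (nat_lit 4) (nat_lit 290) (nat_lit 366)))))) (n (nat_lit 366) (b (n (nat_lit 367) (b (n (nat_lit 364) (b (n (nat_lit 342) (b (n (nat_lit 291) (b (n (nat_lit 392) (b (n (nat_lit 316) (b (l (nat_lit 4) (nat_lit 291) (nat_lit 341)) (l (nat_lit 7) (nat_lit 291) (nat_lit 317)))) (l (nat_lit 0) (nat_lit 364)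 (nat_lit 393)))) (l (nat_lit 5) (nat_lit 265) (nat_lit 266)))) (l (nat_lit 1) (nat_lit 339) (nat_lit 343)))) (l (nat_lit 6) (nat_lit 289) (nat_lit 389)))) (l (nat_lit 3) (nat_lit 339) (nat_lit 368)))) (l (nat_lit 4) (nat_lit 290) (nat_lit 391)))))))))))))) (n (nat_lit 289) (b (b (n (nat_lit 288) (b (n (nat_lit 311) (b (l (nat_lit 2) (nat_lit 286) (nat_lit 290)) (l (nat_lit 3) (nat_lit 311) (nat_lit 338)))) (n (nat_lit 263) (b (n (nat_lit 238) (b (l (nat_lit 6) (nat_lit 212) (nat_lit 213)) (l (nat_lit 5) (nat_lit 237) (nat_lit 262)))) (l (nat_lit 5) (nat_lit 262) (nat_lit 362)))))) (n (nat_lit 365) (b (n (nat_lit 338) (b (l (nat_lit 0) (nat_lit 337) (nat_lit 366)) (l (nat_lit 3) (nat_lit 311) (nat_lit 311)))) (n (nat_lit 314) (b (n (nat_lit 390) (b (l (nat_lit 4) (nat_lit 289) (nat_lit 364)) (l (nat_lit 7) (nat_lit 314) (nat_lit 415)))) (l (nat_lit 4) (nat_lit 264) (nat_lit 264))))))) (b (n (nat_lit 263) (b (b (n (nat_lit 288) (b (n (nat_lit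 290) (b (n (nat_lit 262) (b (l (nat_lit 3) (nat_lit 261) (nat_lit 261)) (l (nat_lit 3) (nat_lit 262) (nat_lit 291)))) (l (nat_lit 2) (nat_lit 286) (nat_lit 311)))) (l (nat_lit 5) (nat_lit 262) (nat_lit 362)))) (n (nat_lit 314) (b (n (nat_lit 264) (b (l (nat_lit 7) (nat_lit 238) (nat_lit 238)) (l (nat_lit 4) (nat_lit 264) (nat_lit 365)))) (n (nat_lit 288) (b (l (nat_lit 5) (nat_lit 262) (nat_lit 362)) (l (nat_lit 7) (nat_lit 263) (nat_lit 364))))))) (n (nat_lit 262) (b (n (nat_lit 261) (b (n (nat_lit 264) (b (n (nat_lit 314) (b (n (nat_lit 240) (b (l (nat_lit 5) (nat_lit 239) (nat_lit 265)) (l (nat_lit 1) (nat_lit 236) (nat_lit 239)))) (l (nat_lit 4) (nat_lit 264) (nat_lit 365)))) (l (nat_lit 0) (nat_lit 261) (nat_lit 290)))) (l (nat_lit 7) (nat_lit 236) (nat_lit 236)))) (l (nat_lit 5) (nat_lit 237) (nat_lit 238)))))) (n (nat_lit 263) (b (n (nat_lit 262) (b (n (nat_lit 261) (b (n (nat_lit 264) (b (n (nat_lit 314) (b (n (nat_lit 240) (b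 (l (nat_lit 5) (nat_lit 239) (nat_lit 265)) (l (nat_lit 1) (nat_lit 236) (nat_lit 239)))) (l (nat_lit 4) (nat_lit 264) (nat_lit 365)))) (l (nat_lit 0) (nat_lit 261) (nat_lit 290)))) (l (nat_lit 7) (nat_lit 236) (nat_lit 236)))) (l (nat_lit 5) (nat_lit 237) (nat_lit 238)))) (n (nat_lit 362) (b (n (nat_lit 361) (b (l (nat_lit 2) (nat_lit 336) (nat_lit 338)) (l (nat_lit 6) (nat_lit 286) (nat_lit 386)))) (l (nat_lit 5) (nat_lit 262) (nat_lit 288)))))))))) (b (n (nat_lit 338) (b (n (nat_lit 263) (b (n (nat_lit 362) (b (l (nat_lit 5) (nat_lit 262) (nat_lit 288)) (l (nat_lit 2) (nat_lit 336) (nat_lit 361)))) (n (nat_lit 262) (b (n (nat_lit 236) (b (n (nat_lit 265) (b (n (nat_lit 237) (b (l (nat_lit 3) (nat_lit 236) (nat_lit 264)) (l (nat_lit 7) (nat_lit 211) (nat_lit 211)))) (n (nat_lit 315) (b (n (nat_lit 290) (b (n (nat_lit 240) (b (n (nat_lit 241) (b (l (nat_lit 5) (nat_lit 240) (nat_lit 266)) (l (nat_lit 5) (nat_lit 215) (nat_lit 216))))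 (l (nat_lit 6) (nat_lit 239) (nat_lit 314)))) (l (nat_lit 6) (nat_lit 264) (nat_lit 364)))) (l (nat_lit 1) (nat_lit 312) (nat_lit 316)))))) (l (nat_lit 7) (nat_lit 236) (nat_lit 261)))) (l (nat_lit 5) (nat_lit 237) (nat_lit 238)))))) (l (nat_lit 3) (nat_lit 311) (nat_lit 311)))) (n (nat_lit 338) (b (n (nat_lit 341) (b (n (nat_lit 366) (b (l (nat_lit 0) (nat_lit 337) (nat_lit 365)) (l (nat_lit 0) (nat_lit 338) (nat_lit 367)))) (n (nat_lit 316) (b (l (nat_lit 1) (nat_lit 313) (nat_lit 317)) (l (nat_lit 1) (nat_lit 312) (nat_lit 315)))))) (l (nat_lit 3) (nat_lit 311) (nat_lit 311)))))) (n (nat_lit 263) (b (b (n (nat_lit 362) (b (n (nat_lit 361) (b (l (nat_lit 2) (nat_lit 336) (nat_lit 338)) (l (nat_lit 6) (nat_lit 286) (nat_lit 386)))) (l (nat_lit 5) (nat_lit 262) (nat_lit 288)))) (n (nat_lit 238) (b (n (nat_lit 288) (b (l (nat_lit 5) (nat_lit 262) (nat_lit 362)) (l (nat_lit 6) (nat_lit 212) (nat_lit 213)))) (l (nat_lit 5) (nat_lit 237)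 (nat_lit 262))))) (n (nat_lit 262) (b (n (nat_lit 264) (b (b (n (nat_lit 261) (b (n (nat_lit 289) (b (n (nat_lit 239) (b (n (nat_lit 314) (b (l (nat_lit 4) (nat_lit 239) (nat_lit 315)) (l (nat_lit 4) (nat_lit 264) (nat_lit 365)))) (l (nat_lit 1) (nat_lit 236) (nat_lit 240)))) (l (nat_lit 0) (nat_lit 261) (nat_lit 290)))) (l (nat_lit 7) (nat_lit 236) (nat_lit 236)))) (n (nat_lit 236) (b (n (nat_lit 237) (b (l (nat_lit 3) (nat_lit 236) (nat_lit 265)) (l (nat_lit 7) (nat_lit 211) (nat_lit 211)))) (l (nat_lit 7) (nat_lit 236) (nat_lit 261))))) (n (nat_lit 265) (b (b (n (nat_lit 266) (b (b (n (nat_lit 267) (b (n (nat_lit 242) (b (l (nat_lit 1) (nat_lit 238) (nat_lit 241)) (l (nat_lit 1) (nat_lit 239) (nat_lit 243)))) (n (nat_lit 292) (b (l (nat_lit 0) (nat_lit 264) (nat_lit 293)) (l (nat_lit 0) (nat_lit 263) (nat_lit 291)))))) (n (nat_lit 241) (b (l (nat_lit 1) (nat_lit 238) (nat_lit 242)) (l (nat_lit 1) (nat_lit 237) (nat_lit 240))))) (n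 (nat_lit 341) (b (b (n (nat_lit 316) (b (n (nat_lit 338) (b (l (nat_lit 1) (nat_lit 312) (nat_lit 315)) (l (nat_lit 1) (nat_lit 313) (nat_lit 317)))) (n (nat_lit 291) (b (l (nat_lit 7) (nat_lit 240) (nat_lit 240)) (l (nat_lit 0) (nat_lit 263) (nat_lit 292)))))) (n (nat_lit 338) (b (n (nat_lit 366) (b (l (nat_lit 0) (nat_lit 337) (nat_lit 365)) (l (nat_lit 0) (nat_lit 338) (nat_lit 367)))) (n (nat_lit 316) (b (l (nat_lit 1) (nat_lit 313) (nat_lit 317)) (l (nat_lit 1) (nat_lit 312) (nat_lit 315))))))) (b (n (nat_lit 291) (b (n (nat_lit 316) (b (l (nat_lit 6) (nat_lit 265) (nat_lit 365)) (l (nat_lit 7) (nat_lit 240) (nat_lit 240)))) (l (nat_lit 0) (nat_lit 263) (nat_lit 292)))) (n (nat_lit 292) (b (n (nat_lit 267) (b (n (nat_lit 342) (b (b (n (nat_lit 317) (b (l (nat_lit 1) (nat_lit 314) (nat_lit 318)) (l (nat_lit 6) (nat_lit 266) (nat_lit 366)))) (n (nat_lit 366) (b (b (n (nat_lit 365) (b (n (nat_lit 343) (b (l (nat_lit 2) (nat_lit 339)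 (nat_lit 364)) (l (nat_lit 2) (nat_lit 340) (nat_lit 344)))) (l (nat_lit 0) (nat_lit 337) (nat_lit 338)))) (n (nat_lit 367) (b (l (nat_lit 0) (nat_lit 338) (nat_lit 338)) (l (nat_lit 0) (nat_lit 339) (nat_lit 368))))) (n (nat_lit 343) (b (n (nat_lit 365) (b (l (nat_lit 2) (nat_lit 339) (nat_lit 364)) (l (nat_lit 2) (nat_lit 340) (nat_lit 344)))) (n (nat_lit 368) (b (l (nat_lit 0) (nat_lit 339) (nat_lit 367)) (l (nat_lit 0) (nat_lit 340) (nat_lit 369))))))))) (n (nat_lit 343) (b (n (nat_lit 368) (b (l (nat_lit 0) (nat_lit 339) (nat_lit 367)) (l (nat_lit 0) (nat_lit 340) (nat_lit 369)))) (n (nat_lit 318) (b (l (nat_lit 1) (nat_lit 315) (nat_lit 319)) (l (nat_lit 1) (nat_lit 314) (nat_lit 317)))))))) (l (nat_lit 0) (nat_lit 264) (nat_lit 293)))) (l (nat_lit 0) (nat_lit 263) (nat_lit 291))))))))) (n (nat_lit 266) (b (n (nat_lit 291) (b (l (nat_lit 0) (nat_lit 262) (nat_lit 290)) (l (nat_lit 0) (nat_lit 263) (nat_lit 292)))) (n (nat_lit 241)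 (b (l (nat_lit 1) (nat_lit 238) (nat_lit 242)) (l (nat_lit 1) (nat_lit 237) (nat_lit 240))))))) (b (n (nat_lit 290) (b (n (nat_lit 315) (b (l (nat_lit 6) (nat_lit 264) (nat_lit 364)) (l (nat_lit 7) (nat_lit 239) (nat_lit 239)))) (l (nat_lit 0) (nat_lit 262) (nat_lit 291)))) (n (nat_lit 314) (b (b (n (nat_lit 240) (b (l (nat_lit 5) (nat_lit 239) (nat_lit 289)) (l (nat_lit 1) (nat_lit 237) (nat_lit 241)))) (n (nat_lit 315) (b (n (nat_lit 290) (b (l (nat_lit 6) (nat_lit 264) (nat_lit 364)) (l (nat_lit 7) (nat_lit 239) (nat_lit 239)))) (n (nat_lit 365) (b (n (nat_lit 338) (b (l (nat_lit 0) (nat_lit 337) (nat_lit 366)) (l (nat_lit 1) (nat_lit 312) (nat_lit 316)))) (l (nat_lit 4) (nat_lit 264) (nat_lit 289))))))) (n (nat_lit 315) (b (n (nat_lit 290) (b (l (nat_lit 6) (nat_lit 264) (nat_lit 364)) (l (nat_lit 7) (nat_lit 239) (nat_lit 239)))) (n (nat_lit 316) (b (n (nat_lit 317) (b (n (nat_lit 342) (b (n (nat_lit 241) (b (n (nat_lit 292) (b (n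 (nat_lit 266) (b (l (nat_lit 7) (nat_lit 241) (nat_lit 267)) (l (nat_lit 1) (nat_lit 238) (nat_lit 242)))) (l (nat_lit 1) (nat_lit 289) (nat_lit 293)))) (l (nat_lit 1) (nat_lit 237) (nat_lit 240)))) (l (nat_lit 0) (nat_lit 314) (nat_lit 343)))) (l (nat_lit 2) (nat_lit 314) (nat_lit 318)))) (l (nat_lit 1) (nat_lit 312) (nat_lit 338))))))))))))) (l (nat_lit 5) (nat_lit 237) (nat_lit 238))))))))
    envOK_nil (by decide +kernel)

theorem p10173 : Fam (nat_lit 16) (nat_lit 279968101115925134047353499319930152181142708231565782546248918899963984685054368582985341452834308096) (nat_lit 119085267768001849724855843602136116826463486427517335830962868534608890970277701213504556754578800434398859734564749708894594747696842539008) (nat_lit 119085267768001849724855843602136116826463486427517335830962868534608890970277701213504556754578800434398859734564749708894594747696842539008) :=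
  chk_sound (Env.cons (nat_lit 15) (nat_lit 2519712843293729344604795779888374430302788205466215317446238019863755855865215313963862834724441423872) (nat_lit 7098039816454519656974362191627578873538646230521487392796676288882611567372933306833321596587978611035177328050136620796162766536704) (Env.cons (nat_lit 12) (nat_lit 2519712843293729344604795779888374430302788205466215317446238019863755855865215313963862834724441423872) (nat_lit 237980229302191358809757231457211428399829214887606474238530429113120595684911636471515038727313110138622906478954394526154752) (Env.cons (nat_lit 14) (nat_lit 2519712843293729344604795779888374430302788205466215317446238019863755855865215313963862834724441423872) (nat_lit 296153113262431925361609677961270490847804581615329341145342588744012666578209635824016665589996937297310284666623483657060352) Env.nil)))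
    (n (nat_lit 340) (b (b (b (b (n (nat_lit 338) (b (n (nat_lit 339) (b (n (nat_lit 341) (b (n (nat_lit 366) (b (l (nat_lit 0) (nat_lit 337) (nat_lit 365)) (l (nat_lit 0) (nat_lit 338) (nat_lit 367)))) (n (nat_lit 316) (b (l (nat_lit 1) (nat_lit 313) (nat_lit 317)) (l (nat_lit 1) (nat_lit 312) (nat_lit 315)))))) (l (nat_lit 3) (nat_lit 311) (nat_lit 311)))) (n (nat_lit 262) (b (n (nat_lit 237) (b (n (nat_lit 238) (b (l (nat_lit 5) (nat_lit 237) (nat_lit 263)) (l (nat_lit 5) (nat_lit 212) (nat_lit 213)))) (n (nat_lit 236) (b (l (nat_lit 7) (nat_lit 211) (nat_lit 211)) (l (nat_lit 7) (nat_lit 236) (nat_lit 261)))))) (l (nat_lit 4) (nat_lit 262) (nat_lit 363)))))) (n (nat_lit 338) (b (n (nat_lit 339) (b (n (nat_lit 341) (b (n (nat_lit 366) (b (l (nat_lit 0) (nat_lit 337) (nat_lit 365)) (l (nat_lit 0) (nat_lit 338) (nat_lit 367)))) (n (nat_lit 316) (b (l (nat_lit 1) (nat_lit 313) (nat_lit 317)) (l (nat_lit 1) (nat_lit 312) (nat_lit 315))))))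 (l (nat_lit 3) (nat_lit 311) (nat_lit 311)))) (n (nat_lit 363) (b (n (nat_lit 388) (b (l (nat_lit 4) (nat_lit 287) (nat_lit 362)) (l (nat_lit 7) (nat_lit 312) (nat_lit 413)))) (l (nat_lit 4) (nat_lit 262) (nat_lit 262))))))) (b (n (nat_lit 262) (b (n (nat_lit 237) (b (n (nat_lit 238) (b (l (nat_lit 5) (nat_lit 237) (nat_lit 263)) (l (nat_lit 5) (nat_lit 212) (nat_lit 213)))) (n (nat_lit 236) (b (l (nat_lit 7) (nat_lit 211) (nat_lit 211)) (l (nat_lit 7) (nat_lit 236) (nat_lit 261)))))) (n (nat_lit 363) (b (n (nat_lit 362) (b (n (nat_lit 361) (b (n (nat_lit 364) (b (n (nat_lit 365) (b (n (nat_lit 390) (b (l (nat_lit 0) (nat_lit 362) (nat_lit 391)) (l (nat_lit 0) (nat_lit 361) (nat_lit 389)))) (l (nat_lit 1) (nat_lit 337) (nat_lit 341)))) (l (nat_lit 1) (nat_lit 336) (nat_lit 339)))) (l (nat_lit 6) (nat_lit 286) (nat_lit 386)))) (l (nat_lit 4) (nat_lit 287) (nat_lit 388)))) (l (nat_lit 4) (nat_lit 262) (nat_lit 338)))))) (n (nat_lit 338)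 (b (b (n (nat_lit 363) (b (n (nat_lit 388) (b (l (nat_lit 4) (nat_lit 287) (nat_lit 362)) (l (nat_lit 7) (nat_lit 312) (nat_lit 413)))) (l (nat_lit 4) (nat_lit 262) (nat_lit 262)))) (n (nat_lit 362) (b (b (n (nat_lit 387) (b (n (nat_lit 388) (b (l (nat_lit 4) (nat_lit 312) (nat_lit 413)) (l (nat_lit 4) (nat_lit 287) (nat_lit 363)))) (n (nat_lit 386) (b (l (nat_lit 6) (nat_lit 311) (nat_lit 411)) (l (nat_lit 6) (nat_lit 286) (nat_lit 361)))))) (n (nat_lit 361) (b (l (nat_lit 2) (nat_lit 336) (nat_lit 339)) (l (nat_lit 6) (nat_lit 286) (nat_lit 386))))) (n (nat_lit 363) (b (n (nat_lit 339) (b (l (nat_lit 2) (nat_lit 337) (nat_lit 341)) (l (nat_lit 3) (nat_lit 311) (nat_lit 311)))) (l (nat_lit 4) (nat_lit 287) (nat_lit 388))))))) (b (n (nat_lit 339) (b (n (nat_lit 341) (b (n (nat_lit 342) (b (n (nat_lit 367) (b (l (nat_lit 0) (nat_lit 338) (nat_lit 366)) (l (nat_lit 0) (nat_lit 339) (nat_lit 368)))) (n (nat_lit 363) (b (l (nat_lit 4) (nat_lit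 262) (nat_lit 262)) (l (nat_lit 2) (nat_lit 338) (nat_lit 364)))))) (n (nat_lit 316) (b (l (nat_lit 1) (nat_lit 313) (nat_lit 317)) (l (nat_lit 1) (nat_lit 312) (nat_lit 315)))))) (l (nat_lit 3) (nat_lit 311) (nat_lit 311)))) (n (nat_lit 339) (b (n (nat_lit 263) (b (n (nat_lit 362) (b (l (nat_lit 5) (nat_lit 262) (nat_lit 288)) (l (nat_lit 2) (nat_lit 336) (nat_lit 361)))) (n (nat_lit 262) (b (n (nat_lit 236) (b (n (nat_lit 265) (b (n (nat_lit 237) (b (l (nat_lit 3) (nat_lit 236) (nat_lit 264)) (l (nat_lit 7) (nat_lit 211) (nat_lit 211)))) (n (nat_lit 315) (b (n (nat_lit 290) (b (n (nat_lit 240) (b (n (nat_lit 241) (b (l (nat_lit 5) (nat_lit 240) (nat_lit 266)) (l (nat_lit 5) (nat_lit 215) (nat_lit 216)))) (l (nat_lit 6) (nat_lit 239) (nat_lit 314)))) (l (nat_lit 6) (nat_lit 264) (nat_lit 364)))) (l (nat_lit 1) (nat_lit 312) (nat_lit 316)))))) (l (nat_lit 7) (nat_lit 236) (nat_lit 261)))) (l (nat_lit 5) (nat_lit 237) (nat_lit 238))))))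 (l (nat_lit 3) (nat_lit 311) (nat_lit 311))))))))) (b (b (n (nat_lit 262) (b (b (n (nat_lit 362) (b (n (nat_lit 387) (b (n (nat_lit 388) (b (l (nat_lit 4) (nat_lit 312) (nat_lit 413)) (l (nat_lit 4) (nat_lit 287) (nat_lit 363)))) (n (nat_lit 386) (b (l (nat_lit 6) (nat_lit 311) (nat_lit 411)) (l (nat_lit 6) (nat_lit 286) (nat_lit 361)))))) (n (nat_lit 263) (b (l (nat_lit 5) (nat_lit 237) (nat_lit 238)) (l (nat_lit 5) (nat_lit 262) (nat_lit 288)))))) (n (nat_lit 237) (b (n (nat_lit 238) (b (l (nat_lit 5) (nat_lit 237) (nat_lit 263)) (l (nat_lit 5) (nat_lit 212) (nat_lit 213)))) (n (nat_lit 236) (b (l (nat_lit 7) (nat_lit 211) (nat_lit 211)) (l (nat_lit 7) (nat_lit 236) (nat_lit 261))))))) (n (nat_lit 338) (b (n (nat_lit 339) (b (n (nat_lit 315) (b (n (nat_lit 290) (b (n (nat_lit 289) (b (n (nat_lit 261) (b (l (nat_lit 7) (nat_lit 236) (nat_lit 236)) (l (nat_lit 3) (nat_lit 261) (nat_lit 288)))) (n (nat_lit 365) (b (l (nat_lit 0) (nat_lit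 337) (nat_lit 366)) (l (nat_lit 7) (nat_lit 264) (nat_lit 264)))))) (n (nat_lit 364) (b (n (nat_lit 389) (b (l (nat_lit 5) (nat_lit 314) (nat_lit 414)) (l (nat_lit 5) (nat_lit 289) (nat_lit 314)))) (l (nat_lit 6) (nat_lit 264) (nat_lit 265)))))) (l (nat_lit 1) (nat_lit 312) (nat_lit 316)))) (l (nat_lit 3) (nat_lit 311) (nat_lit 311)))) (l (nat_lit 4) (nat_lit 262) (nat_lit 363)))))) (r (nat_lit 0))) (b (n (nat_lit 362) (b (b (b (n (nat_lit 361) (b (n (nat_lit 339) (b (n (nat_lit 364) (b (n (nat_lit 389) (b (b (n (nat_lit 414) (b (b (n (nat_lit 439) (b (n (nat_lit 440) (b (l (nat_lit 4) (nat_lit 364) (nat_lit 465)) (l (nat_lit 4) (nat_lit 339) (nat_lit 415)))) (l (nat_lit 5) (nat_lit 339) (nat_lit 365)))) (n (nat_lit 439) (b (n (nat_lit 438) (b (l (nat_lit 6) (nat_lit 363) (nat_lit 463)) (l (nat_lit 6) (nat_lit 338) (nat_lit 413)))) (l (nat_lit 5) (nat_lit 339) (nat_lit 365))))) (n (nat_lit 415) (b (n (nat_lit 390) (b (n (nat_lit 413)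 (b (n (nat_lit 391) (b (l (nat_lit 2) (nat_lit 388) (nat_lit 392)) (l (nat_lit 1) (nat_lit 387) (nat_lit 412)))) (l (nat_lit 6) (nat_lit 338) (nat_lit 438)))) (l (nat_lit 4) (nat_lit 314) (nat_lit 314)))) (l (nat_lit 4) (nat_lit 339) (nat_lit 440)))))) (n (nat_lit 414) (b (n (nat_lit 439) (b (n (nat_lit 438) (b (l (nat_lit 6) (nat_lit 363) (nat_lit 463)) (l (nat_lit 6) (nat_lit 338) (nat_lit 413)))) (l (nat_lit 5) (nat_lit 339) (nat_lit 365)))) (l (nat_lit 5) (nat_lit 314) (nat_lit 315))))) (b (n (nat_lit 315) (b (n (nat_lit 290) (b (l (nat_lit 6) (nat_lit 264) (nat_lit 265)) (l (nat_lit 5) (nat_lit 289) (nat_lit 314)))) (l (nat_lit 5) (nat_lit 314) (nat_lit 414)))) (n (nat_lit 290) (b (b (n (nat_lit 288) (b (n (nat_lit 289) (b (n (nat_lit 265) (b (l (nat_lit 5) (nat_lit 264) (nat_lit 314)) (l (nat_lit 1) (nat_lit 262) (nat_lit 266)))) (l (nat_lit 2) (nat_lit 286) (nat_lit 311)))) (l (nat_lit 5) (nat_lit 262) (nat_lit 263)))) (n (nat_lit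 315) (b (l (nat_lit 6) (nat_lit 289) (nat_lit 365)) (l (nat_lit 6) (nat_lit 264) (nat_lit 265))))) (n (nat_lit 315) (b (l (nat_lit 6) (nat_lit 289) (nat_lit 365)) (l (nat_lit 5) (nat_lit 289) (nat_lit 314))))))))) (l (nat_lit 1) (nat_lit 336) (nat_lit 363)))) (l (nat_lit 2) (nat_lit 336) (nat_lit 338)))) (l (nat_lit 6) (nat_lit 286) (nat_lit 386)))) (n (nat_lit 387) (b (b (n (nat_lit 412) (b (n (nat_lit 413) (b (l (nat_lit 4) (nat_lit 337) (nat_lit 438)) (l (nat_lit 4) (nat_lit 312) (nat_lit 388)))) (n (nat_lit 411) (b (l (nat_lit 6) (nat_lit 336) (nat_lit 436)) (l (nat_lit 6) (nat_lit 311) (nat_lit 386)))))) (n (nat_lit 388) (b (l (nat_lit 4) (nat_lit 312) (nat_lit 413)) (l (nat_lit 4) (nat_lit 287) (nat_lit 363))))) (b (n (nat_lit 412) (b (n (nat_lit 411) (b (l (nat_lit 6) (nat_lit 336) (nat_lit 436)) (l (nat_lit 6) (nat_lit 311) (nat_lit 386)))) (n (nat_lit 437) (b (n (nat_lit 438) (b (l (nat_lit 4) (nat_lit 337) (nat_lit 413)) (l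 (nat_lit 4) (nat_lit 362) (nat_lit 463)))) (n (nat_lit 338) (b (n (nat_lit 339) (b (n (nat_lit 341) (b (n (nat_lit 366) (b (l (nat_lit 0) (nat_lit 337) (nat_lit 365)) (l (nat_lit 0) (nat_lit 338) (nat_lit 367)))) (n (nat_lit 316) (b (l (nat_lit 1) (nat_lit 313) (nat_lit 317)) (l (nat_lit 1) (nat_lit 312) (nat_lit 315)))))) (l (nat_lit 3) (nat_lit 311) (nat_lit 311)))) (l (nat_lit 5) (nat_lit 337) (nat_lit 363)))))))) (n (nat_lit 363) (b (n (nat_lit 338) (b (n (nat_lit 412) (b (n (nat_lit 411) (b (l (nat_lit 6) (nat_lit 336) (nat_lit 436)) (l (nat_lit 6) (nat_lit 311) (nat_lit 386)))) (l (nat_lit 5) (nat_lit 337) (nat_lit 437)))) (n (nat_lit 339) (b (l (nat_lit 2) (nat_lit 337) (nat_lit 341)) (l (nat_lit 3) (nat_lit 311) (nat_lit 311)))))) (l (nat_lit 4) (nat_lit 287) (nat_lit 388)))))))) (b (n (nat_lit 339) (b (b (n (nat_lit 338) (b (n (nat_lit 341) (b (n (nat_lit 366) (b (l (nat_lit 0) (nat_lit 337) (nat_lit 365)) (l (nat_lit 0) (nat_lit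 338) (nat_lit 367)))) (n (nat_lit 316) (b (l (nat_lit 1) (nat_lit 313) (nat_lit 317)) (l (nat_lit 1) (nat_lit 312) (nat_lit 315)))))) (l (nat_lit 3) (nat_lit 311) (nat_lit 311)))) (n (nat_lit 338) (b (l (nat_lit 2) (nat_lit 336) (nat_lit 361)) (l (nat_lit 3) (nat_lit 311) (nat_lit 311))))) (n (nat_lit 363) (b (n (nat_lit 364) (b (n (nat_lit 341) (b (l (nat_lit 1) (nat_lit 337) (nat_lit 365)) (l (nat_lit 2) (nat_lit 338) (nat_lit 342)))) (l (nat_lit 1) (nat_lit 336) (nat_lit 361)))) (l (nat_lit 4) (nat_lit 287) (nat_lit 388)))))) (n (nat_lit 387) (b (n (nat_lit 388) (b (l (nat_lit 4) (nat_lit 312) (nat_lit 413)) (l (nat_lit 4) (nat_lit 287) (nat_lit 363)))) (n (nat_lit 386) (b (l (nat_lit 6) (nat_lit 311) (nat_lit 411)) (l (nat_lit 6) (nat_lit 286) (nat_lit 361)))))))) (n (nat_lit 339) (b (b (n (nat_lit 361) (b (l (nat_lit 2) (nat_lit 336) (nat_lit 338)) (l (nat_lit 6) (nat_lit 286) (nat_lit 386)))) (n (nat_lit 338) (b (n (nat_lit 341)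 (b (n (nat_lit 366) (b (l (nat_lit 0) (nat_lit 337) (nat_lit 365)) (l (nat_lit 0) (nat_lit 338) (nat_lit 367)))) (n (nat_lit 316) (b (l (nat_lit 1) (nat_lit 313) (nat_lit 317)) (l (nat_lit 1) (nat_lit 312) (nat_lit 315)))))) (l (nat_lit 3) (nat_lit 311) (nat_lit 311))))) (n (nat_lit 288) (b (n (nat_lit 290) (b (b (n (nat_lit 289) (b (n (nat_lit 315) (b (n (nat_lit 264) (b (n (nat_lit 239) (b (l (nat_lit 4) (nat_lit 239) (nat_lit 314)) (l (nat_lit 4) (nat_lit 214) (nat_lit 214)))) (l (nat_lit 7) (nat_lit 264) (nat_lit 365)))) (l (nat_lit 0) (nat_lit 287) (nat_lit 316)))) (l (nat_lit 2) (nat_lit 286) (nat_lit 311)))) (n (nat_lit 289) (b (n (nat_lit 291) (b (n (nat_lit 316) (b (l (nat_lit 0) (nat_lit 288) (nat_lit 317)) (l (nat_lit 0) (nat_lit 287) (nat_lit 315)))) (n (nat_lit 266) (b (l (nat_lit 1) (nat_lit 263) (nat_lit 267)) (l (nat_lit 1) (nat_lit 262) (nat_lit 265)))))) (l (nat_lit 2) (nat_lit 286) (nat_lit 311))))) (b (n (nat_lit 289)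 (b (n (nat_lit 265) (b (n (nat_lit 314) (b (n (nat_lit 240) (b (l (nat_lit 6) (nat_lit 214) (nat_lit 215)) (l (nat_lit 5) (nat_lit 239) (nat_lit 264)))) (l (nat_lit 5) (nat_lit 264) (nat_lit 364)))) (l (nat_lit 1) (nat_lit 262) (nat_lit 266)))) (l (nat_lit 2) (nat_lit 286) (nat_lit 311)))) (n (nat_lit 315) (b (b (n (nat_lit 364) (b (n (nat_lit 389) (b (l (nat_lit 5) (nat_lit 314) (nat_lit 414)) (l (nat_lit 5) (nat_lit 289) (nat_lit 314)))) (l (nat_lit 6) (nat_lit 264) (nat_lit 265)))) (n (nat_lit 364) (b (n (nat_lit 389) (b (l (nat_lit 5) (nat_lit 314) (nat_lit 414)) (l (nat_lit 6) (nat_lit 289) (nat_lit 365)))) (l (nat_lit 6) (nat_lit 264) (nat_lit 265))))) (b (n (nat_lit 265) (b (n (nat_lit 240) (b (n (nat_lit 239) (b (l (nat_lit 7) (nat_lit 214) (nat_lit 214)) (l (nat_lit 7) (nat_lit 239) (nat_lit 264)))) (l (nat_lit 6) (nat_lit 239) (nat_lit 314)))) (n (nat_lit 365) (b (n (nat_lit 266) (b (l (nat_lit 5) (nat_lit 265) (nat_lit 291))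 (l (nat_lit 5) (nat_lit 240) (nat_lit 241)))) (n (nat_lit 366) (b (l (nat_lit 4) (nat_lit 265) (nat_lit 341)) (l (nat_lit 4) (nat_lit 290) (nat_lit 391)))))))) (n (nat_lit 389) (b (b (n (nat_lit 386) (b (n (nat_lit 387) (b (n (nat_lit 390) (b (b (n (nat_lit 388) (b (n (nat_lit 415) (b (l (nat_lit 0) (nat_lit 386) (nat_lit 414)) (l (nat_lit 0) (nat_lit 387) (nat_lit 416)))) (l (nat_lit 4) (nat_lit 312) (nat_lit 413)))) (n (nat_lit 365) (b (n (nat_lit 291) (b (l (nat_lit 5) (nat_lit 290) (nat_lit 316)) (l (nat_lit 5) (nat_lit 265) (nat_lit 266)))) (l (nat_lit 6) (nat_lit 314) (nat_lit 414))))) (n (nat_lit 365) (b (n (nat_lit 391) (b (l (nat_lit 4) (nat_lit 315) (nat_lit 416)) (l (nat_lit 4) (nat_lit 290) (nat_lit 366)))) (n (nat_lit 291) (b (l (nat_lit 5) (nat_lit 290) (nat_lit 316)) (l (nat_lit 5) (nat_lit 265) (nat_lit 266)))))))) (l (nat_lit 6) (nat_lit 311) (nat_lit 411)))) (l (nat_lit 6) (nat_lit 286) (nat_lit 361)))) (n (nat_lit 364)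 (b (l (nat_lit 6) (nat_lit 289) (nat_lit 365)) (l (nat_lit 5) (nat_lit 289) (nat_lit 314))))) (n (nat_lit 364) (b (l (nat_lit 5) (nat_lit 289) (nat_lit 314)) (l (nat_lit 5) (nat_lit 314) (nat_lit 414)))))))))))) (l (nat_lit 5) (nat_lit 262) (nat_lit 263)))))))) (r (nat_lit 1))))) (r (nat_lit 2))))
    (envOK_cons p9949 (envOK_cons p10084 (envOK_cons p10172 envOK_nil))) (by decide +kernel)

theorem p10174 : Fam (nat_lit 17) (nat_lit 8343699607727673214248874617415937021077234590683750281279490000787534250410375654793883418624) (nat_lit 130249510739542557838334278155268550183042936742324851861247099192762157069504590872754066497407427446596043082072916962079624058219540774912) (nat_lit 130249510739542557838334278155268550183042936742324851861247099192762157069504590872754066497407427446596043082072916962079624058219540774912) :=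
  chk_sound (Env.cons (nat_lit 14) (nat_lit 279968101115925134047353499319930152181142708231565782546248918899963984685054368582985341452834308096) (nat_lit 34981295531415214688267915741215682975103378476578881805223125929536103616942374986816885430533028280876181846825409158523378937861706350592) (Env.cons (nat_lit 5) (nat_lit 2099760704135390806463657147388470050463855601324298479424414664759186159786946690125199798469327323136) (nat_lit 4109951742100960955004819368139402218156782992635192280282721130874227036299395556358212533809931748645011456) (Env.cons (nat_lit 10) (nat_lit 279968101115925134047360910013641340417649816774606338572351528178982585681152893868361847893131264000) (nat_lit 290632149062755583978423609072759089053170136488689502053941623881240270304060685108267170588703599788558385152) (Env.cons (nat_lit 7) (nat_lit 279968101115925134047353499319930152181142708231565782546248918899963984685054368582985341452834308096)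 (nat_lit 26442239539650217605560292892248846548383685772123245804320920171885490245615528655242358014583884891255885470027001695830016) (Env.cons (nat_lit 16) (nat_lit 279968101115925134047353499319930152181142708231565782546248918899963984685054368582985341452834308096) (nat_lit 119085267768001849724855843602136116826463486427517335830962868534608890970277701213504556754578800434398859734564749708894594747696842539008) Env.nil)))))
    (n (nat_lit 337) (b (b (b (r (nat_lit 0)) (n (nat_lit 338) (b (b (n (nat_lit 339) (b (b (n (nat_lit 340) (b (n (nat_lit 341) (b (n (nat_lit 366) (b (l (nat_lit 0) (nat_lit 337) (nat_lit 365)) (l (nat_lit 0) (nat_lit 338) (nat_lit 367)))) (n (nat_lit 316) (b (l (nat_lit 1) (nat_lit 313) (nat_lit 317)) (l (nat_lit 1) (nat_lit 312) (nat_lit 315)))))) (l (nat_lit 3) (nat_lit 311) (nat_lit 311)))) (n (nat_lit 311) (b (n (nat_lit 310) (b (l (nat_lit 0) (nat_lit 309) (nat_lit 309)) (l (nat_lit 3) (nat_lit 310)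 (nat_lit 336)))) (l (nat_lit 3) (nat_lit 311) (nat_lit 340))))) (b (n (nat_lit 315) (b (b (b (n (nat_lit 314) (b (n (nat_lit 263) (b (b (n (nat_lit 238) (b (n (nat_lit 288) (b (l (nat_lit 5) (nat_lit 262) (nat_lit 362)) (l (nat_lit 6) (nat_lit 212) (nat_lit 213)))) (l (nat_lit 5) (nat_lit 237) (nat_lit 262)))) (n (nat_lit 288) (b (n (nat_lit 289) (b (n (nat_lit 316) (b (l (nat_lit 0) (nat_lit 287) (nat_lit 290)) (l (nat_lit 2) (nat_lit 313) (nat_lit 317)))) (l (nat_lit 7) (nat_lit 263) (nat_lit 364)))) (l (nat_lit 5) (nat_lit 262) (nat_lit 362))))) (n (nat_lit 262) (b (n (nat_lit 265) (b (n (nat_lit 290) (b (n (nat_lit 364) (b (l (nat_lit 5) (nat_lit 289) (nat_lit 389)) (l (nat_lit 5) (nat_lit 264) (nat_lit 289)))) (l (nat_lit 6) (nat_lit 239) (nat_lit 240)))) (n (nat_lit 236) (b (n (nat_lit 237) (b (l (nat_lit 3) (nat_lit 236) (nat_lit 264)) (l (nat_lit 7) (nat_lit 211) (nat_lit 211)))) (l (nat_lit 7) (nat_lit 236) (nat_lit 261))))))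 (l (nat_lit 5) (nat_lit 237) (nat_lit 238)))))) (l (nat_lit 1) (nat_lit 311) (nat_lit 336)))) (n (nat_lit 340) (b (n (nat_lit 365) (b (n (nat_lit 290) (b (b (n (nat_lit 265) (b (n (nat_lit 266) (b (l (nat_lit 5) (nat_lit 265) (nat_lit 291)) (l (nat_lit 5) (nat_lit 240) (nat_lit 241)))) (n (nat_lit 264) (b (l (nat_lit 7) (nat_lit 239) (nat_lit 239)) (l (nat_lit 7) (nat_lit 264) (nat_lit 289)))))) (n (nat_lit 364) (b (l (nat_lit 6) (nat_lit 264) (nat_lit 265)) (l (nat_lit 6) (nat_lit 289) (nat_lit 389))))) (n (nat_lit 390) (b (n (nat_lit 389) (b (l (nat_lit 6) (nat_lit 289) (nat_lit 364)) (l (nat_lit 6) (nat_lit 314) (nat_lit 414)))) (n (nat_lit 289) (b (l (nat_lit 7) (nat_lit 289) (nat_lit 314)) (l (nat_lit 7) (nat_lit 264) (nat_lit 264)))))))) (l (nat_lit 0) (nat_lit 337) (nat_lit 366)))) (l (nat_lit 1) (nat_lit 312) (nat_lit 316))))) (b (n (nat_lit 340) (b (n (nat_lit 365) (b (n (nat_lit 364) (b (n (nat_lit 290) (b (l (nat_lit 6) (nat_lit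 289) (nat_lit 389)) (l (nat_lit 6) (nat_lit 264) (nat_lit 265)))) (l (nat_lit 0) (nat_lit 336) (nat_lit 336)))) (l (nat_lit 0) (nat_lit 337) (nat_lit 366)))) (l (nat_lit 1) (nat_lit 312) (nat_lit 316)))) (n (nat_lit 316) (b (n (nat_lit 314) (b (l (nat_lit 2) (nat_lit 313) (nat_lit 317)) (l (nat_lit 1) (nat_lit 311) (nat_lit 336)))) (l (nat_lit 1) (nat_lit 312) (nat_lit 340)))))) (n (nat_lit 314) (b (n (nat_lit 263) (b (b (n (nat_lit 262) (b (n (nat_lit 265) (b (n (nat_lit 290) (b (n (nat_lit 364) (b (l (nat_lit 5) (nat_lit 289) (nat_lit 389)) (l (nat_lit 5) (nat_lit 264) (nat_lit 289)))) (l (nat_lit 6) (nat_lit 239) (nat_lit 240)))) (n (nat_lit 236) (b (n (nat_lit 237) (b (l (nat_lit 3) (nat_lit 236) (nat_lit 264)) (l (nat_lit 7) (nat_lit 211) (nat_lit 211)))) (l (nat_lit 7) (nat_lit 236) (nat_lit 261)))))) (l (nat_lit 5) (nat_lit 237) (nat_lit 238)))) (n (nat_lit 238) (b (n (nat_lit 288) (b (l (nat_lit 5) (nat_lit 262) (nat_lit 362))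 (l (nat_lit 6) (nat_lit 212) (nat_lit 213)))) (l (nat_lit 5) (nat_lit 237) (nat_lit 262))))) (n (nat_lit 364) (b (n (nat_lit 288) (b (l (nat_lit 7) (nat_lit 263) (nat_lit 289)) (l (nat_lit 5) (nat_lit 262) (nat_lit 362)))) (n (nat_lit 290) (b (n (nat_lit 265) (b (l (nat_lit 6) (nat_lit 239) (nat_lit 240)) (l (nat_lit 6) (nat_lit 264) (nat_lit 340)))) (l (nat_lit 5) (nat_lit 289) (nat_lit 389)))))))) (l (nat_lit 1) (nat_lit 311) (nat_lit 336)))))) (n (nat_lit 263) (b (b (n (nat_lit 288) (b (n (nat_lit 289) (b (b (n (nat_lit 262) (b (n (nat_lit 336) (b (n (nat_lit 311) (b (l (nat_lit 3) (nat_lit 310) (nat_lit 310)) (l (nat_lit 6) (nat_lit 236) (nat_lit 237)))) (n (nat_lit 364) (b (l (nat_lit 7) (nat_lit 263) (nat_lit 314)) (l (nat_lit 0) (nat_lit 336) (nat_lit 365)))))) (n (nat_lit 261) (b (l (nat_lit 7) (nat_lit 236) (nat_lit 236)) (l (nat_lit 0) (nat_lit 260) (nat_lit 260)))))) (n (nat_lit 290) (b (n (nat_lit 262) (b (l (nat_lit 3) (nat_lit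 261) (nat_lit 261)) (l (nat_lit 3) (nat_lit 262) (nat_lit 291)))) (l (nat_lit 2) (nat_lit 286) (nat_lit 311))))) (b (n (nat_lit 314) (b (n (nat_lit 290) (b (n (nat_lit 262) (b (l (nat_lit 3) (nat_lit 261) (nat_lit 261)) (l (nat_lit 3) (nat_lit 262) (nat_lit 291)))) (n (nat_lit 315) (b (l (nat_lit 0) (nat_lit 287) (nat_lit 316)) (l (nat_lit 1) (nat_lit 311) (nat_lit 336)))))) (l (nat_lit 7) (nat_lit 263) (nat_lit 364)))) (n (nat_lit 311) (b (n (nat_lit 310) (b (l (nat_lit 1) (nat_lit 284) (nat_lit 309)) (l (nat_lit 3) (nat_lit 310) (nat_lit 336)))) (l (nat_lit 2) (nat_lit 286) (nat_lit 290))))))) (l (nat_lit 5) (nat_lit 262) (nat_lit 362)))) (n (nat_lit 288) (b (n (nat_lit 289) (b (n (nat_lit 314) (b (n (nat_lit 238) (b (l (nat_lit 7) (nat_lit 238) (nat_lit 264)) (l (nat_lit 6) (nat_lit 212) (nat_lit 213)))) (l (nat_lit 7) (nat_lit 263) (nat_lit 364)))) (n (nat_lit 311) (b (n (nat_lit 310) (b (l (nat_lit 1) (nat_lit 284) (nat_lit 309))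 (l (nat_lit 3) (nat_lit 310) (nat_lit 336)))) (l (nat_lit 2) (nat_lit 286) (nat_lit 290)))))) (l (nat_lit 5) (nat_lit 262) (nat_lit 362))))) (b (n (nat_lit 238) (b (n (nat_lit 288) (b (l (nat_lit 5) (nat_lit 262) (nat_lit 362)) (l (nat_lit 6) (nat_lit 212) (nat_lit 213)))) (l (nat_lit 5) (nat_lit 237) (nat_lit 262)))) (n (nat_lit 336) (b (r (nat_lit 1)) (n (nat_lit 314) (b (n (nat_lit 264) (b (b (n (nat_lit 238) (b (l (nat_lit 7) (nat_lit 238) (nat_lit 289)) (l (nat_lit 5) (nat_lit 237) (nat_lit 262)))) (n (nat_lit 262) (b (n (nat_lit 236) (b (n (nat_lit 237) (b (l (nat_lit 3) (nat_lit 236) (nat_lit 265)) (l (nat_lit 7) (nat_lit 211) (nat_lit 211)))) (l (nat_lit 7) (nat_lit 236) (nat_lit 261)))) (l (nat_lit 5) (nat_lit 237) (nat_lit 238))))) (b (n (nat_lit 289) (b (n (nat_lit 364) (b (n (nat_lit 265) (b (l (nat_lit 5) (nat_lit 264) (nat_lit 290)) (l (nat_lit 5) (nat_lit 239) (nat_lit 240)))) (l (nat_lit 0) (nat_lit 336) (nat_lit 365))))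 (l (nat_lit 7) (nat_lit 238) (nat_lit 238)))) (n (nat_lit 265) (b (b (n (nat_lit 262) (b (n (nat_lit 236) (b (l (nat_lit 3) (nat_lit 236) (nat_lit 237)) (l (nat_lit 7) (nat_lit 236) (nat_lit 261)))) (n (nat_lit 240) (b (l (nat_lit 5) (nat_lit 239) (nat_lit 289)) (l (nat_lit 1) (nat_lit 237) (nat_lit 241)))))) (n (nat_lit 262) (b (n (nat_lit 266) (b (n (nat_lit 291) (b (l (nat_lit 0) (nat_lit 262) (nat_lit 290)) (l (nat_lit 0) (nat_lit 263) (nat_lit 292)))) (n (nat_lit 241) (b (l (nat_lit 1) (nat_lit 238) (nat_lit 242)) (l (nat_lit 1) (nat_lit 237) (nat_lit 240)))))) (n (nat_lit 236) (b (l (nat_lit 3) (nat_lit 236) (nat_lit 237)) (l (nat_lit 7) (nat_lit 236) (nat_lit 261))))))) (b (n (nat_lit 262) (b (n (nat_lit 236) (b (l (nat_lit 3) (nat_lit 236) (nat_lit 237)) (l (nat_lit 7) (nat_lit 236) (nat_lit 261)))) (n (nat_lit 290) (b (n (nat_lit 364) (b (l (nat_lit 5) (nat_lit 264) (nat_lit 289)) (l (nat_lit 0) (nat_lit 336) (nat_lit 365))))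 (l (nat_lit 0) (nat_lit 262) (nat_lit 291)))))) (n (nat_lit 364) (b (n (nat_lit 289) (b (l (nat_lit 5) (nat_lit 264) (nat_lit 290)) (l (nat_lit 5) (nat_lit 239) (nat_lit 240)))) (l (nat_lit 0) (nat_lit 336) (nat_lit 365)))))))))) (l (nat_lit 1) (nat_lit 311) (nat_lit 315)))))))))))) (n (nat_lit 262) (b (n (nat_lit 237) (b (n (nat_lit 238) (b (l (nat_lit 5) (nat_lit 237) (nat_lit 263)) (l (nat_lit 5) (nat_lit 212) (nat_lit 213)))) (n (nat_lit 236) (b (l (nat_lit 7) (nat_lit 211) (nat_lit 211)) (l (nat_lit 7) (nat_lit 236) (nat_lit 261)))))) (l (nat_lit 4) (nat_lit 262) (nat_lit 363))))) (b (n (nat_lit 363) (b (n (nat_lit 388) (b (l (nat_lit 4) (nat_lit 287) (nat_lit 362)) (l (nat_lit 7) (nat_lit 312) (nat_lit 413)))) (l (nat_lit 4) (nat_lit 262) (nat_lit 262)))) (n (nat_lit 339) (b (b (n (nat_lit 336) (b (b (n (nat_lit 363) (b (n (nat_lit 388) (b (l (nat_lit 4) (nat_lit 287) (nat_lit 362)) (l (nat_lit 7) (nat_lit 312) (nat_lit 413))))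 (n (nat_lit 364) (b (l (nat_lit 0) (nat_lit 336) (nat_lit 365)) (l (nat_lit 0) (nat_lit 335) (nat_lit 335)))))) (r (nat_lit 1))) (n (nat_lit 314) (b (n (nat_lit 289) (b (n (nat_lit 288) (b (n (nat_lit 364) (b (l (nat_lit 7) (nat_lit 263) (nat_lit 263)) (l (nat_lit 0) (nat_lit 336) (nat_lit 365)))) (n (nat_lit 311) (b (l (nat_lit 3) (nat_lit 310) (nat_lit 310)) (l (nat_lit 2) (nat_lit 286) (nat_lit 290)))))) (n (nat_lit 363) (b (n (nat_lit 388) (b (l (nat_lit 4) (nat_lit 287) (nat_lit 362)) (l (nat_lit 7) (nat_lit 312) (nat_lit 413)))) (l (nat_lit 6) (nat_lit 263) (nat_lit 264)))))) (l (nat_lit 1) (nat_lit 311) (nat_lit 315)))))) (n (nat_lit 340) (b (n (nat_lit 341) (b (n (nat_lit 366) (b (l (nat_lit 0) (nat_lit 337) (nat_lit 365)) (l (nat_lit 0) (nat_lit 338) (nat_lit 367)))) (n (nat_lit 316) (b (l (nat_lit 1) (nat_lit 313) (nat_lit 317)) (l (nat_lit 1) (nat_lit 312) (nat_lit 315)))))) (l (nat_lit 3) (nat_lit 311) (nat_lit 311))))) (b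 (n (nat_lit 311) (b (n (nat_lit 310) (b (l (nat_lit 0) (nat_lit 309) (nat_lit 309)) (l (nat_lit 3) (nat_lit 310) (nat_lit 336)))) (l (nat_lit 3) (nat_lit 311) (nat_lit 340)))) (n (nat_lit 363) (b (b (n (nat_lit 314) (b (n (nat_lit 315) (b (n (nat_lit 316) (b (l (nat_lit 1) (nat_lit 312) (nat_lit 340)) (l (nat_lit 2) (nat_lit 313) (nat_lit 317)))) (l (nat_lit 1) (nat_lit 311) (nat_lit 336)))) (n (nat_lit 388) (b (n (nat_lit 289) (b (l (nat_lit 6) (nat_lit 288) (nat_lit 364)) (l (nat_lit 6) (nat_lit 263) (nat_lit 264)))) (l (nat_lit 7) (nat_lit 312) (nat_lit 413)))))) (n (nat_lit 388) (b (l (nat_lit 4) (nat_lit 287) (nat_lit 362)) (l (nat_lit 7) (nat_lit 312) (nat_lit 413))))) (n (nat_lit 340) (b (b (n (nat_lit 336) (b (n (nat_lit 364) (b (l (nat_lit 0) (nat_lit 336) (nat_lit 365)) (l (nat_lit 0) (nat_lit 335) (nat_lit 335)))) (n (nat_lit 315) (b (l (nat_lit 1) (nat_lit 311) (nat_lit 314)) (l (nat_lit 1) (nat_lit 312) (nat_lit 316))))))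 (n (nat_lit 341) (b (n (nat_lit 316) (b (l (nat_lit 1) (nat_lit 313) (nat_lit 317)) (l (nat_lit 1) (nat_lit 312) (nat_lit 315)))) (l (nat_lit 2) (nat_lit 337) (nat_lit 362))))) (n (nat_lit 366) (b (n (nat_lit 341) (b (l (nat_lit 0) (nat_lit 338) (nat_lit 367)) (l (nat_lit 2) (nat_lit 337) (nat_lit 362)))) (l (nat_lit 0) (nat_lit 337) (nat_lit 365))))))))))))))) (b (n (nat_lit 262) (b (b (r (nat_lit 2)) (n (nat_lit 336) (b (n (nat_lit 338) (b (n (nat_lit 311) (b (n (nat_lit 310) (b (l (nat_lit 0) (nat_lit 309) (nat_lit 309)) (l (nat_lit 3) (nat_lit 310) (nat_lit 339)))) (l (nat_lit 6) (nat_lit 236) (nat_lit 237)))) (l (nat_lit 4) (nat_lit 262) (nat_lit 363)))) (l (nat_lit 6) (nat_lit 261) (nat_lit 361))))) (n (nat_lit 237) (b (n (nat_lit 238) (b (l (nat_lit 5) (nat_lit 237) (nat_lit 263)) (l (nat_lit 5) (nat_lit 212) (nat_lit 213)))) (n (nat_lit 236) (b (l (nat_lit 7) (nat_lit 211) (nat_lit 211)) (l (nat_lit 7) (nat_lit 236) (nat_lit 261))))))))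 (r (nat_lit 3)))) (b (b (n (nat_lit 262) (b (b (n (nat_lit 362) (b (n (nat_lit 263) (b (l (nat_lit 5) (nat_lit 237) (nat_lit 238)) (l (nat_lit 5) (nat_lit 262) (nat_lit 288)))) (n (nat_lit 361) (b (l (nat_lit 6) (nat_lit 286) (nat_lit 386)) (l (nat_lit 6) (nat_lit 261) (nat_lit 336)))))) (n (nat_lit 237) (b (n (nat_lit 336) (b (l (nat_lit 6) (nat_lit 261) (nat_lit 361)) (l (nat_lit 6) (nat_lit 236) (nat_lit 311)))) (n (nat_lit 236) (b (l (nat_lit 7) (nat_lit 211) (nat_lit 211)) (l (nat_lit 7) (nat_lit 236) (nat_lit 261))))))) (n (nat_lit 237) (b (n (nat_lit 238) (b (l (nat_lit 5) (nat_lit 237) (nat_lit 263)) (l (nat_lit 5) (nat_lit 212) (nat_lit 213)))) (n (nat_lit 236) (b (l (nat_lit 7) (nat_lit 211) (nat_lit 211)) (l (nat_lit 7) (nat_lit 236) (nat_lit 261)))))))) (n (nat_lit 262) (b (n (nat_lit 237) (b (n (nat_lit 238) (b (l (nat_lit 5) (nat_lit 237) (nat_lit 263)) (l (nat_lit 5) (nat_lit 212) (nat_lit 213)))) (n (nat_lit 236) (b (l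 (nat_lit 7) (nat_lit 211) (nat_lit 211)) (l (nat_lit 7) (nat_lit 236) (nat_lit 261)))))) (n (nat_lit 362) (b (n (nat_lit 361) (b (l (nat_lit 6) (nat_lit 286) (nat_lit 386)) (l (nat_lit 6) (nat_lit 261) (nat_lit 336)))) (n (nat_lit 363) (b (l (nat_lit 4) (nat_lit 262) (nat_lit 338)) (l (nat_lit 4) (nat_lit 287) (nat_lit 388))))))))) (r (nat_lit 4)))))
    (envOK_cons p9711 (envOK_cons p7754 (envOK_cons p7640 (envOK_cons p7597 (envOK_cons p10173 envOK_nil))))) (by decide +kernel)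

theorem p10213 : Fam (nat_lit 9) (nat_lit 16439798079416840938925971905198573440504395258295260172185627484475744455292259891780143399069035715106963456) (nat_lit 83359682273777802591521313665342163581168879759465790917605182233325702032073775840107980765986836232266555435154232503267231381784327356416) (nat_lit 83359682273777802591521313665342163581168879759465790917605182233325702032073775840107980765986836232266555435154232503267231381784327356416) :=
  chk_sound Env.nil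
    (n (nat_lit 363) (b (b (b (n (nat_lit 339) (b (n (nat_lit 364) (b (n (nat_lit 386) (b (n (nat_lit 336) (b (l (nat_lit 5) (nat_lit 286) (nat_lit 311)) (l (nat_lit 3) (nat_lit 335) (nat_lit 335)))) (n (nat_lit 387) (b (n (nat_lit 359) (b (l (nat_lit 0) (nat_lit 359) (nat_lit 388)) (l (nat_lit 0) (nat_lit 358) (nat_lit 358)))) (l (nat_lit 2) (nat_lit 361) (nat_lit 365)))))) (l (nat_lit 1) (nat_lit 336) (nat_lit 340)))) (l (nat_lit 1) (nat_lit 335) (nat_lit 338)))) (n (nat_lit 388) (b (n (nat_lit 387) (b (n (nat_lit 338) (b (n (nat_lit 413) (b (b (n (nat_lit 437) (b (n (nat_lit 438) (b (l (nat_lit 6) (nat_lit 362) (nat_lit 462)) (l (nat_lit 7) (nat_lit 362) (nat_lit 463)))) (l (nat_lit 6) (nat_lit 337) (nat_lit 412)))) (n (nat_lit 414) (b (n (nat_lit 415) (b (n (nat_lit 412) (b (l (nat_lit 3) (nat_lit 386) (nat_lit 386)) (l (nat_lit 6) (nat_lit 337) (nat_lit 437)))) (l (nat_lit 3) (nat_lit 387) (nat_lit 416)))) (l (nat_lit 4) (nat_lit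 338) (nat_lit 439))))) (n (nat_lit 438) (b (n (nat_lit 439) (b (l (nat_lit 4) (nat_lit 363) (nat_lit 464)) (l (nat_lit 4) (nat_lit 338) (nat_lit 414)))) (l (nat_lit 7) (nat_lit 362) (nat_lit 463)))))) (l (nat_lit 1) (nat_lit 335) (nat_lit 339)))) (l (nat_lit 0) (nat_lit 359) (nat_lit 359)))) (l (nat_lit 0) (nat_lit 360) (nat_lit 389))))) (b (n (nat_lit 364) (b (n (nat_lit 339) (b (l (nat_lit 1) (nat_lit 336) (nat_lit 340)) (l (nat_lit 1) (nat_lit 335) (nat_lit 338)))) (n (nat_lit 390) (b (n (nat_lit 386) (b (n (nat_lit 365) (b (l (nat_lit 0) (nat_lit 362) (nat_lit 391)) (l (nat_lit 2) (nat_lit 361) (nat_lit 387)))) (n (nat_lit 336) (b (l (nat_lit 5) (nat_lit 286) (nat_lit 311)) (l (nat_lit 3) (nat_lit 335) (nat_lit 335)))))) (l (nat_lit 0) (nat_lit 361) (nat_lit 389)))))) (n (nat_lit 364) (b (n (nat_lit 389) (b (l (nat_lit 0) (nat_lit 360) (nat_lit 388)) (l (nat_lit 0) (nat_lit 361) (nat_lit 390)))) (n (nat_lit 339) (b (l (nat_lit 1)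 (nat_lit 336) (nat_lit 340)) (l (nat_lit 1) (nat_lit 335) (nat_lit 338)))))))) (n (nat_lit 336) (b (b (n (nat_lit 387) (b (n (nat_lit 388) (b (l (nat_lit 0) (nat_lit 360) (nat_lit 389)) (l (nat_lit 0) (nat_lit 359) (nat_lit 359)))) (n (nat_lit 311) (b (l (nat_lit 5) (nat_lit 286) (nat_lit 386)) (l (nat_lit 4) (nat_lit 286) (nat_lit 286)))))) (n (nat_lit 386) (b (n (nat_lit 335) (b (n (nat_lit 411) (b (l (nat_lit 7) (nat_lit 335) (nat_lit 436)) (l (nat_lit 7) (nat_lit 310) (nat_lit 310)))) (l (nat_lit 3) (nat_lit 335) (nat_lit 364)))) (l (nat_lit 5) (nat_lit 286) (nat_lit 311))))) (n (nat_lit 364) (b (n (nat_lit 389) (b (l (nat_lit 0) (nat_lit 360) (nat_lit 388)) (l (nat_lit 0) (nat_lit 361) (nat_lit 390)))) (l (nat_lit 3) (nat_lit 335) (nat_lit 335))))))))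
    envOK_nil (by decide +kernel)

theorem p10254 : Fam (nat_lit 10) (nat_lit 16439798079416840938925971905198573440504395258295260172185627484475744455292259891780143399069035715106963456) (nat_lit 67039042446799771429247101081180866804236944874007920408423638600903755436229694423593721237343251137780781351788578930810195077751752719870897386550198272) (nat_lit 67039042446799771429247101081180866804236944874007920408423638600903755436229694423593721237343251137780781351788578930810195077751752719870897386550198272) :=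
  chk_sound Env.nil
    (n (nat_lit 363) (b (b (n (nat_lit 388) (b (n (nat_lit 385) (b (n (nat_lit 338) (b (n (nat_lit 413) (b (b (b (n (nat_lit 414) (b (n (nat_lit 412) (b (n (nat_lit 386) (b (l (nat_lit 3) (nat_lit 385) (nat_lit 411)) (l (nat_lit 0) (nat_lit 385) (nat_lit 387)))) (l (nat_lit 6) (nat_lit 337) (nat_lit 437)))) (l (nat_lit 4) (nat_lit 338) (nat_lit 439)))) (n (nat_lit 438) (b (b (n (nat_lit 439) (b (l (nat_lit 4) (nat_lit 363) (nat_lit 464)) (l (nat_lit 4) (nat_lit 338) (nat_lit 414)))) (n (nat_lit 387) (b (n (nat_lit 414) (b (l (nat_lit 4) (nat_lit 338) (nat_lit 439)) (l (nat_lit 0) (nat_lit 385) (nat_lit 386)))) (l (nat_lit 7) (nat_lit 362) (nat_lit 463))))) (n (nat_lit 463) (b (n (nat_lit 488) (b (n (nat_lit 489) (b (l (nat_lit 4) (nat_lit 388) (nat_lit 464)) (l (nat_lit 4) (nat_lit 413) (nat_lit 514)))) (n (nat_lit 487) (b (l (nat_lit 6) (nat_lit 412) (nat_lit 512)) (l (nat_lit 6) (nat_lit 387) (nat_lit 462)))))) (l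 (nat_lit 7) (nat_lit 362) (nat_lit 387))))))) (b (n (nat_lit 438) (b (n (nat_lit 463) (b (n (nat_lit 464) (b (l (nat_lit 4) (nat_lit 388) (nat_lit 489)) (l (nat_lit 4) (nat_lit 363) (nat_lit 439)))) (l (nat_lit 7) (nat_lit 362) (nat_lit 387)))) (n (nat_lit 437) (b (l (nat_lit 6) (nat_lit 337) (nat_lit 412)) (l (nat_lit 6) (nat_lit 362) (nat_lit 462)))))) (n (nat_lit 438) (b (n (nat_lit 437) (b (l (nat_lit 6) (nat_lit 337) (nat_lit 412)) (l (nat_lit 6) (nat_lit 362) (nat_lit 462)))) (n (nat_lit 439) (b (l (nat_lit 4) (nat_lit 363) (nat_lit 464)) (l (nat_lit 4) (nat_lit 338) (nat_lit 414)))))))) (n (nat_lit 410) (b (b (n (nat_lit 336) (b (n (nat_lit 311) (b (l (nat_lit 6) (nat_lit 285) (nat_lit 286)) (l (nat_lit 5) (nat_lit 286) (nat_lit 386)))) (l (nat_lit 5) (nat_lit 335) (nat_lit 435)))) (n (nat_lit 437) (b (n (nat_lit 387) (b (n (nat_lit 386) (b (l (nat_lit 2) (nat_lit 384) (nat_lit 409)) (l (nat_lit 0) (nat_lit 385) (nat_lit 414))))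 (n (nat_lit 438) (b (l (nat_lit 6) (nat_lit 362) (nat_lit 462)) (l (nat_lit 7) (nat_lit 362) (nat_lit 463)))))) (l (nat_lit 6) (nat_lit 337) (nat_lit 412))))) (n (nat_lit 435) (b (n (nat_lit 412) (b (n (nat_lit 434) (b (l (nat_lit 6) (nat_lit 359) (nat_lit 459)) (l (nat_lit 2) (nat_lit 409) (nat_lit 411)))) (l (nat_lit 6) (nat_lit 337) (nat_lit 437)))) (l (nat_lit 5) (nat_lit 335) (nat_lit 336)))))))) (l (nat_lit 1) (nat_lit 335) (nat_lit 339)))) (l (nat_lit 2) (nat_lit 359) (nat_lit 384)))) (l (nat_lit 0) (nat_lit 360) (nat_lit 389)))) (n (nat_lit 364) (b (n (nat_lit 339) (b (l (nat_lit 1) (nat_lit 336) (nat_lit 340)) (l (nat_lit 1) (nat_lit 335) (nat_lit 338)))) (n (nat_lit 385) (b (l (nat_lit 2) (nat_lit 360) (nat_lit 386)) (l (nat_lit 2) (nat_lit 359) (nat_lit 384))))))) (b (n (nat_lit 364) (b (n (nat_lit 389) (b (l (nat_lit 0) (nat_lit 360) (nat_lit 388)) (l (nat_lit 0) (nat_lit 361) (nat_lit 390)))) (n (nat_lit 339) (b (l (nat_lit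 1) (nat_lit 336) (nat_lit 340)) (l (nat_lit 1) (nat_lit 335) (nat_lit 338)))))) (n (nat_lit 364) (b (n (nat_lit 389) (b (l (nat_lit 0) (nat_lit 360) (nat_lit 388)) (l (nat_lit 0) (nat_lit 361) (nat_lit 390)))) (n (nat_lit 385) (b (l (nat_lit 2) (nat_lit 360) (nat_lit 386)) (l (nat_lit 2) (nat_lit 359) (nat_lit 384)))))))))
    envOK_nil (by decide +kernel)

theorem p10266 : Fam (nat_lit 6) (nat_lit 16439798079416840938925971905198573440504395258295260172185627484475744455292259891780143399069035715106963456) (nat_lit 88725438144538006355076865783019240566035136821172703565565906395933399162138955895179025290340044159799203952607263752179433865216) (nat_lit 88725438144538006355076865783019240566035136821172703565565906395933399162138955895179025290340044159799203952607263752179433865216) :=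
  chk_sound Env.nil
    (n (nat_lit 385) (b (n (nat_lit 384) (b (n (nat_lit 383) (b (l (nat_lit 1) (nat_lit 357) (nat_lit 382)) (l (nat_lit 2) (nat_lit 358) (nat_lit 359)))) (l (nat_lit 2) (nat_lit 359) (nat_lit 363)))) (n (nat_lit 311) (b (b (n (nat_lit 336) (b (l (nat_lit 6) (nat_lit 285) (nat_lit 286)) (l (nat_lit 5) (nat_lit 286) (nat_lit 386)))) (n (nat_lit 310) (b (b (n (nat_lit 288) (b (n (nat_lit 289) (b (l (nat_lit 2) (nat_lit 285) (nat_lit 286)) (l (nat_lit 2) (nat_lit 286) (nat_lit 290)))) (l (nat_lit 1) (nat_lit 284) (nat_lit 309)))) (n (nat_lit 335) (b (n (nat_lit 386) (b (l (nat_lit 4) (nat_lit 285) (nat_lit 285)) (l (nat_lit 4) (nat_lit 310) (nat_lit 411)))) (l (nat_lit 5) (nat_lit 285) (nat_lit 286))))) (n (nat_lit 309) (b (n (nat_lit 284) (b (l (nat_lit 7) (nat_lit 284) (nat_lit 335)) (l (nat_lit 3) (nat_lit 283) (nat_lit 283)))) (l (nat_lit 1) (nat_lit 284) (nat_lit 288))))))) (b (n (nat_lit 336) (b (n (nat_lit 410)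 (b (l (nat_lit 5) (nat_lit 335) (nat_lit 435)) (l (nat_lit 5) (nat_lit 310) (nat_lit 335)))) (l (nat_lit 6) (nat_lit 285) (nat_lit 286)))) (n (nat_lit 336) (b (n (nat_lit 410) (b (l (nat_lit 5) (nat_lit 335) (nat_lit 435)) (l (nat_lit 5) (nat_lit 310) (nat_lit 335)))) (l (nat_lit 5) (nat_lit 286) (nat_lit 386)))))))))
    envOK_nil (by decide +kernel)

theorem p10278 : Fam (nat_lit 6) (nat_lit 72804820065988838408274500874615481670805087196591230710840811713550355753477743462862705679297509654624468992) (nat_lit 137907095666472244595275789646587141719728435768569064977286961346003281118099857824870971680057205929439750141247488) (nat_lit 137907095666472244595275789646587141719728435768569064977286961346003281118099857824870971680057205929439750141247488) :=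
  chk_sound Env.nil
    (n (nat_lit 335) (b (n (nat_lit 288) (b (b (n (nat_lit 311) (b (n (nat_lit 310) (b (l (nat_lit 1) (nat_lit 284) (nat_lit 309)) (l (nat_lit 2) (nat_lit 285) (nat_lit 286)))) (l (nat_lit 2) (nat_lit 286) (nat_lit 290)))) (n (nat_lit 285) (b (n (nat_lit 384) (b (n (nat_lit 359) (b (l (nat_lit 6) (nat_lit 284) (nat_lit 310)) (l (nat_lit 2) (nat_lit 358) (nat_lit 383)))) (l (nat_lit 2) (nat_lit 359) (nat_lit 385)))) (n (nat_lit 286) (b (n (nat_lit 264) (b (l (nat_lit 1) (nat_lit 261) (nat_lit 265)) (l (nat_lit 1) (nat_lit 260) (nat_lit 263)))) (n (nat_lit 260) (b (l (nat_lit 3) (nat_lit 260) (nat_lit 261)) (l (nat_lit 3) (nat_lit 259) (nat_lit 259))))))))) (n (nat_lit 290) (b (n (nat_lit 291) (b (n (nat_lit 316) (b (l (nat_lit 0) (nat_lit 288) (nat_lit 317)) (l (nat_lit 0) (nat_lit 287) (nat_lit 315)))) (n (nat_lit 266) (b (l (nat_lit 1) (nat_lit 263) (nat_lit 267)) (l (nat_lit 1) (nat_lit 262) (nat_lit 265)))))) (l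 (nat_lit 2) (nat_lit 286) (nat_lit 311)))))) (l (nat_lit 3) (nat_lit 335) (nat_lit 336))))
    envOK_nil (by decide +kernel)

theorem p10291 : Fam (nat_lit 11) (nat_lit 16439798079416840938925971905198573440504395258295260172185627484475744455292259891780143399069035715106963456) (nat_lit 9909604707525669657556473212900387202382317067857487015826110416127101267160554002283975981194753972206289322854318080) (nat_lit 9909604707525669657556473212900387202382317067857487015826110416127101267160554002283975981194753972206289322854318080) :=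
  chk_sound (Env.cons (nat_lit 6) (nat_lit 72804820065988838408274500874615481670805087196591230710840811713550355753477743462862705679297509654624468992) (nat_lit 137907095666472244595275789646587141719728435768569064977286961346003281118099857824870971680057205929439750141247488) Env.nil)
    (n (nat_lit 363) (b (b (n (nat_lit 339) (b (n (nat_lit 364) (b (n (nat_lit 289) (b (b (n (nat_lit 314) (b (n (nat_lit 290) (b (n (nat_lit 288) (b (l (nat_lit 2) (nat_lit 286) (nat_lit 311)) (l (nat_lit 7) (nat_lit 263) (nat_lit 263)))) (l (nat_lit 5) (nat_lit 264) (nat_lit 265)))) (l (nat_lit 6) (nat_lit 288) (nat_lit 388)))) (n (nat_lit 359) (b (n (nat_lit 388) (b (l (nat_lit 6) (nat_lit 288) (nat_lit 314)) (l (nat_lit 0) (nat_lit 359) (nat_lit 387)))) (n (nat_lit 384) (b (l (nat_lit 2) (nat_lit 359) (nat_lit 385)) (l (nat_lit 2) (nat_lit 358) (nat_lit 383))))))) (r (nat_lit 0)))) (l (nat_lit 1) (nat_lit 336) (nat_lit 340)))) (l (nat_lit 1) (nat_lit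 335) (nat_lit 338)))) (n (nat_lit 359) (b (n (nat_lit 388) (b (l (nat_lit 0) (nat_lit 360) (nat_lit 389)) (l (nat_lit 0) (nat_lit 359) (nat_lit 387)))) (n (nat_lit 384) (b (l (nat_lit 2) (nat_lit 359) (nat_lit 385)) (l (nat_lit 2) (nat_lit 358) (nat_lit 383))))))) (b (n (nat_lit 364) (b (n (nat_lit 389) (b (l (nat_lit 0) (nat_lit 360) (nat_lit 388)) (l (nat_lit 0) (nat_lit 361) (nat_lit 390)))) (n (nat_lit 339) (b (l (nat_lit 1) (nat_lit 336) (nat_lit 340)) (l (nat_lit 1) (nat_lit 335) (nat_lit 338)))))) (n (nat_lit 339) (b (n (nat_lit 364) (b (n (nat_lit 390) (b (n (nat_lit 289) (b (n (nat_lit 365) (b (l (nat_lit 0) (nat_lit 362) (nat_lit 391)) (l (nat_lit 4) (nat_lit 289) (nat_lit 314)))) (r (nat_lit 0)))) (l (nat_lit 0) (nat_lit 361) (nat_lit 389)))) (l (nat_lit 1) (nat_lit 336) (nat_lit 340)))) (l (nat_lit 1) (nat_lit 335) (nat_lit 338)))))))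
    (envOK_cons p10278 envOK_nil) (by decide +kernel)

theorem p10308 : Fam (nat_lit 9) (nat_lit 17614069370803757552870712203593241954192236532749420107539272970241848967849564113511992898261420066622930944) (nat_lit 17862789175910939576838481636012977652737239211289949078031830109269231887651134131032356868511726639625488322874272089269714396406232383488) (nat_lit 17862789175910939576838481636012977652737239211289949078031830109269231887651134131032356868511726639625488322874272089269714396406232383488) :=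
  chk_sound Env.nil
    (n (nat_lit 387) (b (n (nat_lit 386) (b (n (nat_lit 336) (b (n (nat_lit 411) (b (b (n (nat_lit 335) (b (l (nat_lit 7) (nat_lit 335) (nat_lit 436)) (l (nat_lit 7) (nat_lit 310) (nat_lit 310)))) (n (nat_lit 410) (b (n (nat_lit 409) (b (n (nat_lit 434) (b (n (nat_lit 412) (b (l (nat_lit 4) (nat_lit 336) (nat_lit 437)) (l (nat_lit 2) (nat_lit 408) (nat_lit 433)))) (n (nat_lit 335) (b (l (nat_lit 7) (nat_lit 310) (nat_lit 310)) (l (nat_lit 6) (nat_lit 334) (nat_lit 385)))))) (l (nat_lit 1) (nat_lit 383) (nat_lit 408)))) (l (nat_lit 6) (nat_lit 335) (nat_lit 435))))) (n (nat_lit 437) (b (n (nat_lit 436) (b (l (nat_lit 4) (nat_lit 361) (nat_lit 462)) (l (nat_lit 5) (nat_lit 361) (nat_lit 461)))) (l (nat_lit 7) (nat_lit 336) (nat_lit 412)))))) (l (nat_lit 5) (nat_lit 286) (nat_lit 311)))) (l (nat_lit 0) (nat_lit 358) (nat_lit 358)))) (l (nat_lit 0) (nat_lit 359) (nat_lit 388))))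
    envOK_nil (by decide +kernel)

theorem p10331 : Fam (nat_lit 9) (nat_lit 17614069370803757552870712203593241954192236532749420107539272970241848967849564113511992898261420066622930944) (nat_lit 44362716428045130479169864710373218565862411503513179007787325034568788674583620144389556489031750909884126009177457842194430820352) (nat_lit 44362716428045130479169864710373218565862411503513179007787325034568788674583620144389556489031750909884126009177457842194430820352) :=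
  chk_sound Env.nil
    (n (nat_lit 358) (b (b (n (nat_lit 384) (b (n (nat_lit 335) (b (n (nat_lit 357) (b (n (nat_lit 332) (b (l (nat_lit 3) (nat_lit 331) (nat_lit 331)) (l (nat_lit 3) (nat_lit 332) (nat_lit 333)))) (l (nat_lit 1) (nat_lit 332) (nat_lit 336)))) (n (nat_lit 310) (b (n (nat_lit 409) (b (l (nat_lit 5) (nat_lit 334) (nat_lit 434)) (l (nat_lit 6) (nat_lit 309) (nat_lit 385)))) (l (nat_lit 6) (nat_lit 284) (nat_lit 285)))))) (l (nat_lit 2) (nat_lit 358) (nat_lit 383)))) (n (nat_lit 357) (b (n (nat_lit 382) (b (l (nat_lit 2) (nat_lit 357) (nat_lit 383)) (l (nat_lit 2) (nat_lit 356) (nat_lit 381)))) (n (nat_lit 332) (b (l (nat_lit 3) (nat_lit 331) (nat_lit 331)) (l (nat_lit 3) (nat_lit 332) (nat_lit 333))))))) (b (n (nat_lit 383) (b (l (nat_lit 2) (nat_lit 358) (nat_lit 384)) (l (nat_lit 2) (nat_lit 357) (nat_lit 382)))) (n (nat_lit 357) (b (n (nat_lit 332) (b (l (nat_lit 3) (nat_lit 331) (nat_lit 331)) (l (nat_lit 3) (nat_lit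 332) (nat_lit 333)))) (n (nat_lit 335) (b (n (nat_lit 356) (b (n (nat_lit 381) (b (l (nat_lit 2) (nat_lit 355) (nat_lit 380)) (l (nat_lit 2) (nat_lit 356) (nat_lit 382)))) (n (nat_lit 310) (b (b (n (nat_lit 384) (b (l (nat_lit 6) (nat_lit 284) (nat_lit 285)) (l (nat_lit 0) (nat_lit 356) (nat_lit 385)))) (n (nat_lit 311) (b (b (n (nat_lit 309) (b (n (nat_lit 284) (b (l (nat_lit 7) (nat_lit 284) (nat_lit 385)) (l (nat_lit 3) (nat_lit 283) (nat_lit 283)))) (l (nat_lit 1) (nat_lit 284) (nat_lit 288)))) (n (nat_lit 286) (b (n (nat_lit 261) (b (l (nat_lit 6) (nat_lit 235) (nat_lit 236)) (l (nat_lit 5) (nat_lit 260) (nat_lit 285)))) (l (nat_lit 5) (nat_lit 285) (nat_lit 385))))) (n (nat_lit 288) (b (n (nat_lit 289) (b (l (nat_lit 2) (nat_lit 285) (nat_lit 286)) (l (nat_lit 2) (nat_lit 286) (nat_lit 290)))) (l (nat_lit 1) (nat_lit 284) (nat_lit 309))))))) (b (n (nat_lit 385) (b (n (nat_lit 309) (b (n (nat_lit 311) (b (l (nat_lit 5) (nat_lit 285)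 (nat_lit 286)) (l (nat_lit 1) (nat_lit 284) (nat_lit 288)))) (l (nat_lit 7) (nat_lit 284) (nat_lit 284)))) (l (nat_lit 0) (nat_lit 356) (nat_lit 384)))) (n (nat_lit 285) (b (n (nat_lit 260) (b (n (nat_lit 261) (b (l (nat_lit 5) (nat_lit 235) (nat_lit 236)) (l (nat_lit 5) (nat_lit 260) (nat_lit 286)))) (n (nat_lit 259) (b (l (nat_lit 7) (nat_lit 259) (nat_lit 284)) (l (nat_lit 7) (nat_lit 234) (nat_lit 234)))))) (l (nat_lit 6) (nat_lit 284) (nat_lit 384))))))))) (l (nat_lit 1) (nat_lit 332) (nat_lit 336)))))))))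
    envOK_nil (by decide +kernel)

theorem p10377 : Fam (nat_lit 11) (nat_lit 17614069370803757552870712203593241954192236532749420107539272970241848967849564113511992898261420066622930944) (nat_lit 124869965085413809541353598525057826397228750198860187706424978462659066501207083831441386396323356089870708056312798678286049947238758814117265408) (nat_lit 124869965085413809541353598525057826397228750198860187706424978462659066501207083831441386396323356089870708056312798678286049947238758814117265408) :=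
  chk_sound Env.nil
    (n (nat_lit 387) (b (n (nat_lit 384) (b (n (nat_lit 409) (b (b (n (nat_lit 386) (b (b (n (nat_lit 411) (b (n (nat_lit 436) (b (l (nat_lit 7) (nat_lit 335) (nat_lit 335)) (l (nat_lit 5) (nat_lit 361) (nat_lit 461)))) (n (nat_lit 408) (b (l (nat_lit 1) (nat_lit 383) (nat_lit 410)) (l (nat_lit 2) (nat_lit 383) (nat_lit 385)))))) (n (nat_lit 411) (b (n (nat_lit 336) (b (n (nat_lit 410) (b (l (nat_lit 1) (nat_lit 383) (nat_lit 408)) (l (nat_lit 6) (nat_lit 335) (nat_lit 435)))) (l (nat_lit 5) (nat_lit 286) (nat_lit 311)))) (n (nat_lit 436) (b (l (nat_lit 7) (nat_lit 335) (nat_lit 335)) (l (nat_lit 5) (nat_lit 361) (nat_lit 461))))))) (b (n (nat_lit 412) (b (n (nat_lit 437) (b (l (nat_lit 7) (nat_lit 336) (nat_lit 336)) (l (nat_lit 7) (nat_lit 361) (nat_lit 462)))) (n (nat_lit 385) (b (l (nat_lit 0) (nat_lit 384) (nat_lit 413)) (l (nat_lit 2) (nat_lit 383) (nat_lit 408)))))) (n (nat_lit 411) (b (n (nat_lit 436) (b (l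 (nat_lit 7) (nat_lit 335) (nat_lit 335)) (l (nat_lit 5) (nat_lit 361) (nat_lit 461)))) (n (nat_lit 336) (b (n (nat_lit 412) (b (n (nat_lit 413) (b (n (nat_lit 439) (b (n (nat_lit 414) (b (l (nat_lit 3) (nat_lit 386) (nat_lit 415)) (l (nat_lit 0) (nat_lit 411) (nat_lit 440)))) (n (nat_lit 410) (b (l (nat_lit 6) (nat_lit 335) (nat_lit 435)) (l (nat_lit 0) (nat_lit 410) (nat_lit 438)))))) (l (nat_lit 0) (nat_lit 384) (nat_lit 385)))) (l (nat_lit 7) (nat_lit 336) (nat_lit 437)))) (l (nat_lit 5) (nat_lit 286) (nat_lit 311))))))))) (n (nat_lit 434) (b (n (nat_lit 459) (b (n (nat_lit 460) (b (l (nat_lit 4) (nat_lit 359) (nat_lit 435)) (l (nat_lit 4) (nat_lit 384) (nat_lit 485)))) (n (nat_lit 458) (b (l (nat_lit 6) (nat_lit 383) (nat_lit 483)) (l (nat_lit 6) (nat_lit 358) (nat_lit 433)))))) (l (nat_lit 5) (nat_lit 334) (nat_lit 335))))) (b (n (nat_lit 434) (b (n (nat_lit 459) (b (n (nat_lit 458) (b (l (nat_lit 6) (nat_lit 383) (nat_lit 483))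 (l (nat_lit 6) (nat_lit 358) (nat_lit 433)))) (l (nat_lit 5) (nat_lit 359) (nat_lit 385)))) (l (nat_lit 5) (nat_lit 334) (nat_lit 335)))) (n (nat_lit 434) (b (b (n (nat_lit 459) (b (n (nat_lit 460) (b (l (nat_lit 4) (nat_lit 359) (nat_lit 435)) (l (nat_lit 4) (nat_lit 384) (nat_lit 485)))) (l (nat_lit 5) (nat_lit 359) (nat_lit 385)))) (n (nat_lit 459) (b (n (nat_lit 458) (b (l (nat_lit 6) (nat_lit 383) (nat_lit 483)) (l (nat_lit 6) (nat_lit 358) (nat_lit 433)))) (l (nat_lit 5) (nat_lit 359) (nat_lit 385))))) (n (nat_lit 435) (b (n (nat_lit 412) (b (n (nat_lit 433) (b (n (nat_lit 411) (b (l (nat_lit 2) (nat_lit 408) (nat_lit 410)) (l (nat_lit 1) (nat_lit 408) (nat_lit 436)))) (l (nat_lit 6) (nat_lit 358) (nat_lit 458)))) (n (nat_lit 336) (b (n (nat_lit 311) (b (l (nat_lit 5) (nat_lit 286) (nat_lit 386)) (l (nat_lit 4) (nat_lit 286) (nat_lit 286)))) (l (nat_lit 7) (nat_lit 336) (nat_lit 437)))))) (l (nat_lit 4) (nat_lit 359) (nat_lit 460)))))))))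 (l (nat_lit 2) (nat_lit 358) (nat_lit 383)))) (l (nat_lit 0) (nat_lit 359) (nat_lit 388))))
    envOK_nil (by decide +kernel)

theorem p10402 : Fam (nat_lit 7) (nat_lit 17614069370803757552870712203593241954192236532749420107539272970241848967849564113511992898261420066622930944) (nat_lit 88725432856090068873539852953310821330519497179182504301329871686504825413804324505073422457319520890021664961158895855526475726848) (nat_lit 88725432856090068873539852953310821330519497179182504301329871686504825413804324505073422457319520890021664961158895855526475726848) :=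
  chk_sound Env.nil
    (n (nat_lit 334) (b (n (nat_lit 309) (b (b (n (nat_lit 284) (b (b (n (nat_lit 310) (b (n (nat_lit 285) (b (l (nat_lit 5) (nat_lit 284) (nat_lit 384)) (l (nat_lit 5) (nat_lit 259) (nat_lit 260)))) (n (nat_lit 311) (b (l (nat_lit 3) (nat_lit 283) (nat_lit 283)) (l (nat_lit 1) (nat_lit 284) (nat_lit 288)))))) (n (nat_lit 259) (b (n (nat_lit 260) (b (l (nat_lit 5) (nat_lit 234) (nat_lit 235)) (l (nat_lit 5) (nat_lit 259) (nat_lit 285)))) (l (nat_lit 4) (nat_lit 259) (nat_lit 335))))) (n (nat_lit 259) (b (n (nat_lit 258) (b (l (nat_lit 7) (nat_lit 233) (nat_lit 233)) (l (nat_lit 7) (nat_lit 258) (nat_lit 283)))) (l (nat_lit 4) (nat_lit 259) (nat_lit 335)))))) (n (nat_lit 385) (b (n (nat_lit 410) (b (l (nat_lit 7) (nat_lit 309) (nat_lit 335)) (l (nat_lit 7) (nat_lit 334) (nat_lit 435)))) (l (nat_lit 4) (nat_lit 284) (nat_lit 284))))) (b (n (nat_lit 310) (b (b (n (nat_lit 311) (b (n (nat_lit 385) (b (n (nat_lit 410) (b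 (l (nat_lit 7) (nat_lit 309) (nat_lit 335)) (l (nat_lit 4) (nat_lit 309) (nat_lit 384)))) (n (nat_lit 286) (b (l (nat_lit 1) (nat_lit 283) (nat_lit 308)) (l (nat_lit 6) (nat_lit 285) (nat_lit 336)))))) (l (nat_lit 1) (nat_lit 284) (nat_lit 288)))) (n (nat_lit 285) (b (n (nat_lit 260) (b (l (nat_lit 6) (nat_lit 259) (nat_lit 335)) (l (nat_lit 6) (nat_lit 234) (nat_lit 235)))) (n (nat_lit 288) (b (l (nat_lit 2) (nat_lit 284) (nat_lit 286)) (l (nat_lit 1) (nat_lit 284) (nat_lit 311))))))) (b (n (nat_lit 288) (b (n (nat_lit 285) (b (l (nat_lit 5) (nat_lit 284) (nat_lit 384)) (l (nat_lit 2) (nat_lit 284) (nat_lit 286)))) (l (nat_lit 1) (nat_lit 284) (nat_lit 311)))) (n (nat_lit 285) (b (n (nat_lit 260) (b (l (nat_lit 6) (nat_lit 259) (nat_lit 335)) (l (nat_lit 6) (nat_lit 234) (nat_lit 235)))) (l (nat_lit 5) (nat_lit 284) (nat_lit 384))))))) (n (nat_lit 385) (b (n (nat_lit 410) (b (l (nat_lit 4) (nat_lit 309) (nat_lit 384)) (l (nat_lit 7)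 (nat_lit 334) (nat_lit 435)))) (l (nat_lit 4) (nat_lit 284) (nat_lit 284))))))) (l (nat_lit 3) (nat_lit 333) (nat_lit 333))))
    envOK_nil (by decide +kernel)

theorem p10413 : Fam (nat_lit 5) (nat_lit 17614069370803749209171104475920027705317619116812399030304682286491567688359563325977742487885765272739512320) (nat_lit 34476774063402197858887453902892294402590270594050897646761453905816519159836210196222901286877350250980861735337984) (nat_lit 34476774063402197858887453902892294402590270594050897646761453905816519159836210196222901286877350250980861735337984) :=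
  chk_sound Env.nil
    (n (nat_lit 358) (b (b (n (nat_lit 357) (b (n (nat_lit 382) (b (l (nat_lit 2) (nat_lit 357) (nat_lit 383)) (l (nat_lit 2) (nat_lit 356) (nat_lit 381)))) (n (nat_lit 332) (b (l (nat_lit 3) (nat_lit 331) (nat_lit 331)) (l (nat_lit 3) (nat_lit 332) (nat_lit 333)))))) (n (nat_lit 333) (b (l (nat_lit 3) (nat_lit 332) (nat_lit 332)) (l (nat_lit 3) (nat_lit 333) (nat_lit 334))))) (b (n (nat_lit 357) (b (n (nat_lit 356) (b (n (nat_lit 331) (b (l (nat_lit 3) (nat_lit 331) (nat_lit 332)) (l (nat_lit 3) (nat_lit 330) (nat_lit 330)))) (n (nat_lit 335) (b (l (nat_lit 1) (nat_lit 331) (nat_lit 334)) (l (nat_lit 1) (nat_lit 332) (nat_lit 336)))))) (n (nat_lit 382) (b (l (nat_lit 2) (nat_lit 357) (nat_lit 383)) (l (nat_lit 2) (nat_lit 356) (nat_lit 381)))))) (n (nat_lit 334) (b (n (nat_lit 357) (b (n (nat_lit 335) (b (l (nat_lit 1) (nat_lit 332) (nat_lit 336)) (l (nat_lit 1) (nat_lit 331) (nat_lit 356)))) (n (nat_lit 382) (b (l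 (nat_lit 2) (nat_lit 357) (nat_lit 383)) (l (nat_lit 2) (nat_lit 356) (nat_lit 381)))))) (l (nat_lit 3) (nat_lit 333) (nat_lit 333)))))))
    envOK_nil (by decide +kernel)

theorem p10430 : Fam (nat_lit 8) (nat_lit 17614069370803757552870712203593241954192236532749420107539272970241848967849564113511992898261420066622930944) (nat_lit 44362716428045130479169864710392903822906936836834735949175858971677350147337914989245589931199484630637152026119986602152531329024) (nat_lit 44362716428045130479169864710392903822906936836834735949175858971677350147337914989245589931199484630637152026119986602152531329024) :=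
  chk_sound Env.nil
    (n (nat_lit 358) (b (b (n (nat_lit 357) (b (n (nat_lit 356) (b (n (nat_lit 331) (b (l (nat_lit 3) (nat_lit 331) (nat_lit 332)) (l (nat_lit 3) (nat_lit 330) (nat_lit 330)))) (n (nat_lit 335) (b (l (nat_lit 1) (nat_lit 331) (nat_lit 334)) (l (nat_lit 1) (nat_lit 332) (nat_lit 336)))))) (n (nat_lit 382) (b (l (nat_lit 2) (nat_lit 357) (nat_lit 383)) (l (nat_lit 2) (nat_lit 356) (nat_lit 381)))))) (n (nat_lit 383) (b (l (nat_lit 2) (nat_lit 358) (nat_lit 384)) (l (nat_lit 2) (nat_lit 357) (nat_lit 382))))) (b (n (nat_lit 384) (b (n (nat_lit 335) (b (b (n (nat_lit 357) (b (n (nat_lit 356) (b (l (nat_lit 0) (nat_lit 356) (nat_lit 385)) (l (nat_lit 1) (nat_lit 331) (nat_lit 334)))) (l (nat_lit 1) (nat_lit 332) (nat_lit 336)))) (n (nat_lit 409) (b (n (nat_lit 310) (b (l (nat_lit 6) (nat_lit 284) (nat_lit 285)) (l (nat_lit 5) (nat_lit 309) (nat_lit 334)))) (l (nat_lit 5) (nat_lit 334) (nat_lit 434))))) (n (nat_lit 310)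 (b (n (nat_lit 409) (b (l (nat_lit 5) (nat_lit 334) (nat_lit 434)) (l (nat_lit 6) (nat_lit 309) (nat_lit 385)))) (l (nat_lit 6) (nat_lit 284) (nat_lit 285)))))) (l (nat_lit 2) (nat_lit 358) (nat_lit 383)))) (n (nat_lit 357) (b (n (nat_lit 356) (b (n (nat_lit 381) (b (l (nat_lit 2) (nat_lit 355) (nat_lit 380)) (l (nat_lit 2) (nat_lit 356) (nat_lit 382)))) (n (nat_lit 331) (b (l (nat_lit 3) (nat_lit 331) (nat_lit 332)) (l (nat_lit 3) (nat_lit 330) (nat_lit 330)))))) (n (nat_lit 335) (b (n (nat_lit 310) (b (b (n (nat_lit 309) (b (b (n (nat_lit 284) (b (n (nat_lit 259) (b (l (nat_lit 4) (nat_lit 259) (nat_lit 334)) (l (nat_lit 4) (nat_lit 234) (nat_lit 234)))) (l (nat_lit 7) (nat_lit 284) (nat_lit 385)))) (n (nat_lit 311) (b (n (nat_lit 286) (b (l (nat_lit 5) (nat_lit 285) (nat_lit 385)) (l (nat_lit 1) (nat_lit 283) (nat_lit 308)))) (l (nat_lit 1) (nat_lit 284) (nat_lit 288))))) (n (nat_lit 284) (b (n (nat_lit 259) (b (l (nat_lit 4) (nat_lit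 259) (nat_lit 334)) (l (nat_lit 4) (nat_lit 234) (nat_lit 234)))) (n (nat_lit 311) (b (l (nat_lit 3) (nat_lit 283) (nat_lit 283)) (l (nat_lit 1) (nat_lit 284) (nat_lit 288)))))))) (n (nat_lit 384) (b (n (nat_lit 409) (b (l (nat_lit 5) (nat_lit 334) (nat_lit 434)) (l (nat_lit 6) (nat_lit 309) (nat_lit 385)))) (l (nat_lit 6) (nat_lit 284) (nat_lit 285))))) (n (nat_lit 384) (b (n (nat_lit 409) (b (l (nat_lit 5) (nat_lit 334) (nat_lit 434)) (l (nat_lit 5) (nat_lit 309) (nat_lit 334)))) (l (nat_lit 6) (nat_lit 284) (nat_lit 285)))))) (l (nat_lit 1) (nat_lit 332) (nat_lit 336)))))))))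
    envOK_nil (by decide +kernel)

theorem p10438 : Fam (nat_lit 8) (nat_lit 16439798079416840938925971905198573440504395258295260172185627484475744455292259891780143399069035715106963456) (nat_lit 7442828847326029555544434359821330571960901092421029294779994552217181882831670659913484150651965566336499648894873849093766635619140763648) (nat_lit 7442828847326029555544434359821330571960901092421029294779994552217181882831670659913484150651965566336499648894873849093766635619140763648) :=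
  chk_sound Env.nil
    (n (nat_lit 363) (b (n (nat_lit 364) (b (n (nat_lit 389) (b (l (nat_lit 0) (nat_lit 360) (nat_lit 388)) (l (nat_lit 0) (nat_lit 361) (nat_lit 390)))) (n (nat_lit 339) (b (l (nat_lit 1) (nat_lit 336) (nat_lit 340)) (l (nat_lit 1) (nat_lit 335) (nat_lit 338)))))) (n (nat_lit 385) (b (n (nat_lit 335) (b (n (nat_lit 410) (b (n (nat_lit 311) (b (n (nat_lit 310) (b (n (nat_lit 309) (b (l (nat_lit 1) (nat_lit 284) (nat_lit 288)) (l (nat_lit 7) (nat_lit 284) (nat_lit 284)))) (l (nat_lit 5) (nat_lit 285) (nat_lit 286)))) (l (nat_lit 5) (nat_lit 310) (nat_lit 336)))) (n (nat_lit 435) (b (n (nat_lit 434) (b (l (nat_lit 6) (nat_lit 334) (nat_lit 409)) (l (nat_lit 6) (nat_lit 359) (nat_lit 459)))) (n (nat_lit 436) (b (l (nat_lit 4) (nat_lit 335) (nat_lit 411)) (l (nat_lit 4) (nat_lit 360) (nat_lit 461)))))))) (l (nat_lit 3) (nat_lit 334) (nat_lit 334)))) (l (nat_lit 2) (nat_lit 359) (nat_lit 384))))))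
    envOK_nil (by decide +kernel)

theorem p10549 : Fam (nat_lit 14) (nat_lit 16439798079416840938925971905198573440504395258295260172185627484475744455292259891780143399069035715106963456) (nat_lit 9909604708112805294501463139004817963114510001665700057885779638470786253712382340083622330708482214508027058751275008) (nat_lit 9909604708112805294501463139004817963114510001665700057885779638470786253712382340083622330708482214508027058751275008) :=
  chk_sound Env.nil
    (n (nat_lit 363) (b (b (n (nat_lit 339) (b (n (nat_lit 384) (b (n (nat_lit 289) (b (b (n (nat_lit 288) (b (b (n (nat_lit 290) (b (n (nat_lit 291) (b (n (nat_lit 316) (b (l (nat_lit 0) (nat_lit 288) (nat_lit 317)) (l (nat_lit 0) (nat_lit 287) (nat_lit 315)))) (n (nat_lit 266) (b (l (nat_lit 1) (nat_lit 263) (nat_lit 267)) (l (nat_lit 1) (nat_lit 262) (nat_lit 265)))))) (l (nat_lit 2) (nat_lit 286) (nat_lit 311)))) (n (nat_lit 311) (b (n (nat_lit 310) (b (l (nat_lit 1) (nat_lit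 284) (nat_lit 309)) (l (nat_lit 2) (nat_lit 285) (nat_lit 286)))) (l (nat_lit 2) (nat_lit 286) (nat_lit 290))))) (b (n (nat_lit 314) (b (n (nat_lit 364) (b (l (nat_lit 7) (nat_lit 263) (nat_lit 263)) (l (nat_lit 1) (nat_lit 336) (nat_lit 340)))) (n (nat_lit 315) (b (n (nat_lit 316) (b (l (nat_lit 0) (nat_lit 287) (nat_lit 290)) (l (nat_lit 3) (nat_lit 288) (nat_lit 317)))) (l (nat_lit 0) (nat_lit 286) (nat_lit 286)))))) (n (nat_lit 286) (b (n (nat_lit 285) (b (n (nat_lit 260) (b (l (nat_lit 3) (nat_lit 260) (nat_lit 261)) (l (nat_lit 3) (nat_lit 259) (nat_lit 259)))) (n (nat_lit 310) (b (l (nat_lit 2) (nat_lit 284) (nat_lit 309)) (l (nat_lit 2) (nat_lit 285) (nat_lit 311)))))) (n (nat_lit 364) (b (n (nat_lit 314) (b (l (nat_lit 7) (nat_lit 263) (nat_lit 263)) (l (nat_lit 0) (nat_lit 286) (nat_lit 315)))) (l (nat_lit 1) (nat_lit 336) (nat_lit 340))))))))) (n (nat_lit 388) (b (n (nat_lit 359) (b (l (nat_lit 2) (nat_lit 358) (nat_lit 383))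 (l (nat_lit 0) (nat_lit 359) (nat_lit 387)))) (n (nat_lit 364) (b (l (nat_lit 6) (nat_lit 288) (nat_lit 314)) (l (nat_lit 1) (nat_lit 336) (nat_lit 340))))))) (n (nat_lit 359) (b (n (nat_lit 286) (b (b (n (nat_lit 311) (b (n (nat_lit 288) (b (l (nat_lit 2) (nat_lit 286) (nat_lit 290)) (l (nat_lit 2) (nat_lit 285) (nat_lit 310)))) (n (nat_lit 387) (b (l (nat_lit 4) (nat_lit 286) (nat_lit 336)) (l (nat_lit 0) (nat_lit 359) (nat_lit 388)))))) (n (nat_lit 288) (b (n (nat_lit 311) (b (n (nat_lit 387) (b (l (nat_lit 4) (nat_lit 286) (nat_lit 336)) (l (nat_lit 0) (nat_lit 359) (nat_lit 388)))) (l (nat_lit 2) (nat_lit 286) (nat_lit 290)))) (n (nat_lit 285) (b (n (nat_lit 260) (b (l (nat_lit 3) (nat_lit 260) (nat_lit 261)) (l (nat_lit 3) (nat_lit 259) (nat_lit 259)))) (n (nat_lit 264) (b (l (nat_lit 1) (nat_lit 261) (nat_lit 265)) (l (nat_lit 1) (nat_lit 260) (nat_lit 263))))))))) (b (n (nat_lit 387) (b (n (nat_lit 334) (b (n (nat_lit 311) (b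 (n (nat_lit 309) (b (b (n (nat_lit 310) (b (l (nat_lit 5) (nat_lit 284) (nat_lit 285)) (l (nat_lit 1) (nat_lit 283) (nat_lit 308)))) (n (nat_lit 308) (b (l (nat_lit 7) (nat_lit 283) (nat_lit 283)) (l (nat_lit 1) (nat_lit 283) (nat_lit 310))))) (b (n (nat_lit 284) (b (b (n (nat_lit 283) (b (l (nat_lit 3) (nat_lit 283) (nat_lit 310)) (l (nat_lit 7) (nat_lit 258) (nat_lit 258)))) (n (nat_lit 285) (b (l (nat_lit 5) (nat_lit 259) (nat_lit 260)) (l (nat_lit 5) (nat_lit 284) (nat_lit 310))))) (n (nat_lit 285) (b (l (nat_lit 0) (nat_lit 283) (nat_lit 283)) (l (nat_lit 5) (nat_lit 259) (nat_lit 260)))))) (n (nat_lit 284) (b (b (n (nat_lit 285) (b (l (nat_lit 2) (nat_lit 283) (nat_lit 308)) (l (nat_lit 5) (nat_lit 259) (nat_lit 260)))) (n (nat_lit 283) (b (l (nat_lit 7) (nat_lit 283) (nat_lit 308)) (l (nat_lit 7) (nat_lit 258) (nat_lit 258))))) (n (nat_lit 283) (b (l (nat_lit 0) (nat_lit 283) (nat_lit 285)) (l (nat_lit 7) (nat_lit 258) (nat_lit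 258))))))))) (l (nat_lit 4) (nat_lit 286) (nat_lit 336)))) (l (nat_lit 3) (nat_lit 333) (nat_lit 333)))) (l (nat_lit 0) (nat_lit 359) (nat_lit 388)))) (n (nat_lit 334) (b (n (nat_lit 285) (b (n (nat_lit 288) (b (n (nat_lit 264) (b (l (nat_lit 1) (nat_lit 261) (nat_lit 265)) (l (nat_lit 1) (nat_lit 260) (nat_lit 263)))) (n (nat_lit 260) (b (l (nat_lit 3) (nat_lit 260) (nat_lit 261)) (l (nat_lit 3) (nat_lit 259) (nat_lit 259)))))) (n (nat_lit 309) (b (n (nat_lit 308) (b (l (nat_lit 2) (nat_lit 283) (nat_lit 284)) (l (nat_lit 7) (nat_lit 283) (nat_lit 283)))) (l (nat_lit 5) (nat_lit 284) (nat_lit 310)))))) (l (nat_lit 3) (nat_lit 333) (nat_lit 333))))))) (l (nat_lit 2) (nat_lit 358) (nat_lit 383)))))) (l (nat_lit 2) (nat_lit 359) (nat_lit 385)))) (l (nat_lit 1) (nat_lit 335) (nat_lit 338)))) (n (nat_lit 359) (b (n (nat_lit 388) (b (l (nat_lit 0) (nat_lit 360) (nat_lit 389)) (l (nat_lit 0) (nat_lit 359) (nat_lit 387)))) (n (nat_lit 384) (b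 (l (nat_lit 2) (nat_lit 359) (nat_lit 385)) (l (nat_lit 2) (nat_lit 358) (nat_lit 383))))))) (b (n (nat_lit 364) (b (n (nat_lit 389) (b (l (nat_lit 0) (nat_lit 360) (nat_lit 388)) (l (nat_lit 0) (nat_lit 361) (nat_lit 390)))) (n (nat_lit 339) (b (l (nat_lit 1) (nat_lit 336) (nat_lit 340)) (l (nat_lit 1) (nat_lit 335) (nat_lit 338)))))) (n (nat_lit 339) (b (n (nat_lit 384) (b (n (nat_lit 289) (b (b (n (nat_lit 359) (b (n (nat_lit 288) (b (b (n (nat_lit 265) (b (b (n (nat_lit 290) (b (n (nat_lit 315) (b (n (nat_lit 314) (b (l (nat_lit 6) (nat_lit 239) (nat_lit 240)) (l (nat_lit 0) (nat_lit 286) (nat_lit 286)))) (l (nat_lit 0) (nat_lit 287) (nat_lit 316)))) (l (nat_lit 1) (nat_lit 262) (nat_lit 266)))) (n (nat_lit 314) (b (b (n (nat_lit 264) (b (l (nat_lit 5) (nat_lit 239) (nat_lit 240)) (l (nat_lit 1) (nat_lit 261) (nat_lit 286)))) (n (nat_lit 240) (b (n (nat_lit 290) (b (l (nat_lit 6) (nat_lit 214) (nat_lit 215)) (l (nat_lit 6) (nat_lit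 239) (nat_lit 315)))) (l (nat_lit 5) (nat_lit 239) (nat_lit 264))))) (n (nat_lit 315) (b (n (nat_lit 316) (b (l (nat_lit 0) (nat_lit 287) (nat_lit 290)) (l (nat_lit 3) (nat_lit 288) (nat_lit 317)))) (l (nat_lit 0) (nat_lit 286) (nat_lit 286))))))) (b (n (nat_lit 266) (b (n (nat_lit 264) (b (l (nat_lit 2) (nat_lit 262) (nat_lit 263)) (l (nat_lit 2) (nat_lit 263) (nat_lit 267)))) (l (nat_lit 1) (nat_lit 262) (nat_lit 290)))) (n (nat_lit 264) (b (n (nat_lit 266) (b (l (nat_lit 2) (nat_lit 262) (nat_lit 263)) (l (nat_lit 2) (nat_lit 263) (nat_lit 267)))) (l (nat_lit 1) (nat_lit 261) (nat_lit 286))))))) (n (nat_lit 290) (b (n (nat_lit 291) (b (n (nat_lit 316) (b (l (nat_lit 0) (nat_lit 288) (nat_lit 317)) (l (nat_lit 0) (nat_lit 287) (nat_lit 315)))) (n (nat_lit 266) (b (l (nat_lit 1) (nat_lit 263) (nat_lit 267)) (l (nat_lit 1) (nat_lit 262) (nat_lit 265)))))) (l (nat_lit 2) (nat_lit 286) (nat_lit 311))))) (b (n (nat_lit 311) (b (n (nat_lit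 310) (b (l (nat_lit 1) (nat_lit 284) (nat_lit 309)) (l (nat_lit 2) (nat_lit 285) (nat_lit 286)))) (l (nat_lit 2) (nat_lit 286) (nat_lit 290)))) (n (nat_lit 264) (b (b (n (nat_lit 314) (b (b (n (nat_lit 239) (b (n (nat_lit 238) (b (l (nat_lit 7) (nat_lit 238) (nat_lit 263)) (l (nat_lit 7) (nat_lit 213) (nat_lit 213)))) (n (nat_lit 340) (b (l (nat_lit 4) (nat_lit 239) (nat_lit 315)) (l (nat_lit 4) (nat_lit 264) (nat_lit 365)))))) (n (nat_lit 239) (b (n (nat_lit 240) (b (l (nat_lit 5) (nat_lit 239) (nat_lit 265)) (l (nat_lit 5) (nat_lit 214) (nat_lit 215)))) (n (nat_lit 340) (b (l (nat_lit 4) (nat_lit 239) (nat_lit 315)) (l (nat_lit 4) (nat_lit 264) (nat_lit 365))))))) (n (nat_lit 265) (b (n (nat_lit 266) (b (l (nat_lit 2) (nat_lit 262) (nat_lit 263)) (l (nat_lit 2) (nat_lit 263) (nat_lit 267)))) (l (nat_lit 5) (nat_lit 239) (nat_lit 240)))))) (n (nat_lit 286) (b (n (nat_lit 285) (b (n (nat_lit 260) (b (l (nat_lit 3) (nat_lit 260) (nat_lit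 261)) (l (nat_lit 3) (nat_lit 259) (nat_lit 259)))) (n (nat_lit 310) (b (l (nat_lit 2) (nat_lit 284) (nat_lit 309)) (l (nat_lit 2) (nat_lit 285) (nat_lit 311)))))) (l (nat_lit 1) (nat_lit 261) (nat_lit 265))))) (n (nat_lit 334) (b (n (nat_lit 310) (b (b (n (nat_lit 263) (b (n (nat_lit 238) (b (l (nat_lit 7) (nat_lit 238) (nat_lit 314)) (l (nat_lit 6) (nat_lit 212) (nat_lit 213)))) (n (nat_lit 286) (b (l (nat_lit 1) (nat_lit 260) (nat_lit 285)) (l (nat_lit 2) (nat_lit 285) (nat_lit 311)))))) (n (nat_lit 309) (b (l (nat_lit 1) (nat_lit 284) (nat_lit 311)) (l (nat_lit 5) (nat_lit 284) (nat_lit 285))))) (b (n (nat_lit 311) (b (l (nat_lit 1) (nat_lit 284) (nat_lit 309)) (l (nat_lit 2) (nat_lit 285) (nat_lit 286)))) (n (nat_lit 263) (b (n (nat_lit 238) (b (l (nat_lit 7) (nat_lit 238) (nat_lit 314)) (l (nat_lit 6) (nat_lit 212) (nat_lit 213)))) (n (nat_lit 285) (b (l (nat_lit 1) (nat_lit 260) (nat_lit 286)) (l (nat_lit 5) (nat_lit 284) (nat_lit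 309))))))))) (l (nat_lit 3) (nat_lit 333) (nat_lit 333))))))))) (l (nat_lit 2) (nat_lit 358) (nat_lit 383)))) (n (nat_lit 359) (b (n (nat_lit 288) (b (b (n (nat_lit 290) (b (n (nat_lit 291) (b (n (nat_lit 316) (b (l (nat_lit 0) (nat_lit 288) (nat_lit 317)) (l (nat_lit 0) (nat_lit 287) (nat_lit 315)))) (n (nat_lit 266) (b (l (nat_lit 1) (nat_lit 263) (nat_lit 267)) (l (nat_lit 1) (nat_lit 262) (nat_lit 265)))))) (l (nat_lit 2) (nat_lit 286) (nat_lit 311)))) (n (nat_lit 311) (b (n (nat_lit 310) (b (l (nat_lit 1) (nat_lit 284) (nat_lit 309)) (l (nat_lit 2) (nat_lit 285) (nat_lit 286)))) (l (nat_lit 2) (nat_lit 286) (nat_lit 290))))) (n (nat_lit 286) (b (n (nat_lit 308) (b (n (nat_lit 285) (b (n (nat_lit 309) (b (l (nat_lit 2) (nat_lit 284) (nat_lit 310)) (l (nat_lit 2) (nat_lit 283) (nat_lit 284)))) (n (nat_lit 260) (b (l (nat_lit 3) (nat_lit 260) (nat_lit 261)) (l (nat_lit 3) (nat_lit 259) (nat_lit 259)))))) (n (nat_lit 333) (b (n (nat_lit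 358) (b (l (nat_lit 4) (nat_lit 283) (nat_lit 283)) (l (nat_lit 3) (nat_lit 332) (nat_lit 332)))) (l (nat_lit 3) (nat_lit 333) (nat_lit 334)))))) (n (nat_lit 314) (b (n (nat_lit 263) (b (n (nat_lit 264) (b (l (nat_lit 1) (nat_lit 261) (nat_lit 265)) (l (nat_lit 7) (nat_lit 238) (nat_lit 238)))) (l (nat_lit 7) (nat_lit 263) (nat_lit 364)))) (l (nat_lit 0) (nat_lit 286) (nat_lit 315)))))))) (l (nat_lit 2) (nat_lit 358) (nat_lit 383))))) (b (n (nat_lit 364) (b (n (nat_lit 390) (b (n (nat_lit 365) (b (l (nat_lit 0) (nat_lit 362) (nat_lit 391)) (l (nat_lit 4) (nat_lit 289) (nat_lit 314)))) (l (nat_lit 0) (nat_lit 361) (nat_lit 389)))) (l (nat_lit 1) (nat_lit 336) (nat_lit 340)))) (n (nat_lit 359) (b (n (nat_lit 288) (b (b (n (nat_lit 290) (b (n (nat_lit 291) (b (n (nat_lit 316) (b (l (nat_lit 0) (nat_lit 288) (nat_lit 317)) (l (nat_lit 0) (nat_lit 287) (nat_lit 315)))) (n (nat_lit 266) (b (l (nat_lit 1) (nat_lit 263) (nat_lit 267)) (l (nat_lit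 1) (nat_lit 262) (nat_lit 265)))))) (l (nat_lit 2) (nat_lit 286) (nat_lit 311)))) (n (nat_lit 311) (b (n (nat_lit 310) (b (l (nat_lit 1) (nat_lit 284) (nat_lit 309)) (l (nat_lit 2) (nat_lit 285) (nat_lit 286)))) (l (nat_lit 2) (nat_lit 286) (nat_lit 290))))) (b (n (nat_lit 310) (b (b (n (nat_lit 311) (b (l (nat_lit 1) (nat_lit 284) (nat_lit 309)) (l (nat_lit 2) (nat_lit 285) (nat_lit 286)))) (n (nat_lit 285) (b (n (nat_lit 334) (b (l (nat_lit 5) (nat_lit 284) (nat_lit 309)) (l (nat_lit 3) (nat_lit 333) (nat_lit 333)))) (n (nat_lit 286) (b (n (nat_lit 264) (b (l (nat_lit 1) (nat_lit 261) (nat_lit 265)) (l (nat_lit 1) (nat_lit 260) (nat_lit 263)))) (n (nat_lit 260) (b (l (nat_lit 3) (nat_lit 260) (nat_lit 261)) (l (nat_lit 3) (nat_lit 259) (nat_lit 259))))))))) (b (n (nat_lit 286) (b (n (nat_lit 285) (b (n (nat_lit 260) (b (l (nat_lit 3) (nat_lit 260) (nat_lit 261)) (l (nat_lit 3) (nat_lit 259) (nat_lit 259)))) (n (nat_lit 264) (b (l (nat_lit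 1) (nat_lit 261) (nat_lit 265)) (l (nat_lit 1) (nat_lit 260) (nat_lit 263)))))) (l (nat_lit 2) (nat_lit 285) (nat_lit 311)))) (n (nat_lit 334) (b (n (nat_lit 309) (b (l (nat_lit 1) (nat_lit 284) (nat_lit 311)) (l (nat_lit 5) (nat_lit 284) (nat_lit 285)))) (l (nat_lit 3) (nat_lit 333) (nat_lit 333))))))) (n (nat_lit 290) (b (b (n (nat_lit 291) (b (b (n (nat_lit 266) (b (l (nat_lit 1) (nat_lit 263) (nat_lit 267)) (l (nat_lit 1) (nat_lit 262) (nat_lit 265)))) (n (nat_lit 292) (b (n (nat_lit 317) (b (l (nat_lit 0) (nat_lit 288) (nat_lit 316)) (l (nat_lit 0) (nat_lit 289) (nat_lit 318)))) (n (nat_lit 264) (b (n (nat_lit 265) (b (l (nat_lit 1) (nat_lit 261) (nat_lit 286)) (l (nat_lit 3) (nat_lit 264) (nat_lit 293)))) (l (nat_lit 3) (nat_lit 263) (nat_lit 263))))))) (n (nat_lit 292) (b (n (nat_lit 267) (b (l (nat_lit 1) (nat_lit 263) (nat_lit 266)) (l (nat_lit 1) (nat_lit 264) (nat_lit 268)))) (n (nat_lit 317) (b (l (nat_lit 0) (nat_lit 288)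 (nat_lit 316)) (l (nat_lit 0) (nat_lit 289) (nat_lit 318)))))))) (n (nat_lit 265) (b (n (nat_lit 340) (b (n (nat_lit 264) (b (n (nat_lit 315) (b (l (nat_lit 7) (nat_lit 264) (nat_lit 365)) (l (nat_lit 7) (nat_lit 239) (nat_lit 239)))) (l (nat_lit 1) (nat_lit 261) (nat_lit 286)))) (l (nat_lit 1) (nat_lit 336) (nat_lit 364)))) (l (nat_lit 1) (nat_lit 262) (nat_lit 266))))) (b (n (nat_lit 291) (b (n (nat_lit 316) (b (l (nat_lit 0) (nat_lit 288) (nat_lit 317)) (l (nat_lit 0) (nat_lit 287) (nat_lit 315)))) (n (nat_lit 266) (b (l (nat_lit 1) (nat_lit 263) (nat_lit 267)) (l (nat_lit 1) (nat_lit 262) (nat_lit 265)))))) (n (nat_lit 340) (b (n (nat_lit 285) (b (b (n (nat_lit 286) (b (n (nat_lit 315) (b (n (nat_lit 264) (b (l (nat_lit 7) (nat_lit 264) (nat_lit 365)) (l (nat_lit 1) (nat_lit 260) (nat_lit 263)))) (l (nat_lit 0) (nat_lit 287) (nat_lit 316)))) (n (nat_lit 260) (b (l (nat_lit 3) (nat_lit 260) (nat_lit 261)) (l (nat_lit 3) (nat_lit 259)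 (nat_lit 259)))))) (n (nat_lit 334) (b (n (nat_lit 286) (b (n (nat_lit 315) (b (n (nat_lit 264) (b (l (nat_lit 7) (nat_lit 264) (nat_lit 365)) (l (nat_lit 1) (nat_lit 260) (nat_lit 263)))) (l (nat_lit 0) (nat_lit 287) (nat_lit 316)))) (n (nat_lit 309) (b (n (nat_lit 308) (b (l (nat_lit 2) (nat_lit 283) (nat_lit 284)) (l (nat_lit 7) (nat_lit 283) (nat_lit 283)))) (l (nat_lit 2) (nat_lit 284) (nat_lit 310)))))) (l (nat_lit 3) (nat_lit 333) (nat_lit 333))))) (n (nat_lit 334) (b (n (nat_lit 309) (b (n (nat_lit 284) (b (n (nat_lit 283) (b (l (nat_lit 7) (nat_lit 283) (nat_lit 308)) (l (nat_lit 7) (nat_lit 258) (nat_lit 258)))) (l (nat_lit 5) (nat_lit 259) (nat_lit 260)))) (l (nat_lit 5) (nat_lit 284) (nat_lit 310)))) (l (nat_lit 3) (nat_lit 333) (nat_lit 333)))))) (l (nat_lit 1) (nat_lit 336) (nat_lit 364)))))))))) (l (nat_lit 2) (nat_lit 358) (nat_lit 383))))))) (l (nat_lit 2) (nat_lit 359) (nat_lit 385)))) (l (nat_lit 1) (nat_lit 335) (nat_lit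 338)))))))
    envOK_nil (by decide +kernel)

theorem p10559 : Fam (nat_lit 6) (nat_lit 16439798079416832595226364177525359191629777842358239094951036800725463175802259104245892988693380921223544832) (nat_lit 2644224500667917623364905886016321613072358936829873798384214368344359416517851485343790241038549365401125715733527803199488) (nat_lit 2644224500667917623364905886016321613072358936829873798384214368344359416517851485343790241038549365401125715733527803199488) :=
  chk_sound Env.nil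
    (n (nat_lit 359) (b (b (b (n (nat_lit 384) (b (n (nat_lit 334) (b (n (nat_lit 385) (b (n (nat_lit 309) (b (l (nat_lit 4) (nat_lit 309) (nat_lit 410)) (l (nat_lit 4) (nat_lit 284) (nat_lit 284)))) (l (nat_lit 2) (nat_lit 359) (nat_lit 363)))) (l (nat_lit 3) (nat_lit 333) (nat_lit 333)))) (l (nat_lit 2) (nat_lit 358) (nat_lit 383)))) (n (nat_lit 358) (b (n (nat_lit 333) (b (l (nat_lit 3) (nat_lit 332) (nat_lit 332)) (l (nat_lit 3) (nat_lit 333) (nat_lit 334)))) (n (nat_lit 386) (b (n (nat_lit 385) (b (n (nat_lit 363) (b (l (nat_lit 2) (nat_lit 359) (nat_lit 384)) (l (nat_lit 2) (nat_lit 360) (nat_lit 364)))) (l (nat_lit 0) (nat_lit 357) (nat_lit 357)))) (l (nat_lit 0) (nat_lit 358) (nat_lit 387))))))) (b (n (nat_lit 358) (b (n (nat_lit 357) (b (n (nat_lit 382) (b (l (nat_lit 2) (nat_lit 357) (nat_lit 383)) (l (nat_lit 2) (nat_lit 356) (nat_lit 381)))) (n (nat_lit 386) (b (l (nat_lit 0) (nat_lit 357) (nat_lit 385)) (l (nat_lit 0) (nat_lit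 358) (nat_lit 387)))))) (n (nat_lit 333) (b (l (nat_lit 3) (nat_lit 332) (nat_lit 332)) (l (nat_lit 3) (nat_lit 333) (nat_lit 334)))))) (n (nat_lit 358) (b (n (nat_lit 383) (b (l (nat_lit 2) (nat_lit 358) (nat_lit 384)) (l (nat_lit 2) (nat_lit 357) (nat_lit 382)))) (n (nat_lit 333) (b (l (nat_lit 3) (nat_lit 332) (nat_lit 332)) (l (nat_lit 3) (nat_lit 333) (nat_lit 334)))))))) (n (nat_lit 358) (b (b (n (nat_lit 386) (b (n (nat_lit 385) (b (n (nat_lit 363) (b (l (nat_lit 2) (nat_lit 359) (nat_lit 384)) (l (nat_lit 2) (nat_lit 360) (nat_lit 364)))) (l (nat_lit 0) (nat_lit 357) (nat_lit 357)))) (l (nat_lit 0) (nat_lit 358) (nat_lit 387)))) (n (nat_lit 383) (b (l (nat_lit 2) (nat_lit 358) (nat_lit 384)) (l (nat_lit 2) (nat_lit 357) (nat_lit 382))))) (n (nat_lit 357) (b (n (nat_lit 382) (b (l (nat_lit 2) (nat_lit 357) (nat_lit 383)) (l (nat_lit 2) (nat_lit 356) (nat_lit 381)))) (n (nat_lit 386) (b (l (nat_lit 0) (nat_lit 357) (nat_lit 385))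 (l (nat_lit 0) (nat_lit 358) (nat_lit 387))))))))))
    envOK_nil (by decide +kernel)

theorem p10563 : Fam (nat_lit 9) (nat_lit 16439798079416840938925971905198573440504395258295260172185627484475744455292259891780143399069035715106963456) (nat_lit 83359682096326936879336447677478377978013855194627520657632238687098761263288429870880452245934628830502617419094215754691525118478413463552) (nat_lit 83359682096326936879336447677478377978013855194627520657632238687098761263288429870880452245934628830502617419094215754691525118478413463552) :=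
  chk_sound Env.nil
    (n (nat_lit 363) (b (b (n (nat_lit 364) (b (n (nat_lit 386) (b (n (nat_lit 336) (b (l (nat_lit 5) (nat_lit 286) (nat_lit 311)) (l (nat_lit 3) (nat_lit 335) (nat_lit 335)))) (l (nat_lit 2) (nat_lit 360) (nat_lit 385)))) (n (nat_lit 339) (b (l (nat_lit 1) (nat_lit 336) (nat_lit 340)) (l (nat_lit 1) (nat_lit 335) (nat_lit 338)))))) (n (nat_lit 388) (b (n (nat_lit 387) (b (n (nat_lit 338) (b (n (nat_lit 413) (b (b (n (nat_lit 437) (b (n (nat_lit 438) (b (l (nat_lit 6) (nat_lit 362) (nat_lit 462)) (l (nat_lit 7) (nat_lit 362) (nat_lit 463)))) (l (nat_lit 6) (nat_lit 337) (nat_lit 412)))) (n (nat_lit 414) (b (n (nat_lit 415) (b (n (nat_lit 412) (b (l (nat_lit 3) (nat_lit 386) (nat_lit 386)) (l (nat_lit 6) (nat_lit 337) (nat_lit 437)))) (l (nat_lit 3) (nat_lit 387) (nat_lit 416)))) (l (nat_lit 4) (nat_lit 338) (nat_lit 439))))) (n (nat_lit 438) (b (n (nat_lit 439) (b (l (nat_lit 4) (nat_lit 363) (nat_lit 464)) (l (nat_lit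 4) (nat_lit 338) (nat_lit 414)))) (l (nat_lit 7) (nat_lit 362) (nat_lit 463)))))) (l (nat_lit 1) (nat_lit 335) (nat_lit 339)))) (l (nat_lit 0) (nat_lit 359) (nat_lit 359)))) (l (nat_lit 0) (nat_lit 360) (nat_lit 389))))) (b (n (nat_lit 364) (b (n (nat_lit 386) (b (n (nat_lit 336) (b (l (nat_lit 5) (nat_lit 286) (nat_lit 311)) (l (nat_lit 3) (nat_lit 335) (nat_lit 335)))) (l (nat_lit 2) (nat_lit 360) (nat_lit 385)))) (n (nat_lit 389) (b (l (nat_lit 0) (nat_lit 360) (nat_lit 388)) (l (nat_lit 0) (nat_lit 361) (nat_lit 390)))))) (n (nat_lit 364) (b (n (nat_lit 389) (b (l (nat_lit 0) (nat_lit 360) (nat_lit 388)) (l (nat_lit 0) (nat_lit 361) (nat_lit 390)))) (n (nat_lit 339) (b (l (nat_lit 1) (nat_lit 336) (nat_lit 340)) (l (nat_lit 1) (nat_lit 335) (nat_lit 338)))))))))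
    envOK_nil (by decide +kernel)

theorem p10575 : Fam (nat_lit 8) (nat_lit 16439798079416832595226364177525359191629777842358239094951036800725463175802259104245892988693380921223544832) (nat_lit 1488565773901480198137609259142918000250862157299365790597189695951081996270062541331684636730139339991350911847646219656461706372961009664) (nat_lit 1488565773901480198137609259142918000250862157299365790597189695951081996270062541331684636730139339991350911847646219656461706372961009664) :=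
  chk_sound (Env.cons (nat_lit 5) (nat_lit 17614069370803749209171104475920027705317619116812399030304682286491567688359563325977742487885765272739512320) (nat_lit 34476774063402197858887453902892294402590270594050897646761453905816519159836210196222901286877350250980861735337984) Env.nil)
    (n (nat_lit 359) (b (b (r (nat_lit 0)) (n (nat_lit 358) (b (n (nat_lit 387) (b (l (nat_lit 0) (nat_lit 358) (nat_lit 386)) (l (nat_lit 0) (nat_lit 359) (nat_lit 388)))) (n (nat_lit 333) (b (l (nat_lit 3) (nat_lit 332) (nat_lit 332)) (l (nat_lit 3) (nat_lit 333) (nat_lit 334))))))) (b (n (nat_lit 358) (b (n (nat_lit 383) (b (l (nat_lit 2) (nat_lit 358) (nat_lit 384)) (l (nat_lit 2) (nat_lit 357) (nat_lit 382)))) (n (nat_lit 387) (b (l (nat_lit 0) (nat_lit 358) (nat_lit 386)) (l (nat_lit 0) (nat_lit 359) (nat_lit 388)))))) (n (nat_lit 384) (b (n (nat_lit 334) (b (n (nat_lit 387) (b (n (nat_lit 385) (b (n (nat_lit 409) (b (n (nat_lit 434) (b (l (nat_lit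 5) (nat_lit 334) (nat_lit 335)) (l (nat_lit 5) (nat_lit 359) (nat_lit 459)))) (n (nat_lit 408) (b (l (nat_lit 6) (nat_lit 333) (nat_lit 433)) (l (nat_lit 2) (nat_lit 383) (nat_lit 386)))))) (n (nat_lit 309) (b (l (nat_lit 4) (nat_lit 309) (nat_lit 410)) (l (nat_lit 4) (nat_lit 284) (nat_lit 284)))))) (l (nat_lit 0) (nat_lit 359) (nat_lit 388)))) (l (nat_lit 3) (nat_lit 333) (nat_lit 333)))) (l (nat_lit 2) (nat_lit 358) (nat_lit 383)))))))
    (envOK_cons p10413 envOK_nil) (by decide +kernel)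

theorem p10601 : Fam (nat_lit 5) (nat_lit 7045627818313531220424431097961296598765548753963402477939261563971567759952322092305376948682382567716945920) (nat_lit 177450865712180137747051523395313392541769649381444763015795575987376687431636447061116294479801897030965759055854145930483468337152) (nat_lit 177450865712180137747051523395313392541769649381444763015795575987376687431636447061116294479801897030965759055854145930483468337152) :=
  chk_sound Env.nil
    (n (nat_lit 310) (b (b (n (nat_lit 311) (b (b (n (nat_lit 309) (b (n (nat_lit 284) (b (l (nat_lit 7) (nat_lit 284) (nat_lit 385)) (l (nat_lit 3) (nat_lit 283) (nat_lit 283)))) (l (nat_lit 1) (nat_lit 284) (nat_lit 288)))) (n (nat_lit 286) (b (n (nat_lit 261) (b (l (nat_lit 6) (nat_lit 235) (nat_lit 236)) (l (nat_lit 5) (nat_lit 260) (nat_lit 285)))) (l (nat_lit 5) (nat_lit 285) (nat_lit 385))))) (n (nat_lit 286) (b (n (nat_lit 288) (b (l (nat_lit 2) (nat_lit 285) (nat_lit 289))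 (l (nat_lit 1) (nat_lit 284) (nat_lit 309)))) (n (nat_lit 261) (b (l (nat_lit 5) (nat_lit 260) (nat_lit 285)) (l (nat_lit 6) (nat_lit 260) (nat_lit 336)))))))) (n (nat_lit 311) (b (b (n (nat_lit 386) (b (n (nat_lit 411) (b (l (nat_lit 4) (nat_lit 310) (nat_lit 385)) (l (nat_lit 7) (nat_lit 335) (nat_lit 436)))) (l (nat_lit 5) (nat_lit 286) (nat_lit 336)))) (n (nat_lit 286) (b (n (nat_lit 288) (b (l (nat_lit 2) (nat_lit 285) (nat_lit 289)) (l (nat_lit 1) (nat_lit 284) (nat_lit 309)))) (l (nat_lit 5) (nat_lit 285) (nat_lit 385))))) (n (nat_lit 286) (b (n (nat_lit 261) (b (l (nat_lit 6) (nat_lit 235) (nat_lit 236)) (l (nat_lit 6) (nat_lit 260) (nat_lit 336)))) (n (nat_lit 309) (b (l (nat_lit 1) (nat_lit 284) (nat_lit 288)) (l (nat_lit 1) (nat_lit 283) (nat_lit 308))))))))) (b (n (nat_lit 386) (b (n (nat_lit 336) (b (l (nat_lit 7) (nat_lit 310) (nat_lit 411)) (l (nat_lit 5) (nat_lit 286) (nat_lit 311)))) (l (nat_lit 4) (nat_lit 285) (nat_lit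 285)))) (n (nat_lit 386) (b (n (nat_lit 411) (b (l (nat_lit 4) (nat_lit 310) (nat_lit 385)) (l (nat_lit 7) (nat_lit 335) (nat_lit 436)))) (l (nat_lit 4) (nat_lit 285) (nat_lit 285)))))))
    envOK_nil (by decide +kernel)

theorem p10610 : Fam (nat_lit 5) (nat_lit 2348542652765858506870950604841365527349028862537051986413774279150987755499644788718626078942483766256336896) (nat_lit 39402009719208458361067582628975004859506136205251211571022506405652307957595361641856727686152151144313580383371264) (nat_lit 39402009719208458361067582628975004859506136205251211571022506405652307957595361641856727686152151144313580383371264) :=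
  chk_sound Env.nil
    (n (nat_lit 285) (b (b (n (nat_lit 260) (b (n (nat_lit 235) (b (n (nat_lit 334) (b (l (nat_lit 6) (nat_lit 259) (nat_lit 359)) (l (nat_lit 6) (nat_lit 234) (nat_lit 309)))) (n (nat_lit 234) (b (l (nat_lit 7) (nat_lit 234) (nat_lit 259)) (l (nat_lit 7) (nat_lit 209) (nat_lit 209)))))) (n (nat_lit 261) (b (l (nat_lit 5) (nat_lit 235) (nat_lit 236)) (l (nat_lit 5) (nat_lit 260) (nat_lit 286)))))) (n (nat_lit 286) (b (n (nat_lit 309) (b (n (nat_lit 308) (b (l (nat_lit 2) (nat_lit 283) (nat_lit 284)) (l (nat_lit 1) (nat_lit 282) (nat_lit 307)))) (l (nat_lit 2) (nat_lit 284) (nat_lit 288)))) (l (nat_lit 5) (nat_lit 260) (nat_lit 261))))) (n (nat_lit 260) (b (n (nat_lit 359) (b (l (nat_lit 6) (nat_lit 259) (nat_lit 334)) (l (nat_lit 6) (nat_lit 284) (nat_lit 384)))) (n (nat_lit 259) (b (l (nat_lit 7) (nat_lit 259) (nat_lit 284)) (l (nat_lit 7) (nat_lit 234) (nat_lit 234))))))))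
    envOK_nil (by decide +kernel)

theorem p10621 : Fam (nat_lit 7) (nat_lit 2348542652765866850570061009278169989581490896225926242808264506750471687272205112275983329821126026764222464) (nat_lit 39402009719208458361079185585173533265156094626957593330577714471331401165623684190325935705157908546060929896284160) (nat_lit 39402009719208458361079185585173533265156094626957593330577714471331401165623684190325935705157908546060929896284160) :=
  chk_sound Env.nil
    (n (nat_lit 285) (b (b (n (nat_lit 260) (b (n (nat_lit 359) (b (l (nat_lit 6) (nat_lit 259) (nat_lit 334)) (l (nat_lit 6) (nat_lit 284) (nat_lit 384)))) (n (nat_lit 261) (b (l (nat_lit 5) (nat_lit 235) (nat_lit 236)) (l (nat_lit 5) (nat_lit 260) (nat_lit 286)))))) (n (nat_lit 260) (b (n (nat_lit 359) (b (l (nat_lit 6) (nat_lit 259) (nat_lit 334)) (l (nat_lit 6) (nat_lit 284) (nat_lit 384)))) (n (nat_lit 259) (b (l (nat_lit 7) (nat_lit 259) (nat_lit 284)) (l (nat_lit 7) (nat_lit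 234) (nat_lit 234))))))) (n (nat_lit 286) (b (n (nat_lit 284) (b (n (nat_lit 283) (b (n (nat_lit 282) (b (n (nat_lit 307) (b (l (nat_lit 2) (nat_lit 281) (nat_lit 306)) (l (nat_lit 2) (nat_lit 282) (nat_lit 308)))) (n (nat_lit 257) (b (l (nat_lit 3) (nat_lit 256) (nat_lit 256)) (l (nat_lit 3) (nat_lit 257) (nat_lit 258)))))) (l (nat_lit 0) (nat_lit 283) (nat_lit 311)))) (l (nat_lit 7) (nat_lit 259) (nat_lit 259)))) (l (nat_lit 5) (nat_lit 260) (nat_lit 261))))))
    envOK_nil (by decide +kernel)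

theorem p10638 : Fam (nat_lit 5) (nat_lit 2348542652765866850570309670896374882902568587349999653228314734825870361130925344264429909569632293451988992) (nat_lit 39402009719208624592135181689872712968372538662582151020701617892116702533782974432209264985702927852709468543385600) (nat_lit 39402009719208624592135181689872712968372538662582151020701617892116702533782974432209264985702927852709468543385600) :=
  chk_sound Env.nil
    (n (nat_lit 285) (b (b (n (nat_lit 260) (b (n (nat_lit 235) (b (n (nat_lit 234) (b (l (nat_lit 7) (nat_lit 234) (nat_lit 259)) (l (nat_lit 7) (nat_lit 209) (nat_lit 209)))) (n (nat_lit 236) (b (l (nat_lit 5) (nat_lit 210) (nat_lit 211)) (l (nat_lit 5) (nat_lit 235) (nat_lit 261)))))) (n (nat_lit 359) (b (l (nat_lit 6) (nat_lit 259) (nat_lit 334)) (l (nat_lit 6) (nat_lit 284) (nat_lit 384)))))) (n (nat_lit 311) (b (n (nat_lit 334) (b (n (nat_lit 359) (b (l (nat_lit 6) (nat_lit 259) (nat_lit 260)) (l (nat_lit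 6) (nat_lit 284) (nat_lit 384)))) (n (nat_lit 333) (b (l (nat_lit 1) (nat_lit 308) (nat_lit 336)) (l (nat_lit 1) (nat_lit 307) (nat_lit 332)))))) (n (nat_lit 288) (b (n (nat_lit 289) (b (l (nat_lit 2) (nat_lit 285) (nat_lit 286)) (l (nat_lit 2) (nat_lit 286) (nat_lit 290)))) (l (nat_lit 1) (nat_lit 284) (nat_lit 309))))))) (n (nat_lit 286) (b (n (nat_lit 309) (b (n (nat_lit 308) (b (l (nat_lit 1) (nat_lit 283) (nat_lit 311)) (l (nat_lit 1) (nat_lit 282) (nat_lit 307)))) (l (nat_lit 2) (nat_lit 284) (nat_lit 288)))) (l (nat_lit 5) (nat_lit 260) (nat_lit 261))))))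
    envOK_nil (by decide +kernel)

theorem p10657 : Fam (nat_lit 5) (nat_lit 2348542687761878447098500460856410516784510433000710547519713717638200063690173331454444681145843125820850176) (nat_lit 1322111996683511042797048530883713992409002494567338177122497448113840303153530030976118631881494130117496520684852029161472) (nat_lit 1322111996683511042797048530883713992409002494567338177122497448113840303153530030976118631881494130117496520684852029161472) :=
  chk_sound Env.nil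
    (n (nat_lit 309) (b (b (n (nat_lit 359) (b (b (n (nat_lit 308) (b (n (nat_lit 307) (b (l (nat_lit 0) (nat_lit 306) (nat_lit 306)) (l (nat_lit 0) (nat_lit 307) (nat_lit 336)))) (n (nat_lit 384) (b (l (nat_lit 5) (nat_lit 309) (nat_lit 409)) (l (nat_lit 7) (nat_lit 283) (nat_lit 283)))))) (n (nat_lit 358) (b (n (nat_lit 357) (b (l (nat_lit 1) (nat_lit 331) (nat_lit 356)) (l (nat_lit 1) (nat_lit 332) (nat_lit 336)))) (n (nat_lit 284) (b (l (nat_lit 4) (nat_lit 259) (nat_lit 259)) (l (nat_lit 6) (nat_lit 283) (nat_lit 383))))))) (n (nat_lit 283) (b (n (nat_lit 384) (b (l (nat_lit 5) (nat_lit 309) (nat_lit 409)) (l (nat_lit 7) (nat_lit 283) (nat_lit 308)))) (n (nat_lit 284) (b (l (nat_lit 7) (nat_lit 258) (nat_lit 258)) (l (nat_lit 4) (nat_lit 259) (nat_lit 259)))))))) (n (nat_lit 308) (b (n (nat_lit 307) (b (l (nat_lit 0) (nat_lit 306) (nat_lit 306)) (l (nat_lit 0) (nat_lit 307) (nat_lit 336)))) (n (nat_lit 311) (b (l (nat_lit 1) (nat_lit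 283) (nat_lit 286)) (l (nat_lit 1) (nat_lit 284) (nat_lit 288))))))) (n (nat_lit 311) (b (n (nat_lit 284) (b (l (nat_lit 4) (nat_lit 259) (nat_lit 259)) (l (nat_lit 3) (nat_lit 283) (nat_lit 283)))) (l (nat_lit 1) (nat_lit 284) (nat_lit 288))))))
    envOK_nil (by decide +kernel)

theorem p10686 : Fam (nat_lit 8) (nat_lit 78804024135501942285747412704071791476915883183227329178917728927744266828698951914366724208294366357878435878010880) (nat_lit 7442831331638149526063230358913829268555923643979055490169955713621317715614432936382092551282102709718372607214724330566528639074243182592) (nat_lit 7442831331638149526063230358913829268555923643979055490169955713621317715614432936382092551282102709718372607214724330566528639074243182592) :=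
  chk_sound Env.nil
    (n (nat_lit 410) (b (b (n (nat_lit 435) (b (n (nat_lit 336) (b (l (nat_lit 5) (nat_lit 310) (nat_lit 311)) (l (nat_lit 5) (nat_lit 335) (nat_lit 361)))) (n (nat_lit 436) (b (l (nat_lit 4) (nat_lit 335) (nat_lit 411)) (l (nat_lit 4) (nat_lit 360) (nat_lit 461)))))) (n (nat_lit 435) (b (n (nat_lit 336) (b (l (nat_lit 5) (nat_lit 310) (nat_lit 311)) (l (nat_lit 5) (nat_lit 335) (nat_lit 361)))) (n (nat_lit 434) (b (l (nat_lit 6) (nat_lit 334) (nat_lit 409)) (l (nat_lit 6) (nat_lit 359) (nat_lit 459))))))) (b (n (nat_lit 435) (b (n (nat_lit 434) (b (l (nat_lit 6) (nat_lit 334) (nat_lit 409)) (l (nat_lit 6) (nat_lit 359) (nat_lit 459)))) (n (nat_lit 436) (b (l (nat_lit 4) (nat_lit 335) (nat_lit 411)) (l (nat_lit 4) (nat_lit 360) (nat_lit 461)))))) (n (nat_lit 411) (b (n (nat_lit 409) (b (n (nat_lit 412) (b (b (n (nat_lit 384) (b (l (nat_lit 3) (nat_lit 384) (nat_lit 413)) (l (nat_lit 3) (nat_lit 383) (nat_lit 383))))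 (n (nat_lit 336) (b (n (nat_lit 361) (b (n (nat_lit 437) (b (l (nat_lit 0) (nat_lit 409) (nat_lit 438)) (l (nat_lit 4) (nat_lit 336) (nat_lit 386)))) (n (nat_lit 384) (b (l (nat_lit 2) (nat_lit 359) (nat_lit 363)) (l (nat_lit 3) (nat_lit 383) (nat_lit 383)))))) (l (nat_lit 5) (nat_lit 310) (nat_lit 311))))) (n (nat_lit 413) (b (n (nat_lit 414) (b (n (nat_lit 389) (b (l (nat_lit 1) (nat_lit 386) (nat_lit 390)) (l (nat_lit 1) (nat_lit 385) (nat_lit 388)))) (l (nat_lit 3) (nat_lit 385) (nat_lit 386)))) (n (nat_lit 438) (b (l (nat_lit 0) (nat_lit 409) (nat_lit 437)) (l (nat_lit 0) (nat_lit 410) (nat_lit 439)))))))) (l (nat_lit 6) (nat_lit 334) (nat_lit 434)))) (l (nat_lit 4) (nat_lit 335) (nat_lit 436)))))))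
    envOK_nil (by decide +kernel)

theorem p10739 : Fam (nat_lit 8) (nat_lit 78804014741331611190414501146149404319567773680497133545638246098580380699862851455932950353498372818803623750270976) (nat_lit 7442828880598098772524424273894704222697794727185255634934113020333625735530861489274783724990042516118320610867205310351644051536382787584) (nat_lit 7442828880598098772524424273894704222697794727185255634934113020333625735530861489274783724990042516118320610867205310351644051536382787584) :=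
  chk_sound Env.nil
    (n (nat_lit 410) (b (b (n (nat_lit 435) (b (n (nat_lit 334) (b (l (nat_lit 7) (nat_lit 309) (nat_lit 309)) (l (nat_lit 7) (nat_lit 334) (nat_lit 359)))) (n (nat_lit 436) (b (l (nat_lit 4) (nat_lit 335) (nat_lit 411)) (l (nat_lit 4) (nat_lit 360) (nat_lit 461)))))) (n (nat_lit 435) (b (n (nat_lit 334) (b (l (nat_lit 7) (nat_lit 309) (nat_lit 309)) (l (nat_lit 7) (nat_lit 334) (nat_lit 359)))) (n (nat_lit 434) (b (l (nat_lit 6) (nat_lit 334) (nat_lit 409)) (l (nat_lit 6) (nat_lit 359) (nat_lit 459))))))) (b (n (nat_lit 435) (b (n (nat_lit 434) (b (l (nat_lit 6) (nat_lit 334) (nat_lit 409)) (l (nat_lit 6) (nat_lit 359) (nat_lit 459)))) (n (nat_lit 436) (b (l (nat_lit 4) (nat_lit 335) (nat_lit 411)) (l (nat_lit 4) (nat_lit 360) (nat_lit 461)))))) (n (nat_lit 409) (b (n (nat_lit 411) (b (n (nat_lit 334) (b (n (nat_lit 384) (b (n (nat_lit 408) (b (n (nat_lit 407) (b (l (nat_lit 1) (nat_lit 381) (nat_lit 406)) (l (nat_lit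 1) (nat_lit 382) (nat_lit 386)))) (n (nat_lit 433) (b (l (nat_lit 6) (nat_lit 333) (nat_lit 359)) (l (nat_lit 2) (nat_lit 407) (nat_lit 432)))))) (n (nat_lit 412) (b (l (nat_lit 3) (nat_lit 384) (nat_lit 413)) (l (nat_lit 3) (nat_lit 383) (nat_lit 383)))))) (l (nat_lit 7) (nat_lit 309) (nat_lit 309)))) (l (nat_lit 4) (nat_lit 335) (nat_lit 436)))) (l (nat_lit 6) (nat_lit 334) (nat_lit 434)))))))
    envOK_nil (by decide +kernel)

theorem p10746 : Fam (nat_lit 10) (nat_lit 11742712913869174483147010711619899385753030160478620430771045541411326405063043004852745402299498309043093504) (nat_lit 7814972791749537740322217696969833508310112720785194467935833697585401957686126278375864505288780931171212573520210656445484166908668280832) (nat_lit 7814972791749537740322217696969833508310112720785194467935833697585401957686126278375864505288780931171212573520210656445484166908668280832) :=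
  chk_sound (Env.cons (nat_lit 5) (nat_lit 7045627818313531220424431097961296598765548753963402477939261563971567759952322092305376948682382567716945920) (nat_lit 177450865712180137747051523395313392541769649381444763015795575987376687431636447061116294479801897030965759055854145930483468337152) (Env.cons (nat_lit 5) (nat_lit 2348542652765858506870950604841365527349028862537051986413774279150987755499644788718626078942483766256336896) (nat_lit 39402009719208458361067582628975004859506136205251211571022506405652307957595361641856727686152151144313580383371264) (Env.cons (nat_lit 7) (nat_lit 2348542652765866850570061009278169989581490896225926242808264506750471687272205112275983329821126026764222464) (nat_lit 39402009719208458361079185585173533265156094626957593330577714471331401165623684190325935705157908546060929896284160) (Env.cons (nat_lit 5) (nat_lit 2348542652765866850570309670896374882902568587349999653228314734825870361130925344264429909569632293451988992)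 (nat_lit 39402009719208624592135181689872712968372538662582151020701617892116702533782974432209264985702927852709468543385600) (Env.cons (nat_lit 5) (nat_lit 2348542687761878447098500460856410516784510433000710547519713717638200063690173331454444681145843125820850176) (nat_lit 1322111996683511042797048530883713992409002494567338177122497448113840303153530030976118631881494130117496520684852029161472) (Env.cons (nat_lit 8) (nat_lit 78804024135501942285747412704071791476915883183227329178917728927744266828698951914366724208294366357878435878010880) (nat_lit 7442831331638149526063230358913829268555923643979055490169955713621317715614432936382092551282102709718372607214724330566528639074243182592) (Env.cons (nat_lit 8) (nat_lit 78804014741331611190414501146149404319567773680497133545638246098580380699862851455932950353498372818803623750270976) (nat_lit 7442828880598098772524424273894704222697794727185255634934113020333625735530861489274783724990042516118320610867205310351644051536382787584)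 Env.nil)))))))
    (n (nat_lit 335) (b (b (b (b (n (nat_lit 361) (b (b (n (nat_lit 363) (b (n (nat_lit 364) (b (n (nat_lit 389) (b (l (nat_lit 0) (nat_lit 360) (nat_lit 388)) (l (nat_lit 0) (nat_lit 361) (nat_lit 390)))) (n (nat_lit 385) (b (l (nat_lit 2) (nat_lit 360) (nat_lit 386)) (l (nat_lit 2) (nat_lit 359) (nat_lit 384)))))) (l (nat_lit 3) (nat_lit 334) (nat_lit 334)))) (n (nat_lit 363) (b (n (nat_lit 364) (b (n (nat_lit 389) (b (l (nat_lit 0) (nat_lit 360) (nat_lit 388)) (l (nat_lit 0) (nat_lit 361) (nat_lit 390)))) (n (nat_lit 339) (b (l (nat_lit 1) (nat_lit 336) (nat_lit 340)) (l (nat_lit 1) (nat_lit 335) (nat_lit 338)))))) (n (nat_lit 385) (b (n (nat_lit 311) (b (n (nat_lit 310) (b (n (nat_lit 309) (b (l (nat_lit 1) (nat_lit 284) (nat_lit 288)) (l (nat_lit 7) (nat_lit 284) (nat_lit 284)))) (l (nat_lit 5) (nat_lit 285) (nat_lit 286)))) (n (nat_lit 336) (b (l (nat_lit 5) (nat_lit 286) (nat_lit 386)) (l (nat_lit 5) (nat_lit 310)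 (nat_lit 410)))))) (l (nat_lit 2) (nat_lit 359) (nat_lit 384))))))) (b (n (nat_lit 334) (b (n (nat_lit 333) (b (l (nat_lit 0) (nat_lit 333) (nat_lit 336)) (l (nat_lit 0) (nat_lit 332) (nat_lit 332)))) (l (nat_lit 3) (nat_lit 334) (nat_lit 363)))) (n (nat_lit 359) (b (b (n (nat_lit 358) (b (n (nat_lit 383) (b (l (nat_lit 2) (nat_lit 358) (nat_lit 384)) (l (nat_lit 2) (nat_lit 357) (nat_lit 382)))) (n (nat_lit 333) (b (l (nat_lit 3) (nat_lit 332) (nat_lit 332)) (l (nat_lit 3) (nat_lit 333) (nat_lit 334)))))) (n (nat_lit 384) (b (n (nat_lit 310) (b (n (nat_lit 409) (b (l (nat_lit 5) (nat_lit 334) (nat_lit 434)) (l (nat_lit 6) (nat_lit 309) (nat_lit 385)))) (l (nat_lit 6) (nat_lit 284) (nat_lit 285)))) (l (nat_lit 2) (nat_lit 358) (nat_lit 383))))) (n (nat_lit 336) (b (n (nat_lit 311) (b (n (nat_lit 286) (b (l (nat_lit 6) (nat_lit 260) (nat_lit 261)) (l (nat_lit 6) (nat_lit 285) (nat_lit 385)))) (l (nat_lit 5) (nat_lit 286) (nat_lit 386))))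 (n (nat_lit 333) (b (n (nat_lit 358) (b (l (nat_lit 3) (nat_lit 332) (nat_lit 332)) (l (nat_lit 1) (nat_lit 332) (nat_lit 357)))) (l (nat_lit 3) (nat_lit 333) (nat_lit 334))))))))))) (n (nat_lit 361) (b (b (r (nat_lit 0)) (n (nat_lit 334) (b (n (nat_lit 333) (b (l (nat_lit 0) (nat_lit 333) (nat_lit 336)) (l (nat_lit 0) (nat_lit 332) (nat_lit 332)))) (l (nat_lit 3) (nat_lit 334) (nat_lit 363))))) (n (nat_lit 363) (b (n (nat_lit 364) (b (n (nat_lit 389) (b (l (nat_lit 0) (nat_lit 360) (nat_lit 388)) (l (nat_lit 0) (nat_lit 361) (nat_lit 390)))) (n (nat_lit 385) (b (l (nat_lit 2) (nat_lit 360) (nat_lit 386)) (l (nat_lit 2) (nat_lit 359) (nat_lit 384)))))) (l (nat_lit 3) (nat_lit 334) (nat_lit 334))))))) (b (n (nat_lit 310) (b (b (n (nat_lit 285) (b (b (n (nat_lit 385) (b (n (nat_lit 386) (b (l (nat_lit 4) (nat_lit 310) (nat_lit 411)) (l (nat_lit 4) (nat_lit 285) (nat_lit 361)))) (n (nat_lit 284) (b (l (nat_lit 7) (nat_lit 284) (nat_lit 309))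 (l (nat_lit 7) (nat_lit 259) (nat_lit 259)))))) (n (nat_lit 260) (b (n (nat_lit 361) (b (l (nat_lit 4) (nat_lit 285) (nat_lit 386)) (l (nat_lit 4) (nat_lit 260) (nat_lit 336)))) (n (nat_lit 261) (b (l (nat_lit 5) (nat_lit 235) (nat_lit 236)) (l (nat_lit 5) (nat_lit 260) (nat_lit 286))))))) (n (nat_lit 260) (b (n (nat_lit 261) (b (l (nat_lit 5) (nat_lit 235) (nat_lit 236)) (l (nat_lit 5) (nat_lit 260) (nat_lit 286)))) (n (nat_lit 259) (b (l (nat_lit 7) (nat_lit 259) (nat_lit 284)) (l (nat_lit 7) (nat_lit 234) (nat_lit 234)))))))) (n (nat_lit 361) (b (n (nat_lit 386) (b (n (nat_lit 411) (b (l (nat_lit 7) (nat_lit 310) (nat_lit 336)) (l (nat_lit 7) (nat_lit 335) (nat_lit 436)))) (l (nat_lit 4) (nat_lit 285) (nat_lit 285)))) (n (nat_lit 334) (b (n (nat_lit 333) (b (l (nat_lit 0) (nat_lit 332) (nat_lit 332)) (l (nat_lit 3) (nat_lit 333) (nat_lit 359)))) (l (nat_lit 3) (nat_lit 334) (nat_lit 363))))))) (b (r (nat_lit 1)) (n (nat_lit 385) (b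 (b (n (nat_lit 410) (b (n (nat_lit 309) (b (l (nat_lit 7) (nat_lit 309) (nat_lit 334)) (l (nat_lit 7) (nat_lit 284) (nat_lit 284)))) (n (nat_lit 411) (b (l (nat_lit 4) (nat_lit 335) (nat_lit 436)) (l (nat_lit 4) (nat_lit 310) (nat_lit 386)))))) (n (nat_lit 410) (b (n (nat_lit 309) (b (l (nat_lit 7) (nat_lit 309) (nat_lit 334)) (l (nat_lit 7) (nat_lit 284) (nat_lit 284)))) (n (nat_lit 409) (b (l (nat_lit 6) (nat_lit 334) (nat_lit 434)) (l (nat_lit 6) (nat_lit 309) (nat_lit 384))))))) (b (n (nat_lit 410) (b (n (nat_lit 411) (b (l (nat_lit 4) (nat_lit 335) (nat_lit 436)) (l (nat_lit 4) (nat_lit 310) (nat_lit 386)))) (n (nat_lit 409) (b (l (nat_lit 6) (nat_lit 334) (nat_lit 434)) (l (nat_lit 6) (nat_lit 309) (nat_lit 384)))))) (n (nat_lit 361) (b (b (n (nat_lit 384) (b (n (nat_lit 386) (b (l (nat_lit 1) (nat_lit 358) (nat_lit 383)) (l (nat_lit 4) (nat_lit 310) (nat_lit 411)))) (l (nat_lit 6) (nat_lit 309) (nat_lit 409)))) (n (nat_lit 384)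 (b (l (nat_lit 2) (nat_lit 359) (nat_lit 363)) (l (nat_lit 6) (nat_lit 309) (nat_lit 409))))) (n (nat_lit 363) (b (n (nat_lit 364) (b (l (nat_lit 2) (nat_lit 360) (nat_lit 386)) (l (nat_lit 3) (nat_lit 335) (nat_lit 336)))) (l (nat_lit 3) (nat_lit 334) (nat_lit 334)))))))))))) (n (nat_lit 310) (b (b (n (nat_lit 361) (b (n (nat_lit 386) (b (n (nat_lit 411) (b (l (nat_lit 7) (nat_lit 310) (nat_lit 336)) (l (nat_lit 7) (nat_lit 335) (nat_lit 436)))) (l (nat_lit 4) (nat_lit 285) (nat_lit 285)))) (n (nat_lit 334) (b (n (nat_lit 333) (b (l (nat_lit 0) (nat_lit 332) (nat_lit 332)) (l (nat_lit 3) (nat_lit 333) (nat_lit 359)))) (l (nat_lit 3) (nat_lit 334) (nat_lit 363)))))) (r (nat_lit 2))) (n (nat_lit 385) (b (b (n (nat_lit 410) (b (n (nat_lit 411) (b (l (nat_lit 4) (nat_lit 335) (nat_lit 436)) (l (nat_lit 4) (nat_lit 310) (nat_lit 386)))) (n (nat_lit 311) (b (l (nat_lit 5) (nat_lit 310) (nat_lit 336)) (l (nat_lit 5) (nat_lit 285) (nat_lit 286))))))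 (n (nat_lit 410) (b (n (nat_lit 311) (b (l (nat_lit 5) (nat_lit 310) (nat_lit 336)) (l (nat_lit 5) (nat_lit 285) (nat_lit 286)))) (n (nat_lit 409) (b (l (nat_lit 6) (nat_lit 334) (nat_lit 434)) (l (nat_lit 6) (nat_lit 309) (nat_lit 384))))))) (b (n (nat_lit 410) (b (n (nat_lit 411) (b (l (nat_lit 4) (nat_lit 335) (nat_lit 436)) (l (nat_lit 4) (nat_lit 310) (nat_lit 386)))) (n (nat_lit 409) (b (l (nat_lit 6) (nat_lit 334) (nat_lit 434)) (l (nat_lit 6) (nat_lit 309) (nat_lit 384)))))) (n (nat_lit 386) (b (n (nat_lit 361) (b (n (nat_lit 311) (b (l (nat_lit 5) (nat_lit 285) (nat_lit 286)) (l (nat_lit 5) (nat_lit 286) (nat_lit 336)))) (n (nat_lit 384) (b (l (nat_lit 2) (nat_lit 359) (nat_lit 363)) (l (nat_lit 6) (nat_lit 309) (nat_lit 409)))))) (l (nat_lit 4) (nat_lit 310) (nat_lit 411))))))))))) (b (b (n (nat_lit 310) (b (b (n (nat_lit 385) (b (n (nat_lit 410) (b (n (nat_lit 411) (b (l (nat_lit 4) (nat_lit 335) (nat_lit 436)) (l (nat_lit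 4) (nat_lit 310) (nat_lit 386)))) (n (nat_lit 409) (b (l (nat_lit 6) (nat_lit 334) (nat_lit 434)) (l (nat_lit 6) (nat_lit 309) (nat_lit 384)))))) (n (nat_lit 311) (b (n (nat_lit 309) (b (n (nat_lit 308) (b (n (nat_lit 307) (b (n (nat_lit 282) (b (l (nat_lit 3) (nat_lit 281) (nat_lit 281)) (l (nat_lit 3) (nat_lit 282) (nat_lit 283)))) (l (nat_lit 0) (nat_lit 307) (nat_lit 336)))) (n (nat_lit 333) (b (l (nat_lit 2) (nat_lit 307) (nat_lit 332)) (l (nat_lit 2) (nat_lit 308) (nat_lit 334)))))) (l (nat_lit 1) (nat_lit 284) (nat_lit 288)))) (l (nat_lit 5) (nat_lit 285) (nat_lit 286)))))) (n (nat_lit 361) (b (n (nat_lit 386) (b (n (nat_lit 411) (b (l (nat_lit 4) (nat_lit 310) (nat_lit 385)) (l (nat_lit 7) (nat_lit 335) (nat_lit 436)))) (l (nat_lit 4) (nat_lit 285) (nat_lit 285)))) (n (nat_lit 334) (b (n (nat_lit 333) (b (l (nat_lit 0) (nat_lit 332) (nat_lit 332)) (l (nat_lit 3) (nat_lit 333) (nat_lit 359)))) (l (nat_lit 3) (nat_lit 334) (nat_lit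 363))))))) (b (r (nat_lit 3)) (n (nat_lit 385) (b (b (n (nat_lit 285) (b (n (nat_lit 286) (b (l (nat_lit 5) (nat_lit 285) (nat_lit 311)) (l (nat_lit 5) (nat_lit 260) (nat_lit 261)))) (n (nat_lit 384) (b (l (nat_lit 6) (nat_lit 284) (nat_lit 359)) (l (nat_lit 6) (nat_lit 309) (nat_lit 409)))))) (n (nat_lit 410) (b (n (nat_lit 411) (b (l (nat_lit 4) (nat_lit 335) (nat_lit 436)) (l (nat_lit 4) (nat_lit 310) (nat_lit 386)))) (n (nat_lit 409) (b (l (nat_lit 6) (nat_lit 334) (nat_lit 434)) (l (nat_lit 6) (nat_lit 309) (nat_lit 384))))))) (n (nat_lit 410) (b (n (nat_lit 411) (b (l (nat_lit 4) (nat_lit 335) (nat_lit 436)) (l (nat_lit 4) (nat_lit 310) (nat_lit 386)))) (n (nat_lit 311) (b (l (nat_lit 5) (nat_lit 310) (nat_lit 336)) (l (nat_lit 5) (nat_lit 285) (nat_lit 286))))))))))) (n (nat_lit 310) (b (b (n (nat_lit 285) (b (n (nat_lit 286) (b (n (nat_lit 309) (b (n (nat_lit 308) (b (l (nat_lit 1) (nat_lit 283) (nat_lit 311)) (l (nat_lit 1) (nat_lit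 282) (nat_lit 307)))) (l (nat_lit 2) (nat_lit 284) (nat_lit 288)))) (l (nat_lit 5) (nat_lit 260) (nat_lit 261)))) (n (nat_lit 260) (b (n (nat_lit 259) (b (l (nat_lit 7) (nat_lit 259) (nat_lit 284)) (l (nat_lit 7) (nat_lit 234) (nat_lit 234)))) (n (nat_lit 361) (b (l (nat_lit 4) (nat_lit 285) (nat_lit 386)) (l (nat_lit 4) (nat_lit 260) (nat_lit 336)))))))) (n (nat_lit 361) (b (n (nat_lit 386) (b (n (nat_lit 411) (b (l (nat_lit 7) (nat_lit 310) (nat_lit 336)) (l (nat_lit 7) (nat_lit 335) (nat_lit 436)))) (l (nat_lit 4) (nat_lit 285) (nat_lit 285)))) (n (nat_lit 334) (b (n (nat_lit 333) (b (l (nat_lit 0) (nat_lit 332) (nat_lit 332)) (l (nat_lit 3) (nat_lit 333) (nat_lit 359)))) (l (nat_lit 3) (nat_lit 334) (nat_lit 363))))))) (b (r (nat_lit 1)) (n (nat_lit 334) (b (b (n (nat_lit 311) (b (n (nat_lit 288) (b (n (nat_lit 289) (b (l (nat_lit 2) (nat_lit 285) (nat_lit 286)) (l (nat_lit 2) (nat_lit 286) (nat_lit 290)))) (l (nat_lit 1) (nat_lit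 284) (nat_lit 309)))) (n (nat_lit 333) (b (l (nat_lit 1) (nat_lit 308) (nat_lit 336)) (l (nat_lit 1) (nat_lit 307) (nat_lit 332)))))) (r (nat_lit 4))) (n (nat_lit 361) (b (n (nat_lit 333) (b (l (nat_lit 0) (nat_lit 332) (nat_lit 332)) (l (nat_lit 3) (nat_lit 333) (nat_lit 359)))) (l (nat_lit 3) (nat_lit 334) (nat_lit 363)))))))))) (b (n (nat_lit 310) (b (b (n (nat_lit 361) (b (n (nat_lit 386) (b (n (nat_lit 411) (b (l (nat_lit 4) (nat_lit 310) (nat_lit 385)) (l (nat_lit 7) (nat_lit 335) (nat_lit 436)))) (l (nat_lit 4) (nat_lit 285) (nat_lit 285)))) (n (nat_lit 334) (b (n (nat_lit 333) (b (l (nat_lit 0) (nat_lit 332) (nat_lit 332)) (l (nat_lit 3) (nat_lit 333) (nat_lit 359)))) (l (nat_lit 3) (nat_lit 334) (nat_lit 363)))))) (n (nat_lit 385) (b (n (nat_lit 410) (b (n (nat_lit 411) (b (l (nat_lit 4) (nat_lit 335) (nat_lit 436)) (l (nat_lit 4) (nat_lit 310) (nat_lit 386)))) (n (nat_lit 409) (b (l (nat_lit 6) (nat_lit 334) (nat_lit 434)) (l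 (nat_lit 6) (nat_lit 309) (nat_lit 384)))))) (n (nat_lit 309) (b (n (nat_lit 311) (b (l (nat_lit 5) (nat_lit 285) (nat_lit 286)) (l (nat_lit 1) (nat_lit 284) (nat_lit 288)))) (l (nat_lit 7) (nat_lit 284) (nat_lit 284))))))) (r (nat_lit 1)))) (n (nat_lit 361) (b (n (nat_lit 334) (b (n (nat_lit 333) (b (l (nat_lit 0) (nat_lit 332) (nat_lit 332)) (l (nat_lit 3) (nat_lit 333) (nat_lit 359)))) (l (nat_lit 3) (nat_lit 334) (nat_lit 363)))) (r (nat_lit 0))))))) (b (b (n (nat_lit 385) (b (b (n (nat_lit 410) (b (b (n (nat_lit 435) (b (n (nat_lit 434) (b (l (nat_lit 6) (nat_lit 334) (nat_lit 409)) (l (nat_lit 6) (nat_lit 359) (nat_lit 459)))) (n (nat_lit 436) (b (l (nat_lit 4) (nat_lit 335) (nat_lit 411)) (l (nat_lit 4) (nat_lit 360) (nat_lit 461)))))) (n (nat_lit 310) (b (n (nat_lit 409) (b (l (nat_lit 6) (nat_lit 334) (nat_lit 434)) (l (nat_lit 6) (nat_lit 309) (nat_lit 384)))) (n (nat_lit 311) (b (l (nat_lit 5) (nat_lit 310) (nat_lit 336)) (l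 (nat_lit 5) (nat_lit 285) (nat_lit 286))))))) (n (nat_lit 361) (b (n (nat_lit 363) (b (l (nat_lit 3) (nat_lit 334) (nat_lit 334)) (l (nat_lit 2) (nat_lit 359) (nat_lit 384)))) (n (nat_lit 336) (b (l (nat_lit 5) (nat_lit 335) (nat_lit 435)) (l (nat_lit 5) (nat_lit 310) (nat_lit 311)))))))) (n (nat_lit 334) (b (n (nat_lit 309) (b (n (nat_lit 284) (b (l (nat_lit 4) (nat_lit 284) (nat_lit 359)) (l (nat_lit 4) (nat_lit 259) (nat_lit 259)))) (l (nat_lit 7) (nat_lit 309) (nat_lit 410)))) (n (nat_lit 361) (b (n (nat_lit 333) (b (l (nat_lit 0) (nat_lit 333) (nat_lit 336)) (l (nat_lit 0) (nat_lit 332) (nat_lit 332)))) (l (nat_lit 3) (nat_lit 334) (nat_lit 363))))))) (n (nat_lit 310) (b (b (n (nat_lit 309) (b (n (nat_lit 311) (b (l (nat_lit 5) (nat_lit 285) (nat_lit 286)) (l (nat_lit 1) (nat_lit 284) (nat_lit 288)))) (l (nat_lit 7) (nat_lit 284) (nat_lit 284)))) (n (nat_lit 285) (b (n (nat_lit 286) (b (l (nat_lit 5) (nat_lit 285) (nat_lit 311))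 (l (nat_lit 5) (nat_lit 260) (nat_lit 261)))) (n (nat_lit 384) (b (l (nat_lit 6) (nat_lit 284) (nat_lit 359)) (l (nat_lit 6) (nat_lit 309) (nat_lit 409))))))) (n (nat_lit 285) (b (n (nat_lit 284) (b (l (nat_lit 7) (nat_lit 284) (nat_lit 309)) (l (nat_lit 7) (nat_lit 259) (nat_lit 259)))) (n (nat_lit 384) (b (l (nat_lit 6) (nat_lit 284) (nat_lit 359)) (l (nat_lit 6) (nat_lit 309) (nat_lit 409)))))))))) (n (nat_lit 385) (b (b (n (nat_lit 310) (b (b (n (nat_lit 410) (b (n (nat_lit 411) (b (l (nat_lit 4) (nat_lit 335) (nat_lit 436)) (l (nat_lit 4) (nat_lit 310) (nat_lit 386)))) (n (nat_lit 409) (b (l (nat_lit 6) (nat_lit 334) (nat_lit 434)) (l (nat_lit 6) (nat_lit 309) (nat_lit 384)))))) (n (nat_lit 285) (b (n (nat_lit 284) (b (l (nat_lit 7) (nat_lit 284) (nat_lit 309)) (l (nat_lit 7) (nat_lit 259) (nat_lit 259)))) (n (nat_lit 384) (b (l (nat_lit 6) (nat_lit 284) (nat_lit 359)) (l (nat_lit 6) (nat_lit 309) (nat_lit 409))))))) (n (nat_lit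 285) (b (n (nat_lit 386) (b (l (nat_lit 4) (nat_lit 310) (nat_lit 411)) (l (nat_lit 4) (nat_lit 285) (nat_lit 361)))) (n (nat_lit 284) (b (l (nat_lit 7) (nat_lit 284) (nat_lit 309)) (l (nat_lit 7) (nat_lit 259) (nat_lit 259)))))))) (n (nat_lit 310) (b (b (n (nat_lit 309) (b (n (nat_lit 311) (b (l (nat_lit 5) (nat_lit 285) (nat_lit 286)) (l (nat_lit 1) (nat_lit 284) (nat_lit 288)))) (l (nat_lit 7) (nat_lit 284) (nat_lit 284)))) (n (nat_lit 285) (b (n (nat_lit 286) (b (l (nat_lit 5) (nat_lit 285) (nat_lit 311)) (l (nat_lit 5) (nat_lit 260) (nat_lit 261)))) (n (nat_lit 386) (b (l (nat_lit 4) (nat_lit 310) (nat_lit 411)) (l (nat_lit 4) (nat_lit 285) (nat_lit 361))))))) (n (nat_lit 285) (b (n (nat_lit 386) (b (l (nat_lit 4) (nat_lit 310) (nat_lit 411)) (l (nat_lit 4) (nat_lit 285) (nat_lit 361)))) (n (nat_lit 284) (b (l (nat_lit 7) (nat_lit 284) (nat_lit 309)) (l (nat_lit 7) (nat_lit 259) (nat_lit 259))))))))) (b (n (nat_lit 310) (b (b (n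 (nat_lit 309) (b (n (nat_lit 311) (b (l (nat_lit 5) (nat_lit 285) (nat_lit 286)) (l (nat_lit 1) (nat_lit 284) (nat_lit 288)))) (l (nat_lit 7) (nat_lit 284) (nat_lit 284)))) (n (nat_lit 285) (b (n (nat_lit 286) (b (l (nat_lit 5) (nat_lit 285) (nat_lit 311)) (l (nat_lit 5) (nat_lit 260) (nat_lit 261)))) (n (nat_lit 384) (b (l (nat_lit 6) (nat_lit 284) (nat_lit 359)) (l (nat_lit 6) (nat_lit 309) (nat_lit 409))))))) (n (nat_lit 285) (b (n (nat_lit 284) (b (l (nat_lit 7) (nat_lit 284) (nat_lit 309)) (l (nat_lit 7) (nat_lit 259) (nat_lit 259)))) (n (nat_lit 384) (b (l (nat_lit 6) (nat_lit 284) (nat_lit 359)) (l (nat_lit 6) (nat_lit 309) (nat_lit 409)))))))) (r (nat_lit 5)))))) (b (n (nat_lit 385) (b (b (r (nat_lit 5)) (n (nat_lit 361) (b (b (n (nat_lit 363) (b (l (nat_lit 3) (nat_lit 334) (nat_lit 334)) (l (nat_lit 2) (nat_lit 359) (nat_lit 384)))) (n (nat_lit 363) (b (n (nat_lit 364) (b (l (nat_lit 2) (nat_lit 360) (nat_lit 386)) (l (nat_lit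 3) (nat_lit 335) (nat_lit 336)))) (l (nat_lit 3) (nat_lit 334) (nat_lit 334))))) (b (n (nat_lit 363) (b (n (nat_lit 364) (b (l (nat_lit 2) (nat_lit 360) (nat_lit 386)) (l (nat_lit 3) (nat_lit 335) (nat_lit 336)))) (l (nat_lit 2) (nat_lit 359) (nat_lit 384)))) (n (nat_lit 383) (b (b (n (nat_lit 384) (b (l (nat_lit 1) (nat_lit 357) (nat_lit 382)) (l (nat_lit 1) (nat_lit 358) (nat_lit 386)))) (n (nat_lit 333) (b (b (n (nat_lit 334) (b (l (nat_lit 3) (nat_lit 333) (nat_lit 359)) (l (nat_lit 0) (nat_lit 332) (nat_lit 332)))) (n (nat_lit 358) (b (b (n (nat_lit 359) (b (l (nat_lit 2) (nat_lit 357) (nat_lit 382)) (l (nat_lit 3) (nat_lit 332) (nat_lit 332)))) (n (nat_lit 408) (b (b (n (nat_lit 433) (b (n (nat_lit 432) (b (l (nat_lit 6) (nat_lit 332) (nat_lit 407)) (l (nat_lit 6) (nat_lit 357) (nat_lit 457)))) (n (nat_lit 434) (b (l (nat_lit 4) (nat_lit 358) (nat_lit 459)) (l (nat_lit 4) (nat_lit 333) (nat_lit 409)))))) (n (nat_lit 308) (b (n (nat_lit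 307) (b (l (nat_lit 7) (nat_lit 307) (nat_lit 332)) (l (nat_lit 7) (nat_lit 282) (nat_lit 282)))) (n (nat_lit 407) (b (l (nat_lit 6) (nat_lit 307) (nat_lit 382)) (l (nat_lit 6) (nat_lit 332) (nat_lit 432))))))) (n (nat_lit 433) (b (n (nat_lit 434) (b (l (nat_lit 4) (nat_lit 358) (nat_lit 459)) (l (nat_lit 4) (nat_lit 333) (nat_lit 409)))) (n (nat_lit 332) (b (l (nat_lit 7) (nat_lit 332) (nat_lit 357)) (l (nat_lit 7) (nat_lit 307) (nat_lit 307))))))))) (b (n (nat_lit 359) (b (n (nat_lit 357) (b (l (nat_lit 0) (nat_lit 357) (nat_lit 386)) (l (nat_lit 1) (nat_lit 332) (nat_lit 336)))) (l (nat_lit 2) (nat_lit 357) (nat_lit 382)))) (n (nat_lit 359) (b (n (nat_lit 357) (b (l (nat_lit 0) (nat_lit 357) (nat_lit 386)) (l (nat_lit 1) (nat_lit 332) (nat_lit 336)))) (l (nat_lit 3) (nat_lit 332) (nat_lit 332)))))))) (b (n (nat_lit 334) (b (l (nat_lit 3) (nat_lit 333) (nat_lit 359)) (l (nat_lit 0) (nat_lit 333) (nat_lit 336)))) (n (nat_lit 334) (b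 (l (nat_lit 0) (nat_lit 333) (nat_lit 336)) (l (nat_lit 0) (nat_lit 332) (nat_lit 332)))))))) (b (n (nat_lit 384) (b (l (nat_lit 1) (nat_lit 357) (nat_lit 382)) (l (nat_lit 2) (nat_lit 358) (nat_lit 359)))) (n (nat_lit 384) (b (l (nat_lit 1) (nat_lit 358) (nat_lit 386)) (l (nat_lit 2) (nat_lit 358) (nat_lit 359))))))))))) (b (n (nat_lit 334) (b (b (n (nat_lit 309) (b (n (nat_lit 284) (b (l (nat_lit 4) (nat_lit 284) (nat_lit 359)) (l (nat_lit 4) (nat_lit 259) (nat_lit 259)))) (l (nat_lit 7) (nat_lit 309) (nat_lit 410)))) (n (nat_lit 361) (b (n (nat_lit 333) (b (l (nat_lit 0) (nat_lit 333) (nat_lit 336)) (l (nat_lit 3) (nat_lit 333) (nat_lit 359)))) (l (nat_lit 3) (nat_lit 334) (nat_lit 363))))) (n (nat_lit 336) (b (n (nat_lit 361) (b (l (nat_lit 3) (nat_lit 334) (nat_lit 363)) (l (nat_lit 0) (nat_lit 333) (nat_lit 333)))) (n (nat_lit 410) (b (l (nat_lit 5) (nat_lit 310) (nat_lit 311)) (l (nat_lit 7) (nat_lit 309) (nat_lit 309)))))))) (r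 (nat_lit 6))))) (n (nat_lit 385) (b (b (r (nat_lit 6)) (n (nat_lit 410) (b (b (n (nat_lit 435) (b (n (nat_lit 434) (b (l (nat_lit 6) (nat_lit 334) (nat_lit 409)) (l (nat_lit 6) (nat_lit 359) (nat_lit 459)))) (n (nat_lit 436) (b (l (nat_lit 4) (nat_lit 335) (nat_lit 411)) (l (nat_lit 4) (nat_lit 360) (nat_lit 461)))))) (n (nat_lit 310) (b (n (nat_lit 409) (b (l (nat_lit 6) (nat_lit 334) (nat_lit 434)) (l (nat_lit 6) (nat_lit 309) (nat_lit 384)))) (n (nat_lit 311) (b (l (nat_lit 5) (nat_lit 310) (nat_lit 336)) (l (nat_lit 5) (nat_lit 285) (nat_lit 286))))))) (n (nat_lit 310) (b (n (nat_lit 311) (b (l (nat_lit 5) (nat_lit 310) (nat_lit 336)) (l (nat_lit 5) (nat_lit 285) (nat_lit 286)))) (n (nat_lit 411) (b (l (nat_lit 4) (nat_lit 335) (nat_lit 436)) (l (nat_lit 4) (nat_lit 310) (nat_lit 386))))))))) (b (n (nat_lit 410) (b (b (n (nat_lit 435) (b (n (nat_lit 334) (b (l (nat_lit 7) (nat_lit 309) (nat_lit 309)) (l (nat_lit 7) (nat_lit 334) (nat_lit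 359)))) (n (nat_lit 436) (b (l (nat_lit 4) (nat_lit 335) (nat_lit 411)) (l (nat_lit 4) (nat_lit 360) (nat_lit 461)))))) (n (nat_lit 310) (b (n (nat_lit 311) (b (l (nat_lit 5) (nat_lit 310) (nat_lit 336)) (l (nat_lit 5) (nat_lit 285) (nat_lit 286)))) (n (nat_lit 411) (b (l (nat_lit 4) (nat_lit 335) (nat_lit 436)) (l (nat_lit 4) (nat_lit 310) (nat_lit 386))))))) (n (nat_lit 310) (b (n (nat_lit 309) (b (l (nat_lit 7) (nat_lit 309) (nat_lit 334)) (l (nat_lit 7) (nat_lit 284) (nat_lit 284)))) (n (nat_lit 311) (b (l (nat_lit 5) (nat_lit 310) (nat_lit 336)) (l (nat_lit 5) (nat_lit 285) (nat_lit 286)))))))) (n (nat_lit 310) (b (b (n (nat_lit 309) (b (n (nat_lit 311) (b (l (nat_lit 5) (nat_lit 285) (nat_lit 286)) (l (nat_lit 1) (nat_lit 284) (nat_lit 288)))) (l (nat_lit 7) (nat_lit 284) (nat_lit 284)))) (n (nat_lit 285) (b (n (nat_lit 286) (b (l (nat_lit 5) (nat_lit 285) (nat_lit 311)) (l (nat_lit 5) (nat_lit 260) (nat_lit 261)))) (n (nat_lit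 384) (b (l (nat_lit 6) (nat_lit 284) (nat_lit 359)) (l (nat_lit 6) (nat_lit 309) (nat_lit 409))))))) (n (nat_lit 285) (b (n (nat_lit 284) (b (l (nat_lit 7) (nat_lit 284) (nat_lit 309)) (l (nat_lit 7) (nat_lit 259) (nat_lit 259)))) (n (nat_lit 384) (b (l (nat_lit 6) (nat_lit 284) (nat_lit 359)) (l (nat_lit 6) (nat_lit 309) (nat_lit 409)))))))))))))))
    (envOK_cons p10601 (envOK_cons p10610 (envOK_cons p10621 (envOK_cons p10638 (envOK_cons p10657 (envOK_cons p10686 (envOK_cons p10739 envOK_nil))))))) (by decide +kernel)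

theorem p10773 : Fam (nat_lit 12) (nat_lit 16439798079416840938925971905198573440504395258295260172185627484475744455292259891780143399069035715106963456) (nat_lit 9998259222054692872728056360478782861758993460300494859803075589411675224921597746476738625717390325262514141377069056) (nat_lit 9998259222054692872728056360478782861758993460300494859803075589411675224921597746476738625717390325262514141377069056) :=
  chk_sound Env.nil
    (n (nat_lit 359) (b (b (n (nat_lit 358) (b (n (nat_lit 387) (b (l (nat_lit 0) (nat_lit 358) (nat_lit 386)) (l (nat_lit 0) (nat_lit 359) (nat_lit 388)))) (n (nat_lit 333) (b (l (nat_lit 3) (nat_lit 332) (nat_lit 332)) (l (nat_lit 3) (nat_lit 333) (nat_lit 334)))))) (n (nat_lit 358) (b (n (nat_lit 383) (b (l (nat_lit 2) (nat_lit 358) (nat_lit 384)) (l (nat_lit 2) (nat_lit 357) (nat_lit 382)))) (n (nat_lit 387) (b (l (nat_lit 0) (nat_lit 358) (nat_lit 386)) (l (nat_lit 0) (nat_lit 359) (nat_lit 388)))))))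 (b (n (nat_lit 358) (b (n (nat_lit 383) (b (l (nat_lit 2) (nat_lit 358) (nat_lit 384)) (l (nat_lit 2) (nat_lit 357) (nat_lit 382)))) (n (nat_lit 333) (b (l (nat_lit 3) (nat_lit 332) (nat_lit 332)) (l (nat_lit 3) (nat_lit 333) (nat_lit 334)))))) (n (nat_lit 334) (b (n (nat_lit 384) (b (n (nat_lit 309) (b (b (n (nat_lit 311) (b (n (nat_lit 336) (b (n (nat_lit 387) (b (l (nat_lit 4) (nat_lit 286) (nat_lit 286)) (l (nat_lit 0) (nat_lit 359) (nat_lit 388)))) (l (nat_lit 5) (nat_lit 286) (nat_lit 386)))) (n (nat_lit 310) (b (l (nat_lit 1) (nat_lit 284) (nat_lit 288)) (l (nat_lit 5) (nat_lit 284) (nat_lit 285)))))) (n (nat_lit 311) (b (n (nat_lit 336) (b (n (nat_lit 387) (b (l (nat_lit 4) (nat_lit 286) (nat_lit 286)) (l (nat_lit 0) (nat_lit 359) (nat_lit 388)))) (l (nat_lit 5) (nat_lit 286) (nat_lit 386)))) (n (nat_lit 310) (b (n (nat_lit 283) (b (l (nat_lit 3) (nat_lit 283) (nat_lit 284)) (l (nat_lit 7) (nat_lit 283) (nat_lit 308)))) (l (nat_lit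 1) (nat_lit 284) (nat_lit 288))))))) (b (n (nat_lit 284) (b (n (nat_lit 283) (b (l (nat_lit 7) (nat_lit 283) (nat_lit 308)) (l (nat_lit 7) (nat_lit 258) (nat_lit 258)))) (n (nat_lit 285) (b (l (nat_lit 5) (nat_lit 259) (nat_lit 260)) (l (nat_lit 5) (nat_lit 284) (nat_lit 310)))))) (n (nat_lit 363) (b (b (n (nat_lit 364) (b (n (nat_lit 389) (b (l (nat_lit 0) (nat_lit 360) (nat_lit 388)) (l (nat_lit 0) (nat_lit 361) (nat_lit 390)))) (n (nat_lit 339) (b (l (nat_lit 1) (nat_lit 336) (nat_lit 340)) (l (nat_lit 1) (nat_lit 335) (nat_lit 338)))))) (n (nat_lit 388) (b (l (nat_lit 0) (nat_lit 360) (nat_lit 389)) (l (nat_lit 0) (nat_lit 359) (nat_lit 387))))) (b (n (nat_lit 283) (b (n (nat_lit 284) (b (n (nat_lit 386) (b (n (nat_lit 364) (b (n (nat_lit 387) (b (l (nat_lit 0) (nat_lit 359) (nat_lit 388)) (l (nat_lit 2) (nat_lit 361) (nat_lit 365)))) (n (nat_lit 339) (b (l (nat_lit 1) (nat_lit 336) (nat_lit 340)) (l (nat_lit 1) (nat_lit 335) (nat_lit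 338)))))) (n (nat_lit 285) (b (n (nat_lit 311) (b (l (nat_lit 5) (nat_lit 286) (nat_lit 336)) (l (nat_lit 0) (nat_lit 283) (nat_lit 286)))) (l (nat_lit 5) (nat_lit 259) (nat_lit 260)))))) (l (nat_lit 7) (nat_lit 258) (nat_lit 258)))) (l (nat_lit 7) (nat_lit 283) (nat_lit 308)))) (n (nat_lit 339) (b (n (nat_lit 364) (b (n (nat_lit 283) (b (n (nat_lit 311) (b (n (nat_lit 365) (b (n (nat_lit 386) (b (l (nat_lit 5) (nat_lit 286) (nat_lit 336)) (l (nat_lit 2) (nat_lit 361) (nat_lit 387)))) (n (nat_lit 390) (b (l (nat_lit 0) (nat_lit 362) (nat_lit 391)) (l (nat_lit 0) (nat_lit 361) (nat_lit 389)))))) (n (nat_lit 284) (b (n (nat_lit 285) (b (l (nat_lit 5) (nat_lit 259) (nat_lit 260)) (l (nat_lit 0) (nat_lit 283) (nat_lit 286)))) (l (nat_lit 7) (nat_lit 258) (nat_lit 258)))))) (l (nat_lit 7) (nat_lit 283) (nat_lit 308)))) (l (nat_lit 1) (nat_lit 336) (nat_lit 340)))) (l (nat_lit 1) (nat_lit 335) (nat_lit 338)))))))))) (l (nat_lit 2) (nat_lit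 358) (nat_lit 383)))) (l (nat_lit 3) (nat_lit 333) (nat_lit 333)))))))
    envOK_nil (by decide +kernel)

theorem p10815 : Fam (nat_lit 13) (nat_lit 16439798079416840938925971905198573440504395258295260172185627484475744455292259891780143399069035715106963456) (nat_lit 67039042446799769940701401308540609930463382487357531215472869414378750174087428838561422323909338549145273695441532710609980014365330567779616403543293952) (nat_lit 67039042446799769940701401308540609930463382487357531215472869414378750174087428838561422323909338549145273695441532710609980014365330567779616403543293952) :=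
  chk_sound Env.nil
    (n (nat_lit 363) (b (b (n (nat_lit 335) (b (n (nat_lit 310) (b (b (n (nat_lit 285) (b (b (n (nat_lit 260) (b (n (nat_lit 259) (b (l (nat_lit 7) (nat_lit 259) (nat_lit 284)) (l (nat_lit 7) (nat_lit 234) (nat_lit 234)))) (l (nat_lit 4) (nat_lit 260) (nat_lit 336)))) (n (nat_lit 260) (b (n (nat_lit 261) (b (l (nat_lit 5) (nat_lit 235) (nat_lit 236)) (l (nat_lit 5) (nat_lit 260) (nat_lit 286)))) (l (nat_lit 4) (nat_lit 260) (nat_lit 336))))) (n (nat_lit 286) (b (n (nat_lit 284) (b (n (nat_lit 309) (b (l (nat_lit 2) (nat_lit 284) (nat_lit 288)) (l (nat_lit 2) (nat_lit 283) (nat_lit 308)))) (l (nat_lit 7) (nat_lit 259) (nat_lit 259)))) (l (nat_lit 5) (nat_lit 260) (nat_lit 261)))))) (n (nat_lit 285) (b (n (nat_lit 260) (b (n (nat_lit 261) (b (l (nat_lit 5) (nat_lit 235) (nat_lit 236)) (l (nat_lit 5) (nat_lit 260) (nat_lit 286)))) (n (nat_lit 259) (b (l (nat_lit 7) (nat_lit 259) (nat_lit 284)) (l (nat_lit 7) (nat_lit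 234) (nat_lit 234)))))) (l (nat_lit 4) (nat_lit 285) (nat_lit 386))))) (b (n (nat_lit 386) (b (n (nat_lit 336) (b (l (nat_lit 7) (nat_lit 310) (nat_lit 411)) (l (nat_lit 5) (nat_lit 286) (nat_lit 311)))) (l (nat_lit 4) (nat_lit 285) (nat_lit 285)))) (n (nat_lit 386) (b (n (nat_lit 311) (b (n (nat_lit 288) (b (n (nat_lit 289) (b (l (nat_lit 2) (nat_lit 285) (nat_lit 286)) (l (nat_lit 2) (nat_lit 286) (nat_lit 290)))) (l (nat_lit 1) (nat_lit 284) (nat_lit 309)))) (l (nat_lit 5) (nat_lit 286) (nat_lit 336)))) (n (nat_lit 388) (b (n (nat_lit 338) (b (n (nat_lit 413) (b (b (b (n (nat_lit 438) (b (n (nat_lit 463) (b (n (nat_lit 464) (b (l (nat_lit 4) (nat_lit 388) (nat_lit 489)) (l (nat_lit 4) (nat_lit 363) (nat_lit 439)))) (l (nat_lit 7) (nat_lit 362) (nat_lit 387)))) (n (nat_lit 437) (b (l (nat_lit 6) (nat_lit 337) (nat_lit 412)) (l (nat_lit 6) (nat_lit 362) (nat_lit 462)))))) (n (nat_lit 438) (b (b (n (nat_lit 439) (b (l (nat_lit 4) (nat_lit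 363) (nat_lit 464)) (l (nat_lit 4) (nat_lit 338) (nat_lit 414)))) (n (nat_lit 463) (b (n (nat_lit 488) (b (n (nat_lit 489) (b (l (nat_lit 4) (nat_lit 388) (nat_lit 464)) (l (nat_lit 4) (nat_lit 413) (nat_lit 514)))) (n (nat_lit 487) (b (l (nat_lit 6) (nat_lit 412) (nat_lit 512)) (l (nat_lit 6) (nat_lit 387) (nat_lit 462)))))) (l (nat_lit 7) (nat_lit 362) (nat_lit 387))))) (n (nat_lit 414) (b (n (nat_lit 387) (b (n (nat_lit 415) (b (l (nat_lit 3) (nat_lit 386) (nat_lit 412)) (l (nat_lit 3) (nat_lit 387) (nat_lit 416)))) (l (nat_lit 7) (nat_lit 362) (nat_lit 463)))) (l (nat_lit 4) (nat_lit 338) (nat_lit 439))))))) (b (n (nat_lit 438) (b (n (nat_lit 463) (b (n (nat_lit 462) (b (l (nat_lit 6) (nat_lit 387) (nat_lit 487)) (l (nat_lit 6) (nat_lit 362) (nat_lit 437)))) (l (nat_lit 7) (nat_lit 362) (nat_lit 387)))) (n (nat_lit 439) (b (l (nat_lit 4) (nat_lit 363) (nat_lit 464)) (l (nat_lit 4) (nat_lit 338) (nat_lit 414)))))) (n (nat_lit 438)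 (b (n (nat_lit 437) (b (l (nat_lit 6) (nat_lit 337) (nat_lit 412)) (l (nat_lit 6) (nat_lit 362) (nat_lit 462)))) (n (nat_lit 439) (b (l (nat_lit 4) (nat_lit 363) (nat_lit 464)) (l (nat_lit 4) (nat_lit 338) (nat_lit 414)))))))) (b (n (nat_lit 436) (b (n (nat_lit 437) (b (n (nat_lit 438) (b (n (nat_lit 435) (b (n (nat_lit 463) (b (l (nat_lit 0) (nat_lit 435) (nat_lit 464)) (l (nat_lit 7) (nat_lit 362) (nat_lit 387)))) (l (nat_lit 1) (nat_lit 410) (nat_lit 414)))) (l (nat_lit 6) (nat_lit 362) (nat_lit 462)))) (l (nat_lit 6) (nat_lit 337) (nat_lit 412)))) (l (nat_lit 7) (nat_lit 335) (nat_lit 411)))) (n (nat_lit 414) (b (n (nat_lit 412) (b (n (nat_lit 415) (b (n (nat_lit 416) (b (n (nat_lit 441) (b (l (nat_lit 0) (nat_lit 412) (nat_lit 440)) (l (nat_lit 0) (nat_lit 413) (nat_lit 442)))) (n (nat_lit 391) (b (l (nat_lit 1) (nat_lit 388) (nat_lit 392)) (l (nat_lit 1) (nat_lit 387) (nat_lit 390)))))) (l (nat_lit 3) (nat_lit 386) (nat_lit 387))))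 (l (nat_lit 6) (nat_lit 337) (nat_lit 437)))) (l (nat_lit 4) (nat_lit 338) (nat_lit 439))))))) (l (nat_lit 1) (nat_lit 335) (nat_lit 339)))) (l (nat_lit 0) (nat_lit 360) (nat_lit 389))))))))) (l (nat_lit 3) (nat_lit 334) (nat_lit 334)))) (n (nat_lit 364) (b (n (nat_lit 335) (b (l (nat_lit 3) (nat_lit 334) (nat_lit 334)) (l (nat_lit 3) (nat_lit 335) (nat_lit 336)))) (n (nat_lit 339) (b (l (nat_lit 1) (nat_lit 336) (nat_lit 340)) (l (nat_lit 1) (nat_lit 335) (nat_lit 338))))))) (b (n (nat_lit 364) (b (n (nat_lit 389) (b (l (nat_lit 0) (nat_lit 360) (nat_lit 388)) (l (nat_lit 0) (nat_lit 361) (nat_lit 390)))) (n (nat_lit 339) (b (l (nat_lit 1) (nat_lit 336) (nat_lit 340)) (l (nat_lit 1) (nat_lit 335) (nat_lit 338)))))) (n (nat_lit 364) (b (n (nat_lit 389) (b (l (nat_lit 0) (nat_lit 360) (nat_lit 388)) (l (nat_lit 0) (nat_lit 361) (nat_lit 390)))) (n (nat_lit 335) (b (l (nat_lit 3) (nat_lit 334) (nat_lit 334)) (l (nat_lit 3) (nat_lit 335)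 (nat_lit 336)))))))))
    envOK_nil (by decide +kernel)

theorem p10832 : Fam (nat_lit 6) (nat_lit 16439798079416840938925971905198573440504395258295260172185627484475744455292259891780143399069035715106963456) (nat_lit 1322112486746033566730899757360028112398574660484073139497898464811925006740781789978407157445090130497632750659115293868032) (nat_lit 1322112486746033566730899757360028112398574660484073139497898464811925006740781789978407157445090130497632750659115293868032) :=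
  chk_sound Env.nil
    (n (nat_lit 359) (b (b (b (n (nat_lit 334) (b (n (nat_lit 335) (b (n (nat_lit 384) (b (n (nat_lit 310) (b (l (nat_lit 5) (nat_lit 309) (nat_lit 409)) (l (nat_lit 6) (nat_lit 284) (nat_lit 285)))) (l (nat_lit 2) (nat_lit 358) (nat_lit 383)))) (l (nat_lit 3) (nat_lit 334) (nat_lit 363)))) (l (nat_lit 3) (nat_lit 333) (nat_lit 333)))) (n (nat_lit 358) (b (b (n (nat_lit 336) (b (n (nat_lit 386) (b (l (nat_lit 5) (nat_lit 286) (nat_lit 311)) (l (nat_lit 0) (nat_lit 358) (nat_lit 387)))) (n (nat_lit 335) (b (n (nat_lit 363) (b (l (nat_lit 3) (nat_lit 334) (nat_lit 334)) (l (nat_lit 3) (nat_lit 335) (nat_lit 364)))) (l (nat_lit 1) (nat_lit 332) (nat_lit 357)))))) (n (nat_lit 357) (b (n (nat_lit 356) (b (n (nat_lit 381) (b (l (nat_lit 2) (nat_lit 355) (nat_lit 380)) (l (nat_lit 2) (nat_lit 356) (nat_lit 382)))) (n (nat_lit 331) (b (l (nat_lit 3) (nat_lit 331) (nat_lit 332)) (l (nat_lit 3) (nat_lit 330) (nat_lit 330))))))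 (n (nat_lit 386) (b (n (nat_lit 336) (b (l (nat_lit 5) (nat_lit 286) (nat_lit 311)) (l (nat_lit 1) (nat_lit 332) (nat_lit 335)))) (l (nat_lit 0) (nat_lit 358) (nat_lit 387))))))) (n (nat_lit 333) (b (l (nat_lit 3) (nat_lit 332) (nat_lit 332)) (l (nat_lit 3) (nat_lit 333) (nat_lit 334))))))) (b (n (nat_lit 358) (b (n (nat_lit 383) (b (l (nat_lit 2) (nat_lit 358) (nat_lit 384)) (l (nat_lit 2) (nat_lit 357) (nat_lit 382)))) (n (nat_lit 336) (b (n (nat_lit 386) (b (l (nat_lit 5) (nat_lit 286) (nat_lit 311)) (l (nat_lit 0) (nat_lit 358) (nat_lit 387)))) (n (nat_lit 335) (b (n (nat_lit 363) (b (l (nat_lit 3) (nat_lit 334) (nat_lit 334)) (l (nat_lit 3) (nat_lit 335) (nat_lit 364)))) (l (nat_lit 1) (nat_lit 332) (nat_lit 357)))))))) (n (nat_lit 358) (b (n (nat_lit 383) (b (l (nat_lit 2) (nat_lit 358) (nat_lit 384)) (l (nat_lit 2) (nat_lit 357) (nat_lit 382)))) (n (nat_lit 332) (b (n (nat_lit 336) (b (n (nat_lit 357) (b (l (nat_lit 3) (nat_lit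 331) (nat_lit 331)) (l (nat_lit 1) (nat_lit 332) (nat_lit 335)))) (n (nat_lit 386) (b (l (nat_lit 5) (nat_lit 286) (nat_lit 311)) (l (nat_lit 0) (nat_lit 358) (nat_lit 387)))))) (l (nat_lit 3) (nat_lit 332) (nat_lit 333)))))))) (n (nat_lit 358) (b (n (nat_lit 383) (b (l (nat_lit 2) (nat_lit 358) (nat_lit 384)) (l (nat_lit 2) (nat_lit 357) (nat_lit 382)))) (n (nat_lit 333) (b (l (nat_lit 3) (nat_lit 332) (nat_lit 332)) (l (nat_lit 3) (nat_lit 333) (nat_lit 334))))))))
    envOK_nil (by decide +kernel)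

theorem p10839 : Fam (nat_lit 8) (nat_lit 16439798079416840938925971905198573440504395258295260172185627484475744455292259891780143399069035715106963456) (nat_lit 3721414423663014777771128699471729033405502383818067776344410092921319139277714339512653118232663379057849650619268174757098532986593214464) (nat_lit 3721414423663014777771128699471729033405502383818067776344410092921319139277714339512653118232663379057849650619268174757098532986593214464) :=
  chk_sound (Env.cons (nat_lit 5) (nat_lit 17614069370803749209171104475920027705317619116812399030304682286491567688359563325977742487885765272739512320) (nat_lit 34476774063402197858887453902892294402590270594050897646761453905816519159836210196222901286877350250980861735337984) Env.nil)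
    (n (nat_lit 359) (b (b (r (nat_lit 0)) (n (nat_lit 358) (b (n (nat_lit 387) (b (l (nat_lit 0) (nat_lit 358) (nat_lit 386)) (l (nat_lit 0) (nat_lit 359) (nat_lit 388)))) (n (nat_lit 333) (b (l (nat_lit 3) (nat_lit 332) (nat_lit 332)) (l (nat_lit 3) (nat_lit 333) (nat_lit 334))))))) (b (n (nat_lit 358) (b (n (nat_lit 383) (b (l (nat_lit 2) (nat_lit 358) (nat_lit 384)) (l (nat_lit 2) (nat_lit 357) (nat_lit 382)))) (n (nat_lit 387) (b (l (nat_lit 0) (nat_lit 358) (nat_lit 386)) (l (nat_lit 0) (nat_lit 359) (nat_lit 388)))))) (n (nat_lit 384) (b (n (nat_lit 334) (b (n (nat_lit 409) (b (n (nat_lit 311) (b (n (nat_lit 336) (b (n (nat_lit 387) (b (l (nat_lit 4) (nat_lit 286) (nat_lit 286)) (l (nat_lit 0) (nat_lit 359) (nat_lit 388)))) (l (nat_lit 5) (nat_lit 286) (nat_lit 386)))) (n (nat_lit 310) (b (n (nat_lit 309) (b (l (nat_lit 1) (nat_lit 284) (nat_lit 288)) (l (nat_lit 5) (nat_lit 284) (nat_lit 285)))) (l (nat_lit 5) (nat_lit 309) (nat_lit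 335)))))) (n (nat_lit 434) (b (n (nat_lit 433) (b (l (nat_lit 6) (nat_lit 333) (nat_lit 408)) (l (nat_lit 6) (nat_lit 358) (nat_lit 458)))) (n (nat_lit 435) (b (l (nat_lit 4) (nat_lit 359) (nat_lit 460)) (l (nat_lit 4) (nat_lit 334) (nat_lit 410)))))))) (l (nat_lit 3) (nat_lit 333) (nat_lit 333)))) (l (nat_lit 2) (nat_lit 358) (nat_lit 383)))))))
    (envOK_cons p10413 envOK_nil) (by decide +kernel)

theorem p10847 : Fam (nat_lit 8) (nat_lit 16439798079416844067813231554969201948836972655100115547241080155353825432403990100109819835554216412805332992) (nat_lit 59103027495796787809659115523253584743101509600050390549344613287480938659056931118992486047079223276044130109620224) (nat_lit 59103027495796787809659115523253584743101509600050390549344613287480938659056931118992486047079223276044130109620224) :=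
  chk_sound Env.nil
    (n (nat_lit 311) (b (n (nat_lit 334) (b (n (nat_lit 284) (b (n (nat_lit 259) (b (b (n (nat_lit 285) (b (n (nat_lit 359) (b (l (nat_lit 5) (nat_lit 284) (nat_lit 384)) (l (nat_lit 5) (nat_lit 259) (nat_lit 260)))) (n (nat_lit 258) (b (l (nat_lit 3) (nat_lit 258) (nat_lit 286)) (l (nat_lit 7) (nat_lit 233) (nat_lit 233)))))) (n (nat_lit 234) (b (n (nat_lit 209) (b (n (nat_lit 210) (b (l (nat_lit 5) (nat_lit 184) (nat_lit 185)) (l (nat_lit 5) (nat_lit 209) (nat_lit 235)))) (l (nat_lit 4) (nat_lit 209) (nat_lit 285)))) (n (nat_lit 233) (b (l (nat_lit 7) (nat_lit 233) (nat_lit 258)) (l (nat_lit 7) (nat_lit 208) (nat_lit 208))))))) (b (n (nat_lit 234) (b (n (nat_lit 233) (b (l (nat_lit 7) (nat_lit 233) (nat_lit 258)) (l (nat_lit 7) (nat_lit 208) (nat_lit 208)))) (n (nat_lit 235) (b (l (nat_lit 5) (nat_lit 209) (nat_lit 210)) (l (nat_lit 5) (nat_lit 234) (nat_lit 260)))))) (n (nat_lit 359) (b (n (nat_lit 383) (b (l (nat_lit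 2) (nat_lit 358) (nat_lit 384)) (l (nat_lit 6) (nat_lit 283) (nat_lit 358)))) (n (nat_lit 260) (b (l (nat_lit 5) (nat_lit 234) (nat_lit 235)) (l (nat_lit 5) (nat_lit 259) (nat_lit 285))))))))) (l (nat_lit 3) (nat_lit 283) (nat_lit 283)))) (l (nat_lit 2) (nat_lit 308) (nat_lit 333)))) (l (nat_lit 1) (nat_lit 284) (nat_lit 288))))
    envOK_nil (by decide +kernel)

theorem p10875 : Fam (nat_lit 7) (nat_lit 17614069370803752338058364125690656213650196513617254405360134957369648665471293534307418924370945970437881856) (nat_lit 68953529338463210774189903029698114681022059426820304792653483538716439934193754202491930982574723074127278377009152) (nat_lit 68953529338463210774189903029698114681022059426820304792653483538716439934193754202491930982574723074127278377009152) :=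
  chk_sound Env.nil
    (n (nat_lit 383) (b (n (nat_lit 358) (b (n (nat_lit 308) (b (b (n (nat_lit 333) (b (l (nat_lit 5) (nat_lit 283) (nat_lit 284)) (l (nat_lit 3) (nat_lit 332) (nat_lit 332)))) (n (nat_lit 307) (b (b (n (nat_lit 282) (b (n (nat_lit 332) (b (l (nat_lit 4) (nat_lit 282) (nat_lit 357)) (l (nat_lit 2) (nat_lit 306) (nat_lit 331)))) (l (nat_lit 3) (nat_lit 281) (nat_lit 281)))) (n (nat_lit 306) (b (n (nat_lit 331) (b (l (nat_lit 2) (nat_lit 306) (nat_lit 332)) (l (nat_lit 2) (nat_lit 305) (nat_lit 330)))) (n (nat_lit 285) (b (l (nat_lit 1) (nat_lit 281) (nat_lit 284)) (l (nat_lit 1) (nat_lit 282) (nat_lit 286))))))) (n (nat_lit 306) (b (n (nat_lit 285) (b (l (nat_lit 1) (nat_lit 281) (nat_lit 284)) (l (nat_lit 1) (nat_lit 282) (nat_lit 286)))) (n (nat_lit 281) (b (l (nat_lit 3) (nat_lit 280) (nat_lit 280)) (l (nat_lit 3) (nat_lit 281) (nat_lit 282))))))))) (b (n (nat_lit 307) (b (b (n (nat_lit 306) (b (n (nat_lit 285) (b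 (l (nat_lit 1) (nat_lit 281) (nat_lit 284)) (l (nat_lit 1) (nat_lit 282) (nat_lit 286)))) (n (nat_lit 281) (b (l (nat_lit 3) (nat_lit 280) (nat_lit 280)) (l (nat_lit 3) (nat_lit 281) (nat_lit 282)))))) (n (nat_lit 284) (b (n (nat_lit 285) (b (l (nat_lit 1) (nat_lit 282) (nat_lit 286)) (l (nat_lit 1) (nat_lit 281) (nat_lit 306)))) (l (nat_lit 5) (nat_lit 283) (nat_lit 333))))) (n (nat_lit 282) (b (l (nat_lit 3) (nat_lit 281) (nat_lit 281)) (l (nat_lit 7) (nat_lit 282) (nat_lit 333)))))) (n (nat_lit 332) (b (n (nat_lit 331) (b (l (nat_lit 2) (nat_lit 306) (nat_lit 307)) (l (nat_lit 3) (nat_lit 331) (nat_lit 357)))) (l (nat_lit 3) (nat_lit 332) (nat_lit 333))))))) (l (nat_lit 2) (nat_lit 357) (nat_lit 382)))) (l (nat_lit 2) (nat_lit 358) (nat_lit 384))))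
    envOK_nil (by decide +kernel)

theorem p10891 : Fam (nat_lit 8) (nat_lit 16439798079416835724113872488914192593283432930287167880426539699678942826772709544564016004927067885609680896) (nat_lit 73878780113012555671736379571168382574297819996381790245434379976667014872737570154756532721062173370666184840577024) (nat_lit 73878780113012555671736379571168382574297819996381790245434379976667014872737570154756532721062173370666184840577024) :=
  chk_sound (Env.cons (nat_lit 7) (nat_lit 17614069370803752338058364125690656213650196513617254405360134957369648665471293534307418924370945970437881856) (nat_lit 68953529338463210774189903029698114681022059426820304792653483538716439934193754202491930982574723074127278377009152) Env.nil)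
    (n (nat_lit 359) (b (b (b (r (nat_lit 0)) (n (nat_lit 358) (b (n (nat_lit 383) (b (l (nat_lit 2) (nat_lit 358) (nat_lit 384)) (l (nat_lit 2) (nat_lit 357) (nat_lit 382)))) (n (nat_lit 333) (b (l (nat_lit 3) (nat_lit 332) (nat_lit 332)) (l (nat_lit 3) (nat_lit 333) (nat_lit 334))))))) (b (n (nat_lit 334) (b (n (nat_lit 285) (b (n (nat_lit 260) (b (l (nat_lit 6) (nat_lit 234) (nat_lit 235)) (l (nat_lit 5) (nat_lit 259) (nat_lit 284)))) (l (nat_lit 5) (nat_lit 284) (nat_lit 384)))) (l (nat_lit 3) (nat_lit 333) (nat_lit 333)))) (n (nat_lit 285) (b (n (nat_lit 384) (b (l (nat_lit 5) (nat_lit 284) (nat_lit 334)) (l (nat_lit 2) (nat_lit 358) (nat_lit 383)))) (n (nat_lit 286) (b (n (nat_lit 308) (b (l (nat_lit 2) (nat_lit 283) (nat_lit 284)) (l (nat_lit 1) (nat_lit 282) (nat_lit 307)))) (l (nat_lit 2) (nat_lit 284) (nat_lit 288)))))))) (n (nat_lit 285) (b (b (n (nat_lit 334) (b (n (nat_lit 260) (b (l (nat_lit 6) (nat_lit 234) (nat_lit 235))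 (l (nat_lit 5) (nat_lit 259) (nat_lit 284)))) (l (nat_lit 3) (nat_lit 333) (nat_lit 333)))) (n (nat_lit 286) (b (n (nat_lit 308) (b (l (nat_lit 2) (nat_lit 283) (nat_lit 284)) (l (nat_lit 1) (nat_lit 282) (nat_lit 307)))) (l (nat_lit 2) (nat_lit 284) (nat_lit 288))))) (n (nat_lit 333) (b (n (nat_lit 358) (b (n (nat_lit 382) (b (n (nat_lit 308) (b (n (nat_lit 357) (b (l (nat_lit 2) (nat_lit 356) (nat_lit 381)) (l (nat_lit 6) (nat_lit 282) (nat_lit 283)))) (n (nat_lit 286) (b (l (nat_lit 1) (nat_lit 282) (nat_lit 307)) (l (nat_lit 2) (nat_lit 284) (nat_lit 288)))))) (l (nat_lit 2) (nat_lit 357) (nat_lit 383)))) (l (nat_lit 3) (nat_lit 332) (nat_lit 332)))) (l (nat_lit 3) (nat_lit 333) (nat_lit 334))))))))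
    (envOK_cons p10875 envOK_nil) (by decide +kernel)

theorem p10906 : Fam (nat_lit 8) (nat_lit 16439798079416844067813231554969201948836972655100115547241080155353825432403990100109819835554216412805332992) (nat_lit 68953529338463245770214015107191706694767099275727814383215522682846527012826979557810118781014145359275613759733760) (nat_lit 68953529338463245770214015107191706694767099275727814383215522682846527012826979557810118781014145359275613759733760) :=
  chk_sound (Env.cons (nat_lit 7) (nat_lit 17614069370803752338058364125690656213650196513617254405360134957369648665471293534307418924370945970437881856) (nat_lit 68953529338463210774189903029698114681022059426820304792653483538716439934193754202491930982574723074127278377009152) Env.nil)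
    (n (nat_lit 359) (b (b (b (n (nat_lit 308) (b (b (n (nat_lit 384) (b (n (nat_lit 334) (b (l (nat_lit 5) (nat_lit 284) (nat_lit 285)) (l (nat_lit 7) (nat_lit 283) (nat_lit 283)))) (l (nat_lit 2) (nat_lit 358) (nat_lit 383)))) (n (nat_lit 286) (b (n (nat_lit 285) (b (l (nat_lit 2) (nat_lit 283) (nat_lit 284)) (l (nat_lit 1) (nat_lit 282) (nat_lit 307)))) (l (nat_lit 1) (nat_lit 283) (nat_lit 311))))) (n (nat_lit 311) (b (n (nat_lit 283) (b (l (nat_lit 3) (nat_lit 283) (nat_lit 284)) (l (nat_lit 3) (nat_lit 282) (nat_lit 282)))) (l (nat_lit 1) (nat_lit 283) (nat_lit 286)))))) (r (nat_lit 0))) (b (n (nat_lit 358) (b (n (nat_lit 383) (b (l (nat_lit 2) (nat_lit 358) (nat_lit 384)) (l (nat_lit 2) (nat_lit 357) (nat_lit 382)))) (n (nat_lit 333) (b (l (nat_lit 3) (nat_lit 332) (nat_lit 332)) (l (nat_lit 3) (nat_lit 333) (nat_lit 334)))))) (n (nat_lit 334) (b (n (nat_lit 285) (b (n (nat_lit 260) (b (l (nat_lit 6) (nat_lit 234) (nat_lit 235))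 (l (nat_lit 5) (nat_lit 259) (nat_lit 284)))) (l (nat_lit 5) (nat_lit 284) (nat_lit 384)))) (l (nat_lit 3) (nat_lit 333) (nat_lit 333)))))) (n (nat_lit 333) (b (n (nat_lit 308) (b (b (n (nat_lit 358) (b (n (nat_lit 383) (b (l (nat_lit 5) (nat_lit 283) (nat_lit 284)) (l (nat_lit 2) (nat_lit 357) (nat_lit 382)))) (l (nat_lit 3) (nat_lit 332) (nat_lit 332)))) (n (nat_lit 311) (b (l (nat_lit 2) (nat_lit 307) (nat_lit 332)) (l (nat_lit 1) (nat_lit 283) (nat_lit 286))))) (n (nat_lit 311) (b (n (nat_lit 283) (b (l (nat_lit 3) (nat_lit 283) (nat_lit 284)) (l (nat_lit 3) (nat_lit 282) (nat_lit 282)))) (l (nat_lit 1) (nat_lit 283) (nat_lit 286)))))) (l (nat_lit 3) (nat_lit 333) (nat_lit 334))))))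
    (envOK_cons p10875 envOK_nil) (by decide +kernel)

theorem p10992 : Fam (nat_lit 14) (nat_lit 11742712913869174483147010711619899385753030160478620430771045541411326405063043004852745402299498309043093504) (nat_lit 67039042446799773662115736246125175834415781960434465603677431851875737538138622858975078035256526080628273001999529856724443245474999690760863919833612288) (nat_lit 67039042446799773662115736246125175834415781960434465603677431851875737538138622858975078035256526080628273001999529856724443245474999690760863919833612288) :=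
  chk_sound (Env.cons (nat_lit 12) (nat_lit 16439798079416840938925971905198573440504395258295260172185627484475744455292259891780143399069035715106963456) (nat_lit 9998259222054692872728056360478782861758993460300494859803075589411675224921597746476738625717390325262514141377069056) (Env.cons (nat_lit 9) (nat_lit 16439798079416840938925971905198573440504395258295260172185627484475744455292259891780143399069035715106963456) (nat_lit 83359682273777802591521313665342163581168879759465790917605182233325702032073775840107980765986836232266555435154232503267231381784327356416) (Env.cons (nat_lit 13) (nat_lit 16439798079416840938925971905198573440504395258295260172185627484475744455292259891780143399069035715106963456) (nat_lit 67039042446799769940701401308540609930463382487357531215472869414378750174087428838561422323909338549145273695441532710609980014365330567779616403543293952) (Env.cons (nat_lit 6) (nat_lit 16439798079416840938925971905198573440504395258295260172185627484475744455292259891780143399069035715106963456)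 (nat_lit 1322112486746033566730899757360028112398574660484073139497898464811925006740781789978407157445090130497632750659115293868032) (Env.cons (nat_lit 8) (nat_lit 16439798079416840938925971905198573440504395258295260172185627484475744455292259891780143399069035715106963456) (nat_lit 3721414423663014777771128699471729033405502383818067776344410092921319139277714339512653118232663379057849650619268174757098532986593214464) (Env.cons (nat_lit 8) (nat_lit 16439798079416844067813231554969201948836972655100115547241080155353825432403990100109819835554216412805332992) (nat_lit 59103027495796787809659115523253584743101509600050390549344613287480938659056931118992486047079223276044130109620224) (Env.cons (nat_lit 8) (nat_lit 16439798079416835724113872488914192593283432930287167880426539699678942826772709544564016004927067885609680896) (nat_lit 73878780113012555671736379571168382574297819996381790245434379976667014872737570154756532721062173370666184840577024)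 (Env.cons (nat_lit 8) (nat_lit 16439798079416844067813231554969201948836972655100115547241080155353825432403990100109819835554216412805332992) (nat_lit 68953529338463245770214015107191706694767099275727814383215522682846527012826979557810118781014145359275613759733760) Env.nil))))))))
    (n (nat_lit 361) (b (b (b (r (nat_lit 0)) (r (nat_lit 1))) (b (r (nat_lit 2)) (r (nat_lit 3)))) (b (b (r (nat_lit 4)) (n (nat_lit 359) (b (b (n (nat_lit 363) (b (n (nat_lit 334) (b (l (nat_lit 3) (nat_lit 333) (nat_lit 333)) (l (nat_lit 3) (nat_lit 334) (nat_lit 335)))) (n (nat_lit 388) (b (l (nat_lit 0) (nat_lit 360) (nat_lit 389)) (l (nat_lit 0) (nat_lit 359) (nat_lit 387)))))) (n (nat_lit 358) (b (n (nat_lit 383) (b (l (nat_lit 2) (nat_lit 358) (nat_lit 384)) (l (nat_lit 2) (nat_lit 357) (nat_lit 382)))) (n (nat_lit 387) (b (l (nat_lit 0) (nat_lit 358) (nat_lit 386)) (l (nat_lit 0) (nat_lit 359) (nat_lit 388))))))) (n (nat_lit 358) (b (n (nat_lit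 383) (b (l (nat_lit 2) (nat_lit 358) (nat_lit 384)) (l (nat_lit 2) (nat_lit 357) (nat_lit 382)))) (n (nat_lit 333) (b (l (nat_lit 3) (nat_lit 332) (nat_lit 332)) (l (nat_lit 3) (nat_lit 333) (nat_lit 334))))))))) (b (n (nat_lit 363) (b (b (n (nat_lit 364) (b (n (nat_lit 389) (b (l (nat_lit 0) (nat_lit 360) (nat_lit 388)) (l (nat_lit 0) (nat_lit 361) (nat_lit 390)))) (n (nat_lit 339) (b (l (nat_lit 1) (nat_lit 336) (nat_lit 340)) (l (nat_lit 1) (nat_lit 335) (nat_lit 338)))))) (n (nat_lit 359) (b (n (nat_lit 388) (b (l (nat_lit 0) (nat_lit 360) (nat_lit 389)) (l (nat_lit 0) (nat_lit 359) (nat_lit 387)))) (n (nat_lit 334) (b (l (nat_lit 3) (nat_lit 333) (nat_lit 333)) (l (nat_lit 3) (nat_lit 334) (nat_lit 335))))))) (n (nat_lit 364) (b (n (nat_lit 335) (b (l (nat_lit 3) (nat_lit 334) (nat_lit 334)) (l (nat_lit 3) (nat_lit 335) (nat_lit 336)))) (n (nat_lit 339) (b (l (nat_lit 1) (nat_lit 336) (nat_lit 340)) (l (nat_lit 1) (nat_lit 335) (nat_lit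 338)))))))) (n (nat_lit 310) (b (b (b (n (nat_lit 309) (b (b (b (r (nat_lit 5)) (r (nat_lit 6))) (b (n (nat_lit 311) (b (n (nat_lit 308) (b (n (nat_lit 283) (b (l (nat_lit 3) (nat_lit 283) (nat_lit 284)) (l (nat_lit 3) (nat_lit 282) (nat_lit 282)))) (n (nat_lit 333) (b (l (nat_lit 2) (nat_lit 307) (nat_lit 332)) (l (nat_lit 2) (nat_lit 308) (nat_lit 334)))))) (l (nat_lit 1) (nat_lit 284) (nat_lit 288)))) (n (nat_lit 311) (b (n (nat_lit 308) (b (n (nat_lit 283) (b (l (nat_lit 3) (nat_lit 283) (nat_lit 284)) (l (nat_lit 3) (nat_lit 282) (nat_lit 282)))) (l (nat_lit 1) (nat_lit 283) (nat_lit 286)))) (l (nat_lit 1) (nat_lit 284) (nat_lit 288)))))) (b (n (nat_lit 311) (b (n (nat_lit 308) (b (n (nat_lit 333) (b (l (nat_lit 2) (nat_lit 307) (nat_lit 332)) (l (nat_lit 2) (nat_lit 308) (nat_lit 334)))) (l (nat_lit 1) (nat_lit 283) (nat_lit 286)))) (l (nat_lit 1) (nat_lit 284) (nat_lit 288)))) (r (nat_lit 7))))) (n (nat_lit 335) (b (n (nat_lit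 363) (b (n (nat_lit 364) (b (n (nat_lit 339) (b (l (nat_lit 1) (nat_lit 336) (nat_lit 340)) (l (nat_lit 1) (nat_lit 335) (nat_lit 338)))) (l (nat_lit 3) (nat_lit 335) (nat_lit 336)))) (l (nat_lit 3) (nat_lit 334) (nat_lit 334)))) (n (nat_lit 285) (b (n (nat_lit 260) (b (n (nat_lit 261) (b (l (nat_lit 5) (nat_lit 235) (nat_lit 236)) (l (nat_lit 5) (nat_lit 260) (nat_lit 286)))) (n (nat_lit 259) (b (l (nat_lit 7) (nat_lit 259) (nat_lit 284)) (l (nat_lit 7) (nat_lit 234) (nat_lit 234)))))) (l (nat_lit 4) (nat_lit 285) (nat_lit 386))))))) (b (n (nat_lit 363) (b (n (nat_lit 364) (b (n (nat_lit 389) (b (l (nat_lit 0) (nat_lit 360) (nat_lit 388)) (l (nat_lit 0) (nat_lit 361) (nat_lit 390)))) (n (nat_lit 339) (b (l (nat_lit 1) (nat_lit 336) (nat_lit 340)) (l (nat_lit 1) (nat_lit 335) (nat_lit 338)))))) (n (nat_lit 334) (b (n (nat_lit 309) (b (b (n (nat_lit 333) (b (l (nat_lit 3) (nat_lit 333) (nat_lit 359)) (l (nat_lit 2) (nat_lit 308) (nat_lit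 311)))) (n (nat_lit 359) (b (n (nat_lit 383) (b (n (nat_lit 358) (b (l (nat_lit 6) (nat_lit 283) (nat_lit 284)) (l (nat_lit 2) (nat_lit 357) (nat_lit 382)))) (l (nat_lit 2) (nat_lit 358) (nat_lit 384)))) (l (nat_lit 3) (nat_lit 333) (nat_lit 333))))) (n (nat_lit 311) (b (n (nat_lit 308) (b (n (nat_lit 283) (b (l (nat_lit 3) (nat_lit 283) (nat_lit 284)) (l (nat_lit 3) (nat_lit 282) (nat_lit 282)))) (l (nat_lit 1) (nat_lit 283) (nat_lit 286)))) (l (nat_lit 1) (nat_lit 284) (nat_lit 288)))))) (l (nat_lit 3) (nat_lit 334) (nat_lit 335)))))) (n (nat_lit 335) (b (b (n (nat_lit 386) (b (n (nat_lit 336) (b (l (nat_lit 7) (nat_lit 310) (nat_lit 411)) (l (nat_lit 5) (nat_lit 286) (nat_lit 311)))) (l (nat_lit 4) (nat_lit 285) (nat_lit 285)))) (n (nat_lit 363) (b (n (nat_lit 364) (b (n (nat_lit 339) (b (l (nat_lit 1) (nat_lit 336) (nat_lit 340)) (l (nat_lit 1) (nat_lit 335) (nat_lit 338)))) (l (nat_lit 3) (nat_lit 335) (nat_lit 336)))) (l (nat_lit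 3) (nat_lit 334) (nat_lit 334))))) (n (nat_lit 285) (b (n (nat_lit 334) (b (n (nat_lit 359) (b (l (nat_lit 6) (nat_lit 259) (nat_lit 260)) (l (nat_lit 6) (nat_lit 284) (nat_lit 384)))) (l (nat_lit 3) (nat_lit 334) (nat_lit 363)))) (l (nat_lit 4) (nat_lit 285) (nat_lit 386)))))))) (n (nat_lit 285) (b (b (b (n (nat_lit 309) (b (b (n (nat_lit 288) (b (l (nat_lit 2) (nat_lit 284) (nat_lit 286)) (l (nat_lit 1) (nat_lit 284) (nat_lit 311)))) (n (nat_lit 335) (b (n (nat_lit 260) (b (n (nat_lit 259) (b (l (nat_lit 7) (nat_lit 259) (nat_lit 284)) (l (nat_lit 7) (nat_lit 234) (nat_lit 234)))) (l (nat_lit 4) (nat_lit 260) (nat_lit 336)))) (n (nat_lit 286) (b (n (nat_lit 308) (b (l (nat_lit 1) (nat_lit 283) (nat_lit 311)) (l (nat_lit 1) (nat_lit 282) (nat_lit 307)))) (l (nat_lit 5) (nat_lit 260) (nat_lit 261))))))) (b (n (nat_lit 286) (b (n (nat_lit 308) (b (l (nat_lit 2) (nat_lit 283) (nat_lit 284)) (l (nat_lit 1) (nat_lit 282) (nat_lit 307))))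 (l (nat_lit 2) (nat_lit 284) (nat_lit 288)))) (n (nat_lit 311) (b (n (nat_lit 284) (b (n (nat_lit 260) (b (b (n (nat_lit 335) (b (l (nat_lit 4) (nat_lit 260) (nat_lit 336)) (l (nat_lit 7) (nat_lit 259) (nat_lit 259)))) (n (nat_lit 235) (b (l (nat_lit 4) (nat_lit 235) (nat_lit 336)) (l (nat_lit 6) (nat_lit 209) (nat_lit 210))))) (n (nat_lit 236) (b (n (nat_lit 335) (b (l (nat_lit 7) (nat_lit 259) (nat_lit 259)) (l (nat_lit 5) (nat_lit 235) (nat_lit 261)))) (n (nat_lit 235) (b (l (nat_lit 5) (nat_lit 210) (nat_lit 211)) (l (nat_lit 6) (nat_lit 209) (nat_lit 210)))))))) (l (nat_lit 3) (nat_lit 283) (nat_lit 283)))) (l (nat_lit 1) (nat_lit 284) (nat_lit 288))))))) (n (nat_lit 335) (b (n (nat_lit 260) (b (n (nat_lit 259) (b (l (nat_lit 7) (nat_lit 259) (nat_lit 284)) (l (nat_lit 7) (nat_lit 234) (nat_lit 234)))) (l (nat_lit 4) (nat_lit 260) (nat_lit 336)))) (l (nat_lit 4) (nat_lit 285) (nat_lit 386))))) (b (n (nat_lit 286) (b (n (nat_lit 335)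 (b (l (nat_lit 5) (nat_lit 260) (nat_lit 261)) (l (nat_lit 4) (nat_lit 285) (nat_lit 386)))) (n (nat_lit 309) (b (n (nat_lit 308) (b (l (nat_lit 2) (nat_lit 283) (nat_lit 284)) (l (nat_lit 1) (nat_lit 282) (nat_lit 307)))) (l (nat_lit 2) (nat_lit 284) (nat_lit 288)))))) (n (nat_lit 335) (b (n (nat_lit 260) (b (n (nat_lit 261) (b (l (nat_lit 5) (nat_lit 235) (nat_lit 236)) (l (nat_lit 5) (nat_lit 260) (nat_lit 286)))) (l (nat_lit 4) (nat_lit 260) (nat_lit 336)))) (l (nat_lit 4) (nat_lit 285) (nat_lit 386)))))) (n (nat_lit 286) (b (b (n (nat_lit 288) (b (b (n (nat_lit 284) (b (b (n (nat_lit 259) (b (l (nat_lit 3) (nat_lit 258) (nat_lit 258)) (l (nat_lit 3) (nat_lit 259) (nat_lit 260)))) (n (nat_lit 311) (b (n (nat_lit 336) (b (l (nat_lit 7) (nat_lit 260) (nat_lit 260)) (l (nat_lit 5) (nat_lit 286) (nat_lit 386)))) (l (nat_lit 0) (nat_lit 283) (nat_lit 283))))) (n (nat_lit 283) (b (n (nat_lit 258) (b (l (nat_lit 3) (nat_lit 257) (nat_lit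 257)) (l (nat_lit 3) (nat_lit 258) (nat_lit 259)))) (l (nat_lit 0) (nat_lit 283) (nat_lit 311)))))) (n (nat_lit 289) (b (n (nat_lit 264) (b (l (nat_lit 1) (nat_lit 261) (nat_lit 265)) (l (nat_lit 1) (nat_lit 260) (nat_lit 263)))) (n (nat_lit 260) (b (l (nat_lit 3) (nat_lit 260) (nat_lit 261)) (l (nat_lit 3) (nat_lit 259) (nat_lit 259))))))) (n (nat_lit 289) (b (n (nat_lit 264) (b (l (nat_lit 1) (nat_lit 261) (nat_lit 265)) (l (nat_lit 1) (nat_lit 260) (nat_lit 263)))) (l (nat_lit 2) (nat_lit 285) (nat_lit 311)))))) (n (nat_lit 309) (b (n (nat_lit 308) (b (l (nat_lit 2) (nat_lit 283) (nat_lit 284)) (l (nat_lit 1) (nat_lit 282) (nat_lit 307)))) (l (nat_lit 2) (nat_lit 284) (nat_lit 288))))) (b (n (nat_lit 311) (b (n (nat_lit 336) (b (l (nat_lit 7) (nat_lit 260) (nat_lit 260)) (l (nat_lit 5) (nat_lit 286) (nat_lit 386)))) (n (nat_lit 288) (b (l (nat_lit 2) (nat_lit 285) (nat_lit 289)) (l (nat_lit 2) (nat_lit 284) (nat_lit 309)))))) (n (nat_lit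 258) (b (b (b (n (nat_lit 259) (b (n (nat_lit 260) (b (l (nat_lit 0) (nat_lit 258) (nat_lit 261)) (l (nat_lit 0) (nat_lit 257) (nat_lit 257)))) (l (nat_lit 3) (nat_lit 258) (nat_lit 284)))) (n (nat_lit 284) (b (n (nat_lit 283) (b (l (nat_lit 0) (nat_lit 283) (nat_lit 311)) (l (nat_lit 3) (nat_lit 257) (nat_lit 257)))) (l (nat_lit 3) (nat_lit 258) (nat_lit 259))))) (b (n (nat_lit 283) (b (b (n (nat_lit 311) (b (n (nat_lit 336) (b (l (nat_lit 7) (nat_lit 285) (nat_lit 386)) (l (nat_lit 7) (nat_lit 260) (nat_lit 260)))) (l (nat_lit 0) (nat_lit 283) (nat_lit 284)))) (n (nat_lit 284) (b (n (nat_lit 308) (b (l (nat_lit 2) (nat_lit 283) (nat_lit 309)) (l (nat_lit 2) (nat_lit 282) (nat_lit 307)))) (l (nat_lit 3) (nat_lit 257) (nat_lit 257))))) (n (nat_lit 308) (b (n (nat_lit 233) (b (b (n (nat_lit 333) (b (n (nat_lit 232) (b (l (nat_lit 7) (nat_lit 207) (nat_lit 207)) (l (nat_lit 7) (nat_lit 232) (nat_lit 257)))) (n (nat_lit 332) (b (l (nat_lit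 6) (nat_lit 257) (nat_lit 357)) (l (nat_lit 6) (nat_lit 232) (nat_lit 307)))))) (n (nat_lit 208) (b (n (nat_lit 307) (b (l (nat_lit 6) (nat_lit 232) (nat_lit 332)) (l (nat_lit 6) (nat_lit 207) (nat_lit 282)))) (n (nat_lit 209) (b (l (nat_lit 5) (nat_lit 183) (nat_lit 184)) (l (nat_lit 5) (nat_lit 208) (nat_lit 234))))))) (n (nat_lit 208) (b (n (nat_lit 209) (b (l (nat_lit 5) (nat_lit 183) (nat_lit 184)) (l (nat_lit 5) (nat_lit 208) (nat_lit 234)))) (n (nat_lit 207) (b (l (nat_lit 7) (nat_lit 182) (nat_lit 182)) (l (nat_lit 7) (nat_lit 207) (nat_lit 232)))))))) (n (nat_lit 311) (b (n (nat_lit 336) (b (l (nat_lit 7) (nat_lit 285) (nat_lit 386)) (l (nat_lit 7) (nat_lit 260) (nat_lit 260)))) (l (nat_lit 1) (nat_lit 283) (nat_lit 309)))))))) (n (nat_lit 311) (b (n (nat_lit 336) (b (l (nat_lit 7) (nat_lit 260) (nat_lit 260)) (l (nat_lit 5) (nat_lit 286) (nat_lit 386)))) (n (nat_lit 284) (b (l (nat_lit 0) (nat_lit 283) (nat_lit 283)) (l (nat_lit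 3) (nat_lit 258) (nat_lit 259)))))))) (n (nat_lit 260) (b (b (n (nat_lit 235) (b (n (nat_lit 311) (b (l (nat_lit 7) (nat_lit 260) (nat_lit 336)) (l (nat_lit 4) (nat_lit 210) (nat_lit 210)))) (n (nat_lit 236) (b (n (nat_lit 259) (b (n (nat_lit 237) (b (l (nat_lit 2) (nat_lit 234) (nat_lit 238)) (l (nat_lit 2) (nat_lit 233) (nat_lit 234)))) (l (nat_lit 1) (nat_lit 232) (nat_lit 257)))) (l (nat_lit 5) (nat_lit 210) (nat_lit 211)))))) (n (nat_lit 311) (b (n (nat_lit 235) (b (n (nat_lit 234) (b (n (nat_lit 236) (b (n (nat_lit 233) (b (n (nat_lit 232) (b (n (nat_lit 207) (b (l (nat_lit 3) (nat_lit 206) (nat_lit 206)) (l (nat_lit 3) (nat_lit 207) (nat_lit 208)))) (l (nat_lit 0) (nat_lit 232) (nat_lit 261)))) (l (nat_lit 2) (nat_lit 232) (nat_lit 257)))) (l (nat_lit 5) (nat_lit 210) (nat_lit 211)))) (l (nat_lit 7) (nat_lit 209) (nat_lit 209)))) (l (nat_lit 4) (nat_lit 210) (nat_lit 210)))) (l (nat_lit 7) (nat_lit 260) (nat_lit 336))))) (b (n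 (nat_lit 259) (b (l (nat_lit 0) (nat_lit 258) (nat_lit 261)) (l (nat_lit 0) (nat_lit 257) (nat_lit 257)))) (n (nat_lit 235) (b (n (nat_lit 311) (b (l (nat_lit 7) (nat_lit 260) (nat_lit 336)) (l (nat_lit 4) (nat_lit 210) (nat_lit 210)))) (n (nat_lit 236) (b (n (nat_lit 259) (b (n (nat_lit 237) (b (l (nat_lit 2) (nat_lit 234) (nat_lit 238)) (l (nat_lit 2) (nat_lit 233) (nat_lit 234)))) (l (nat_lit 0) (nat_lit 258) (nat_lit 261)))) (l (nat_lit 5) (nat_lit 210) (nat_lit 211))))))))))))))))))))))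
    (envOK_cons p10773 (envOK_cons p10213 (envOK_cons p10815 (envOK_cons p10832 (envOK_cons p10839 (envOK_cons p10847 (envOK_cons p10891 (envOK_cons p10906 envOK_nil)))))))) (by decide +kernel)

theorem p10999 : Fam (nat_lit 8) (nat_lit 16439798079416832595226364177525359191629777842358239094951036800725463175802259104245892988693380921223544832) (nat_lit 2977131547802960396277710695213279661485318887348863734008618082694153383426840711239436111409272040635154677422272630896570800687705751552) (nat_lit 2977131547802960396277710695213279661485318887348863734008618082694153383426840711239436111409272040635154677422272630896570800687705751552) :=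
  chk_sound Env.nil
    (n (nat_lit 363) (b (b (n (nat_lit 364) (b (n (nat_lit 339) (b (l (nat_lit 1) (nat_lit 336) (nat_lit 340)) (l (nat_lit 1) (nat_lit 335) (nat_lit 338)))) (n (nat_lit 385) (b (l (nat_lit 2) (nat_lit 360) (nat_lit 386)) (l (nat_lit 2) (nat_lit 359) (nat_lit 384)))))) (n (nat_lit 364) (b (n (nat_lit 389) (b (l (nat_lit 0) (nat_lit 360) (nat_lit 388)) (l (nat_lit 0) (nat_lit 361) (nat_lit 390)))) (n (nat_lit 335) (b (l (nat_lit 3) (nat_lit 334) (nat_lit 334)) (l (nat_lit 3) (nat_lit 335) (nat_lit 336))))))) (n (nat_lit 385) (b (n (nat_lit 335) (b (n (nat_lit 388) (b (n (nat_lit 386) (b (n (nat_lit 410) (b (n (nat_lit 435) (b (l (nat_lit 5) (nat_lit 335) (nat_lit 336)) (l (nat_lit 5) (nat_lit 360) (nat_lit 460)))) (n (nat_lit 409) (b (l (nat_lit 6) (nat_lit 334) (nat_lit 434)) (l (nat_lit 2) (nat_lit 384) (nat_lit 387)))))) (n (nat_lit 310) (b (l (nat_lit 4) (nat_lit 310) (nat_lit 411)) (l (nat_lit 4) (nat_lit 285) (nat_lit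 285)))))) (l (nat_lit 0) (nat_lit 360) (nat_lit 389)))) (l (nat_lit 3) (nat_lit 334) (nat_lit 334)))) (l (nat_lit 2) (nat_lit 359) (nat_lit 384))))))
    envOK_nil (by decide +kernel)

theorem p11022 : Fam (nat_lit 9) (nat_lit 16439798079416840938925971905198573440504395258295260172185627484475744455292259891780143399069035715106963456) (nat_lit 199791917640183764849257601937247717816306557523655789339531129767175731846663065617824386828011566921023954454228814534934787684402605477733597184) (nat_lit 199791917640183764849257601937247717816306557523655789339531129767175731846663065617824386828011566921023954454228814534934787684402605477733597184) :=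
  chk_sound Env.nil
    (n (nat_lit 311) (b (b (b (n (nat_lit 386) (b (n (nat_lit 310) (b (n (nat_lit 335) (b (n (nat_lit 411) (b (l (nat_lit 4) (nat_lit 310) (nat_lit 385)) (l (nat_lit 7) (nat_lit 335) (nat_lit 436)))) (l (nat_lit 4) (nat_lit 285) (nat_lit 285)))) (n (nat_lit 309) (b (n (nat_lit 308) (b (n (nat_lit 283) (b (l (nat_lit 3) (nat_lit 283) (nat_lit 284)) (l (nat_lit 3) (nat_lit 282) (nat_lit 282)))) (n (nat_lit 333) (b (l (nat_lit 2) (nat_lit 307) (nat_lit 332)) (l (nat_lit 2) (nat_lit 308) (nat_lit 334)))))) (l (nat_lit 1) (nat_lit 284) (nat_lit 288)))))) (l (nat_lit 5) (nat_lit 286) (nat_lit 336)))) (n (nat_lit 286) (b (b (n (nat_lit 310) (b (n (nat_lit 335) (b (n (nat_lit 261) (b (l (nat_lit 6) (nat_lit 235) (nat_lit 236)) (l (nat_lit 5) (nat_lit 260) (nat_lit 285)))) (l (nat_lit 5) (nat_lit 285) (nat_lit 385)))) (n (nat_lit 288) (b (l (nat_lit 2) (nat_lit 285) (nat_lit 289)) (l (nat_lit 1) (nat_lit 284) (nat_lit 309))))))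 (n (nat_lit 336) (b (l (nat_lit 4) (nat_lit 286) (nat_lit 387)) (l (nat_lit 6) (nat_lit 285) (nat_lit 385))))) (n (nat_lit 336) (b (n (nat_lit 261) (b (n (nat_lit 260) (b (l (nat_lit 7) (nat_lit 235) (nat_lit 235)) (l (nat_lit 7) (nat_lit 260) (nat_lit 285)))) (l (nat_lit 6) (nat_lit 260) (nat_lit 335)))) (l (nat_lit 4) (nat_lit 286) (nat_lit 387))))))) (b (n (nat_lit 336) (b (n (nat_lit 286) (b (n (nat_lit 261) (b (n (nat_lit 260) (b (l (nat_lit 7) (nat_lit 235) (nat_lit 235)) (l (nat_lit 7) (nat_lit 260) (nat_lit 285)))) (l (nat_lit 6) (nat_lit 260) (nat_lit 335)))) (l (nat_lit 4) (nat_lit 286) (nat_lit 387)))) (l (nat_lit 5) (nat_lit 286) (nat_lit 386)))) (n (nat_lit 336) (b (n (nat_lit 286) (b (l (nat_lit 4) (nat_lit 286) (nat_lit 387)) (l (nat_lit 6) (nat_lit 285) (nat_lit 385)))) (l (nat_lit 5) (nat_lit 286) (nat_lit 386)))))) (n (nat_lit 310) (b (b (n (nat_lit 309) (b (n (nat_lit 308) (b (n (nat_lit 283) (b (l (nat_lit 3) (nat_lit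 283) (nat_lit 284)) (l (nat_lit 3) (nat_lit 282) (nat_lit 282)))) (n (nat_lit 333) (b (l (nat_lit 2) (nat_lit 307) (nat_lit 332)) (l (nat_lit 2) (nat_lit 308) (nat_lit 334)))))) (l (nat_lit 1) (nat_lit 284) (nat_lit 288)))) (n (nat_lit 288) (b (n (nat_lit 289) (b (l (nat_lit 2) (nat_lit 285) (nat_lit 286)) (l (nat_lit 2) (nat_lit 286) (nat_lit 290)))) (l (nat_lit 1) (nat_lit 284) (nat_lit 309))))) (n (nat_lit 335) (b (b (n (nat_lit 286) (b (n (nat_lit 261) (b (l (nat_lit 6) (nat_lit 235) (nat_lit 236)) (l (nat_lit 5) (nat_lit 260) (nat_lit 285)))) (l (nat_lit 5) (nat_lit 285) (nat_lit 385)))) (n (nat_lit 285) (b (n (nat_lit 284) (b (n (nat_lit 286) (b (l (nat_lit 5) (nat_lit 260) (nat_lit 261)) (l (nat_lit 0) (nat_lit 283) (nat_lit 283)))) (l (nat_lit 7) (nat_lit 259) (nat_lit 259)))) (l (nat_lit 4) (nat_lit 285) (nat_lit 386))))) (b (n (nat_lit 386) (b (n (nat_lit 411) (b (l (nat_lit 4) (nat_lit 310) (nat_lit 385)) (l (nat_lit 7) (nat_lit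 335) (nat_lit 436)))) (l (nat_lit 4) (nat_lit 285) (nat_lit 285)))) (n (nat_lit 385) (b (n (nat_lit 410) (b (b (n (nat_lit 435) (b (n (nat_lit 386) (b (l (nat_lit 4) (nat_lit 310) (nat_lit 411)) (l (nat_lit 5) (nat_lit 360) (nat_lit 460)))) (n (nat_lit 434) (b (l (nat_lit 6) (nat_lit 334) (nat_lit 409)) (l (nat_lit 6) (nat_lit 359) (nat_lit 459)))))) (n (nat_lit 435) (b (n (nat_lit 460) (b (n (nat_lit 461) (b (l (nat_lit 4) (nat_lit 385) (nat_lit 486)) (l (nat_lit 4) (nat_lit 360) (nat_lit 436)))) (l (nat_lit 5) (nat_lit 360) (nat_lit 386)))) (n (nat_lit 434) (b (l (nat_lit 6) (nat_lit 334) (nat_lit 409)) (l (nat_lit 6) (nat_lit 359) (nat_lit 459))))))) (b (n (nat_lit 411) (b (l (nat_lit 4) (nat_lit 335) (nat_lit 436)) (l (nat_lit 4) (nat_lit 310) (nat_lit 386)))) (n (nat_lit 435) (b (n (nat_lit 434) (b (l (nat_lit 6) (nat_lit 334) (nat_lit 409)) (l (nat_lit 6) (nat_lit 359) (nat_lit 459)))) (n (nat_lit 436) (b (l (nat_lit 4) (nat_lit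 335) (nat_lit 411)) (l (nat_lit 4) (nat_lit 360) (nat_lit 461))))))))) (l (nat_lit 5) (nat_lit 285) (nat_lit 286)))))))))))
    envOK_nil (by decide +kernel)

end Crest.Agent.R35
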