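import Crest.Agent.R35.C5

/-! Generated strategy certificate for Snaky (part 6). -/

set_option autoImplicit false
set_option maxRecDepth 100000

namespace Crest.Agent.R35

local notation "l" => T.leaf
local notation "n" => T.node
local notation "b" => T.both
local notation "r" => T.ref

theorem p11033 : Fam (nat_lit 7) (nat_lit 16439798079416832595226364177525359191629777842358239094951036800725463175802259104245892988693380921223544832) (nat_lit 88725434178203139261715784333933248820768897710660866315529385778610971417522916715210719652693347123906453678720894314410812637184) (nat_lit 88725434178203139261715784333933248820768897710660866315529385778610971417522916715210719652693347123906453678720894314410812637184) :=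
  chk_sound Env.nil
    (n (nat_lit 359) (b (b (n (nat_lit 358) (b (n (nat_lit 387) (b (l (nat_lit 0) (nat_lit 358) (nat_lit 386)) (l (nat_lit 0) (nat_lit 359) (nat_lit 388)))) (n (nat_lit 333) (b (l (nat_lit 3) (nat_lit 332) (nat_lit 332)) (l (nat_lit 3) (nat_lit 333) (nat_lit 334)))))) (n (nat_lit 358) (b (n (nat_lit 383) (b (l (nat_lit 2) (nat_lit 358) (nat_lit 384)) (l (nat_lit 2) (nat_lit 357) (nat_lit 382)))) (n (nat_lit 387) (b (l (nat_lit 0) (nat_lit 358) (nat_lit 386)) (l (nat_lit 0) (nat_lit 359) (nat_lit 388))))))) (n (nat_lit 384) (b (n (nat_lit 334) (b (n (nat_lit 309) (b (b (n (nat_lit 284) (b (n (nat_lit 283) (b (l (nat_lit 7) (nat_lit 283) (nat_lit 308)) (l (nat_lit 7) (nat_lit 258) (nat_lit 258)))) (n (nat_lit 285) (b (l (nat_lit 5) (nat_lit 259) (nat_lit 260)) (l (nat_lit 5) (nat_lit 284) (nat_lit 310)))))) (n (nat_lit 385) (b (l (nat_lit 4) (nat_lit 284) (nat_lit 284)) (l (nat_lit 4) (nat_lit 309) (nat_lit 410))))) (n (nat_lit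 409) (b (n (nat_lit 310) (b (l (nat_lit 5) (nat_lit 284) (nat_lit 285)) (l (nat_lit 5) (nat_lit 309) (nat_lit 335)))) (n (nat_lit 410) (b (l (nat_lit 4) (nat_lit 334) (nat_lit 435)) (l (nat_lit 4) (nat_lit 309) (nat_lit 385)))))))) (l (nat_lit 3) (nat_lit 333) (nat_lit 333)))) (l (nat_lit 2) (nat_lit 358) (nat_lit 383))))))
    envOK_nil (by decide +kernel)

theorem p11035 : Fam (nat_lit 5) (nat_lit 16439798079416832595226364177525359191629777842358239094951036800725463175802259104245892988693380921223544832) (nat_lit 10008109723603791413790083862396902192194604983262269119221366572924795279962697491948654419998285836846239466427252736) (nat_lit 10008109723603791413790083862396902192194604983262269119221366572924795279962697491948654419998285836846239466427252736) :=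
  chk_sound Env.nil
    (n (nat_lit 363) (b (b (n (nat_lit 364) (b (n (nat_lit 389) (b (l (nat_lit 0) (nat_lit 360) (nat_lit 388)) (l (nat_lit 0) (nat_lit 361) (nat_lit 390)))) (n (nat_lit 339) (b (l (nat_lit 1) (nat_lit 336) (nat_lit 340)) (l (nat_lit 1) (nat_lit 335) (nat_lit 338)))))) (n (nat_lit 364) (b (n (nat_lit 365) (b (n (nat_lit 390) (b (l (nat_lit 0) (nat_lit 362) (nat_lit 391)) (l (nat_lit 0) (nat_lit 361) (nat_lit 389)))) (n (nat_lit 386) (b (l (nat_lit 2) (nat_lit 361) (nat_lit 387)) (l (nat_lit 2) (nat_lit 360) (nat_lit 385)))))) (n (nat_lit 339) (b (l (nat_lit 1) (nat_lit 336) (nat_lit 340)) (l (nat_lit 1) (nat_lit 335) (nat_lit 338))))))) (b (n (nat_lit 386) (b (n (nat_lit 364) (b (n (nat_lit 339) (b (l (nat_lit 1) (nat_lit 336) (nat_lit 340)) (l (nat_lit 1) (nat_lit 335) (nat_lit 338)))) (l (nat_lit 2) (nat_lit 360) (nat_lit 385)))) (n (nat_lit 359) (b (n (nat_lit 387) (b (l (nat_lit 0) (nat_lit 359) (nat_lit 388)) (l (nat_lit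 0) (nat_lit 358) (nat_lit 358)))) (n (nat_lit 334) (b (l (nat_lit 3) (nat_lit 333) (nat_lit 333)) (l (nat_lit 3) (nat_lit 334) (nat_lit 335)))))))) (n (nat_lit 359) (b (n (nat_lit 388) (b (l (nat_lit 0) (nat_lit 360) (nat_lit 389)) (l (nat_lit 0) (nat_lit 359) (nat_lit 387)))) (n (nat_lit 334) (b (l (nat_lit 3) (nat_lit 333) (nat_lit 333)) (l (nat_lit 3) (nat_lit 334) (nat_lit 335)))))))))
    envOK_nil (by decide +kernel)

theorem p11036 : Fam (nat_lit 9) (nat_lit 11742712913869166139447402983946685136878412744541599353536454857661045125573042217318494991923843515159674880) (nat_lit 2977131547802960396282788628839048337428738126270476236398608259106470375135168259343810678240164605769860567514076001153986777642853990400) (nat_lit 2977131547802960396282788628839048337428738126270476236398608259106470375135168259343810678240164605769860567514076001153986777642853990400) :=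
  chk_sound (Env.cons (nat_lit 6) (nat_lit 16439798079416832595226364177525359191629777842358239094951036800725463175802259104245892988693380921223544832) (nat_lit 2644224500667917623364905886016321613072358936829873798384214368344359416517851485343790241038549365401125715733527803199488) (Env.cons (nat_lit 7) (nat_lit 16439798079416832595226364177525359191629777842358239094951036800725463175802259104245892988693380921223544832) (nat_lit 88725434178203139261715784333933248820768897710660866315529385778610971417522916715210719652693347123906453678720894314410812637184) (Env.cons (nat_lit 5) (nat_lit 16439798079416832595226364177525359191629777842358239094951036800725463175802259104245892988693380921223544832) (nat_lit 10008109723603791413790083862396902192194604983262269119221366572924795279962697491948654419998285836846239466427252736) (Env.cons (nat_lit 8) (nat_lit 16439798079416832595226364177525359191629777842358239094951036800725463175802259104245892988693380921223544832)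 (nat_lit 2977131547802960396277710695213279661485318887348863734008618082694153383426840711239436111409272040635154677422272630896570800687705751552) Env.nil))))
    (n (nat_lit 361) (b (b (b (r (nat_lit 0)) (r (nat_lit 1))) (b (n (nat_lit 363) (b (b (n (nat_lit 364) (b (n (nat_lit 389) (b (l (nat_lit 0) (nat_lit 360) (nat_lit 388)) (l (nat_lit 0) (nat_lit 361) (nat_lit 390)))) (n (nat_lit 385) (b (l (nat_lit 2) (nat_lit 360) (nat_lit 386)) (l (nat_lit 2) (nat_lit 359) (nat_lit 384)))))) (n (nat_lit 359) (b (n (nat_lit 384) (b (l (nat_lit 2) (nat_lit 359) (nat_lit 385)) (l (nat_lit 2) (nat_lit 358) (nat_lit 383)))) (n (nat_lit 334) (b (l (nat_lit 3) (nat_lit 333) (nat_lit 333)) (l (nat_lit 3) (nat_lit 334) (nat_lit 335))))))) (n (nat_lit 364) (b (n (nat_lit 389) (b (l (nat_lit 0) (nat_lit 360) (nat_lit 388)) (l (nat_lit 0) (nat_lit 361) (nat_lit 390)))) (n (nat_lit 335) (b (l (nat_lit 3) (nat_lit 334) (nat_lit 334)) (l (nat_lit 3) (nat_lit 335)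 (nat_lit 336)))))))) (r (nat_lit 2)))) (b (b (n (nat_lit 359) (b (b (n (nat_lit 363) (b (n (nat_lit 384) (b (l (nat_lit 2) (nat_lit 359) (nat_lit 385)) (l (nat_lit 2) (nat_lit 358) (nat_lit 383)))) (n (nat_lit 388) (b (l (nat_lit 0) (nat_lit 360) (nat_lit 389)) (l (nat_lit 0) (nat_lit 359) (nat_lit 387)))))) (n (nat_lit 358) (b (n (nat_lit 383) (b (l (nat_lit 2) (nat_lit 358) (nat_lit 384)) (l (nat_lit 2) (nat_lit 357) (nat_lit 382)))) (n (nat_lit 333) (b (l (nat_lit 3) (nat_lit 332) (nat_lit 332)) (l (nat_lit 3) (nat_lit 333) (nat_lit 334))))))) (n (nat_lit 363) (b (n (nat_lit 334) (b (l (nat_lit 3) (nat_lit 333) (nat_lit 333)) (l (nat_lit 3) (nat_lit 334) (nat_lit 335)))) (n (nat_lit 388) (b (l (nat_lit 0) (nat_lit 360) (nat_lit 389)) (l (nat_lit 0) (nat_lit 359) (nat_lit 387)))))))) (n (nat_lit 359) (b (b (n (nat_lit 363) (b (n (nat_lit 334) (b (l (nat_lit 3) (nat_lit 333) (nat_lit 333)) (l (nat_lit 3) (nat_lit 334) (nat_lit 335)))) (n (nat_lit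 388) (b (l (nat_lit 0) (nat_lit 360) (nat_lit 389)) (l (nat_lit 0) (nat_lit 359) (nat_lit 387)))))) (n (nat_lit 358) (b (n (nat_lit 383) (b (l (nat_lit 2) (nat_lit 358) (nat_lit 384)) (l (nat_lit 2) (nat_lit 357) (nat_lit 382)))) (n (nat_lit 387) (b (l (nat_lit 0) (nat_lit 358) (nat_lit 386)) (l (nat_lit 0) (nat_lit 359) (nat_lit 388))))))) (n (nat_lit 358) (b (n (nat_lit 383) (b (l (nat_lit 2) (nat_lit 358) (nat_lit 384)) (l (nat_lit 2) (nat_lit 357) (nat_lit 382)))) (n (nat_lit 333) (b (l (nat_lit 3) (nat_lit 332) (nat_lit 332)) (l (nat_lit 3) (nat_lit 333) (nat_lit 334))))))))) (b (n (nat_lit 363) (b (b (n (nat_lit 359) (b (n (nat_lit 388) (b (l (nat_lit 0) (nat_lit 360) (nat_lit 389)) (l (nat_lit 0) (nat_lit 359) (nat_lit 387)))) (n (nat_lit 384) (b (l (nat_lit 2) (nat_lit 359) (nat_lit 385)) (l (nat_lit 2) (nat_lit 358) (nat_lit 383)))))) (n (nat_lit 364) (b (n (nat_lit 339) (b (l (nat_lit 1) (nat_lit 336) (nat_lit 340)) (l (nat_lit 1) (nat_lit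 335) (nat_lit 338)))) (n (nat_lit 385) (b (l (nat_lit 2) (nat_lit 360) (nat_lit 386)) (l (nat_lit 2) (nat_lit 359) (nat_lit 384))))))) (n (nat_lit 364) (b (n (nat_lit 389) (b (l (nat_lit 0) (nat_lit 360) (nat_lit 388)) (l (nat_lit 0) (nat_lit 361) (nat_lit 390)))) (n (nat_lit 339) (b (l (nat_lit 1) (nat_lit 336) (nat_lit 340)) (l (nat_lit 1) (nat_lit 335) (nat_lit 338)))))))) (r (nat_lit 3))))))
    (envOK_cons p10559 (envOK_cons p11033 (envOK_cons p11035 (envOK_cons p10999 envOK_nil)))) (by decide +kernel)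

theorem p11037 : Fam (nat_lit 8) (nat_lit 11742712913869174483147010711619899385753030160478620430771045541411326405063043004852745402299498309043093504) (nat_lit 88725439466659720558475154818286899824041665401227465289159324875312300275369248556427525444023459479153068570644527551503187050496) (nat_lit 88725439466659720558475154818286899824041665401227465289159324875312300275369248556427525444023459479153068570644527551503187050496) :=
  chk_sound (Env.cons (nat_lit 6) (nat_lit 16439798079416832595226364177525359191629777842358239094951036800725463175802259104245892988693380921223544832) (nat_lit 2644224500667917623364905886016321613072358936829873798384214368344359416517851485343790241038549365401125715733527803199488) (Env.cons (nat_lit 7) (nat_lit 16439798079416832595226364177525359191629777842358239094951036800725463175802259104245892988693380921223544832) (nat_lit 88725434178203139261715784333933248820768897710660866315529385778610971417522916715210719652693347123906453678720894314410812637184)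 (Env.cons (nat_lit 5) (nat_lit 16439798079416832595226364177525359191629777842358239094951036800725463175802259104245892988693380921223544832) (nat_lit 10008109723603791413790083862396902192194604983262269119221366572924795279962697491948654419998285836846239466427252736) Env.nil)))
    (n (nat_lit 361) (b (b (b (r (nat_lit 0)) (r (nat_lit 1))) (b (n (nat_lit 363) (b (n (nat_lit 364) (b (n (nat_lit 389) (b (l (nat_lit 0) (nat_lit 360) (nat_lit 388)) (l (nat_lit 0) (nat_lit 361) (nat_lit 390)))) (n (nat_lit 339) (b (l (nat_lit 1) (nat_lit 336) (nat_lit 340)) (l (nat_lit 1) (nat_lit 335) (nat_lit 338)))))) (n (nat_lit 385) (b (n (nat_lit 335) (b (n (nat_lit 310) (b (n (nat_lit 309) (b (n (nat_lit 311) (b (l (nat_lit 5) (nat_lit 285) (nat_lit 286)) (l (nat_lit 1) (nat_lit 284) (nat_lit 288)))) (l (nat_lit 7) (nat_lit 284) (nat_lit 284)))) (n (nat_lit 386) (b (l (nat_lit 4) (nat_lit 285) (nat_lit 285)) (l (nat_lit 4) (nat_lit 310) (nat_lit 411))))))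 (l (nat_lit 3) (nat_lit 334) (nat_lit 334)))) (l (nat_lit 2) (nat_lit 359) (nat_lit 384)))))) (r (nat_lit 2)))) (b (b (n (nat_lit 359) (b (b (n (nat_lit 363) (b (n (nat_lit 384) (b (l (nat_lit 2) (nat_lit 359) (nat_lit 385)) (l (nat_lit 2) (nat_lit 358) (nat_lit 383)))) (n (nat_lit 388) (b (l (nat_lit 0) (nat_lit 360) (nat_lit 389)) (l (nat_lit 0) (nat_lit 359) (nat_lit 387)))))) (n (nat_lit 358) (b (n (nat_lit 383) (b (l (nat_lit 2) (nat_lit 358) (nat_lit 384)) (l (nat_lit 2) (nat_lit 357) (nat_lit 382)))) (n (nat_lit 333) (b (l (nat_lit 3) (nat_lit 332) (nat_lit 332)) (l (nat_lit 3) (nat_lit 333) (nat_lit 334))))))) (n (nat_lit 363) (b (n (nat_lit 334) (b (l (nat_lit 3) (nat_lit 333) (nat_lit 333)) (l (nat_lit 3) (nat_lit 334) (nat_lit 335)))) (n (nat_lit 388) (b (l (nat_lit 0) (nat_lit 360) (nat_lit 389)) (l (nat_lit 0) (nat_lit 359) (nat_lit 387)))))))) (n (nat_lit 359) (b (b (n (nat_lit 363) (b (n (nat_lit 334) (b (l (nat_lit 3) (nat_lit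 333) (nat_lit 333)) (l (nat_lit 3) (nat_lit 334) (nat_lit 335)))) (n (nat_lit 388) (b (l (nat_lit 0) (nat_lit 360) (nat_lit 389)) (l (nat_lit 0) (nat_lit 359) (nat_lit 387)))))) (n (nat_lit 358) (b (n (nat_lit 383) (b (l (nat_lit 2) (nat_lit 358) (nat_lit 384)) (l (nat_lit 2) (nat_lit 357) (nat_lit 382)))) (n (nat_lit 387) (b (l (nat_lit 0) (nat_lit 358) (nat_lit 386)) (l (nat_lit 0) (nat_lit 359) (nat_lit 388))))))) (n (nat_lit 358) (b (n (nat_lit 383) (b (l (nat_lit 2) (nat_lit 358) (nat_lit 384)) (l (nat_lit 2) (nat_lit 357) (nat_lit 382)))) (n (nat_lit 333) (b (l (nat_lit 3) (nat_lit 332) (nat_lit 332)) (l (nat_lit 3) (nat_lit 333) (nat_lit 334))))))))) (n (nat_lit 363) (b (b (n (nat_lit 359) (b (n (nat_lit 388) (b (l (nat_lit 0) (nat_lit 360) (nat_lit 389)) (l (nat_lit 0) (nat_lit 359) (nat_lit 387)))) (n (nat_lit 384) (b (l (nat_lit 2) (nat_lit 359) (nat_lit 385)) (l (nat_lit 2) (nat_lit 358) (nat_lit 383)))))) (n (nat_lit 364) (b (n (nat_lit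 339) (b (l (nat_lit 1) (nat_lit 336) (nat_lit 340)) (l (nat_lit 1) (nat_lit 335) (nat_lit 338)))) (n (nat_lit 385) (b (l (nat_lit 2) (nat_lit 360) (nat_lit 386)) (l (nat_lit 2) (nat_lit 359) (nat_lit 384))))))) (n (nat_lit 364) (b (n (nat_lit 389) (b (l (nat_lit 0) (nat_lit 360) (nat_lit 388)) (l (nat_lit 0) (nat_lit 361) (nat_lit 390)))) (n (nat_lit 339) (b (l (nat_lit 1) (nat_lit 336) (nat_lit 340)) (l (nat_lit 1) (nat_lit 335) (nat_lit 338)))))))))))
    (envOK_cons p10559 (envOK_cons p11033 (envOK_cons p11035 envOK_nil))) (by decide +kernel)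

theorem p11043 : Fam (nat_lit 7) (nat_lit 16439798079416840938925971905198573440504395258295260172185627484475744455292259891780143399069035715106963456) (nat_lit 2644225126174709332537593946280447956706837054392206979184930549583919561754080356427674869245118521851289440245538650849280) (nat_lit 2644225126174709332537593946280447956706837054392206979184930549583919561754080356427674869245118521851289440245538650849280) :=
  chk_sound Env.nil
    (n (nat_lit 359) (b (b (n (nat_lit 358) (b (n (nat_lit 387) (b (l (nat_lit 0) (nat_lit 358) (nat_lit 386)) (l (nat_lit 0) (nat_lit 359) (nat_lit 388)))) (n (nat_lit 333) (b (l (nat_lit 3) (nat_lit 332) (nat_lit 332)) (l (nat_lit 3) (nat_lit 333) (nat_lit 334)))))) (n (nat_lit 358) (b (n (nat_lit 383) (b (l (nat_lit 2) (nat_lit 358) (nat_lit 384)) (l (nat_lit 2) (nat_lit 357) (nat_lit 382)))) (n (nat_lit 387) (b (l (nat_lit 0) (nat_lit 358) (nat_lit 386)) (l (nat_lit 0) (nat_lit 359) (nat_lit 388)))))))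 (b (n (nat_lit 358) (b (n (nat_lit 383) (b (l (nat_lit 2) (nat_lit 358) (nat_lit 384)) (l (nat_lit 2) (nat_lit 357) (nat_lit 382)))) (n (nat_lit 333) (b (l (nat_lit 3) (nat_lit 332) (nat_lit 332)) (l (nat_lit 3) (nat_lit 333) (nat_lit 334)))))) (n (nat_lit 384) (b (n (nat_lit 334) (b (n (nat_lit 311) (b (n (nat_lit 309) (b (n (nat_lit 385) (b (l (nat_lit 4) (nat_lit 284) (nat_lit 284)) (l (nat_lit 4) (nat_lit 309) (nat_lit 410)))) (n (nat_lit 310) (b (l (nat_lit 1) (nat_lit 284) (nat_lit 288)) (l (nat_lit 5) (nat_lit 284) (nat_lit 285)))))) (n (nat_lit 336) (b (n (nat_lit 387) (b (l (nat_lit 4) (nat_lit 286) (nat_lit 286)) (l (nat_lit 0) (nat_lit 359) (nat_lit 388)))) (l (nat_lit 5) (nat_lit 286) (nat_lit 386)))))) (l (nat_lit 3) (nat_lit 333) (nat_lit 333)))) (l (nat_lit 2) (nat_lit 358) (nat_lit 383)))))))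
    envOK_nil (by decide +kernel)

theorem p11059 : Fam (nat_lit 10) (nat_lit 16439798079416840938925971905198573440504395258295260172185627484475744455292259891780143399069035715106963456) (nat_lit 124869965085408840917113657487835221946196672141337220129701691223301372016586524591934673293219174746078539739168956529361089768351643906080768000) (nat_lit 124869965085408840917113657487835221946196672141337220129701691223301372016586524591934673293219174746078539739168956529361089768351643906080768000) :=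
  chk_sound (Env.cons (nat_lit 9) (nat_lit 17614069370803757552870712203593241954192236532749420107539272970241848967849564113511992898261420066622930944) (nat_lit 17862789175910939576838481636012977652737239211289949078031830109269231887651134131032356868511726639625488322874272089269714396406232383488) (Env.cons (nat_lit 5) (nat_lit 17614069370803749209171104475920027705317619116812399030304682286491567688359563325977742487885765272739512320) (nat_lit 34476774063402197858887453902892294402590270594050897646761453905816519159836210196222901286877350250980861735337984) Env.nil))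
    (n (nat_lit 359) (b (b (r (nat_lit 0)) (n (nat_lit 358) (b (n (nat_lit 357) (b (n (nat_lit 382) (b (l (nat_lit 2) (nat_lit 357) (nat_lit 383)) (l (nat_lit 2) (nat_lit 356) (nat_lit 381)))) (n (nat_lit 332) (b (l (nat_lit 3) (nat_lit 331) (nat_lit 331)) (l (nat_lit 3) (nat_lit 332) (nat_lit 333)))))) (n (nat_lit 387) (b (l (nat_lit 0) (nat_lit 358) (nat_lit 386)) (l (nat_lit 0) (nat_lit 359) (nat_lit 388))))))) (b (r (nat_lit 1)) (n (nat_lit 384) (b (n (nat_lit 387) (b (n (nat_lit 409) (b (b (n (nat_lit 434) (b (n (nat_lit 459) (b (n (nat_lit 460) (b (l (nat_lit 4) (nat_lit 359) (nat_lit 435)) (l (nat_lit 4) (nat_lit 384) (nat_lit 485)))) (n (nat_lit 458) (b (l (nat_lit 6) (nat_lit 383) (nat_lit 483)) (l (nat_lit 6) (nat_lit 358) (nat_lit 433)))))) (l (nat_lit 5) (nat_lit 334) (nat_lit 335)))) (n (nat_lit 335) (b (n (nat_lit 310) (b (l (nat_lit 6) (nat_lit 284) (nat_lit 285)) (l (nat_lit 6) (nat_lit 309) (nat_lit 385)))) (l (nat_lit 5) (nat_lit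 334) (nat_lit 434))))) (n (nat_lit 334) (b (n (nat_lit 408) (b (n (nat_lit 410) (b (n (nat_lit 386) (b (l (nat_lit 2) (nat_lit 383) (nat_lit 385)) (l (nat_lit 1) (nat_lit 383) (nat_lit 411)))) (l (nat_lit 4) (nat_lit 334) (nat_lit 435)))) (l (nat_lit 6) (nat_lit 333) (nat_lit 433)))) (l (nat_lit 3) (nat_lit 333) (nat_lit 333)))))) (l (nat_lit 0) (nat_lit 359) (nat_lit 388)))) (l (nat_lit 2) (nat_lit 358) (nat_lit 383)))))))
    (envOK_cons p10308 (envOK_cons p10413 envOK_nil)) (by decide +kernel)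

theorem p11061 : Fam (nat_lit 10) (nat_lit 16439798079416840938925971905198573440504395258295260172185627484475744455292259891780143399069035715106963456) (nat_lit 17862789175910939576838550589523821343128354718569360354155274647000557121463456788111538069067424347105959537837943732778012844356886593536) (nat_lit 17862789175910939576838550589523821343128354718569360354155274647000557121463456788111538069067424347105959537837943732778012844356886593536) :=
  chk_sound (Env.cons (nat_lit 9) (nat_lit 17614069370803757552870712203593241954192236532749420107539272970241848967849564113511992898261420066622930944) (nat_lit 17862789175910939576838481636012977652737239211289949078031830109269231887651134131032356868511726639625488322874272089269714396406232383488) Env.nil)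
    (n (nat_lit 359) (b (b (r (nat_lit 0)) (n (nat_lit 384) (b (n (nat_lit 334) (b (n (nat_lit 309) (b (b (n (nat_lit 284) (b (n (nat_lit 283) (b (l (nat_lit 7) (nat_lit 283) (nat_lit 308)) (l (nat_lit 7) (nat_lit 258) (nat_lit 258)))) (n (nat_lit 285) (b (l (nat_lit 5) (nat_lit 259) (nat_lit 260)) (l (nat_lit 5) (nat_lit 284) (nat_lit 310)))))) (n (nat_lit 385) (b (l (nat_lit 4) (nat_lit 284) (nat_lit 284)) (l (nat_lit 4) (nat_lit 309) (nat_lit 410))))) (n (nat_lit 409) (b (n (nat_lit 310) (b (l (nat_lit 5) (nat_lit 284) (nat_lit 285)) (l (nat_lit 5) (nat_lit 309) (nat_lit 335)))) (n (nat_lit 410) (b (l (nat_lit 4) (nat_lit 334) (nat_lit 435)) (l (nat_lit 4) (nat_lit 309) (nat_lit 385)))))))) (l (nat_lit 3) (nat_lit 333) (nat_lit 333)))) (l (nat_lit 2) (nat_lit 358) (nat_lit 383))))) (n (nat_lit 358) (b (n (nat_lit 383) (b (l (nat_lit 2) (nat_lit 358) (nat_lit 384)) (l (nat_lit 2) (nat_lit 357) (nat_lit 382)))) (n (nat_lit 387) (b (l (nat_lit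 0) (nat_lit 358) (nat_lit 386)) (l (nat_lit 0) (nat_lit 359) (nat_lit 388))))))))
    (envOK_cons p10308 envOK_nil) (by decide +kernel)

theorem p11067 : Fam (nat_lit 9) (nat_lit 16439798079416840938925971905198573440504395258295260172185627484475744455292259891780143399069035715106963456) (nat_lit 99895958820091882424626156745731285453701716279182162290716675659337814161830401381211751331364921450291787038108184503187395840385440938480107520) (nat_lit 99895958820091882424626156745731285453701716279182162290716675659337814161830401381211751331364921450291787038108184503187395840385440938480107520) :=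
  chk_sound (Env.cons (nat_lit 8) (nat_lit 17614069370803757552870712203593241954192236532749420107539272970241848967849564113511992898261420066622930944) (nat_lit 44362716428045130479169864710392903822906936836834735949175858971677350147337914989245589931199484630637152026119986602152531329024) Env.nil)
    (n (nat_lit 359) (b (b (r (nat_lit 0)) (n (nat_lit 358) (b (n (nat_lit 387) (b (l (nat_lit 0) (nat_lit 358) (nat_lit 386)) (l (nat_lit 0) (nat_lit 359) (nat_lit 388)))) (n (nat_lit 333) (b (l (nat_lit 3) (nat_lit 332) (nat_lit 332)) (l (nat_lit 3) (nat_lit 333) (nat_lit 334))))))) (b (n (nat_lit 358) (b (n (nat_lit 383) (b (l (nat_lit 2) (nat_lit 358) (nat_lit 384)) (l (nat_lit 2) (nat_lit 357) (nat_lit 382)))) (n (nat_lit 387) (b (l (nat_lit 0) (nat_lit 358) (nat_lit 386)) (l (nat_lit 0) (nat_lit 359) (nat_lit 388)))))) (n (nat_lit 334) (b (n (nat_lit 384) (b (n (nat_lit 409) (b (n (nat_lit 311) (b (n (nat_lit 336) (b (n (nat_lit 387) (b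 (l (nat_lit 4) (nat_lit 286) (nat_lit 286)) (l (nat_lit 0) (nat_lit 359) (nat_lit 388)))) (l (nat_lit 5) (nat_lit 286) (nat_lit 386)))) (n (nat_lit 310) (b (n (nat_lit 309) (b (l (nat_lit 1) (nat_lit 284) (nat_lit 288)) (l (nat_lit 5) (nat_lit 284) (nat_lit 285)))) (l (nat_lit 5) (nat_lit 309) (nat_lit 335)))))) (n (nat_lit 434) (b (n (nat_lit 459) (b (n (nat_lit 460) (b (l (nat_lit 4) (nat_lit 359) (nat_lit 435)) (l (nat_lit 4) (nat_lit 384) (nat_lit 485)))) (l (nat_lit 5) (nat_lit 359) (nat_lit 385)))) (n (nat_lit 433) (b (l (nat_lit 6) (nat_lit 333) (nat_lit 408)) (l (nat_lit 6) (nat_lit 358) (nat_lit 458)))))))) (l (nat_lit 2) (nat_lit 358) (nat_lit 383)))) (l (nat_lit 3) (nat_lit 333) (nat_lit 333)))))))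
    (envOK_cons p10430 envOK_nil) (by decide +kernel)

theorem p11075 : Fam (nat_lit 9) (nat_lit 11742712913869174483147010711619899385753030160478620430771045541411326405063043004852745402299498309043093504) (nat_lit 88725432856100027730738097182141055278683881177314152413123611943700534635573742264220539144076528157324499350355682636229976784896) (nat_lit 88725432856100027730738097182141055278683881177314152413123611943700534635573742264220539144076528157324499350355682636229976784896) :=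
  chk_sound (Env.cons (nat_lit 7) (nat_lit 17614069370803757552870712203593241954192236532749420107539272970241848967849564113511992898261420066622930944) (nat_lit 88725432856090068873539852953310821330519497179182504301329871686504825413804324505073422457319520890021664961158895855526475726848) (Env.cons (nat_lit 5) (nat_lit 16439798079416832595226364177525359191629777842358239094951036800725463175802259104245892988693380921223544832) (nat_lit 10008109723603791413790083862396902192194604983262269119221366572924795279962697491948654419998285836846239466427252736) Env.nil))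
    (n (nat_lit 361) (b (b (b (n (nat_lit 359) (b (b (r (nat_lit 0)) (n (nat_lit 358) (b (n (nat_lit 387) (b (l (nat_lit 0) (nat_lit 358) (nat_lit 386)) (l (nat_lit 0) (nat_lit 359) (nat_lit 388)))) (n (nat_lit 333) (b (l (nat_lit 3) (nat_lit 332) (nat_lit 332)) (l (nat_lit 3) (nat_lit 333) (nat_lit 334))))))) (n (nat_lit 358) (b (n (nat_lit 383) (b (l (nat_lit 2) (nat_lit 358) (nat_lit 384)) (l (nat_lit 2) (nat_lit 357) (nat_lit 382)))) (n (nat_lit 387) (b (l (nat_lit 0) (nat_lit 358) (nat_lit 386)) (l (nat_lit 0) (nat_lit 359) (nat_lit 388)))))))) (n (nat_lit 363) (b (b (n (nat_lit 336) (b (n (nat_lit 364) (b (n (nat_lit 339) (b (l (nat_lit 1) (nat_lit 336) (nat_lit 340)) (l (nat_lit 1) (nat_lit 335) (nat_lit 338)))) (l (nat_lit 3) (nat_lit 335) (nat_lit 335)))) (n (nat_lit 387) (b (n (nat_lit 388) (b (l (nat_lit 0) (nat_lit 360) (nat_lit 389)) (l (nat_lit 0) (nat_lit 359) (nat_lit 359)))) (n (nat_lit 311) (b (l (nat_lit 5) (nat_lit 286) (nat_lit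 386)) (l (nat_lit 4) (nat_lit 286) (nat_lit 286)))))))) (n (nat_lit 364) (b (n (nat_lit 339) (b (l (nat_lit 1) (nat_lit 336) (nat_lit 340)) (l (nat_lit 1) (nat_lit 335) (nat_lit 338)))) (n (nat_lit 385) (b (l (nat_lit 2) (nat_lit 360) (nat_lit 386)) (l (nat_lit 2) (nat_lit 359) (nat_lit 384))))))) (n (nat_lit 359) (b (n (nat_lit 388) (b (l (nat_lit 0) (nat_lit 360) (nat_lit 389)) (l (nat_lit 0) (nat_lit 359) (nat_lit 387)))) (n (nat_lit 384) (b (l (nat_lit 2) (nat_lit 359) (nat_lit 385)) (l (nat_lit 2) (nat_lit 358) (nat_lit 383))))))))) (b (n (nat_lit 363) (b (b (n (nat_lit 385) (b (n (nat_lit 335) (b (n (nat_lit 311) (b (n (nat_lit 310) (b (n (nat_lit 309) (b (l (nat_lit 1) (nat_lit 284) (nat_lit 288)) (l (nat_lit 7) (nat_lit 284) (nat_lit 284)))) (l (nat_lit 5) (nat_lit 285) (nat_lit 286)))) (n (nat_lit 336) (b (l (nat_lit 5) (nat_lit 286) (nat_lit 386)) (l (nat_lit 5) (nat_lit 310) (nat_lit 410)))))) (l (nat_lit 3) (nat_lit 334) (nat_lit 334))))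 (l (nat_lit 2) (nat_lit 359) (nat_lit 384)))) (n (nat_lit 364) (b (n (nat_lit 339) (b (l (nat_lit 1) (nat_lit 336) (nat_lit 340)) (l (nat_lit 1) (nat_lit 335) (nat_lit 338)))) (n (nat_lit 385) (b (l (nat_lit 2) (nat_lit 360) (nat_lit 386)) (l (nat_lit 2) (nat_lit 359) (nat_lit 384))))))) (n (nat_lit 364) (b (n (nat_lit 335) (b (l (nat_lit 3) (nat_lit 334) (nat_lit 334)) (l (nat_lit 3) (nat_lit 335) (nat_lit 336)))) (n (nat_lit 339) (b (l (nat_lit 1) (nat_lit 336) (nat_lit 340)) (l (nat_lit 1) (nat_lit 335) (nat_lit 338)))))))) (n (nat_lit 359) (b (b (n (nat_lit 363) (b (n (nat_lit 384) (b (l (nat_lit 2) (nat_lit 359) (nat_lit 385)) (l (nat_lit 2) (nat_lit 358) (nat_lit 383)))) (n (nat_lit 388) (b (l (nat_lit 0) (nat_lit 360) (nat_lit 389)) (l (nat_lit 0) (nat_lit 359) (nat_lit 387)))))) (n (nat_lit 358) (b (n (nat_lit 383) (b (l (nat_lit 2) (nat_lit 358) (nat_lit 384)) (l (nat_lit 2) (nat_lit 357) (nat_lit 382)))) (n (nat_lit 333) (b (l (nat_lit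 3) (nat_lit 332) (nat_lit 332)) (l (nat_lit 3) (nat_lit 333) (nat_lit 334))))))) (n (nat_lit 358) (b (n (nat_lit 387) (b (l (nat_lit 0) (nat_lit 358) (nat_lit 386)) (l (nat_lit 0) (nat_lit 359) (nat_lit 388)))) (n (nat_lit 333) (b (l (nat_lit 3) (nat_lit 332) (nat_lit 332)) (l (nat_lit 3) (nat_lit 333) (nat_lit 334)))))))))) (b (b (r (nat_lit 1)) (n (nat_lit 359) (b (b (n (nat_lit 363) (b (n (nat_lit 384) (b (l (nat_lit 2) (nat_lit 359) (nat_lit 385)) (l (nat_lit 2) (nat_lit 358) (nat_lit 383)))) (n (nat_lit 388) (b (l (nat_lit 0) (nat_lit 360) (nat_lit 389)) (l (nat_lit 0) (nat_lit 359) (nat_lit 387)))))) (n (nat_lit 358) (b (n (nat_lit 383) (b (l (nat_lit 2) (nat_lit 358) (nat_lit 384)) (l (nat_lit 2) (nat_lit 357) (nat_lit 382)))) (n (nat_lit 333) (b (l (nat_lit 3) (nat_lit 332) (nat_lit 332)) (l (nat_lit 3) (nat_lit 333) (nat_lit 334))))))) (n (nat_lit 363) (b (n (nat_lit 334) (b (l (nat_lit 3) (nat_lit 333) (nat_lit 333)) (l (nat_lit 3) (nat_lit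 334) (nat_lit 335)))) (n (nat_lit 388) (b (l (nat_lit 0) (nat_lit 360) (nat_lit 389)) (l (nat_lit 0) (nat_lit 359) (nat_lit 387))))))))) (n (nat_lit 359) (b (b (n (nat_lit 363) (b (n (nat_lit 334) (b (l (nat_lit 3) (nat_lit 333) (nat_lit 333)) (l (nat_lit 3) (nat_lit 334) (nat_lit 335)))) (n (nat_lit 388) (b (l (nat_lit 0) (nat_lit 360) (nat_lit 389)) (l (nat_lit 0) (nat_lit 359) (nat_lit 387)))))) (n (nat_lit 358) (b (n (nat_lit 383) (b (l (nat_lit 2) (nat_lit 358) (nat_lit 384)) (l (nat_lit 2) (nat_lit 357) (nat_lit 382)))) (n (nat_lit 387) (b (l (nat_lit 0) (nat_lit 358) (nat_lit 386)) (l (nat_lit 0) (nat_lit 359) (nat_lit 388))))))) (n (nat_lit 358) (b (n (nat_lit 383) (b (l (nat_lit 2) (nat_lit 358) (nat_lit 384)) (l (nat_lit 2) (nat_lit 357) (nat_lit 382)))) (n (nat_lit 333) (b (l (nat_lit 3) (nat_lit 332) (nat_lit 332)) (l (nat_lit 3) (nat_lit 333) (nat_lit 334)))))))))))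
    (envOK_cons p10402 (envOK_cons p11035 envOK_nil)) (by decide +kernel)

theorem p11102 : Fam (nat_lit 11) (nat_lit 16439798079416840938925971905198573440504395258295260172185627484475744455292259891780143399069035715106963456) (nat_lit 92291076606647654901849340458931802648660181556111647815868296750843395856289218488206386091666104814489495772439114938420256178156739756032) (nat_lit 92291076606647654901849340458931802648660181556111647815868296750843395856289218488206386091666104814489495772439114938420256178156739756032) :=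
  chk_sound Env.nil
    (n (nat_lit 363) (b (b (b (n (nat_lit 364) (b (n (nat_lit 339) (b (l (nat_lit 1) (nat_lit 336) (nat_lit 340)) (l (nat_lit 1) (nat_lit 335) (nat_lit 338)))) (n (nat_lit 386) (b (n (nat_lit 387) (b (n (nat_lit 359) (b (l (nat_lit 0) (nat_lit 359) (nat_lit 388)) (l (nat_lit 0) (nat_lit 358) (nat_lit 358)))) (l (nat_lit 2) (nat_lit 361) (nat_lit 365)))) (l (nat_lit 2) (nat_lit 360) (nat_lit 385)))))) (n (nat_lit 388) (b (n (nat_lit 387) (b (n (nat_lit 338) (b (n (nat_lit 413) (b (b (n (nat_lit 437) (b (n (nat_lit 438) (b (l (nat_lit 6) (nat_lit 362) (nat_lit 462)) (l (nat_lit 7) (nat_lit 362) (nat_lit 463)))) (l (nat_lit 6) (nat_lit 337) (nat_lit 412)))) (n (nat_lit 414) (b (n (nat_lit 415) (b (n (nat_lit 412) (b (l (nat_lit 3) (nat_lit 386) (nat_lit 386)) (l (nat_lit 6) (nat_lit 337) (nat_lit 437)))) (l (nat_lit 3) (nat_lit 387) (nat_lit 416)))) (l (nat_lit 4) (nat_lit 338) (nat_lit 439))))) (n (nat_lit 438) (b (n (nat_lit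 439) (b (l (nat_lit 4) (nat_lit 363) (nat_lit 464)) (l (nat_lit 4) (nat_lit 338) (nat_lit 414)))) (l (nat_lit 7) (nat_lit 362) (nat_lit 463)))))) (l (nat_lit 1) (nat_lit 335) (nat_lit 339)))) (l (nat_lit 0) (nat_lit 359) (nat_lit 359)))) (l (nat_lit 0) (nat_lit 360) (nat_lit 389))))) (b (n (nat_lit 364) (b (n (nat_lit 365) (b (n (nat_lit 340) (b (l (nat_lit 1) (nat_lit 336) (nat_lit 339)) (l (nat_lit 1) (nat_lit 337) (nat_lit 341)))) (n (nat_lit 386) (b (l (nat_lit 2) (nat_lit 361) (nat_lit 387)) (l (nat_lit 2) (nat_lit 360) (nat_lit 385)))))) (n (nat_lit 389) (b (l (nat_lit 0) (nat_lit 360) (nat_lit 388)) (l (nat_lit 0) (nat_lit 361) (nat_lit 390)))))) (n (nat_lit 364) (b (n (nat_lit 365) (b (n (nat_lit 390) (b (l (nat_lit 0) (nat_lit 362) (nat_lit 391)) (l (nat_lit 0) (nat_lit 361) (nat_lit 389)))) (n (nat_lit 386) (b (l (nat_lit 2) (nat_lit 361) (nat_lit 387)) (l (nat_lit 2) (nat_lit 360) (nat_lit 385)))))) (n (nat_lit 339) (b (l (nat_lit 1)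 (nat_lit 336) (nat_lit 340)) (l (nat_lit 1) (nat_lit 335) (nat_lit 338)))))))) (b (n (nat_lit 364) (b (n (nat_lit 389) (b (l (nat_lit 0) (nat_lit 360) (nat_lit 388)) (l (nat_lit 0) (nat_lit 361) (nat_lit 390)))) (n (nat_lit 339) (b (l (nat_lit 1) (nat_lit 336) (nat_lit 340)) (l (nat_lit 1) (nat_lit 335) (nat_lit 338)))))) (n (nat_lit 388) (b (n (nat_lit 387) (b (n (nat_lit 386) (b (n (nat_lit 364) (b (l (nat_lit 2) (nat_lit 361) (nat_lit 365)) (l (nat_lit 2) (nat_lit 360) (nat_lit 385)))) (n (nat_lit 411) (b (b (n (nat_lit 435) (b (n (nat_lit 436) (b (l (nat_lit 5) (nat_lit 361) (nat_lit 461)) (l (nat_lit 6) (nat_lit 360) (nat_lit 460)))) (n (nat_lit 336) (b (l (nat_lit 6) (nat_lit 335) (nat_lit 410)) (l (nat_lit 5) (nat_lit 286) (nat_lit 311)))))) (n (nat_lit 410) (b (n (nat_lit 409) (b (l (nat_lit 1) (nat_lit 383) (nat_lit 408)) (l (nat_lit 1) (nat_lit 384) (nat_lit 412)))) (n (nat_lit 336) (b (l (nat_lit 5) (nat_lit 286) (nat_lit 311)) (l (nat_lit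 6) (nat_lit 335) (nat_lit 435))))))) (b (n (nat_lit 437) (b (n (nat_lit 436) (b (l (nat_lit 4) (nat_lit 361) (nat_lit 462)) (l (nat_lit 5) (nat_lit 361) (nat_lit 461)))) (n (nat_lit 412) (b (l (nat_lit 5) (nat_lit 337) (nat_lit 338)) (l (nat_lit 4) (nat_lit 336) (nat_lit 336)))))) (n (nat_lit 436) (b (n (nat_lit 437) (b (n (nat_lit 412) (b (n (nat_lit 410) (b (n (nat_lit 438) (b (l (nat_lit 4) (nat_lit 362) (nat_lit 463)) (l (nat_lit 3) (nat_lit 410) (nat_lit 439)))) (l (nat_lit 1) (nat_lit 384) (nat_lit 409)))) (l (nat_lit 5) (nat_lit 337) (nat_lit 338)))) (l (nat_lit 4) (nat_lit 361) (nat_lit 462)))) (l (nat_lit 5) (nat_lit 361) (nat_lit 461))))))))) (l (nat_lit 0) (nat_lit 359) (nat_lit 359)))) (l (nat_lit 0) (nat_lit 360) (nat_lit 389)))))))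
    envOK_nil (by decide +kernel)

theorem p11161 : Fam (nat_lit 15) (nat_lit 11742712913869174483147010711619899385753030160478620430771045541411326405063043004852745402299498309043093504) (nat_lit 67039042446799780360641522676713268159541088556680591561385839652860668640810834447173651841936685923584684446104542001955993911960958364869617203799916544) (nat_lit 67039042446799780360641522676713268159541088556680591561385839652860668640810834447173651841936685923584684446104542001955993911960958364869617203799916544) :=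
  chk_sound (Env.cons (nat_lit 11) (nat_lit 16439798079416840938925971905198573440504395258295260172185627484475744455292259891780143399069035715106963456) (nat_lit 92291076606647654901849340458931802648660181556111647815868296750843395856289218488206386091666104814489495772439114938420256178156739756032) (Env.cons (nat_lit 14) (nat_lit 16439798079416840938925971905198573440504395258295260172185627484475744455292259891780143399069035715106963456) (nat_lit 9909604708112805294501463139004817963114510001665700057885779638470786253712382340083622330708482214508027058751275008) (Env.cons (nat_lit 8) (nat_lit 16439798079416844067813231554969201948836972655100115547241080155353825432403990100109819835554216412805332992) (nat_lit 68953529338463245770214015107191706694767099275727814383215522682846527012826979557810118781014145359275613759733760) (Env.cons (nat_lit 8) (nat_lit 16439798079416844067813231554969201948836972655100115547241080155353825432403990100109819835554216412805332992)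 (nat_lit 59103027495796787809659115523253584743101509600050390549344613287480938659056931118992486047079223276044130109620224) (Env.cons (nat_lit 8) (nat_lit 16439798079416835724113872488914192593283432930287167880426539699678942826772709544564016004927067885609680896) (nat_lit 73878780113012555671736379571168382574297819996381790245434379976667014872737570154756532721062173370666184840577024) (Env.cons (nat_lit 6) (nat_lit 16439798079416832595226364177525359191629777842358239094951036800725463175802259104245892988693380921223544832) (nat_lit 2644224500667917623364905886016321613072358936829873798384214368344359416517851485343790241038549365401125715733527803199488) (Env.cons (nat_lit 12) (nat_lit 16439798079416840938925971905198573440504395258295260172185627484475744455292259891780143399069035715106963456) (nat_lit 9998259222054692872728056360478782861758993460300494859803075589411675224921597746476738625717390325262514141377069056) (Env.cons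 (nat_lit 10) (nat_lit 16439798079416840938925971905198573440504395258295260172185627484475744455292259891780143399069035715106963456) (nat_lit 67039042446799771429247101081180866804236944874007920408423638600903755436229694423593721237343251137780781351788578930810195077751752719870897386550198272) (Env.cons (nat_lit 7) (nat_lit 16439798079416840938925971905198573440504395258295260172185627484475744455292259891780143399069035715106963456) (nat_lit 2644225126174709332537593946280447956706837054392206979184930549583919561754080356427674869245118521851289440245538650849280) Env.nil)))))))))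
    (n (nat_lit 361) (b (b (b (r (nat_lit 0)) (r (nat_lit 1))) (b (n (nat_lit 309) (b (b (b (n (nat_lit 359) (b (b (n (nat_lit 334) (b (n (nat_lit 284) (b (n (nat_lit 259) (b (n (nat_lit 260) (b (l (nat_lit 5) (nat_lit 234) (nat_lit 235)) (l (nat_lit 5) (nat_lit 259) (nat_lit 285)))) (n (nat_lit 258) (b (l (nat_lit 7) (nat_lit 233) (nat_lit 233)) (l (nat_lit 7) (nat_lit 258) (nat_lit 283)))))) (l (nat_lit 4) (nat_lit 284) (nat_lit 385)))) (l (nat_lit 3) (nat_lit 333) (nat_lit 333)))) (n (nat_lit 363) (b (n (nat_lit 364) (b (n (nat_lit 389) (b (l (nat_lit 0) (nat_lit 360) (nat_lit 388)) (l (nat_lit 0) (nat_lit 361) (nat_lit 390)))) (n (nat_lit 339) (b (l (nat_lit 1) (nat_lit 336) (nat_lit 340)) (l (nat_lit 1) (nat_lit 335) (nat_lit 338)))))) (n (nat_lit 384) (b (l (nat_lit 2) (nat_lit 359) (nat_lit 385)) (l (nat_lit 2) (nat_lit 358) (nat_lit 383))))))) (n (nat_lit 383) (b (n (nat_lit 334) (b (n (nat_lit 358) (b (l (nat_lit 6) (nat_lit 283) (nat_lit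 284)) (l (nat_lit 2) (nat_lit 357) (nat_lit 382)))) (l (nat_lit 3) (nat_lit 333) (nat_lit 333)))) (l (nat_lit 2) (nat_lit 358) (nat_lit 384)))))) (n (nat_lit 311) (b (b (n (nat_lit 310) (b (n (nat_lit 308) (b (n (nat_lit 283) (b (l (nat_lit 3) (nat_lit 283) (nat_lit 284)) (l (nat_lit 3) (nat_lit 282) (nat_lit 282)))) (n (nat_lit 333) (b (l (nat_lit 2) (nat_lit 307) (nat_lit 332)) (l (nat_lit 2) (nat_lit 308) (nat_lit 334)))))) (l (nat_lit 1) (nat_lit 284) (nat_lit 288)))) (n (nat_lit 310) (b (n (nat_lit 308) (b (n (nat_lit 333) (b (l (nat_lit 2) (nat_lit 307) (nat_lit 332)) (l (nat_lit 2) (nat_lit 308) (nat_lit 334)))) (l (nat_lit 1) (nat_lit 283) (nat_lit 286)))) (l (nat_lit 1) (nat_lit 284) (nat_lit 288))))) (b (n (nat_lit 336) (b (n (nat_lit 286) (b (n (nat_lit 285) (b (n (nat_lit 284) (b (l (nat_lit 2) (nat_lit 283) (nat_lit 308)) (l (nat_lit 0) (nat_lit 283) (nat_lit 283)))) (l (nat_lit 7) (nat_lit 260) (nat_lit 260)))) (l (nat_lit 6) (nat_lit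 285) (nat_lit 385)))) (l (nat_lit 5) (nat_lit 286) (nat_lit 386)))) (n (nat_lit 310) (b (n (nat_lit 284) (b (n (nat_lit 385) (b (n (nat_lit 334) (b (l (nat_lit 2) (nat_lit 308) (nat_lit 333)) (l (nat_lit 4) (nat_lit 284) (nat_lit 359)))) (n (nat_lit 336) (b (l (nat_lit 6) (nat_lit 285) (nat_lit 286)) (l (nat_lit 5) (nat_lit 286) (nat_lit 386)))))) (l (nat_lit 3) (nat_lit 283) (nat_lit 283)))) (l (nat_lit 1) (nat_lit 284) (nat_lit 288)))))))) (b (n (nat_lit 311) (b (n (nat_lit 363) (b (n (nat_lit 364) (b (n (nat_lit 389) (b (l (nat_lit 0) (nat_lit 360) (nat_lit 388)) (l (nat_lit 0) (nat_lit 361) (nat_lit 390)))) (n (nat_lit 339) (b (l (nat_lit 1) (nat_lit 336) (nat_lit 340)) (l (nat_lit 1) (nat_lit 335) (nat_lit 338)))))) (n (nat_lit 336) (b (n (nat_lit 385) (b (l (nat_lit 2) (nat_lit 359) (nat_lit 384)) (l (nat_lit 6) (nat_lit 285) (nat_lit 286)))) (l (nat_lit 5) (nat_lit 286) (nat_lit 386)))))) (n (nat_lit 310) (b (n (nat_lit 308) (b (n (nat_lit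 283) (b (l (nat_lit 3) (nat_lit 283) (nat_lit 284)) (l (nat_lit 3) (nat_lit 282) (nat_lit 282)))) (n (nat_lit 333) (b (l (nat_lit 2) (nat_lit 307) (nat_lit 332)) (l (nat_lit 2) (nat_lit 308) (nat_lit 334)))))) (l (nat_lit 1) (nat_lit 284) (nat_lit 288)))))) (n (nat_lit 311) (b (b (n (nat_lit 363) (b (n (nat_lit 364) (b (n (nat_lit 389) (b (l (nat_lit 0) (nat_lit 360) (nat_lit 388)) (l (nat_lit 0) (nat_lit 361) (nat_lit 390)))) (n (nat_lit 339) (b (l (nat_lit 1) (nat_lit 336) (nat_lit 340)) (l (nat_lit 1) (nat_lit 335) (nat_lit 338)))))) (n (nat_lit 336) (b (n (nat_lit 385) (b (l (nat_lit 2) (nat_lit 359) (nat_lit 384)) (l (nat_lit 6) (nat_lit 285) (nat_lit 286)))) (l (nat_lit 5) (nat_lit 286) (nat_lit 386)))))) (n (nat_lit 310) (b (n (nat_lit 308) (b (n (nat_lit 283) (b (l (nat_lit 3) (nat_lit 283) (nat_lit 284)) (l (nat_lit 3) (nat_lit 282) (nat_lit 282)))) (l (nat_lit 1) (nat_lit 283) (nat_lit 286)))) (l (nat_lit 1) (nat_lit 284) (nat_lit 288)))))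 (n (nat_lit 386) (b (n (nat_lit 363) (b (n (nat_lit 364) (b (n (nat_lit 389) (b (l (nat_lit 0) (nat_lit 360) (nat_lit 388)) (l (nat_lit 0) (nat_lit 361) (nat_lit 390)))) (n (nat_lit 339) (b (l (nat_lit 1) (nat_lit 336) (nat_lit 340)) (l (nat_lit 1) (nat_lit 335) (nat_lit 338)))))) (n (nat_lit 359) (b (b (n (nat_lit 384) (b (l (nat_lit 2) (nat_lit 359) (nat_lit 385)) (l (nat_lit 2) (nat_lit 358) (nat_lit 383)))) (n (nat_lit 358) (b (b (n (nat_lit 284) (b (n (nat_lit 383) (b (l (nat_lit 2) (nat_lit 357) (nat_lit 382)) (l (nat_lit 6) (nat_lit 283) (nat_lit 334)))) (n (nat_lit 310) (b (l (nat_lit 1) (nat_lit 284) (nat_lit 288)) (l (nat_lit 3) (nat_lit 283) (nat_lit 283)))))) (n (nat_lit 357) (b (n (nat_lit 382) (b (l (nat_lit 2) (nat_lit 357) (nat_lit 383)) (l (nat_lit 2) (nat_lit 356) (nat_lit 381)))) (l (nat_lit 0) (nat_lit 357) (nat_lit 385))))) (n (nat_lit 284) (b (n (nat_lit 385) (b (l (nat_lit 0) (nat_lit 357) (nat_lit 357)) (l (nat_lit 4) (nat_lit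 284) (nat_lit 334)))) (n (nat_lit 310) (b (l (nat_lit 1) (nat_lit 284) (nat_lit 288)) (l (nat_lit 3) (nat_lit 283) (nat_lit 283))))))))) (b (n (nat_lit 284) (b (n (nat_lit 310) (b (l (nat_lit 1) (nat_lit 284) (nat_lit 288)) (l (nat_lit 3) (nat_lit 283) (nat_lit 283)))) (n (nat_lit 385) (b (l (nat_lit 2) (nat_lit 359) (nat_lit 384)) (l (nat_lit 4) (nat_lit 284) (nat_lit 334)))))) (n (nat_lit 383) (b (n (nat_lit 284) (b (n (nat_lit 358) (b (l (nat_lit 2) (nat_lit 357) (nat_lit 382)) (l (nat_lit 6) (nat_lit 283) (nat_lit 334)))) (n (nat_lit 310) (b (l (nat_lit 1) (nat_lit 284) (nat_lit 288)) (l (nat_lit 3) (nat_lit 283) (nat_lit 283)))))) (l (nat_lit 2) (nat_lit 358) (nat_lit 384))))))))) (l (nat_lit 5) (nat_lit 286) (nat_lit 336)))))))) (b (b (n (nat_lit 311) (b (b (n (nat_lit 363) (b (n (nat_lit 364) (b (n (nat_lit 389) (b (l (nat_lit 0) (nat_lit 360) (nat_lit 388)) (l (nat_lit 0) (nat_lit 361) (nat_lit 390)))) (n (nat_lit 339) (b (l (nat_lit 1)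 (nat_lit 336) (nat_lit 340)) (l (nat_lit 1) (nat_lit 335) (nat_lit 338)))))) (n (nat_lit 336) (b (n (nat_lit 385) (b (l (nat_lit 2) (nat_lit 359) (nat_lit 384)) (l (nat_lit 6) (nat_lit 285) (nat_lit 286)))) (l (nat_lit 5) (nat_lit 286) (nat_lit 386)))))) (n (nat_lit 310) (b (n (nat_lit 308) (b (n (nat_lit 283) (b (l (nat_lit 3) (nat_lit 283) (nat_lit 284)) (l (nat_lit 3) (nat_lit 282) (nat_lit 282)))) (l (nat_lit 1) (nat_lit 283) (nat_lit 286)))) (l (nat_lit 1) (nat_lit 284) (nat_lit 288))))) (n (nat_lit 310) (b (n (nat_lit 283) (b (n (nat_lit 308) (b (n (nat_lit 333) (b (n (nat_lit 363) (b (n (nat_lit 364) (b (n (nat_lit 389) (b (l (nat_lit 0) (nat_lit 360) (nat_lit 388)) (l (nat_lit 0) (nat_lit 361) (nat_lit 390)))) (n (nat_lit 339) (b (l (nat_lit 1) (nat_lit 336) (nat_lit 340)) (l (nat_lit 1) (nat_lit 335) (nat_lit 338)))))) (n (nat_lit 384) (b (n (nat_lit 359) (b (l (nat_lit 4) (nat_lit 283) (nat_lit 358)) (l (nat_lit 2) (nat_lit 358) (nat_lit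 383)))) (l (nat_lit 2) (nat_lit 359) (nat_lit 385)))))) (l (nat_lit 2) (nat_lit 307) (nat_lit 332)))) (l (nat_lit 3) (nat_lit 282) (nat_lit 282)))) (l (nat_lit 3) (nat_lit 283) (nat_lit 284)))) (l (nat_lit 1) (nat_lit 284) (nat_lit 288)))))) (n (nat_lit 311) (b (b (n (nat_lit 363) (b (n (nat_lit 364) (b (n (nat_lit 389) (b (l (nat_lit 0) (nat_lit 360) (nat_lit 388)) (l (nat_lit 0) (nat_lit 361) (nat_lit 390)))) (n (nat_lit 339) (b (l (nat_lit 1) (nat_lit 336) (nat_lit 340)) (l (nat_lit 1) (nat_lit 335) (nat_lit 338)))))) (n (nat_lit 336) (b (n (nat_lit 385) (b (l (nat_lit 2) (nat_lit 359) (nat_lit 384)) (l (nat_lit 6) (nat_lit 285) (nat_lit 286)))) (l (nat_lit 5) (nat_lit 286) (nat_lit 386)))))) (n (nat_lit 310) (b (n (nat_lit 308) (b (n (nat_lit 333) (b (l (nat_lit 2) (nat_lit 307) (nat_lit 332)) (l (nat_lit 2) (nat_lit 308) (nat_lit 334)))) (l (nat_lit 1) (nat_lit 283) (nat_lit 286)))) (l (nat_lit 1) (nat_lit 284) (nat_lit 288))))) (n (nat_lit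 310) (b (n (nat_lit 333) (b (n (nat_lit 363) (b (n (nat_lit 364) (b (n (nat_lit 389) (b (l (nat_lit 0) (nat_lit 360) (nat_lit 388)) (l (nat_lit 0) (nat_lit 361) (nat_lit 390)))) (n (nat_lit 339) (b (l (nat_lit 1) (nat_lit 336) (nat_lit 340)) (l (nat_lit 1) (nat_lit 335) (nat_lit 338)))))) (n (nat_lit 359) (b (n (nat_lit 384) (b (l (nat_lit 2) (nat_lit 359) (nat_lit 385)) (l (nat_lit 2) (nat_lit 358) (nat_lit 383)))) (n (nat_lit 332) (b (l (nat_lit 3) (nat_lit 332) (nat_lit 358)) (l (nat_lit 2) (nat_lit 307) (nat_lit 308)))))))) (l (nat_lit 2) (nat_lit 308) (nat_lit 334)))) (l (nat_lit 1) (nat_lit 284) (nat_lit 288))))))) (n (nat_lit 310) (b (b (b (r (nat_lit 2)) (r (nat_lit 3))) (b (r (nat_lit 4)) (n (nat_lit 311) (b (n (nat_lit 308) (b (n (nat_lit 283) (b (l (nat_lit 3) (nat_lit 283) (nat_lit 284)) (l (nat_lit 3) (nat_lit 282) (nat_lit 282)))) (n (nat_lit 333) (b (l (nat_lit 2) (nat_lit 307) (nat_lit 332)) (l (nat_lit 2) (nat_lit 308) (nat_lit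 334)))))) (l (nat_lit 1) (nat_lit 284) (nat_lit 288)))))) (b (n (nat_lit 311) (b (n (nat_lit 308) (b (n (nat_lit 283) (b (l (nat_lit 3) (nat_lit 283) (nat_lit 284)) (l (nat_lit 3) (nat_lit 282) (nat_lit 282)))) (l (nat_lit 1) (nat_lit 283) (nat_lit 286)))) (l (nat_lit 1) (nat_lit 284) (nat_lit 288)))) (n (nat_lit 311) (b (n (nat_lit 308) (b (n (nat_lit 333) (b (l (nat_lit 2) (nat_lit 307) (nat_lit 332)) (l (nat_lit 2) (nat_lit 308) (nat_lit 334)))) (l (nat_lit 1) (nat_lit 283) (nat_lit 286)))) (l (nat_lit 1) (nat_lit 284) (nat_lit 288)))))))))) (r (nat_lit 5)))) (b (b (r (nat_lit 6)) (r (nat_lit 7))) (r (nat_lit 8)))))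
    (envOK_cons p11102 (envOK_cons p10549 (envOK_cons p10906 (envOK_cons p10847 (envOK_cons p10891 (envOK_cons p10559 (envOK_cons p10773 (envOK_cons p10254 (envOK_cons p11043 envOK_nil))))))))) (by decide +kernel)

theorem p11184 : Fam (nat_lit 9) (nat_lit 2348542652765859549833183991884588026802413059795615386950554165053799075809514684170516622959497632139968512) (nat_lit 59103013844893248536315803325084041015690749413930316307174476888299144500754292432383561095360495112929883082194944) (nat_lit 59103013844893248536315803325084041015690749413930316307174476888299144500754292432383561095360495112929883082194944) :=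
  chk_sound Env.nil
    (n (nat_lit 284) (b (n (nat_lit 359) (b (n (nat_lit 307) (b (b (n (nat_lit 282) (b (b (n (nat_lit 281) (b (l (nat_lit 3) (nat_lit 281) (nat_lit 308)) (l (nat_lit 0) (nat_lit 281) (nat_lit 283)))) (n (nat_lit 283) (b (l (nat_lit 2) (nat_lit 281) (nat_lit 306)) (l (nat_lit 0) (nat_lit 281) (nat_lit 281))))) (b (n (nat_lit 306) (b (l (nat_lit 1) (nat_lit 281) (nat_lit 308)) (l (nat_lit 2) (nat_lit 281) (nat_lit 283)))) (n (nat_lit 308) (b (l (nat_lit 1) (nat_lit 281) (nat_lit 306)) (l (nat_lit 3) (nat_lit 281) (nat_lit 281))))))) (n (nat_lit 334) (b (n (nat_lit 358) (b (n (nat_lit 357) (b (l (nat_lit 1) (nat_lit 331) (nat_lit 356)) (l (nat_lit 1) (nat_lit 332) (nat_lit 336)))) (l (nat_lit 6) (nat_lit 283) (nat_lit 383)))) (n (nat_lit 283) (b (n (nat_lit 282) (b (l (nat_lit 2) (nat_lit 281) (nat_lit 306)) (l (nat_lit 0) (nat_lit 281) (nat_lit 281)))) (l (nat_lit 7) (nat_lit 258) (nat_lit 258))))))) (b (n (nat_lit 308) (b (l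 (nat_lit 0) (nat_lit 307) (nat_lit 336)) (l (nat_lit 1) (nat_lit 281) (nat_lit 306)))) (n (nat_lit 308) (b (n (nat_lit 282) (b (n (nat_lit 257) (b (b (n (nat_lit 332) (b (n (nat_lit 256) (b (l (nat_lit 7) (nat_lit 231) (nat_lit 231)) (l (nat_lit 3) (nat_lit 256) (nat_lit 283)))) (l (nat_lit 2) (nat_lit 306) (nat_lit 331)))) (n (nat_lit 333) (b (n (nat_lit 283) (b (l (nat_lit 7) (nat_lit 257) (nat_lit 358)) (l (nat_lit 3) (nat_lit 256) (nat_lit 256)))) (l (nat_lit 4) (nat_lit 232) (nat_lit 232))))) (n (nat_lit 332) (b (n (nat_lit 333) (b (l (nat_lit 4) (nat_lit 232) (nat_lit 232)) (l (nat_lit 4) (nat_lit 257) (nat_lit 358)))) (l (nat_lit 2) (nat_lit 306) (nat_lit 331)))))) (l (nat_lit 3) (nat_lit 281) (nat_lit 281)))) (l (nat_lit 0) (nat_lit 307) (nat_lit 336))))))) (l (nat_lit 6) (nat_lit 284) (nat_lit 384)))) (l (nat_lit 7) (nat_lit 259) (nat_lit 259))))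
    envOK_nil (by decide +kernel)

theorem p11212 : Fam (nat_lit 9) (nat_lit 34996014725415543687838417313923821906190482366134439992481511342245323407027674336139144685112262656) (nat_lit 495791991368439800349311766707040488928144052979909304297897655629125023771720638312607553648373144869111224366931686457344) (nat_lit 495791991368439800349311766707040488928144052979909304297897655629125023771720638312607553648373144869111224366931686457344) :=
  chk_sound Env.nil
    (n (nat_lit 333) (b (n (nat_lit 258) (b (n (nat_lit 308) (b (b (n (nat_lit 307) (b (n (nat_lit 257) (b (n (nat_lit 282) (b (l (nat_lit 4) (nat_lit 232) (nat_lit 232)) (l (nat_lit 3) (nat_lit 281) (nat_lit 281)))) (l (nat_lit 0) (nat_lit 256) (nat_lit 256)))) (l (nat_lit 1) (nat_lit 281) (nat_lit 306)))) (n (nat_lit 283) (b (n (nat_lit 257) (b (l (nat_lit 0) (nat_lit 256) (nat_lit 256)) (l (nat_lit 7) (nat_lit 232) (nat_lit 232)))) (n (nat_lit 332) (b (l (nat_lit 6) (nat_lit 257)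 (nat_lit 357)) (l (nat_lit 1) (nat_lit 306) (nat_lit 331))))))) (n (nat_lit 332) (b (n (nat_lit 307) (b (n (nat_lit 357) (b (n (nat_lit 381) (b (n (nat_lit 282) (b (l (nat_lit 3) (nat_lit 281) (nat_lit 281)) (l (nat_lit 6) (nat_lit 281) (nat_lit 356)))) (n (nat_lit 382) (b (l (nat_lit 5) (nat_lit 307) (nat_lit 407)) (l (nat_lit 6) (nat_lit 306) (nat_lit 406)))))) (l (nat_lit 6) (nat_lit 257) (nat_lit 283)))) (l (nat_lit 1) (nat_lit 281) (nat_lit 306)))) (l (nat_lit 1) (nat_lit 306) (nat_lit 331)))))) (l (nat_lit 7) (nat_lit 233) (nat_lit 233)))) (l (nat_lit 6) (nat_lit 258) (nat_lit 358))))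
    envOK_nil (by decide +kernel)

theorem p11274 : Fam (nat_lit 6) (nat_lit 39402010306343999066487188906734658186419537177909907257508067142004921952863004561979042316358162814151858296193024) (nat_lit 16636018660517178503585668501260663773349959486497835944452110635664554617247214090611381671288250373005631496788101017793124630528) (nat_lit 16636018660517178503585668501260663773349959486497835944452110635664554617247214090611381671288250373005631496788101017793124630528) :=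
  chk_sound Env.nil
    (n (nat_lit 357) (b (b (n (nat_lit 356) (b (n (nat_lit 381) (b (l (nat_lit 2) (nat_lit 355) (nat_lit 380)) (l (nat_lit 2) (nat_lit 356) (nat_lit 382)))) (n (nat_lit 331) (b (l (nat_lit 3) (nat_lit 331) (nat_lit 332)) (l (nat_lit 3) (nat_lit 330) (nat_lit 330)))))) (n (nat_lit 385) (b (l (nat_lit 0) (nat_lit 357) (nat_lit 386)) (l (nat_lit 0) (nat_lit 356) (nat_lit 356))))) (n (nat_lit 382) (b (n (nat_lit 407) (b (b (n (nat_lit 406) (b (n (nat_lit 385) (b (l (nat_lit 0) (nat_lit 357) (nat_lit 386)) (l (nat_lit 2) (nat_lit 381) (nat_lit 383)))) (n (nat_lit 332) (b (l (nat_lit 3) (nat_lit 331) (nat_lit 331)) (l (nat_lit 6) (nat_lit 331) (nat_lit 431)))))) (n (nat_lit 333) (b (n (nat_lit 332) (b (l (nat_lit 3) (nat_lit 331) (nat_lit 331)) (l (nat_lit 5) (nat_lit 307) (nat_lit 308)))) (l (nat_lit 5) (nat_lit 332) (nat_lit 432))))) (n (nat_lit 333) (b (n (nat_lit 308) (b (l (nat_lit 6) (nat_lit 282) (nat_lit 283)) (l (nat_lit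 6) (nat_lit 307) (nat_lit 383)))) (l (nat_lit 5) (nat_lit 332) (nat_lit 432)))))) (l (nat_lit 2) (nat_lit 356) (nat_lit 381))))))
    envOK_nil (by decide +kernel)

theorem p11303 : Fam (nat_lit 6) (nat_lit 39402010306343999066487188906734658186419537177909907257508067142004921952863004561979042316358162814151858296193024) (nat_lit 372141437930030661292771364316097406478868775659291398273518952427580742803918980876100317849358433546308005063931760233151375980076466176) (nat_lit 372141437930030661292771364316097406478868775659291398273518952427580742803918980876100317849358433546308005063931760233151375980076466176) :=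
  chk_sound Env.nil
    (n (nat_lit 357) (b (b (n (nat_lit 356) (b (n (nat_lit 381) (b (l (nat_lit 2) (nat_lit 355) (nat_lit 380)) (l (nat_lit 2) (nat_lit 356) (nat_lit 382)))) (n (nat_lit 331) (b (l (nat_lit 3) (nat_lit 331) (nat_lit 332)) (l (nat_lit 3) (nat_lit 330) (nat_lit 330)))))) (n (nat_lit 385) (b (l (nat_lit 0) (nat_lit 357) (nat_lit 386)) (l (nat_lit 0) (nat_lit 356) (nat_lit 356))))) (n (nat_lit 382) (b (n (nat_lit 383) (b (n (nat_lit 332) (b (n (nat_lit 307) (b (l (nat_lit 4) (nat_lit 307) (nat_lit 408)) (l (nat_lit 4) (nat_lit 282) (nat_lit 282)))) (l (nat_lit 3) (nat_lit 331) (nat_lit 331)))) (n (nat_lit 407) (b (n (nat_lit 432) (b (l (nat_lit 5) (nat_lit 332) (nat_lit 333)) (l (nat_lit 5) (nat_lit 357) (nat_lit 457)))) (n (nat_lit 385) (b (l (nat_lit 0) (nat_lit 357) (nat_lit 386)) (l (nat_lit 2) (nat_lit 381) (nat_lit 406)))))))) (l (nat_lit 2) (nat_lit 356) (nat_lit 381))))))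
    envOK_nil (by decide +kernel)

theorem p11545 : Fam (nat_lit 13) (nat_lit 10429624509659591517811093271769921276346543238354687851599362500984417813012969568492354273280) (nat_lit 68953513118841034582049573316509655482015906686220721528250091892313355332887599124944849248013928956510174235852800) (nat_lit 68953513118841034582049573316509655482015906686220721528250091892313355332887599124944849248013928956510174235852800) :=
  chk_sound Env.nil
    (n (nat_lit 260) (b (b (b (n (nat_lit 235) (b (b (n (nat_lit 210) (b (n (nat_lit 211) (b (l (nat_lit 5) (nat_lit 210) (nat_lit 236)) (l (nat_lit 5) (nat_lit 185) (nat_lit 186)))) (n (nat_lit 309) (b (l (nat_lit 6) (nat_lit 209) (nat_lit 284)) (l (nat_lit 6) (nat_lit 234) (nat_lit 334)))))) (n (nat_lit 210) (b (n (nat_lit 211) (b (l (nat_lit 5) (nat_lit 210) (nat_lit 236)) (l (nat_lit 5) (nat_lit 185) (nat_lit 186)))) (n (nat_lit 209) (b (l (nat_lit 7) (nat_lit 184) (nat_lit 184)) (l (nat_lit 7) (nat_lit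 209) (nat_lit 234))))))) (b (n (nat_lit 210) (b (n (nat_lit 309) (b (l (nat_lit 6) (nat_lit 209) (nat_lit 284)) (l (nat_lit 6) (nat_lit 234) (nat_lit 334)))) (n (nat_lit 209) (b (l (nat_lit 7) (nat_lit 184) (nat_lit 184)) (l (nat_lit 7) (nat_lit 209) (nat_lit 234)))))) (n (nat_lit 234) (b (n (nat_lit 236) (b (n (nat_lit 309) (b (n (nat_lit 259) (b (n (nat_lit 233) (b (n (nat_lit 232) (b (l (nat_lit 0) (nat_lit 231) (nat_lit 231)) (l (nat_lit 0) (nat_lit 232) (nat_lit 261)))) (n (nat_lit 208) (b (l (nat_lit 7) (nat_lit 208) (nat_lit 284)) (l (nat_lit 3) (nat_lit 207) (nat_lit 207)))))) (n (nat_lit 237) (b (l (nat_lit 2) (nat_lit 234) (nat_lit 238)) (l (nat_lit 2) (nat_lit 233) (nat_lit 258)))))) (l (nat_lit 6) (nat_lit 234) (nat_lit 334)))) (l (nat_lit 5) (nat_lit 210) (nat_lit 211)))) (l (nat_lit 7) (nat_lit 209) (nat_lit 209))))))) (n (nat_lit 286) (b (b (n (nat_lit 309) (b (n (nat_lit 308) (b (l (nat_lit 2) (nat_lit 283) (nat_lit 284)) (l (nat_lit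 1) (nat_lit 282) (nat_lit 307)))) (l (nat_lit 2) (nat_lit 284) (nat_lit 288)))) (n (nat_lit 288) (b (n (nat_lit 289) (b (n (nat_lit 264) (b (l (nat_lit 1) (nat_lit 261) (nat_lit 265)) (l (nat_lit 1) (nat_lit 260) (nat_lit 263)))) (l (nat_lit 3) (nat_lit 260) (nat_lit 261)))) (l (nat_lit 3) (nat_lit 259) (nat_lit 259))))) (n (nat_lit 283) (b (b (b (n (nat_lit 284) (b (n (nat_lit 282) (b (n (nat_lit 307) (b (l (nat_lit 2) (nat_lit 281) (nat_lit 306)) (l (nat_lit 2) (nat_lit 282) (nat_lit 308)))) (l (nat_lit 1) (nat_lit 257) (nat_lit 261)))) (n (nat_lit 258) (b (l (nat_lit 3) (nat_lit 257) (nat_lit 257)) (l (nat_lit 3) (nat_lit 258) (nat_lit 259)))))) (n (nat_lit 284) (b (b (n (nat_lit 282) (b (n (nat_lit 281) (b (l (nat_lit 0) (nat_lit 281) (nat_lit 309)) (l (nat_lit 1) (nat_lit 256) (nat_lit 259)))) (l (nat_lit 1) (nat_lit 257) (nat_lit 261)))) (n (nat_lit 258) (b (l (nat_lit 3) (nat_lit 257) (nat_lit 257)) (l (nat_lit 3) (nat_lit 258) (nat_lit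 259))))) (n (nat_lit 282) (b (n (nat_lit 257) (b (l (nat_lit 3) (nat_lit 256) (nat_lit 256)) (l (nat_lit 3) (nat_lit 257) (nat_lit 258)))) (l (nat_lit 1) (nat_lit 257) (nat_lit 261))))))) (b (n (nat_lit 284) (b (n (nat_lit 282) (b (n (nat_lit 257) (b (l (nat_lit 3) (nat_lit 256) (nat_lit 256)) (l (nat_lit 3) (nat_lit 257) (nat_lit 258)))) (l (nat_lit 1) (nat_lit 257) (nat_lit 261)))) (n (nat_lit 308) (b (l (nat_lit 2) (nat_lit 283) (nat_lit 309)) (l (nat_lit 2) (nat_lit 282) (nat_lit 307)))))) (n (nat_lit 284) (b (b (n (nat_lit 308) (b (l (nat_lit 2) (nat_lit 283) (nat_lit 309)) (l (nat_lit 2) (nat_lit 282) (nat_lit 307)))) (n (nat_lit 282) (b (n (nat_lit 281) (b (l (nat_lit 0) (nat_lit 281) (nat_lit 309)) (l (nat_lit 1) (nat_lit 256) (nat_lit 259)))) (l (nat_lit 1) (nat_lit 257) (nat_lit 261))))) (n (nat_lit 282) (b (n (nat_lit 307) (b (l (nat_lit 2) (nat_lit 281) (nat_lit 306)) (l (nat_lit 2) (nat_lit 282) (nat_lit 308)))) (l (nat_lit 1) (nat_lit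 257) (nat_lit 261)))))))) (b (n (nat_lit 284) (b (n (nat_lit 308) (b (l (nat_lit 2) (nat_lit 283) (nat_lit 309)) (l (nat_lit 2) (nat_lit 282) (nat_lit 307)))) (n (nat_lit 258) (b (l (nat_lit 3) (nat_lit 257) (nat_lit 257)) (l (nat_lit 3) (nat_lit 258) (nat_lit 259)))))) (n (nat_lit 258) (b (b (n (nat_lit 308) (b (b (n (nat_lit 259) (b (n (nat_lit 234) (b (n (nat_lit 209) (b (l (nat_lit 6) (nat_lit 183) (nat_lit 184)) (l (nat_lit 5) (nat_lit 208) (nat_lit 233)))) (l (nat_lit 5) (nat_lit 233) (nat_lit 333)))) (l (nat_lit 0) (nat_lit 258) (nat_lit 261)))) (n (nat_lit 307) (b (n (nat_lit 332) (b (n (nat_lit 357) (b (l (nat_lit 5) (nat_lit 282) (nat_lit 382)) (l (nat_lit 5) (nat_lit 257) (nat_lit 282)))) (l (nat_lit 6) (nat_lit 232) (nat_lit 233)))) (l (nat_lit 1) (nat_lit 282) (nat_lit 309))))) (n (nat_lit 333) (b (n (nat_lit 358) (b (n (nat_lit 359) (b (l (nat_lit 4) (nat_lit 258) (nat_lit 334)) (l (nat_lit 4) (nat_lit 283) (nat_lit 384)))) (n (nat_lit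 357) (b (l (nat_lit 6) (nat_lit 282) (nat_lit 382)) (l (nat_lit 6) (nat_lit 257) (nat_lit 332)))))) (n (nat_lit 259) (b (l (nat_lit 0) (nat_lit 258) (nat_lit 261)) (l (nat_lit 5) (nat_lit 233) (nat_lit 234)))))))) (n (nat_lit 259) (b (l (nat_lit 0) (nat_lit 258) (nat_lit 261)) (l (nat_lit 0) (nat_lit 257) (nat_lit 257))))) (n (nat_lit 308) (b (b (b (n (nat_lit 307) (b (n (nat_lit 332) (b (n (nat_lit 357) (b (l (nat_lit 5) (nat_lit 282) (nat_lit 382)) (l (nat_lit 5) (nat_lit 257) (nat_lit 282)))) (l (nat_lit 6) (nat_lit 232) (nat_lit 233)))) (l (nat_lit 1) (nat_lit 282) (nat_lit 309)))) (n (nat_lit 309) (b (n (nat_lit 334) (b (n (nat_lit 359) (b (l (nat_lit 4) (nat_lit 258) (nat_lit 333)) (l (nat_lit 5) (nat_lit 284) (nat_lit 384)))) (l (nat_lit 4) (nat_lit 233) (nat_lit 233)))) (l (nat_lit 1) (nat_lit 282) (nat_lit 307))))) (b (n (nat_lit 333) (b (b (n (nat_lit 358) (b (n (nat_lit 359) (b (l (nat_lit 4) (nat_lit 258) (nat_lit 334)) (l (nat_lit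 4) (nat_lit 283) (nat_lit 384)))) (n (nat_lit 357) (b (l (nat_lit 6) (nat_lit 282) (nat_lit 382)) (l (nat_lit 6) (nat_lit 257) (nat_lit 332)))))) (n (nat_lit 233) (b (n (nat_lit 232) (b (l (nat_lit 7) (nat_lit 207) (nat_lit 207)) (l (nat_lit 7) (nat_lit 232) (nat_lit 257)))) (n (nat_lit 332) (b (l (nat_lit 6) (nat_lit 257) (nat_lit 357)) (l (nat_lit 6) (nat_lit 232) (nat_lit 307))))))) (n (nat_lit 358) (b (n (nat_lit 359) (b (l (nat_lit 4) (nat_lit 258) (nat_lit 334)) (l (nat_lit 4) (nat_lit 283) (nat_lit 384)))) (n (nat_lit 257) (b (l (nat_lit 7) (nat_lit 257) (nat_lit 282)) (l (nat_lit 7) (nat_lit 232) (nat_lit 232)))))))) (n (nat_lit 333) (b (b (n (nat_lit 358) (b (n (nat_lit 359) (b (l (nat_lit 4) (nat_lit 258) (nat_lit 334)) (l (nat_lit 4) (nat_lit 283) (nat_lit 384)))) (n (nat_lit 357) (b (l (nat_lit 6) (nat_lit 282) (nat_lit 382)) (l (nat_lit 6) (nat_lit 257) (nat_lit 332)))))) (n (nat_lit 233) (b (n (nat_lit 232) (b (l (nat_lit 7) (nat_lit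 207) (nat_lit 207)) (l (nat_lit 7) (nat_lit 232) (nat_lit 257)))) (n (nat_lit 334) (b (l (nat_lit 4) (nat_lit 233) (nat_lit 309)) (l (nat_lit 4) (nat_lit 258) (nat_lit 359))))))) (n (nat_lit 358) (b (n (nat_lit 257) (b (l (nat_lit 7) (nat_lit 257) (nat_lit 282)) (l (nat_lit 7) (nat_lit 232) (nat_lit 232)))) (n (nat_lit 357) (b (l (nat_lit 6) (nat_lit 282) (nat_lit 382)) (l (nat_lit 6) (nat_lit 257) (nat_lit 332)))))))))) (n (nat_lit 307) (b (n (nat_lit 333) (b (b (n (nat_lit 358) (b (n (nat_lit 282) (b (l (nat_lit 7) (nat_lit 257) (nat_lit 257)) (l (nat_lit 7) (nat_lit 282) (nat_lit 383)))) (n (nat_lit 357) (b (l (nat_lit 6) (nat_lit 282) (nat_lit 382)) (l (nat_lit 6) (nat_lit 257) (nat_lit 332)))))) (n (nat_lit 358) (b (n (nat_lit 359) (b (l (nat_lit 4) (nat_lit 258) (nat_lit 334)) (l (nat_lit 4) (nat_lit 283) (nat_lit 384)))) (n (nat_lit 257) (b (l (nat_lit 7) (nat_lit 257) (nat_lit 282)) (l (nat_lit 7) (nat_lit 232) (nat_lit 232))))))) (b (n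 (nat_lit 358) (b (n (nat_lit 359) (b (l (nat_lit 4) (nat_lit 258) (nat_lit 334)) (l (nat_lit 4) (nat_lit 283) (nat_lit 384)))) (n (nat_lit 357) (b (l (nat_lit 6) (nat_lit 282) (nat_lit 382)) (l (nat_lit 6) (nat_lit 257) (nat_lit 332)))))) (n (nat_lit 332) (b (n (nat_lit 305) (b (b (n (nat_lit 331) (b (n (nat_lit 330) (b (l (nat_lit 3) (nat_lit 304) (nat_lit 304)) (l (nat_lit 1) (nat_lit 304) (nat_lit 329)))) (n (nat_lit 356) (b (n (nat_lit 257) (b (l (nat_lit 6) (nat_lit 256) (nat_lit 282)) (l (nat_lit 7) (nat_lit 232) (nat_lit 232)))) (n (nat_lit 334) (b (l (nat_lit 2) (nat_lit 330) (nat_lit 355)) (l (nat_lit 4) (nat_lit 258) (nat_lit 359)))))))) (n (nat_lit 330) (b (b (n (nat_lit 329) (b (l (nat_lit 1) (nat_lit 304) (nat_lit 331)) (l (nat_lit 2) (nat_lit 304) (nat_lit 306)))) (n (nat_lit 331) (b (l (nat_lit 1) (nat_lit 304) (nat_lit 329)) (l (nat_lit 3) (nat_lit 304) (nat_lit 304))))) (b (n (nat_lit 306) (b (l (nat_lit 2) (nat_lit 304) (nat_lit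 329)) (l (nat_lit 0) (nat_lit 304) (nat_lit 304)))) (n (nat_lit 304) (b (l (nat_lit 3) (nat_lit 304) (nat_lit 331)) (l (nat_lit 0) (nat_lit 304) (nat_lit 306)))))))) (n (nat_lit 334) (b (l (nat_lit 0) (nat_lit 305) (nat_lit 306)) (l (nat_lit 4) (nat_lit 258) (nat_lit 359)))))) (l (nat_lit 6) (nat_lit 257) (nat_lit 357))))))) (l (nat_lit 1) (nat_lit 282) (nat_lit 309)))))))))))))) (b (n (nat_lit 286) (b (b (n (nat_lit 309) (b (n (nat_lit 308) (b (l (nat_lit 2) (nat_lit 283) (nat_lit 284)) (l (nat_lit 1) (nat_lit 282) (nat_lit 307)))) (l (nat_lit 2) (nat_lit 284) (nat_lit 288)))) (n (nat_lit 288) (b (n (nat_lit 289) (b (n (nat_lit 264) (b (l (nat_lit 1) (nat_lit 261) (nat_lit 265)) (l (nat_lit 1) (nat_lit 260) (nat_lit 263)))) (l (nat_lit 3) (nat_lit 260) (nat_lit 261)))) (l (nat_lit 3) (nat_lit 259) (nat_lit 259))))) (n (nat_lit 284) (b (b (n (nat_lit 283) (b (b (n (nat_lit 282) (b (n (nat_lit 281) (b (l (nat_lit 0) (nat_lit 281) (nat_lit 309))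 (l (nat_lit 1) (nat_lit 256) (nat_lit 259)))) (l (nat_lit 1) (nat_lit 257) (nat_lit 261)))) (n (nat_lit 258) (b (l (nat_lit 3) (nat_lit 257) (nat_lit 257)) (l (nat_lit 3) (nat_lit 258) (nat_lit 259))))) (n (nat_lit 282) (b (n (nat_lit 257) (b (l (nat_lit 3) (nat_lit 256) (nat_lit 256)) (l (nat_lit 3) (nat_lit 257) (nat_lit 258)))) (l (nat_lit 1) (nat_lit 257) (nat_lit 261)))))) (n (nat_lit 283) (b (n (nat_lit 282) (b (n (nat_lit 307) (b (l (nat_lit 2) (nat_lit 281) (nat_lit 306)) (l (nat_lit 2) (nat_lit 282) (nat_lit 308)))) (l (nat_lit 1) (nat_lit 257) (nat_lit 261)))) (n (nat_lit 258) (b (l (nat_lit 3) (nat_lit 257) (nat_lit 257)) (l (nat_lit 3) (nat_lit 258) (nat_lit 259))))))) (n (nat_lit 309) (b (n (nat_lit 334) (b (l (nat_lit 5) (nat_lit 259) (nat_lit 359)) (l (nat_lit 6) (nat_lit 234) (nat_lit 235)))) (l (nat_lit 2) (nat_lit 283) (nat_lit 308)))))))) (n (nat_lit 286) (b (b (n (nat_lit 288) (b (n (nat_lit 289) (b (n (nat_lit 264) (b (l (nat_lit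 1) (nat_lit 261) (nat_lit 265)) (l (nat_lit 1) (nat_lit 260) (nat_lit 263)))) (l (nat_lit 3) (nat_lit 260) (nat_lit 261)))) (l (nat_lit 2) (nat_lit 284) (nat_lit 309)))) (n (nat_lit 288) (b (l (nat_lit 3) (nat_lit 259) (nat_lit 259)) (l (nat_lit 2) (nat_lit 284) (nat_lit 309))))) (n (nat_lit 235) (b (b (b (n (nat_lit 210) (b (b (n (nat_lit 209) (b (l (nat_lit 7) (nat_lit 184) (nat_lit 184)) (l (nat_lit 7) (nat_lit 209) (nat_lit 234)))) (n (nat_lit 185) (b (n (nat_lit 160) (b (n (nat_lit 161) (b (l (nat_lit 5) (nat_lit 160) (nat_lit 186)) (l (nat_lit 5) (nat_lit 135) (nat_lit 136)))) (n (nat_lit 159) (b (l (nat_lit 7) (nat_lit 134) (nat_lit 134)) (l (nat_lit 7) (nat_lit 159) (nat_lit 184)))))) (l (nat_lit 4) (nat_lit 185) (nat_lit 261))))) (n (nat_lit 185) (b (n (nat_lit 160) (b (n (nat_lit 234) (b (l (nat_lit 7) (nat_lit 209) (nat_lit 209)) (l (nat_lit 6) (nat_lit 159) (nat_lit 259)))) (n (nat_lit 161) (b (l (nat_lit 5) (nat_lit 160) (nat_lit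 186)) (l (nat_lit 5) (nat_lit 135) (nat_lit 136)))))) (l (nat_lit 4) (nat_lit 185) (nat_lit 261)))))) (n (nat_lit 210) (b (n (nat_lit 185) (b (n (nat_lit 184) (b (l (nat_lit 7) (nat_lit 159) (nat_lit 159)) (l (nat_lit 7) (nat_lit 184) (nat_lit 209)))) (l (nat_lit 4) (nat_lit 185) (nat_lit 261)))) (n (nat_lit 211) (b (l (nat_lit 5) (nat_lit 210) (nat_lit 236)) (l (nat_lit 5) (nat_lit 185) (nat_lit 186))))))) (b (n (nat_lit 210) (b (n (nat_lit 211) (b (l (nat_lit 5) (nat_lit 210) (nat_lit 236)) (l (nat_lit 5) (nat_lit 185) (nat_lit 186)))) (n (nat_lit 209) (b (l (nat_lit 7) (nat_lit 184) (nat_lit 184)) (l (nat_lit 7) (nat_lit 209) (nat_lit 234)))))) (n (nat_lit 259) (b (b (n (nat_lit 258) (b (l (nat_lit 0) (nat_lit 258) (nat_lit 261)) (l (nat_lit 0) (nat_lit 257) (nat_lit 257)))) (n (nat_lit 236) (b (n (nat_lit 258) (b (n (nat_lit 237) (b (l (nat_lit 2) (nat_lit 234) (nat_lit 238)) (l (nat_lit 2) (nat_lit 233) (nat_lit 234)))) (l (nat_lit 1) (nat_lit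 232) (nat_lit 257)))) (l (nat_lit 5) (nat_lit 210) (nat_lit 211))))) (n (nat_lit 210) (b (n (nat_lit 211) (b (l (nat_lit 5) (nat_lit 210) (nat_lit 236)) (l (nat_lit 5) (nat_lit 185) (nat_lit 186)))) (n (nat_lit 185) (b (n (nat_lit 160) (b (n (nat_lit 159) (b (l (nat_lit 7) (nat_lit 134) (nat_lit 134)) (l (nat_lit 7) (nat_lit 159) (nat_lit 184)))) (l (nat_lit 6) (nat_lit 159) (nat_lit 234)))) (l (nat_lit 4) (nat_lit 185) (nat_lit 261)))))))))) (n (nat_lit 236) (b (n (nat_lit 234) (b (n (nat_lit 233) (b (b (n (nat_lit 232) (b (n (nat_lit 207) (b (l (nat_lit 3) (nat_lit 206) (nat_lit 206)) (l (nat_lit 3) (nat_lit 207) (nat_lit 208)))) (l (nat_lit 0) (nat_lit 232) (nat_lit 261)))) (n (nat_lit 258) (b (n (nat_lit 259) (b (l (nat_lit 0) (nat_lit 258) (nat_lit 261)) (l (nat_lit 2) (nat_lit 233) (nat_lit 237)))) (l (nat_lit 2) (nat_lit 232) (nat_lit 257))))) (n (nat_lit 232) (b (n (nat_lit 207) (b (l (nat_lit 3) (nat_lit 206) (nat_lit 206)) (l (nat_lit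 3) (nat_lit 207) (nat_lit 208)))) (n (nat_lit 257) (b (l (nat_lit 2) (nat_lit 232) (nat_lit 258)) (l (nat_lit 2) (nat_lit 231) (nat_lit 256)))))))) (l (nat_lit 7) (nat_lit 209) (nat_lit 209)))) (l (nat_lit 5) (nat_lit 210) (nat_lit 211)))))))))) (b (n (nat_lit 235) (b (n (nat_lit 210) (b (n (nat_lit 211) (b (l (nat_lit 5) (nat_lit 210) (nat_lit 236)) (l (nat_lit 5) (nat_lit 185) (nat_lit 186)))) (n (nat_lit 209) (b (l (nat_lit 7) (nat_lit 184) (nat_lit 184)) (l (nat_lit 7) (nat_lit 209) (nat_lit 234)))))) (n (nat_lit 309) (b (n (nat_lit 286) (b (n (nat_lit 308) (b (l (nat_lit 2) (nat_lit 283) (nat_lit 284)) (l (nat_lit 1) (nat_lit 282) (nat_lit 307)))) (l (nat_lit 2) (nat_lit 284) (nat_lit 288)))) (l (nat_lit 6) (nat_lit 234) (nat_lit 334)))))) (n (nat_lit 209) (b (b (n (nat_lit 235) (b (n (nat_lit 210) (b (n (nat_lit 211) (b (l (nat_lit 5) (nat_lit 210) (nat_lit 236)) (l (nat_lit 5) (nat_lit 185) (nat_lit 186)))) (l (nat_lit 7) (nat_lit 184)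 (nat_lit 184)))) (l (nat_lit 7) (nat_lit 209) (nat_lit 234)))) (n (nat_lit 259) (b (n (nat_lit 234) (b (l (nat_lit 4) (nat_lit 209) (nat_lit 284)) (l (nat_lit 7) (nat_lit 209) (nat_lit 235)))) (n (nat_lit 286) (b (n (nat_lit 258) (b (l (nat_lit 0) (nat_lit 258) (nat_lit 261)) (l (nat_lit 0) (nat_lit 257) (nat_lit 257)))) (l (nat_lit 3) (nat_lit 259) (nat_lit 288))))))) (b (n (nat_lit 259) (b (n (nat_lit 234) (b (l (nat_lit 4) (nat_lit 184) (nat_lit 184)) (l (nat_lit 4) (nat_lit 209) (nat_lit 284)))) (n (nat_lit 286) (b (n (nat_lit 258) (b (l (nat_lit 0) (nat_lit 258) (nat_lit 261)) (l (nat_lit 0) (nat_lit 257) (nat_lit 257)))) (l (nat_lit 3) (nat_lit 259) (nat_lit 288)))))) (n (nat_lit 211) (b (b (n (nat_lit 210) (b (b (n (nat_lit 186) (b (n (nat_lit 187) (b (n (nat_lit 188) (b (l (nat_lit 2) (nat_lit 184) (nat_lit 185)) (l (nat_lit 2) (nat_lit 185) (nat_lit 189)))) (l (nat_lit 1) (nat_lit 183) (nat_lit 208)))) (l (nat_lit 5) (nat_lit 185) (nat_lit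 235)))) (n (nat_lit 184) (b (n (nat_lit 183) (b (n (nat_lit 182) (b (l (nat_lit 0) (nat_lit 181) (nat_lit 181)) (l (nat_lit 3) (nat_lit 182) (nat_lit 208)))) (l (nat_lit 3) (nat_lit 183) (nat_lit 212)))) (l (nat_lit 7) (nat_lit 184) (nat_lit 235))))) (b (n (nat_lit 208) (b (b (n (nat_lit 212) (b (n (nat_lit 183) (b (l (nat_lit 3) (nat_lit 183) (nat_lit 184)) (l (nat_lit 3) (nat_lit 182) (nat_lit 182)))) (n (nat_lit 187) (b (l (nat_lit 1) (nat_lit 184) (nat_lit 188)) (l (nat_lit 1) (nat_lit 183) (nat_lit 186)))))) (n (nat_lit 207) (b (n (nat_lit 232) (b (l (nat_lit 2) (nat_lit 207) (nat_lit 233)) (l (nat_lit 2) (nat_lit 206) (nat_lit 231)))) (n (nat_lit 186) (b (l (nat_lit 1) (nat_lit 182) (nat_lit 185)) (l (nat_lit 1) (nat_lit 183) (nat_lit 187))))))) (n (nat_lit 207) (b (n (nat_lit 232) (b (l (nat_lit 2) (nat_lit 207) (nat_lit 233)) (l (nat_lit 2) (nat_lit 206) (nat_lit 231)))) (n (nat_lit 182) (b (l (nat_lit 3) (nat_lit 181) (nat_lit 181)) (l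 (nat_lit 3) (nat_lit 182) (nat_lit 183)))))))) (n (nat_lit 235) (b (l (nat_lit 5) (nat_lit 185) (nat_lit 186)) (l (nat_lit 7) (nat_lit 184) (nat_lit 184))))))) (n (nat_lit 286) (b (n (nat_lit 259) (b (n (nat_lit 258) (b (l (nat_lit 0) (nat_lit 257) (nat_lit 257)) (l (nat_lit 3) (nat_lit 258) (nat_lit 284)))) (l (nat_lit 3) (nat_lit 259) (nat_lit 288)))) (n (nat_lit 236) (b (l (nat_lit 5) (nat_lit 210) (nat_lit 235)) (l (nat_lit 4) (nat_lit 211) (nat_lit 261))))))) (n (nat_lit 210) (b (b (b (n (nat_lit 236) (b (n (nat_lit 261) (b (l (nat_lit 6) (nat_lit 185) (nat_lit 186)) (l (nat_lit 4) (nat_lit 211) (nat_lit 286)))) (n (nat_lit 237) (b (n (nat_lit 238) (b (l (nat_lit 0) (nat_lit 209) (nat_lit 212)) (l (nat_lit 3) (nat_lit 210) (nat_lit 239)))) (l (nat_lit 0) (nat_lit 208) (nat_lit 208)))))) (n (nat_lit 212) (b (b (n (nat_lit 213) (b (n (nat_lit 188) (b (l (nat_lit 1) (nat_lit 184) (nat_lit 187)) (l (nat_lit 1) (nat_lit 185) (nat_lit 189)))) (n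 (nat_lit 238) (b (l (nat_lit 0) (nat_lit 210) (nat_lit 239)) (l (nat_lit 0) (nat_lit 209) (nat_lit 237)))))) (n (nat_lit 208) (b (n (nat_lit 183) (b (l (nat_lit 3) (nat_lit 183) (nat_lit 184)) (l (nat_lit 3) (nat_lit 182) (nat_lit 182)))) (n (nat_lit 237) (b (l (nat_lit 0) (nat_lit 208) (nat_lit 236)) (l (nat_lit 0) (nat_lit 209) (nat_lit 238))))))) (n (nat_lit 213) (b (n (nat_lit 184) (b (l (nat_lit 3) (nat_lit 183) (nat_lit 183)) (l (nat_lit 3) (nat_lit 184) (nat_lit 185)))) (n (nat_lit 188) (b (l (nat_lit 1) (nat_lit 184) (nat_lit 187)) (l (nat_lit 1) (nat_lit 185) (nat_lit 189))))))))) (b (n (nat_lit 208) (b (b (n (nat_lit 212) (b (n (nat_lit 183) (b (l (nat_lit 3) (nat_lit 183) (nat_lit 184)) (l (nat_lit 3) (nat_lit 182) (nat_lit 182)))) (n (nat_lit 187) (b (l (nat_lit 1) (nat_lit 184) (nat_lit 188)) (l (nat_lit 1) (nat_lit 183) (nat_lit 186)))))) (n (nat_lit 207) (b (n (nat_lit 232) (b (l (nat_lit 2) (nat_lit 207) (nat_lit 233)) (l (nat_lit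 2) (nat_lit 206) (nat_lit 231)))) (n (nat_lit 186) (b (l (nat_lit 1) (nat_lit 182) (nat_lit 185)) (l (nat_lit 1) (nat_lit 183) (nat_lit 187))))))) (n (nat_lit 207) (b (n (nat_lit 232) (b (l (nat_lit 2) (nat_lit 207) (nat_lit 233)) (l (nat_lit 2) (nat_lit 206) (nat_lit 231)))) (n (nat_lit 182) (b (l (nat_lit 3) (nat_lit 181) (nat_lit 181)) (l (nat_lit 3) (nat_lit 182) (nat_lit 183)))))))) (n (nat_lit 208) (b (n (nat_lit 186) (b (n (nat_lit 236) (b (l (nat_lit 6) (nat_lit 185) (nat_lit 261)) (l (nat_lit 0) (nat_lit 208) (nat_lit 237)))) (l (nat_lit 1) (nat_lit 183) (nat_lit 187)))) (n (nat_lit 207) (b (n (nat_lit 232) (b (l (nat_lit 2) (nat_lit 207) (nat_lit 233)) (l (nat_lit 2) (nat_lit 206) (nat_lit 231)))) (n (nat_lit 182) (b (l (nat_lit 3) (nat_lit 181) (nat_lit 181)) (l (nat_lit 3) (nat_lit 182) (nat_lit 183)))))))))) (n (nat_lit 212) (b (b (n (nat_lit 213) (b (n (nat_lit 188) (b (l (nat_lit 1) (nat_lit 184) (nat_lit 187)) (l (nat_lit 1) (nat_lit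 185) (nat_lit 189)))) (n (nat_lit 238) (b (l (nat_lit 0) (nat_lit 210) (nat_lit 239)) (l (nat_lit 0) (nat_lit 209) (nat_lit 237)))))) (n (nat_lit 213) (b (n (nat_lit 184) (b (l (nat_lit 3) (nat_lit 183) (nat_lit 183)) (l (nat_lit 3) (nat_lit 184) (nat_lit 185)))) (n (nat_lit 188) (b (l (nat_lit 1) (nat_lit 184) (nat_lit 187)) (l (nat_lit 1) (nat_lit 185) (nat_lit 189))))))) (b (n (nat_lit 213) (b (n (nat_lit 184) (b (l (nat_lit 3) (nat_lit 183) (nat_lit 183)) (l (nat_lit 3) (nat_lit 184) (nat_lit 185)))) (n (nat_lit 238) (b (l (nat_lit 0) (nat_lit 210) (nat_lit 239)) (l (nat_lit 0) (nat_lit 209) (nat_lit 237)))))) (n (nat_lit 187) (b (n (nat_lit 237) (b (n (nat_lit 184) (b (n (nat_lit 162) (b (n (nat_lit 236) (b (l (nat_lit 6) (nat_lit 161) (nat_lit 261)) (l (nat_lit 6) (nat_lit 136) (nat_lit 137)))) (n (nat_lit 163) (b (n (nat_lit 161) (b (n (nat_lit 185) (b (l (nat_lit 1) (nat_lit 159) (nat_lit 186)) (l (nat_lit 2) (nat_lit 159) (nat_lit 160))))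 (l (nat_lit 7) (nat_lit 136) (nat_lit 136)))) (l (nat_lit 5) (nat_lit 137) (nat_lit 138)))))) (l (nat_lit 3) (nat_lit 183) (nat_lit 183)))) (l (nat_lit 0) (nat_lit 209) (nat_lit 238)))) (l (nat_lit 1) (nat_lit 184) (nat_lit 188)))))))))))))))))
    envOK_nil (by decide +kernel)

theorem p11553 : Fam (nat_lit 7) (nat_lit 2348542582773836356776802411964516759038529368494193598367756199429139670691018709790487079807075967402246144) (nat_lit 243994942998471535011680455743431672878754695788724500093026486796010381501189158672289487695840561998475874281252869113966489501696) (nat_lit 243994942998471535011680455743431672878754695788724500093026486796010381501189158672289487695840561998475874281252869113966489501696) :=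
  chk_sound Env.nil
    (n (nat_lit 335) (b (b (b (n (nat_lit 385) (b (n (nat_lit 410) (b (n (nat_lit 409) (b (l (nat_lit 6) (nat_lit 334) (nat_lit 434)) (l (nat_lit 6) (nat_lit 309) (nat_lit 384)))) (l (nat_lit 7) (nat_lit 309) (nat_lit 334)))) (l (nat_lit 7) (nat_lit 284) (nat_lit 284)))) (n (nat_lit 334) (b (n (nat_lit 260) (b (l (nat_lit 6) (nat_lit 259) (nat_lit 359)) (l (nat_lit 6) (nat_lit 234) (nat_lit 235)))) (n (nat_lit 385) (b (l (nat_lit 7) (nat_lit 284) (nat_lit 284)) (l (nat_lit 7) (nat_lit 309) (nat_lit 410))))))) (b (n (nat_lit 385) (b (n (nat_lit 410) (b (n (nat_lit 411) (b (l (nat_lit 4) (nat_lit 335) (nat_lit 436)) (l (nat_lit 4) (nat_lit 310) (nat_lit 386)))) (l (nat_lit 7) (nat_lit 309) (nat_lit 334)))) (n (nat_lit 384) (b (l (nat_lit 6) (nat_lit 284) (nat_lit 359)) (l (nat_lit 6) (nat_lit 309) (nat_lit 409)))))) (n (nat_lit 385) (b (n (nat_lit 384) (b (l (nat_lit 6) (nat_lit 284) (nat_lit 359)) (l (nat_lit 6) (nat_lit 309)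 (nat_lit 409)))) (l (nat_lit 7) (nat_lit 284) (nat_lit 284)))))) (n (nat_lit 359) (b (n (nat_lit 334) (b (n (nat_lit 358) (b (n (nat_lit 383) (b (n (nat_lit 408) (b (l (nat_lit 5) (nat_lit 333) (nat_lit 433)) (l (nat_lit 5) (nat_lit 308) (nat_lit 333)))) (l (nat_lit 6) (nat_lit 283) (nat_lit 284)))) (n (nat_lit 357) (b (l (nat_lit 1) (nat_lit 331) (nat_lit 356)) (l (nat_lit 1) (nat_lit 332) (nat_lit 336)))))) (l (nat_lit 6) (nat_lit 259) (nat_lit 260)))) (l (nat_lit 6) (nat_lit 284) (nat_lit 384))))))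
    envOK_nil (by decide +kernel)

theorem p11780 : Fam (nat_lit 11) (nat_lit 2348542652765858767611369079441930899719268710594401543186690997334278831531582132088097513838202457715376128) (nat_lit 216268246697661374651140158784530893160773154127754071494377241515867325599973739365415041861960756611703534650937096674540053856256) (nat_lit 216268246697661374651140158784530893160773154127754071494377241515867325599973739365415041861960756611703534650937096674540053856256) :=
  chk_sound Env.nil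
    (n (nat_lit 357) (b (b (b (n (nat_lit 384) (b (n (nat_lit 385) (b (n (nat_lit 386) (b (n (nat_lit 383) (b (n (nat_lit 382) (b (n (nat_lit 407) (b (l (nat_lit 2) (nat_lit 381) (nat_lit 406)) (l (nat_lit 2) (nat_lit 382) (nat_lit 408)))) (l (nat_lit 3) (nat_lit 356) (nat_lit 356)))) (l (nat_lit 3) (nat_lit 357) (nat_lit 358)))) (l (nat_lit 4) (nat_lit 310) (nat_lit 411)))) (l (nat_lit 6) (nat_lit 309) (nat_lit 409)))) (l (nat_lit 6) (nat_lit 284) (nat_lit 359)))) (n (nat_lit 384) (b (n (nat_lit 385) (b (n (nat_lit 382) (b (n (nat_lit 411) (b (n (nat_lit 410) (b (l (nat_lit 4) (nat_lit 335) (nat_lit 436)) (l (nat_lit 0) (nat_lit 382) (nat_lit 383)))) (l (nat_lit 4) (nat_lit 310) (nat_lit 386)))) (n (nat_lit 332) (b (b (n (nat_lit 333) (b (b (n (nat_lit 407) (b (n (nat_lit 406) (b (l (nat_lit 6) (nat_lit 331) (nat_lit 431)) (l (nat_lit 6) (nat_lit 306) (nat_lit 381)))) (l (nat_lit 5) (nat_lit 307) (nat_lit 308)))) (n (nat_lit 334) (b (n (nat_lit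 308) (b (l (nat_lit 5) (nat_lit 307) (nat_lit 407)) (l (nat_lit 3) (nat_lit 307) (nat_lit 336)))) (l (nat_lit 2) (nat_lit 331) (nat_lit 356))))) (n (nat_lit 356) (b (n (nat_lit 381) (b (l (nat_lit 6) (nat_lit 281) (nat_lit 282)) (l (nat_lit 6) (nat_lit 306) (nat_lit 406)))) (l (nat_lit 2) (nat_lit 331) (nat_lit 334)))))) (n (nat_lit 306) (b (n (nat_lit 407) (b (n (nat_lit 333) (b (l (nat_lit 5) (nat_lit 307) (nat_lit 308)) (l (nat_lit 3) (nat_lit 306) (nat_lit 334)))) (l (nat_lit 7) (nat_lit 306) (nat_lit 331)))) (l (nat_lit 7) (nat_lit 281) (nat_lit 281))))) (n (nat_lit 282) (b (n (nat_lit 381) (b (l (nat_lit 6) (nat_lit 281) (nat_lit 356)) (l (nat_lit 6) (nat_lit 306) (nat_lit 406)))) (n (nat_lit 281) (b (l (nat_lit 7) (nat_lit 256) (nat_lit 256)) (l (nat_lit 7) (nat_lit 281) (nat_lit 306)))))))))) (l (nat_lit 6) (nat_lit 309) (nat_lit 409)))) (l (nat_lit 6) (nat_lit 284) (nat_lit 359))))) (b (n (nat_lit 359) (b (n (nat_lit 358) (b (n (nat_lit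 332) (b (n (nat_lit 382) (b (n (nat_lit 383) (b (l (nat_lit 4) (nat_lit 307) (nat_lit 408)) (l (nat_lit 4) (nat_lit 282) (nat_lit 282)))) (l (nat_lit 2) (nat_lit 356) (nat_lit 381)))) (l (nat_lit 3) (nat_lit 331) (nat_lit 331)))) (l (nat_lit 1) (nat_lit 332) (nat_lit 336)))) (l (nat_lit 6) (nat_lit 284) (nat_lit 384)))) (n (nat_lit 359) (b (n (nat_lit 358) (b (n (nat_lit 356) (b (n (nat_lit 331) (b (l (nat_lit 3) (nat_lit 331) (nat_lit 332)) (l (nat_lit 3) (nat_lit 330) (nat_lit 330)))) (l (nat_lit 1) (nat_lit 331) (nat_lit 334)))) (l (nat_lit 1) (nat_lit 332) (nat_lit 336)))) (l (nat_lit 6) (nat_lit 284) (nat_lit 384)))))) (b (n (nat_lit 358) (b (b (n (nat_lit 332) (b (n (nat_lit 383) (b (n (nat_lit 408) (b (l (nat_lit 7) (nat_lit 307) (nat_lit 333)) (l (nat_lit 7) (nat_lit 332) (nat_lit 433)))) (l (nat_lit 4) (nat_lit 282) (nat_lit 282)))) (n (nat_lit 359) (b (n (nat_lit 356) (b (n (nat_lit 381) (b (l (nat_lit 2) (nat_lit 355) (nat_lit 380))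 (l (nat_lit 2) (nat_lit 356) (nat_lit 382)))) (l (nat_lit 1) (nat_lit 331) (nat_lit 334)))) (l (nat_lit 3) (nat_lit 331) (nat_lit 331)))))) (n (nat_lit 359) (b (n (nat_lit 356) (b (n (nat_lit 381) (b (l (nat_lit 2) (nat_lit 355) (nat_lit 380)) (l (nat_lit 2) (nat_lit 356) (nat_lit 382)))) (l (nat_lit 1) (nat_lit 331) (nat_lit 334)))) (l (nat_lit 1) (nat_lit 332) (nat_lit 336))))) (b (n (nat_lit 332) (b (n (nat_lit 359) (b (l (nat_lit 3) (nat_lit 331) (nat_lit 331)) (l (nat_lit 1) (nat_lit 332) (nat_lit 336)))) (n (nat_lit 383) (b (n (nat_lit 408) (b (l (nat_lit 7) (nat_lit 307) (nat_lit 333)) (l (nat_lit 7) (nat_lit 332) (nat_lit 433)))) (l (nat_lit 4) (nat_lit 282) (nat_lit 282)))))) (n (nat_lit 332) (b (b (n (nat_lit 383) (b (n (nat_lit 408) (b (l (nat_lit 4) (nat_lit 307) (nat_lit 382)) (l (nat_lit 7) (nat_lit 332) (nat_lit 433)))) (l (nat_lit 4) (nat_lit 282) (nat_lit 282)))) (n (nat_lit 382) (b (b (n (nat_lit 282) (b (n (nat_lit 381) (b (l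 (nat_lit 6) (nat_lit 281) (nat_lit 356)) (l (nat_lit 6) (nat_lit 306) (nat_lit 406)))) (n (nat_lit 281) (b (l (nat_lit 7) (nat_lit 256) (nat_lit 256)) (l (nat_lit 7) (nat_lit 281) (nat_lit 306)))))) (n (nat_lit 333) (b (n (nat_lit 407) (b (l (nat_lit 5) (nat_lit 307) (nat_lit 308)) (l (nat_lit 5) (nat_lit 332) (nat_lit 432)))) (n (nat_lit 334) (b (l (nat_lit 2) (nat_lit 332) (nat_lit 336)) (l (nat_lit 2) (nat_lit 331) (nat_lit 356))))))) (n (nat_lit 407) (b (n (nat_lit 306) (b (l (nat_lit 7) (nat_lit 306) (nat_lit 331)) (l (nat_lit 7) (nat_lit 281) (nat_lit 281)))) (n (nat_lit 406) (b (l (nat_lit 6) (nat_lit 331) (nat_lit 431)) (l (nat_lit 6) (nat_lit 306) (nat_lit 381))))))))) (b (n (nat_lit 383) (b (n (nat_lit 408) (b (l (nat_lit 7) (nat_lit 307) (nat_lit 333)) (l (nat_lit 7) (nat_lit 332) (nat_lit 433)))) (l (nat_lit 4) (nat_lit 282) (nat_lit 282)))) (n (nat_lit 333) (b (b (n (nat_lit 334) (b (l (nat_lit 2) (nat_lit 332) (nat_lit 336)) (l (nat_lit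 3) (nat_lit 306) (nat_lit 306)))) (n (nat_lit 334) (b (l (nat_lit 2) (nat_lit 332) (nat_lit 336)) (l (nat_lit 2) (nat_lit 331) (nat_lit 356))))) (n (nat_lit 382) (b (n (nat_lit 407) (b (l (nat_lit 5) (nat_lit 307) (nat_lit 308)) (l (nat_lit 5) (nat_lit 332) (nat_lit 432)))) (n (nat_lit 355) (b (b (n (nat_lit 383) (b (n (nat_lit 381) (b (n (nat_lit 380) (b (l (nat_lit 3) (nat_lit 354) (nat_lit 354)) (l (nat_lit 1) (nat_lit 354) (nat_lit 379)))) (l (nat_lit 6) (nat_lit 306) (nat_lit 406)))) (l (nat_lit 7) (nat_lit 307) (nat_lit 408)))) (n (nat_lit 330) (b (b (n (nat_lit 329) (b (l (nat_lit 3) (nat_lit 329) (nat_lit 356)) (l (nat_lit 0) (nat_lit 329) (nat_lit 331)))) (n (nat_lit 331) (b (l (nat_lit 2) (nat_lit 329) (nat_lit 354)) (l (nat_lit 0) (nat_lit 329) (nat_lit 329))))) (b (n (nat_lit 354) (b (l (nat_lit 2) (nat_lit 329) (nat_lit 331)) (l (nat_lit 1) (nat_lit 329) (nat_lit 356)))) (n (nat_lit 356) (b (l (nat_lit 3) (nat_lit 329) (nat_lit 329))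 (l (nat_lit 1) (nat_lit 329) (nat_lit 354)))))))) (n (nat_lit 330) (b (b (n (nat_lit 329) (b (l (nat_lit 3) (nat_lit 329) (nat_lit 356)) (l (nat_lit 0) (nat_lit 329) (nat_lit 331)))) (n (nat_lit 380) (b (b (n (nat_lit 379) (b (l (nat_lit 1) (nat_lit 354) (nat_lit 381)) (l (nat_lit 2) (nat_lit 354) (nat_lit 356)))) (n (nat_lit 405) (b (n (nat_lit 306) (b (l (nat_lit 7) (nat_lit 281) (nat_lit 281)) (l (nat_lit 5) (nat_lit 305) (nat_lit 331)))) (n (nat_lit 406) (b (l (nat_lit 4) (nat_lit 330) (nat_lit 431)) (l (nat_lit 6) (nat_lit 306) (nat_lit 381))))))) (n (nat_lit 305) (b (n (nat_lit 379) (b (l (nat_lit 6) (nat_lit 304) (nat_lit 404)) (l (nat_lit 2) (nat_lit 354) (nat_lit 356)))) (n (nat_lit 304) (b (l (nat_lit 7) (nat_lit 279) (nat_lit 279)) (l (nat_lit 3) (nat_lit 304) (nat_lit 331))))))))) (b (n (nat_lit 356) (b (n (nat_lit 305) (b (n (nat_lit 381) (b (l (nat_lit 6) (nat_lit 306) (nat_lit 406)) (l (nat_lit 4) (nat_lit 280) (nat_lit 280))))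 (n (nat_lit 306) (b (l (nat_lit 7) (nat_lit 281) (nat_lit 281)) (l (nat_lit 0) (nat_lit 304) (nat_lit 304)))))) (l (nat_lit 3) (nat_lit 329) (nat_lit 329)))) (n (nat_lit 331) (b (n (nat_lit 380) (b (n (nat_lit 306) (b (l (nat_lit 7) (nat_lit 281) (nat_lit 281)) (l (nat_lit 5) (nat_lit 305) (nat_lit 405)))) (n (nat_lit 381) (b (l (nat_lit 6) (nat_lit 306) (nat_lit 406)) (l (nat_lit 1) (nat_lit 354) (nat_lit 379)))))) (l (nat_lit 0) (nat_lit 329) (nat_lit 329))))))))))))))))))) (n (nat_lit 332) (b (b (b (n (nat_lit 333) (b (b (n (nat_lit 334) (b (n (nat_lit 336) (b (l (nat_lit 2) (nat_lit 332) (nat_lit 358)) (l (nat_lit 3) (nat_lit 307) (nat_lit 308)))) (l (nat_lit 3) (nat_lit 306) (nat_lit 306)))) (n (nat_lit 334) (b (l (nat_lit 2) (nat_lit 331) (nat_lit 356)) (l (nat_lit 3) (nat_lit 306) (nat_lit 306))))) (n (nat_lit 382) (b (b (n (nat_lit 282) (b (n (nat_lit 358) (b (l (nat_lit 4) (nat_lit 282) (nat_lit 383)) (l (nat_lit 4) (nat_lit 257) (nat_lit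 257)))) (n (nat_lit 381) (b (l (nat_lit 6) (nat_lit 281) (nat_lit 356)) (l (nat_lit 6) (nat_lit 306) (nat_lit 406)))))) (n (nat_lit 407) (b (n (nat_lit 406) (b (l (nat_lit 6) (nat_lit 331) (nat_lit 431)) (l (nat_lit 6) (nat_lit 306) (nat_lit 381)))) (l (nat_lit 5) (nat_lit 307) (nat_lit 308))))) (n (nat_lit 407) (b (n (nat_lit 408) (b (l (nat_lit 4) (nat_lit 332) (nat_lit 433)) (l (nat_lit 4) (nat_lit 307) (nat_lit 383)))) (l (nat_lit 5) (nat_lit 307) (nat_lit 308)))))))) (n (nat_lit 333) (b (b (n (nat_lit 334) (b (n (nat_lit 336) (b (l (nat_lit 2) (nat_lit 332) (nat_lit 358)) (l (nat_lit 3) (nat_lit 307) (nat_lit 308)))) (l (nat_lit 3) (nat_lit 306) (nat_lit 306)))) (n (nat_lit 334) (b (n (nat_lit 336) (b (l (nat_lit 2) (nat_lit 332) (nat_lit 358)) (l (nat_lit 3) (nat_lit 307) (nat_lit 308)))) (l (nat_lit 2) (nat_lit 331) (nat_lit 356))))) (b (n (nat_lit 334) (b (l (nat_lit 2) (nat_lit 331) (nat_lit 356)) (l (nat_lit 3) (nat_lit 306) (nat_lit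 306)))) (n (nat_lit 382) (b (b (n (nat_lit 282) (b (n (nat_lit 381) (b (l (nat_lit 6) (nat_lit 281) (nat_lit 356)) (l (nat_lit 6) (nat_lit 306) (nat_lit 406)))) (n (nat_lit 281) (b (l (nat_lit 7) (nat_lit 256) (nat_lit 256)) (l (nat_lit 7) (nat_lit 281) (nat_lit 306)))))) (n (nat_lit 407) (b (n (nat_lit 406) (b (l (nat_lit 6) (nat_lit 331) (nat_lit 431)) (l (nat_lit 6) (nat_lit 306) (nat_lit 381)))) (l (nat_lit 5) (nat_lit 307) (nat_lit 308))))) (n (nat_lit 407) (b (n (nat_lit 306) (b (l (nat_lit 7) (nat_lit 306) (nat_lit 331)) (l (nat_lit 7) (nat_lit 281) (nat_lit 281)))) (l (nat_lit 5) (nat_lit 307) (nat_lit 308)))))))))) (b (n (nat_lit 282) (b (b (n (nat_lit 333) (b (n (nat_lit 356) (b (l (nat_lit 6) (nat_lit 281) (nat_lit 381)) (l (nat_lit 2) (nat_lit 331) (nat_lit 334)))) (n (nat_lit 358) (b (l (nat_lit 4) (nat_lit 282) (nat_lit 383)) (l (nat_lit 4) (nat_lit 257) (nat_lit 257)))))) (n (nat_lit 257) (b (n (nat_lit 356) (b (l (nat_lit 6) (nat_lit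 256) (nat_lit 331)) (l (nat_lit 6) (nat_lit 281) (nat_lit 381)))) (n (nat_lit 256) (b (l (nat_lit 7) (nat_lit 256) (nat_lit 281)) (l (nat_lit 7) (nat_lit 231) (nat_lit 231))))))) (b (n (nat_lit 257) (b (n (nat_lit 358) (b (l (nat_lit 4) (nat_lit 282) (nat_lit 383)) (l (nat_lit 4) (nat_lit 257) (nat_lit 333)))) (n (nat_lit 256) (b (l (nat_lit 7) (nat_lit 256) (nat_lit 281)) (l (nat_lit 7) (nat_lit 231) (nat_lit 231)))))) (n (nat_lit 356) (b (n (nat_lit 355) (b (n (nat_lit 333) (b (l (nat_lit 1) (nat_lit 329) (nat_lit 354)) (l (nat_lit 2) (nat_lit 331) (nat_lit 334)))) (n (nat_lit 358) (b (n (nat_lit 330) (b (n (nat_lit 281) (b (n (nat_lit 380) (b (n (nat_lit 306) (b (l (nat_lit 5) (nat_lit 280) (nat_lit 305)) (l (nat_lit 6) (nat_lit 280) (nat_lit 331)))) (l (nat_lit 2) (nat_lit 354) (nat_lit 379)))) (l (nat_lit 7) (nat_lit 256) (nat_lit 256)))) (l (nat_lit 3) (nat_lit 329) (nat_lit 329)))) (l (nat_lit 4) (nat_lit 282) (nat_lit 383)))))) (l (nat_lit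 6) (nat_lit 281) (nat_lit 381))))))) (n (nat_lit 333) (b (b (n (nat_lit 382) (b (b (n (nat_lit 282) (b (n (nat_lit 358) (b (l (nat_lit 4) (nat_lit 282) (nat_lit 383)) (l (nat_lit 4) (nat_lit 257) (nat_lit 257)))) (n (nat_lit 281) (b (l (nat_lit 7) (nat_lit 256) (nat_lit 256)) (l (nat_lit 7) (nat_lit 281) (nat_lit 306)))))) (n (nat_lit 407) (b (n (nat_lit 306) (b (l (nat_lit 7) (nat_lit 306) (nat_lit 331)) (l (nat_lit 7) (nat_lit 281) (nat_lit 281)))) (l (nat_lit 5) (nat_lit 307) (nat_lit 308))))) (n (nat_lit 407) (b (n (nat_lit 408) (b (l (nat_lit 4) (nat_lit 332) (nat_lit 433)) (l (nat_lit 4) (nat_lit 307) (nat_lit 383)))) (l (nat_lit 5) (nat_lit 307) (nat_lit 308)))))) (n (nat_lit 334) (b (l (nat_lit 2) (nat_lit 331) (nat_lit 356)) (l (nat_lit 3) (nat_lit 306) (nat_lit 306))))) (n (nat_lit 358) (b (n (nat_lit 282) (b (l (nat_lit 4) (nat_lit 257) (nat_lit 257)) (l (nat_lit 4) (nat_lit 282) (nat_lit 383)))) (n (nat_lit 334) (b (l (nat_lit 2) (nat_lit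 332) (nat_lit 336)) (l (nat_lit 2) (nat_lit 331) (nat_lit 356)))))))))) (b (b (n (nat_lit 282) (b (b (n (nat_lit 382) (b (n (nat_lit 381) (b (l (nat_lit 6) (nat_lit 281) (nat_lit 356)) (l (nat_lit 6) (nat_lit 306) (nat_lit 406)))) (n (nat_lit 383) (b (l (nat_lit 4) (nat_lit 307) (nat_lit 408)) (l (nat_lit 4) (nat_lit 282) (nat_lit 358)))))) (n (nat_lit 257) (b (n (nat_lit 356) (b (l (nat_lit 6) (nat_lit 256) (nat_lit 331)) (l (nat_lit 6) (nat_lit 281) (nat_lit 381)))) (n (nat_lit 256) (b (l (nat_lit 7) (nat_lit 256) (nat_lit 281)) (l (nat_lit 7) (nat_lit 231) (nat_lit 231))))))) (n (nat_lit 257) (b (n (nat_lit 358) (b (l (nat_lit 4) (nat_lit 282) (nat_lit 383)) (l (nat_lit 4) (nat_lit 257) (nat_lit 333)))) (n (nat_lit 256) (b (l (nat_lit 7) (nat_lit 256) (nat_lit 281)) (l (nat_lit 7) (nat_lit 231) (nat_lit 231)))))))) (n (nat_lit 382) (b (b (n (nat_lit 407) (b (n (nat_lit 406) (b (l (nat_lit 6) (nat_lit 331) (nat_lit 431)) (l (nat_lit 6) (nat_lit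 306) (nat_lit 381)))) (n (nat_lit 408) (b (l (nat_lit 4) (nat_lit 332) (nat_lit 433)) (l (nat_lit 4) (nat_lit 307) (nat_lit 383)))))) (n (nat_lit 282) (b (n (nat_lit 281) (b (l (nat_lit 7) (nat_lit 256) (nat_lit 256)) (l (nat_lit 7) (nat_lit 281) (nat_lit 306)))) (n (nat_lit 383) (b (l (nat_lit 4) (nat_lit 307) (nat_lit 408)) (l (nat_lit 4) (nat_lit 282) (nat_lit 358))))))) (n (nat_lit 407) (b (n (nat_lit 306) (b (l (nat_lit 7) (nat_lit 306) (nat_lit 331)) (l (nat_lit 7) (nat_lit 281) (nat_lit 281)))) (n (nat_lit 406) (b (l (nat_lit 6) (nat_lit 331) (nat_lit 431)) (l (nat_lit 6) (nat_lit 306) (nat_lit 381))))))))) (b (n (nat_lit 382) (b (b (n (nat_lit 407) (b (n (nat_lit 406) (b (l (nat_lit 6) (nat_lit 331) (nat_lit 431)) (l (nat_lit 6) (nat_lit 306) (nat_lit 381)))) (n (nat_lit 408) (b (l (nat_lit 4) (nat_lit 332) (nat_lit 433)) (l (nat_lit 4) (nat_lit 307) (nat_lit 383)))))) (n (nat_lit 282) (b (n (nat_lit 381) (b (l (nat_lit 6) (nat_lit 281)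 (nat_lit 356)) (l (nat_lit 6) (nat_lit 306) (nat_lit 406)))) (n (nat_lit 281) (b (l (nat_lit 7) (nat_lit 256) (nat_lit 256)) (l (nat_lit 7) (nat_lit 281) (nat_lit 306))))))) (n (nat_lit 407) (b (n (nat_lit 408) (b (l (nat_lit 4) (nat_lit 332) (nat_lit 433)) (l (nat_lit 4) (nat_lit 307) (nat_lit 383)))) (n (nat_lit 306) (b (l (nat_lit 7) (nat_lit 306) (nat_lit 331)) (l (nat_lit 7) (nat_lit 281) (nat_lit 281)))))))) (n (nat_lit 333) (b (b (n (nat_lit 334) (b (n (nat_lit 336) (b (l (nat_lit 2) (nat_lit 332) (nat_lit 358)) (l (nat_lit 3) (nat_lit 307) (nat_lit 308)))) (l (nat_lit 3) (nat_lit 306) (nat_lit 306)))) (n (nat_lit 334) (b (n (nat_lit 336) (b (l (nat_lit 2) (nat_lit 332) (nat_lit 358)) (l (nat_lit 3) (nat_lit 307) (nat_lit 308)))) (l (nat_lit 2) (nat_lit 331) (nat_lit 356))))) (b (n (nat_lit 334) (b (l (nat_lit 2) (nat_lit 331) (nat_lit 356)) (l (nat_lit 3) (nat_lit 306) (nat_lit 306)))) (n (nat_lit 382) (b (n (nat_lit 383) (b (n (nat_lit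 381) (b (n (nat_lit 380) (b (n (nat_lit 379) (b (n (nat_lit 404) (b (l (nat_lit 2) (nat_lit 379) (nat_lit 405)) (l (nat_lit 2) (nat_lit 378) (nat_lit 403)))) (l (nat_lit 1) (nat_lit 354) (nat_lit 358)))) (n (nat_lit 384) (b (n (nat_lit 409) (b (l (nat_lit 0) (nat_lit 381) (nat_lit 410)) (l (nat_lit 6) (nat_lit 309) (nat_lit 385)))) (n (nat_lit 355) (b (l (nat_lit 3) (nat_lit 355) (nat_lit 356)) (l (nat_lit 3) (nat_lit 354) (nat_lit 354)))))))) (l (nat_lit 6) (nat_lit 306) (nat_lit 406)))) (l (nat_lit 4) (nat_lit 307) (nat_lit 408)))) (n (nat_lit 407) (b (n (nat_lit 306) (b (l (nat_lit 7) (nat_lit 306) (nat_lit 331)) (l (nat_lit 7) (nat_lit 281) (nat_lit 281)))) (l (nat_lit 5) (nat_lit 307) (nat_lit 308))))))))))))))))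
    envOK_nil (by decide +kernel)

theorem p11863 : Fam (nat_lit 12) (nat_lit 2348542652765858506870764108627711857358220594193996928598736608094438750105604614727291144131104066240512000) (nat_lit 1488566056713794927305503069458672909755168432409761304204626641198316035490188351089662846559767665224991158603482410603483805204072103936) (nat_lit 1488566056713794927305503069458672909755168432409761304204626641198316035490188351089662846559767665224991158603482410603483805204072103936) :=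
  chk_sound (Env.cons (nat_lit 11) (nat_lit 2348542652765858767611369079441930899719268710594401543186690997334278831531582132088097513838202457715376128) (nat_lit 216268246697661374651140158784530893160773154127754071494377241515867325599973739365415041861960756611703534650937096674540053856256) Env.nil)
    (n (nat_lit 307) (b (b (b (n (nat_lit 357) (b (b (b (n (nat_lit 384) (b (n (nat_lit 385) (b (n (nat_lit 382) (b (n (nat_lit 411) (b (n (nat_lit 410) (b (l (nat_lit 4) (nat_lit 335) (nat_lit 436)) (l (nat_lit 0) (nat_lit 382) (nat_lit 383)))) (l (nat_lit 4) (nat_lit 310) (nat_lit 386)))) (n (nat_lit 332) (b (b (n (nat_lit 333) (b (b (n (nat_lit 407) (b (n (nat_lit 406) (b (l (nat_lit 6) (nat_lit 331) (nat_lit 431)) (l (nat_lit 6) (nat_lit 306) (nat_lit 381)))) (l (nat_lit 5) (nat_lit 307) (nat_lit 308)))) (n (nat_lit 334) (b (n (nat_lit 308) (b (l (nat_lit 5) (nat_lit 307) (nat_lit 407)) (l (nat_lit 3) (nat_lit 307) (nat_lit 336)))) (l (nat_lit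 2) (nat_lit 331) (nat_lit 356))))) (n (nat_lit 356) (b (n (nat_lit 381) (b (l (nat_lit 6) (nat_lit 281) (nat_lit 282)) (l (nat_lit 6) (nat_lit 306) (nat_lit 406)))) (l (nat_lit 2) (nat_lit 331) (nat_lit 334)))))) (n (nat_lit 282) (b (n (nat_lit 257) (b (n (nat_lit 256) (b (l (nat_lit 7) (nat_lit 256) (nat_lit 281)) (l (nat_lit 7) (nat_lit 231) (nat_lit 231)))) (n (nat_lit 258) (b (l (nat_lit 5) (nat_lit 232) (nat_lit 233)) (l (nat_lit 5) (nat_lit 257) (nat_lit 283)))))) (n (nat_lit 381) (b (l (nat_lit 6) (nat_lit 281) (nat_lit 356)) (l (nat_lit 6) (nat_lit 306) (nat_lit 406))))))) (b (n (nat_lit 407) (b (n (nat_lit 308) (b (l (nat_lit 5) (nat_lit 282) (nat_lit 283)) (l (nat_lit 5) (nat_lit 307) (nat_lit 333)))) (n (nat_lit 406) (b (l (nat_lit 6) (nat_lit 331) (nat_lit 431)) (l (nat_lit 6) (nat_lit 306) (nat_lit 381)))))) (n (nat_lit 308) (b (n (nat_lit 333) (b (n (nat_lit 334) (b (l (nat_lit 3) (nat_lit 307) (nat_lit 336)) (l (nat_lit 2) (nat_lit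 331) (nat_lit 356)))) (l (nat_lit 5) (nat_lit 307) (nat_lit 407)))) (l (nat_lit 5) (nat_lit 282) (nat_lit 283))))))))) (l (nat_lit 6) (nat_lit 309) (nat_lit 409)))) (l (nat_lit 6) (nat_lit 284) (nat_lit 359)))) (n (nat_lit 384) (b (n (nat_lit 385) (b (n (nat_lit 386) (b (n (nat_lit 383) (b (n (nat_lit 382) (b (n (nat_lit 407) (b (l (nat_lit 2) (nat_lit 381) (nat_lit 406)) (l (nat_lit 2) (nat_lit 382) (nat_lit 408)))) (l (nat_lit 3) (nat_lit 356) (nat_lit 356)))) (l (nat_lit 3) (nat_lit 357) (nat_lit 358)))) (l (nat_lit 4) (nat_lit 310) (nat_lit 411)))) (l (nat_lit 6) (nat_lit 309) (nat_lit 409)))) (l (nat_lit 6) (nat_lit 284) (nat_lit 359))))) (b (n (nat_lit 359) (b (n (nat_lit 358) (b (n (nat_lit 332) (b (n (nat_lit 382) (b (n (nat_lit 383) (b (l (nat_lit 4) (nat_lit 307) (nat_lit 408)) (l (nat_lit 4) (nat_lit 282) (nat_lit 282)))) (l (nat_lit 2) (nat_lit 356) (nat_lit 381)))) (l (nat_lit 3) (nat_lit 331) (nat_lit 331)))) (l (nat_lit 1) (nat_lit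 332) (nat_lit 336)))) (l (nat_lit 6) (nat_lit 284) (nat_lit 384)))) (n (nat_lit 359) (b (n (nat_lit 358) (b (n (nat_lit 356) (b (n (nat_lit 331) (b (l (nat_lit 3) (nat_lit 331) (nat_lit 332)) (l (nat_lit 3) (nat_lit 330) (nat_lit 330)))) (l (nat_lit 1) (nat_lit 331) (nat_lit 334)))) (l (nat_lit 1) (nat_lit 332) (nat_lit 336)))) (l (nat_lit 6) (nat_lit 284) (nat_lit 384)))))) (b (n (nat_lit 332) (b (b (n (nat_lit 282) (b (n (nat_lit 257) (b (n (nat_lit 358) (b (l (nat_lit 4) (nat_lit 282) (nat_lit 383)) (l (nat_lit 4) (nat_lit 257) (nat_lit 333)))) (n (nat_lit 256) (b (l (nat_lit 7) (nat_lit 256) (nat_lit 281)) (l (nat_lit 7) (nat_lit 231) (nat_lit 231)))))) (n (nat_lit 286) (b (n (nat_lit 284) (b (n (nat_lit 283) (b (l (nat_lit 2) (nat_lit 282) (nat_lit 308)) (l (nat_lit 5) (nat_lit 257) (nat_lit 258)))) (l (nat_lit 7) (nat_lit 259) (nat_lit 259)))) (l (nat_lit 5) (nat_lit 260) (nat_lit 261)))))) (n (nat_lit 282) (b (b (n (nat_lit 382) (b (n (nat_lit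 381) (b (l (nat_lit 6) (nat_lit 281) (nat_lit 356)) (l (nat_lit 6) (nat_lit 306) (nat_lit 406)))) (n (nat_lit 383) (b (l (nat_lit 4) (nat_lit 307) (nat_lit 408)) (l (nat_lit 4) (nat_lit 282) (nat_lit 358)))))) (n (nat_lit 257) (b (n (nat_lit 356) (b (l (nat_lit 6) (nat_lit 256) (nat_lit 331)) (l (nat_lit 6) (nat_lit 281) (nat_lit 381)))) (n (nat_lit 256) (b (l (nat_lit 7) (nat_lit 256) (nat_lit 281)) (l (nat_lit 7) (nat_lit 231) (nat_lit 231))))))) (n (nat_lit 257) (b (n (nat_lit 358) (b (l (nat_lit 4) (nat_lit 282) (nat_lit 383)) (l (nat_lit 4) (nat_lit 257) (nat_lit 333)))) (n (nat_lit 256) (b (l (nat_lit 7) (nat_lit 256) (nat_lit 281)) (l (nat_lit 7) (nat_lit 231) (nat_lit 231))))))))) (b (n (nat_lit 282) (b (b (n (nat_lit 382) (b (n (nat_lit 283) (b (l (nat_lit 5) (nat_lit 257) (nat_lit 258)) (l (nat_lit 5) (nat_lit 282) (nat_lit 308)))) (n (nat_lit 381) (b (l (nat_lit 6) (nat_lit 281) (nat_lit 356)) (l (nat_lit 6) (nat_lit 306) (nat_lit 406))))))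 (n (nat_lit 257) (b (n (nat_lit 356) (b (l (nat_lit 6) (nat_lit 256) (nat_lit 331)) (l (nat_lit 6) (nat_lit 281) (nat_lit 381)))) (n (nat_lit 256) (b (l (nat_lit 7) (nat_lit 256) (nat_lit 281)) (l (nat_lit 7) (nat_lit 231) (nat_lit 231))))))) (n (nat_lit 257) (b (n (nat_lit 256) (b (l (nat_lit 7) (nat_lit 256) (nat_lit 281)) (l (nat_lit 7) (nat_lit 231) (nat_lit 231)))) (n (nat_lit 258) (b (l (nat_lit 5) (nat_lit 232) (nat_lit 233)) (l (nat_lit 5) (nat_lit 257) (nat_lit 283)))))))) (n (nat_lit 382) (b (b (n (nat_lit 407) (b (n (nat_lit 308) (b (l (nat_lit 5) (nat_lit 282) (nat_lit 283)) (l (nat_lit 5) (nat_lit 307) (nat_lit 333)))) (n (nat_lit 406) (b (l (nat_lit 6) (nat_lit 331) (nat_lit 431)) (l (nat_lit 6) (nat_lit 306) (nat_lit 381)))))) (n (nat_lit 407) (b (n (nat_lit 308) (b (l (nat_lit 5) (nat_lit 282) (nat_lit 283)) (l (nat_lit 5) (nat_lit 307) (nat_lit 333)))) (n (nat_lit 408) (b (l (nat_lit 4) (nat_lit 332) (nat_lit 433)) (l (nat_lit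 4) (nat_lit 307) (nat_lit 383))))))) (n (nat_lit 383) (b (n (nat_lit 381) (b (n (nat_lit 380) (b (n (nat_lit 379) (b (n (nat_lit 404) (b (l (nat_lit 2) (nat_lit 379) (nat_lit 405)) (l (nat_lit 2) (nat_lit 378) (nat_lit 403)))) (l (nat_lit 1) (nat_lit 354) (nat_lit 358)))) (n (nat_lit 384) (b (n (nat_lit 409) (b (l (nat_lit 0) (nat_lit 381) (nat_lit 410)) (l (nat_lit 6) (nat_lit 309) (nat_lit 385)))) (n (nat_lit 355) (b (l (nat_lit 3) (nat_lit 355) (nat_lit 356)) (l (nat_lit 3) (nat_lit 354) (nat_lit 354)))))))) (l (nat_lit 6) (nat_lit 306) (nat_lit 406)))) (l (nat_lit 4) (nat_lit 307) (nat_lit 408))))))))) (n (nat_lit 358) (b (n (nat_lit 359) (b (n (nat_lit 356) (b (n (nat_lit 381) (b (l (nat_lit 2) (nat_lit 355) (nat_lit 380)) (l (nat_lit 2) (nat_lit 356) (nat_lit 382)))) (l (nat_lit 1) (nat_lit 331) (nat_lit 334)))) (l (nat_lit 1) (nat_lit 332) (nat_lit 336)))) (n (nat_lit 284) (b (n (nat_lit 286) (b (n (nat_lit 283) (b (n (nat_lit 257) (b (n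 (nat_lit 282) (b (n (nat_lit 332) (b (l (nat_lit 4) (nat_lit 282) (nat_lit 383)) (l (nat_lit 4) (nat_lit 257) (nat_lit 333)))) (l (nat_lit 3) (nat_lit 256) (nat_lit 256)))) (l (nat_lit 3) (nat_lit 257) (nat_lit 258)))) (l (nat_lit 2) (nat_lit 282) (nat_lit 308)))) (l (nat_lit 5) (nat_lit 260) (nat_lit 261)))) (l (nat_lit 7) (nat_lit 259) (nat_lit 259))))))))) (r (nat_lit 0))) (b (n (nat_lit 308) (b (n (nat_lit 286) (b (n (nat_lit 284) (b (l (nat_lit 2) (nat_lit 282) (nat_lit 283)) (l (nat_lit 7) (nat_lit 259) (nat_lit 259)))) (l (nat_lit 5) (nat_lit 260) (nat_lit 261)))) (n (nat_lit 385) (b (b (n (nat_lit 384) (b (l (nat_lit 6) (nat_lit 284) (nat_lit 359)) (l (nat_lit 6) (nat_lit 309) (nat_lit 409)))) (n (nat_lit 334) (b (n (nat_lit 410) (b (n (nat_lit 411) (b (l (nat_lit 4) (nat_lit 335) (nat_lit 436)) (l (nat_lit 4) (nat_lit 310) (nat_lit 386)))) (n (nat_lit 359) (b (l (nat_lit 6) (nat_lit 284) (nat_lit 384)) (l (nat_lit 7) (nat_lit 334) (nat_lit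 435)))))) (n (nat_lit 333) (b (n (nat_lit 306) (b (l (nat_lit 0) (nat_lit 305) (nat_lit 305)) (l (nat_lit 3) (nat_lit 306) (nat_lit 332)))) (l (nat_lit 3) (nat_lit 307) (nat_lit 336))))))) (b (n (nat_lit 410) (b (n (nat_lit 411) (b (l (nat_lit 4) (nat_lit 335) (nat_lit 436)) (l (nat_lit 4) (nat_lit 310) (nat_lit 386)))) (n (nat_lit 409) (b (l (nat_lit 6) (nat_lit 334) (nat_lit 434)) (l (nat_lit 6) (nat_lit 309) (nat_lit 384)))))) (n (nat_lit 410) (b (n (nat_lit 411) (b (l (nat_lit 4) (nat_lit 335) (nat_lit 436)) (l (nat_lit 4) (nat_lit 310) (nat_lit 386)))) (n (nat_lit 334) (b (n (nat_lit 435) (b (n (nat_lit 434) (b (l (nat_lit 6) (nat_lit 334) (nat_lit 409)) (l (nat_lit 6) (nat_lit 359) (nat_lit 459)))) (l (nat_lit 7) (nat_lit 334) (nat_lit 359)))) (n (nat_lit 333) (b (n (nat_lit 306) (b (l (nat_lit 0) (nat_lit 305) (nat_lit 305)) (l (nat_lit 3) (nat_lit 306) (nat_lit 332)))) (l (nat_lit 3) (nat_lit 307) (nat_lit 336))))))))))))) (n (nat_lit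 286) (b (n (nat_lit 284) (b (n (nat_lit 283) (b (n (nat_lit 282) (b (n (nat_lit 257) (b (l (nat_lit 3) (nat_lit 256) (nat_lit 256)) (l (nat_lit 3) (nat_lit 257) (nat_lit 258)))) (l (nat_lit 2) (nat_lit 281) (nat_lit 306)))) (l (nat_lit 2) (nat_lit 282) (nat_lit 308)))) (l (nat_lit 7) (nat_lit 259) (nat_lit 259)))) (l (nat_lit 5) (nat_lit 260) (nat_lit 261)))))) (n (nat_lit 286) (b (n (nat_lit 284) (b (n (nat_lit 282) (b (b (b (n (nat_lit 357) (b (b (n (nat_lit 359) (b (n (nat_lit 358) (b (n (nat_lit 356) (b (n (nat_lit 381) (b (l (nat_lit 2) (nat_lit 355) (nat_lit 380)) (l (nat_lit 2) (nat_lit 356) (nat_lit 382)))) (l (nat_lit 1) (nat_lit 331) (nat_lit 334)))) (l (nat_lit 1) (nat_lit 332) (nat_lit 336)))) (l (nat_lit 6) (nat_lit 284) (nat_lit 384)))) (n (nat_lit 332) (b (n (nat_lit 382) (b (n (nat_lit 381) (b (l (nat_lit 6) (nat_lit 281) (nat_lit 356)) (l (nat_lit 6) (nat_lit 306) (nat_lit 406)))) (n (nat_lit 383) (b (l (nat_lit 4) (nat_lit 307)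 (nat_lit 408)) (l (nat_lit 4) (nat_lit 282) (nat_lit 358)))))) (n (nat_lit 283) (b (l (nat_lit 2) (nat_lit 281) (nat_lit 306)) (l (nat_lit 5) (nat_lit 257) (nat_lit 258))))))) (b (n (nat_lit 283) (b (n (nat_lit 358) (b (n (nat_lit 359) (b (l (nat_lit 6) (nat_lit 284) (nat_lit 384)) (l (nat_lit 1) (nat_lit 332) (nat_lit 336)))) (n (nat_lit 332) (b (l (nat_lit 5) (nat_lit 257) (nat_lit 258)) (l (nat_lit 4) (nat_lit 282) (nat_lit 383)))))) (l (nat_lit 2) (nat_lit 281) (nat_lit 306)))) (n (nat_lit 332) (b (n (nat_lit 283) (b (l (nat_lit 2) (nat_lit 281) (nat_lit 306)) (l (nat_lit 5) (nat_lit 257) (nat_lit 258)))) (n (nat_lit 384) (b (n (nat_lit 382) (b (b (n (nat_lit 385) (b (n (nat_lit 383) (b (l (nat_lit 4) (nat_lit 307) (nat_lit 408)) (l (nat_lit 3) (nat_lit 356) (nat_lit 356)))) (l (nat_lit 6) (nat_lit 309) (nat_lit 409)))) (n (nat_lit 381) (b (l (nat_lit 6) (nat_lit 281) (nat_lit 356)) (l (nat_lit 6) (nat_lit 306) (nat_lit 406))))) (n (nat_lit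 407) (b (n (nat_lit 406) (b (l (nat_lit 6) (nat_lit 331) (nat_lit 431)) (l (nat_lit 6) (nat_lit 306) (nat_lit 381)))) (n (nat_lit 408) (b (l (nat_lit 4) (nat_lit 332) (nat_lit 433)) (l (nat_lit 4) (nat_lit 307) (nat_lit 383)))))))) (l (nat_lit 6) (nat_lit 284) (nat_lit 359))))))))) (n (nat_lit 359) (b (n (nat_lit 332) (b (b (n (nat_lit 257) (b (n (nat_lit 331) (b (n (nat_lit 333) (b (l (nat_lit 0) (nat_lit 331) (nat_lit 334)) (l (nat_lit 4) (nat_lit 257) (nat_lit 358)))) (l (nat_lit 6) (nat_lit 256) (nat_lit 356)))) (n (nat_lit 232) (b (n (nat_lit 233) (b (l (nat_lit 5) (nat_lit 207) (nat_lit 208)) (l (nat_lit 5) (nat_lit 232) (nat_lit 258)))) (n (nat_lit 231) (b (l (nat_lit 7) (nat_lit 231) (nat_lit 256)) (l (nat_lit 7) (nat_lit 206) (nat_lit 206)))))))) (n (nat_lit 257) (b (b (n (nat_lit 357) (b (n (nat_lit 256) (b (l (nat_lit 7) (nat_lit 256) (nat_lit 281)) (l (nat_lit 7) (nat_lit 231) (nat_lit 231)))) (n (nat_lit 356) (b (l (nat_lit 6) (nat_lit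 256) (nat_lit 331)) (l (nat_lit 6) (nat_lit 281) (nat_lit 381)))))) (n (nat_lit 232) (b (n (nat_lit 331) (b (l (nat_lit 6) (nat_lit 231) (nat_lit 306)) (l (nat_lit 6) (nat_lit 256) (nat_lit 356)))) (n (nat_lit 233) (b (l (nat_lit 5) (nat_lit 207) (nat_lit 208)) (l (nat_lit 5) (nat_lit 232) (nat_lit 258))))))) (n (nat_lit 232) (b (n (nat_lit 233) (b (l (nat_lit 5) (nat_lit 207) (nat_lit 208)) (l (nat_lit 5) (nat_lit 232) (nat_lit 258)))) (n (nat_lit 231) (b (l (nat_lit 7) (nat_lit 231) (nat_lit 256)) (l (nat_lit 7) (nat_lit 206) (nat_lit 206))))))))) (b (n (nat_lit 358) (b (n (nat_lit 333) (b (n (nat_lit 331) (b (l (nat_lit 0) (nat_lit 330) (nat_lit 330)) (l (nat_lit 0) (nat_lit 331) (nat_lit 334)))) (l (nat_lit 4) (nat_lit 257) (nat_lit 257)))) (n (nat_lit 357) (b (l (nat_lit 1) (nat_lit 332) (nat_lit 336)) (l (nat_lit 4) (nat_lit 282) (nat_lit 383)))))) (n (nat_lit 357) (b (n (nat_lit 382) (b (n (nat_lit 381) (b (l (nat_lit 6) (nat_lit 281) (nat_lit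 356)) (l (nat_lit 6) (nat_lit 306) (nat_lit 406)))) (n (nat_lit 281) (b (l (nat_lit 7) (nat_lit 256) (nat_lit 256)) (l (nat_lit 7) (nat_lit 281) (nat_lit 306)))))) (n (nat_lit 358) (b (l (nat_lit 1) (nat_lit 332) (nat_lit 336)) (l (nat_lit 4) (nat_lit 282) (nat_lit 383))))))))) (l (nat_lit 6) (nat_lit 284) (nat_lit 384))))) (b (n (nat_lit 257) (b (b (n (nat_lit 283) (b (l (nat_lit 3) (nat_lit 257) (nat_lit 258)) (l (nat_lit 3) (nat_lit 256) (nat_lit 256)))) (n (nat_lit 332) (b (n (nat_lit 357) (b (n (nat_lit 356) (b (l (nat_lit 6) (nat_lit 256) (nat_lit 331)) (l (nat_lit 6) (nat_lit 281) (nat_lit 381)))) (n (nat_lit 358) (b (l (nat_lit 4) (nat_lit 282) (nat_lit 383)) (l (nat_lit 4) (nat_lit 257) (nat_lit 333)))))) (n (nat_lit 232) (b (n (nat_lit 233) (b (l (nat_lit 5) (nat_lit 207) (nat_lit 208)) (l (nat_lit 5) (nat_lit 232) (nat_lit 258)))) (n (nat_lit 231) (b (l (nat_lit 7) (nat_lit 231) (nat_lit 256)) (l (nat_lit 7) (nat_lit 206) (nat_lit 206)))))))))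 (b (n (nat_lit 256) (b (n (nat_lit 231) (b (n (nat_lit 206) (b (l (nat_lit 4) (nat_lit 181) (nat_lit 181)) (l (nat_lit 7) (nat_lit 206) (nat_lit 232)))) (l (nat_lit 7) (nat_lit 231) (nat_lit 332)))) (l (nat_lit 3) (nat_lit 256) (nat_lit 283)))) (n (nat_lit 258) (b (n (nat_lit 233) (b (n (nat_lit 208) (b (l (nat_lit 6) (nat_lit 182) (nat_lit 183)) (l (nat_lit 5) (nat_lit 207) (nat_lit 232)))) (l (nat_lit 5) (nat_lit 232) (nat_lit 332)))) (l (nat_lit 3) (nat_lit 257) (nat_lit 283))))))) (n (nat_lit 283) (b (n (nat_lit 257) (b (l (nat_lit 3) (nat_lit 256) (nat_lit 256)) (l (nat_lit 3) (nat_lit 257) (nat_lit 258)))) (l (nat_lit 2) (nat_lit 281) (nat_lit 306)))))) (n (nat_lit 306) (b (n (nat_lit 332) (b (b (n (nat_lit 357) (b (n (nat_lit 358) (b (n (nat_lit 359) (b (l (nat_lit 6) (nat_lit 284) (nat_lit 384)) (l (nat_lit 1) (nat_lit 332) (nat_lit 336)))) (l (nat_lit 4) (nat_lit 282) (nat_lit 383)))) (n (nat_lit 281) (b (l (nat_lit 7) (nat_lit 256) (nat_lit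 256)) (l (nat_lit 7) (nat_lit 281) (nat_lit 382)))))) (n (nat_lit 257) (b (n (nat_lit 331) (b (l (nat_lit 6) (nat_lit 231) (nat_lit 232)) (l (nat_lit 6) (nat_lit 256) (nat_lit 356)))) (n (nat_lit 333) (b (l (nat_lit 4) (nat_lit 257) (nat_lit 358)) (l (nat_lit 3) (nat_lit 306) (nat_lit 334))))))) (n (nat_lit 357) (b (b (n (nat_lit 281) (b (l (nat_lit 7) (nat_lit 256) (nat_lit 256)) (l (nat_lit 7) (nat_lit 281) (nat_lit 382)))) (n (nat_lit 382) (b (b (n (nat_lit 381) (b (l (nat_lit 6) (nat_lit 281) (nat_lit 356)) (l (nat_lit 6) (nat_lit 306) (nat_lit 406)))) (n (nat_lit 331) (b (n (nat_lit 257) (b (l (nat_lit 6) (nat_lit 256) (nat_lit 356)) (l (nat_lit 6) (nat_lit 231) (nat_lit 232)))) (l (nat_lit 7) (nat_lit 306) (nat_lit 407))))) (n (nat_lit 407) (b (n (nat_lit 406) (b (l (nat_lit 6) (nat_lit 331) (nat_lit 431)) (l (nat_lit 6) (nat_lit 306) (nat_lit 381)))) (l (nat_lit 7) (nat_lit 306) (nat_lit 331))))))) (n (nat_lit 257) (b (n (nat_lit 331) (b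 (l (nat_lit 6) (nat_lit 231) (nat_lit 232)) (l (nat_lit 6) (nat_lit 256) (nat_lit 356)))) (n (nat_lit 256) (b (l (nat_lit 7) (nat_lit 256) (nat_lit 281)) (l (nat_lit 7) (nat_lit 231) (nat_lit 231)))))))))) (l (nat_lit 2) (nat_lit 281) (nat_lit 283)))))) (l (nat_lit 7) (nat_lit 259) (nat_lit 259)))) (l (nat_lit 5) (nat_lit 260) (nat_lit 261))))))
    (envOK_cons p11780 envOK_nil) (by decide +kernel)

theorem p11865 : Fam (nat_lit 14) (nat_lit 2348542582773843657513928090976303615138684896048577864645516769201210956012429369884400366417210628714266624) (nat_lit 5582121754719322629000424831111899787211658520944638363576981578233688758836421958485527978870475404869789578957074129956238840311247273984) (nat_lit 5582121754719322629000424831111899787211658520944638363576981578233688758836421958485527978870475404869789578957074129956238840311247273984) :=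
  chk_sound (Env.cons (nat_lit 9) (nat_lit 2348542652765859549833183991884588026802413059795615386950554165053799075809514684170516622959497632139968512) (nat_lit 59103013844893248536315803325084041015690749413930316307174476888299144500754292432383561095360495112929883082194944) (Env.cons (nat_lit 9) (nat_lit 34996014725415543687838417313923821906190482366134439992481511342245323407027674336139144685112262656) (nat_lit 495791991368439800349311766707040488928144052979909304297897655629125023771720638312607553648373144869111224366931686457344) (Env.cons (nat_lit 6) (nat_lit 39402010306343999066487188906734658186419537177909907257508067142004921952863004561979042316358162814151858296193024) (nat_lit 16636018660517178503585668501260663773349959486497835944452110635664554617247214090611381671288250373005631496788101017793124630528) (Env.cons (nat_lit 6) (nat_lit 39402010306343999066487188906734658186419537177909907257508067142004921952863004561979042316358162814151858296193024)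 (nat_lit 372141437930030661292771364316097406478868775659291398273518952427580742803918980876100317849358433546308005063931760233151375980076466176) (Env.cons (nat_lit 13) (nat_lit 10429624509659591517811093271769921276346543238354687851599362500984417813012969568492354273280) (nat_lit 68953513118841034582049573316509655482015906686220721528250091892313355332887599124944849248013928956510174235852800) (Env.cons (nat_lit 7) (nat_lit 2348542582773836356776802411964516759038529368494193598367756199429139670691018709790487079807075967402246144) (nat_lit 243994942998471535011680455743431672878754695788724500093026486796010381501189158672289487695840561998475874281252869113966489501696) (Env.cons (nat_lit 12) (nat_lit 2348542652765858506870764108627711857358220594193996928598736608094438750105604614727291144131104066240512000) (nat_lit 1488566056713794927305503069458672909755168432409761304204626641198316035490188351089662846559767665224991158603482410603483805204072103936)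 Env.nil)))))))
    (n (nat_lit 285) (b (b (b (n (nat_lit 309) (b (b (n (nat_lit 286) (b (n (nat_lit 335) (b (n (nat_lit 385) (b (n (nat_lit 410) (b (n (nat_lit 411) (b (l (nat_lit 4) (nat_lit 335) (nat_lit 436)) (l (nat_lit 4) (nat_lit 310) (nat_lit 386)))) (l (nat_lit 7) (nat_lit 309) (nat_lit 334)))) (n (nat_lit 384) (b (l (nat_lit 6) (nat_lit 284) (nat_lit 359)) (l (nat_lit 6) (nat_lit 309) (nat_lit 409)))))) (l (nat_lit 5) (nat_lit 260) (nat_lit 261)))) (l (nat_lit 2) (nat_lit 284) (nat_lit 288)))) (n (nat_lit 286) (b (n (nat_lit 308) (b (l (nat_lit 2) (nat_lit 283) (nat_lit 284)) (l (nat_lit 1) (nat_lit 282) (nat_lit 307)))) (l (nat_lit 2) (nat_lit 284) (nat_lit 288))))) (n (nat_lit 335) (b (b (r (nat_lit 0)) (n (nat_lit 385) (b (n (nat_lit 410) (b (n (nat_lit 411) (b (l (nat_lit 4) (nat_lit 335) (nat_lit 436)) (l (nat_lit 4) (nat_lit 310) (nat_lit 386)))) (l (nat_lit 7) (nat_lit 309) (nat_lit 334)))) (n (nat_lit 384) (b (l (nat_lit 6) (nat_lit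 284) (nat_lit 359)) (l (nat_lit 6) (nat_lit 309) (nat_lit 409))))))) (n (nat_lit 284) (b (l (nat_lit 7) (nat_lit 284) (nat_lit 385)) (l (nat_lit 7) (nat_lit 259) (nat_lit 259)))))))) (n (nat_lit 284) (b (b (n (nat_lit 309) (b (b (n (nat_lit 235) (b (n (nat_lit 259) (b (n (nat_lit 234) (b (l (nat_lit 4) (nat_lit 209) (nat_lit 209)) (l (nat_lit 5) (nat_lit 209) (nat_lit 210)))) (n (nat_lit 286) (b (l (nat_lit 3) (nat_lit 258) (nat_lit 258)) (l (nat_lit 2) (nat_lit 284) (nat_lit 288)))))) (n (nat_lit 334) (b (n (nat_lit 359) (b (l (nat_lit 5) (nat_lit 284) (nat_lit 384)) (l (nat_lit 4) (nat_lit 284) (nat_lit 385)))) (l (nat_lit 6) (nat_lit 234) (nat_lit 260)))))) (n (nat_lit 286) (b (l (nat_lit 2) (nat_lit 284) (nat_lit 288)) (l (nat_lit 2) (nat_lit 283) (nat_lit 308))))) (n (nat_lit 334) (b (n (nat_lit 359) (b (l (nat_lit 5) (nat_lit 284) (nat_lit 384)) (l (nat_lit 4) (nat_lit 284) (nat_lit 385)))) (n (nat_lit 259) (b (r (nat_lit 1)) (n (nat_lit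 235) (b (n (nat_lit 234) (b (l (nat_lit 4) (nat_lit 209) (nat_lit 209)) (l (nat_lit 5) (nat_lit 209) (nat_lit 210)))) (l (nat_lit 6) (nat_lit 234) (nat_lit 260)))))))))) (n (nat_lit 335) (b (n (nat_lit 385) (b (n (nat_lit 384) (b (l (nat_lit 6) (nat_lit 284) (nat_lit 359)) (l (nat_lit 6) (nat_lit 309) (nat_lit 409)))) (l (nat_lit 7) (nat_lit 284) (nat_lit 309)))) (l (nat_lit 7) (nat_lit 259) (nat_lit 259))))) (b (n (nat_lit 309) (b (n (nat_lit 359) (b (b (n (nat_lit 384) (b (l (nat_lit 6) (nat_lit 284) (nat_lit 335)) (l (nat_lit 5) (nat_lit 284) (nat_lit 334)))) (n (nat_lit 334) (b (l (nat_lit 4) (nat_lit 284) (nat_lit 385)) (l (nat_lit 5) (nat_lit 284) (nat_lit 384))))) (b (n (nat_lit 385) (b (l (nat_lit 4) (nat_lit 284) (nat_lit 334)) (l (nat_lit 7) (nat_lit 284) (nat_lit 335)))) (n (nat_lit 335) (b (l (nat_lit 6) (nat_lit 284) (nat_lit 384)) (l (nat_lit 7) (nat_lit 284) (nat_lit 385))))))) (n (nat_lit 286) (b (l (nat_lit 2) (nat_lit 284) (nat_lit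 288)) (l (nat_lit 2) (nat_lit 283) (nat_lit 308)))))) (n (nat_lit 259) (b (n (nat_lit 258) (b (n (nat_lit 257) (b (n (nat_lit 282) (b (b (n (nat_lit 260) (b (n (nat_lit 209) (b (n (nat_lit 235) (b (n (nat_lit 210) (b (l (nat_lit 6) (nat_lit 184) (nat_lit 185)) (l (nat_lit 7) (nat_lit 184) (nat_lit 184)))) (l (nat_lit 1) (nat_lit 232) (nat_lit 236)))) (l (nat_lit 4) (nat_lit 209) (nat_lit 234)))) (l (nat_lit 2) (nat_lit 256) (nat_lit 281)))) (n (nat_lit 307) (b (b (n (nat_lit 233) (b (n (nat_lit 283) (b (l (nat_lit 6) (nat_lit 207) (nat_lit 208)) (l (nat_lit 2) (nat_lit 281) (nat_lit 306)))) (l (nat_lit 5) (nat_lit 232) (nat_lit 332)))) (n (nat_lit 232) (b (n (nat_lit 231) (b (l (nat_lit 7) (nat_lit 206) (nat_lit 206)) (l (nat_lit 3) (nat_lit 231) (nat_lit 260)))) (n (nat_lit 306) (b (l (nat_lit 2) (nat_lit 281) (nat_lit 283)) (l (nat_lit 6) (nat_lit 231) (nat_lit 331))))))) (n (nat_lit 232) (b (n (nat_lit 231) (b (l (nat_lit 7) (nat_lit 206) (nat_lit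 206)) (l (nat_lit 3) (nat_lit 231) (nat_lit 260)))) (n (nat_lit 233) (b (l (nat_lit 5) (nat_lit 207) (nat_lit 208)) (l (nat_lit 5) (nat_lit 232) (nat_lit 332))))))))) (n (nat_lit 307) (b (b (n (nat_lit 233) (b (n (nat_lit 208) (b (l (nat_lit 6) (nat_lit 182) (nat_lit 183)) (l (nat_lit 5) (nat_lit 207) (nat_lit 232)))) (l (nat_lit 5) (nat_lit 232) (nat_lit 332)))) (n (nat_lit 232) (b (b (n (nat_lit 207) (b (n (nat_lit 283) (b (l (nat_lit 4) (nat_lit 207) (nat_lit 308)) (l (nat_lit 4) (nat_lit 182) (nat_lit 182)))) (n (nat_lit 206) (b (l (nat_lit 7) (nat_lit 181) (nat_lit 181)) (l (nat_lit 7) (nat_lit 206) (nat_lit 231)))))) (n (nat_lit 306) (b (l (nat_lit 2) (nat_lit 281) (nat_lit 283)) (l (nat_lit 6) (nat_lit 231) (nat_lit 331))))) (n (nat_lit 207) (b (n (nat_lit 306) (b (l (nat_lit 6) (nat_lit 231) (nat_lit 331)) (l (nat_lit 6) (nat_lit 206) (nat_lit 281)))) (n (nat_lit 206) (b (l (nat_lit 7) (nat_lit 181) (nat_lit 181)) (l (nat_lit 7) (nat_lit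 206) (nat_lit 231))))))))) (n (nat_lit 233) (b (n (nat_lit 283) (b (l (nat_lit 6) (nat_lit 207) (nat_lit 208)) (l (nat_lit 2) (nat_lit 281) (nat_lit 306)))) (l (nat_lit 5) (nat_lit 232) (nat_lit 332)))))))) (l (nat_lit 0) (nat_lit 256) (nat_lit 256)))) (l (nat_lit 3) (nat_lit 258) (nat_lit 286)))) (l (nat_lit 7) (nat_lit 259) (nat_lit 335)))))))) (b (n (nat_lit 286) (b (b (b (n (nat_lit 335) (b (n (nat_lit 385) (b (b (n (nat_lit 410) (b (n (nat_lit 411) (b (l (nat_lit 4) (nat_lit 335) (nat_lit 436)) (l (nat_lit 4) (nat_lit 310) (nat_lit 386)))) (n (nat_lit 409) (b (l (nat_lit 6) (nat_lit 334) (nat_lit 434)) (l (nat_lit 6) (nat_lit 309) (nat_lit 384)))))) (n (nat_lit 384) (b (l (nat_lit 6) (nat_lit 284) (nat_lit 359)) (l (nat_lit 6) (nat_lit 309) (nat_lit 409))))) (n (nat_lit 410) (b (n (nat_lit 411) (b (l (nat_lit 4) (nat_lit 335) (nat_lit 436)) (l (nat_lit 4) (nat_lit 310) (nat_lit 386)))) (n (nat_lit 334) (b (n (nat_lit 359) (b (l (nat_lit 6)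 (nat_lit 259) (nat_lit 260)) (l (nat_lit 7) (nat_lit 334) (nat_lit 435)))) (l (nat_lit 7) (nat_lit 309) (nat_lit 309)))))))) (l (nat_lit 5) (nat_lit 260) (nat_lit 261)))) (n (nat_lit 335) (b (n (nat_lit 385) (b (n (nat_lit 410) (b (n (nat_lit 411) (b (l (nat_lit 4) (nat_lit 335) (nat_lit 436)) (l (nat_lit 4) (nat_lit 310) (nat_lit 386)))) (n (nat_lit 309) (b (l (nat_lit 7) (nat_lit 309) (nat_lit 334)) (l (nat_lit 2) (nat_lit 284) (nat_lit 288)))))) (n (nat_lit 384) (b (l (nat_lit 6) (nat_lit 284) (nat_lit 359)) (l (nat_lit 6) (nat_lit 309) (nat_lit 409)))))) (l (nat_lit 5) (nat_lit 260) (nat_lit 261))))) (b (n (nat_lit 288) (b (n (nat_lit 289) (b (n (nat_lit 264) (b (l (nat_lit 1) (nat_lit 261) (nat_lit 265)) (l (nat_lit 1) (nat_lit 260) (nat_lit 263)))) (n (nat_lit 260) (b (l (nat_lit 3) (nat_lit 260) (nat_lit 261)) (l (nat_lit 3) (nat_lit 259) (nat_lit 259)))))) (l (nat_lit 2) (nat_lit 284) (nat_lit 309)))) (n (nat_lit 335) (b (n (nat_lit 260)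 (b (n (nat_lit 259) (b (l (nat_lit 7) (nat_lit 234) (nat_lit 234)) (l (nat_lit 3) (nat_lit 259) (nat_lit 288)))) (n (nat_lit 359) (b (l (nat_lit 6) (nat_lit 259) (nat_lit 334)) (l (nat_lit 6) (nat_lit 284) (nat_lit 384)))))) (l (nat_lit 5) (nat_lit 260) (nat_lit 261)))))) (n (nat_lit 359) (b (b (b (n (nat_lit 309) (b (n (nat_lit 384) (b (n (nat_lit 358) (b (b (b (r (nat_lit 2)) (n (nat_lit 357) (b (n (nat_lit 385) (b (l (nat_lit 0) (nat_lit 357) (nat_lit 386)) (l (nat_lit 0) (nat_lit 356) (nat_lit 356)))) (n (nat_lit 308) (b (n (nat_lit 382) (b (n (nat_lit 333) (b (n (nat_lit 332) (b (l (nat_lit 5) (nat_lit 307) (nat_lit 407)) (l (nat_lit 3) (nat_lit 331) (nat_lit 331)))) (l (nat_lit 6) (nat_lit 282) (nat_lit 283)))) (l (nat_lit 2) (nat_lit 356) (nat_lit 381)))) (l (nat_lit 1) (nat_lit 282) (nat_lit 307))))))) (b (n (nat_lit 357) (b (n (nat_lit 385) (b (l (nat_lit 0) (nat_lit 357) (nat_lit 386)) (l (nat_lit 0) (nat_lit 356) (nat_lit 356)))) (n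 (nat_lit 382) (b (n (nat_lit 307) (b (n (nat_lit 332) (b (n (nat_lit 383) (b (l (nat_lit 4) (nat_lit 307) (nat_lit 408)) (l (nat_lit 4) (nat_lit 282) (nat_lit 282)))) (l (nat_lit 3) (nat_lit 331) (nat_lit 331)))) (l (nat_lit 1) (nat_lit 282) (nat_lit 308)))) (l (nat_lit 2) (nat_lit 356) (nat_lit 381)))))) (n (nat_lit 308) (b (n (nat_lit 333) (b (n (nat_lit 409) (b (l (nat_lit 4) (nat_lit 308) (nat_lit 383)) (l (nat_lit 7) (nat_lit 333) (nat_lit 434)))) (l (nat_lit 4) (nat_lit 283) (nat_lit 283)))) (l (nat_lit 1) (nat_lit 282) (nat_lit 307)))))) (r (nat_lit 3)))) (l (nat_lit 5) (nat_lit 284) (nat_lit 334)))) (l (nat_lit 2) (nat_lit 284) (nat_lit 288)))) (n (nat_lit 260) (b (b (n (nat_lit 335) (b (n (nat_lit 259) (b (l (nat_lit 7) (nat_lit 234) (nat_lit 234)) (l (nat_lit 3) (nat_lit 259) (nat_lit 288)))) (l (nat_lit 6) (nat_lit 259) (nat_lit 334)))) (n (nat_lit 235) (b (n (nat_lit 210) (b (n (nat_lit 211) (b (l (nat_lit 5) (nat_lit 210) (nat_lit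 236)) (l (nat_lit 5) (nat_lit 185) (nat_lit 186)))) (n (nat_lit 209) (b (l (nat_lit 7) (nat_lit 184) (nat_lit 184)) (l (nat_lit 7) (nat_lit 209) (nat_lit 234)))))) (n (nat_lit 334) (b (l (nat_lit 6) (nat_lit 234) (nat_lit 309)) (l (nat_lit 6) (nat_lit 259) (nat_lit 335))))))) (n (nat_lit 288) (b (l (nat_lit 3) (nat_lit 259) (nat_lit 259)) (l (nat_lit 2) (nat_lit 284) (nat_lit 309))))))) (b (n (nat_lit 335) (b (n (nat_lit 260) (b (n (nat_lit 259) (b (l (nat_lit 7) (nat_lit 234) (nat_lit 234)) (l (nat_lit 3) (nat_lit 259) (nat_lit 288)))) (l (nat_lit 6) (nat_lit 259) (nat_lit 334)))) (l (nat_lit 6) (nat_lit 284) (nat_lit 384)))) (n (nat_lit 384) (b (n (nat_lit 358) (b (b (b (r (nat_lit 2)) (n (nat_lit 357) (b (n (nat_lit 385) (b (l (nat_lit 0) (nat_lit 357) (nat_lit 386)) (l (nat_lit 0) (nat_lit 356) (nat_lit 356)))) (n (nat_lit 382) (b (n (nat_lit 332) (b (n (nat_lit 307) (b (n (nat_lit 383) (b (l (nat_lit 4) (nat_lit 307) (nat_lit 408)) (l (nat_lit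 4) (nat_lit 282) (nat_lit 282)))) (n (nat_lit 309) (b (l (nat_lit 1) (nat_lit 282) (nat_lit 308)) (l (nat_lit 2) (nat_lit 284) (nat_lit 288)))))) (l (nat_lit 3) (nat_lit 331) (nat_lit 331)))) (l (nat_lit 2) (nat_lit 356) (nat_lit 381))))))) (b (n (nat_lit 357) (b (n (nat_lit 385) (b (l (nat_lit 0) (nat_lit 357) (nat_lit 386)) (l (nat_lit 0) (nat_lit 356) (nat_lit 356)))) (n (nat_lit 332) (b (n (nat_lit 308) (b (n (nat_lit 309) (b (l (nat_lit 1) (nat_lit 282) (nat_lit 307)) (l (nat_lit 2) (nat_lit 284) (nat_lit 288)))) (n (nat_lit 333) (b (n (nat_lit 382) (b (l (nat_lit 2) (nat_lit 356) (nat_lit 381)) (l (nat_lit 5) (nat_lit 307) (nat_lit 407)))) (l (nat_lit 4) (nat_lit 283) (nat_lit 283)))))) (l (nat_lit 3) (nat_lit 331) (nat_lit 331)))))) (n (nat_lit 308) (b (n (nat_lit 309) (b (l (nat_lit 1) (nat_lit 282) (nat_lit 307)) (l (nat_lit 2) (nat_lit 284) (nat_lit 288)))) (n (nat_lit 333) (b (n (nat_lit 409) (b (l (nat_lit 4) (nat_lit 308) (nat_lit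 383)) (l (nat_lit 7) (nat_lit 333) (nat_lit 434)))) (l (nat_lit 4) (nat_lit 283) (nat_lit 283)))))))) (r (nat_lit 3)))) (l (nat_lit 6) (nat_lit 284) (nat_lit 335)))))) (n (nat_lit 384) (b (n (nat_lit 334) (b (n (nat_lit 409) (b (b (n (nat_lit 434) (b (n (nat_lit 333) (b (l (nat_lit 7) (nat_lit 308) (nat_lit 308)) (l (nat_lit 7) (nat_lit 333) (nat_lit 358)))) (n (nat_lit 433) (b (l (nat_lit 6) (nat_lit 333) (nat_lit 408)) (l (nat_lit 6) (nat_lit 358) (nat_lit 458)))))) (n (nat_lit 434) (b (n (nat_lit 333) (b (l (nat_lit 7) (nat_lit 308) (nat_lit 308)) (l (nat_lit 7) (nat_lit 333) (nat_lit 358)))) (n (nat_lit 435) (b (l (nat_lit 4) (nat_lit 359) (nat_lit 460)) (l (nat_lit 4) (nat_lit 334) (nat_lit 410))))))) (n (nat_lit 408) (b (n (nat_lit 410) (b (n (nat_lit 407) (b (b (n (nat_lit 406) (b (n (nat_lit 431) (b (l (nat_lit 2) (nat_lit 406) (nat_lit 432)) (l (nat_lit 2) (nat_lit 405) (nat_lit 430)))) (n (nat_lit 381) (b (l (nat_lit 3) (nat_lit 380)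 (nat_lit 380)) (l (nat_lit 3) (nat_lit 381) (nat_lit 382)))))) (n (nat_lit 385) (b (l (nat_lit 1) (nat_lit 381) (nat_lit 406)) (l (nat_lit 1) (nat_lit 382) (nat_lit 386))))) (n (nat_lit 411) (b (n (nat_lit 382) (b (l (nat_lit 3) (nat_lit 382) (nat_lit 383)) (l (nat_lit 3) (nat_lit 381) (nat_lit 381)))) (n (nat_lit 386) (b (l (nat_lit 1) (nat_lit 383) (nat_lit 387)) (l (nat_lit 1) (nat_lit 382) (nat_lit 385)))))))) (l (nat_lit 4) (nat_lit 334) (nat_lit 435)))) (l (nat_lit 6) (nat_lit 333) (nat_lit 433)))))) (l (nat_lit 5) (nat_lit 284) (nat_lit 309)))) (l (nat_lit 6) (nat_lit 284) (nat_lit 335)))))))) (r (nat_lit 4)))) (b (b (n (nat_lit 309) (b (b (r (nat_lit 5)) (n (nat_lit 286) (b (n (nat_lit 335) (b (n (nat_lit 385) (b (n (nat_lit 410) (b (n (nat_lit 411) (b (l (nat_lit 4) (nat_lit 335) (nat_lit 436)) (l (nat_lit 4) (nat_lit 310) (nat_lit 386)))) (l (nat_lit 7) (nat_lit 309) (nat_lit 334)))) (n (nat_lit 384) (b (l (nat_lit 6) (nat_lit 284) (nat_lit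 359)) (l (nat_lit 6) (nat_lit 309) (nat_lit 409)))))) (l (nat_lit 5) (nat_lit 260) (nat_lit 261)))) (l (nat_lit 2) (nat_lit 284) (nat_lit 288))))) (n (nat_lit 286) (b (n (nat_lit 308) (b (l (nat_lit 2) (nat_lit 283) (nat_lit 284)) (l (nat_lit 1) (nat_lit 282) (nat_lit 307)))) (l (nat_lit 2) (nat_lit 284) (nat_lit 288)))))) (n (nat_lit 335) (b (b (n (nat_lit 260) (b (n (nat_lit 235) (b (n (nat_lit 234) (b (l (nat_lit 7) (nat_lit 234) (nat_lit 259)) (l (nat_lit 7) (nat_lit 209) (nat_lit 209)))) (n (nat_lit 236) (b (l (nat_lit 5) (nat_lit 210) (nat_lit 211)) (l (nat_lit 5) (nat_lit 235) (nat_lit 261)))))) (n (nat_lit 359) (b (l (nat_lit 6) (nat_lit 259) (nat_lit 334)) (l (nat_lit 6) (nat_lit 284) (nat_lit 384)))))) (n (nat_lit 260) (b (n (nat_lit 235) (b (n (nat_lit 334) (b (l (nat_lit 6) (nat_lit 259) (nat_lit 359)) (l (nat_lit 6) (nat_lit 234) (nat_lit 309)))) (n (nat_lit 236) (b (l (nat_lit 5) (nat_lit 210) (nat_lit 211)) (l (nat_lit 5) (nat_lit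 235) (nat_lit 261)))))) (n (nat_lit 259) (b (l (nat_lit 7) (nat_lit 259) (nat_lit 284)) (l (nat_lit 7) (nat_lit 234) (nat_lit 234))))))) (b (n (nat_lit 385) (b (n (nat_lit 410) (b (n (nat_lit 309) (b (l (nat_lit 7) (nat_lit 309) (nat_lit 334)) (l (nat_lit 7) (nat_lit 284) (nat_lit 284)))) (n (nat_lit 411) (b (l (nat_lit 4) (nat_lit 335) (nat_lit 436)) (l (nat_lit 4) (nat_lit 310) (nat_lit 386)))))) (n (nat_lit 384) (b (l (nat_lit 6) (nat_lit 284) (nat_lit 359)) (l (nat_lit 6) (nat_lit 309) (nat_lit 409)))))) (n (nat_lit 385) (b (n (nat_lit 410) (b (n (nat_lit 411) (b (l (nat_lit 4) (nat_lit 335) (nat_lit 436)) (l (nat_lit 4) (nat_lit 310) (nat_lit 386)))) (n (nat_lit 409) (b (l (nat_lit 6) (nat_lit 334) (nat_lit 434)) (l (nat_lit 6) (nat_lit 309) (nat_lit 384)))))) (n (nat_lit 284) (b (l (nat_lit 7) (nat_lit 284) (nat_lit 309)) (l (nat_lit 7) (nat_lit 259) (nat_lit 259)))))))))) (b (n (nat_lit 286) (b (b (n (nat_lit 288) (b (n (nat_lit 261) (b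 (n (nat_lit 260) (b (l (nat_lit 3) (nat_lit 260) (nat_lit 289)) (l (nat_lit 3) (nat_lit 259) (nat_lit 259)))) (l (nat_lit 5) (nat_lit 260) (nat_lit 335)))) (l (nat_lit 2) (nat_lit 284) (nat_lit 309)))) (n (nat_lit 335) (b (n (nat_lit 284) (b (n (nat_lit 309) (b (l (nat_lit 7) (nat_lit 284) (nat_lit 385)) (l (nat_lit 2) (nat_lit 283) (nat_lit 308)))) (l (nat_lit 7) (nat_lit 259) (nat_lit 259)))) (l (nat_lit 5) (nat_lit 260) (nat_lit 261))))) (b (n (nat_lit 335) (b (n (nat_lit 259) (b (n (nat_lit 260) (b (l (nat_lit 3) (nat_lit 259) (nat_lit 288)) (l (nat_lit 7) (nat_lit 234) (nat_lit 234)))) (l (nat_lit 7) (nat_lit 259) (nat_lit 284)))) (l (nat_lit 5) (nat_lit 260) (nat_lit 261)))) (n (nat_lit 309) (b (n (nat_lit 308) (b (l (nat_lit 2) (nat_lit 283) (nat_lit 284)) (l (nat_lit 1) (nat_lit 282) (nat_lit 307)))) (l (nat_lit 2) (nat_lit 284) (nat_lit 288))))))) (n (nat_lit 335) (b (b (r (nat_lit 6)) (n (nat_lit 260) (b (n (nat_lit 261) (b (l (nat_lit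 5) (nat_lit 235) (nat_lit 236)) (l (nat_lit 5) (nat_lit 260) (nat_lit 286)))) (n (nat_lit 259) (b (l (nat_lit 7) (nat_lit 259) (nat_lit 284)) (l (nat_lit 7) (nat_lit 234) (nat_lit 234))))))) (b (n (nat_lit 260) (b (n (nat_lit 359) (b (l (nat_lit 6) (nat_lit 259) (nat_lit 334)) (l (nat_lit 6) (nat_lit 284) (nat_lit 384)))) (n (nat_lit 261) (b (l (nat_lit 5) (nat_lit 235) (nat_lit 236)) (l (nat_lit 5) (nat_lit 260) (nat_lit 286)))))) (n (nat_lit 260) (b (n (nat_lit 359) (b (l (nat_lit 6) (nat_lit 259) (nat_lit 334)) (l (nat_lit 6) (nat_lit 284) (nat_lit 384)))) (n (nat_lit 259) (b (l (nat_lit 7) (nat_lit 259) (nat_lit 284)) (l (nat_lit 7) (nat_lit 234) (nat_lit 234)))))))))))))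
    (envOK_cons p11184 (envOK_cons p11212 (envOK_cons p11274 (envOK_cons p11303 (envOK_cons p11545 (envOK_cons p11553 (envOK_cons p11863 envOK_nil))))))) (by decide +kernel)

theorem p11872 : Fam (nat_lit 5) (nat_lit 2348542582773844700476347974233179784582877361650196322997334326160571281716339439327625845245604194613723136) (nat_lit 118206022111997434283643715901309473829464263182539705380813396165571797091128768855842316654651473692013679484076032) (nat_lit 118206022111997434283643715901309473829464263182539705380813396165571797091128768855842316654651473692013679484076032) :=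
  chk_sound Env.nil
    (n (nat_lit 284) (b (b (n (nat_lit 334) (b (n (nat_lit 311) (b (l (nat_lit 2) (nat_lit 308) (nat_lit 333)) (l (nat_lit 3) (nat_lit 283) (nat_lit 283)))) (n (nat_lit 359) (b (n (nat_lit 285) (b (l (nat_lit 5) (nat_lit 284) (nat_lit 384)) (l (nat_lit 5) (nat_lit 259) (nat_lit 260)))) (l (nat_lit 4) (nat_lit 284) (nat_lit 385)))))) (n (nat_lit 335) (b (n (nat_lit 259) (b (l (nat_lit 4) (nat_lit 259) (nat_lit 334)) (l (nat_lit 4) (nat_lit 234) (nat_lit 234)))) (l (nat_lit 7) (nat_lit 284) (nat_lit 385))))) (b (n (nat_lit 335) (b (n (nat_lit 259) (b (l (nat_lit 4) (nat_lit 234) (nat_lit 234)) (l (nat_lit 7) (nat_lit 259) (nat_lit 285)))) (l (nat_lit 7) (nat_lit 284) (nat_lit 385)))) (n (nat_lit 285) (b (n (nat_lit 334) (b (n (nat_lit 359) (b (l (nat_lit 5) (nat_lit 284) (nat_lit 384)) (l (nat_lit 5) (nat_lit 259) (nat_lit 260)))) (n (nat_lit 311) (b (l (nat_lit 2) (nat_lit 308) (nat_lit 333)) (l (nat_lit 3) (nat_lit 283) (nat_lit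 283)))))) (n (nat_lit 259) (b (n (nat_lit 286) (b (l (nat_lit 2) (nat_lit 283) (nat_lit 308)) (l (nat_lit 3) (nat_lit 258) (nat_lit 258)))) (l (nat_lit 7) (nat_lit 259) (nat_lit 335)))))))))
    envOK_nil (by decide +kernel)

theorem p11913 : Fam (nat_lit 8) (nat_lit 2348542582773836356777019990880446040694472348227757832485300148995113510317398912780377837087018950754041856) (nat_lit 2348542652765860071315295331882492612918443695037573132509707347704584273810734946662198866562587468549324800) (nat_lit 2348542652765860071315295331882492612918443695037573132509707347704584273810734946662198866562587468549324800) :=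
  chk_sound Env.nil
    (n (nat_lit 285) (b (n (nat_lit 286) (b (l (nat_lit 2) (nat_lit 284) (nat_lit 288)) (l (nat_lit 2) (nat_lit 283) (nat_lit 308)))) (n (nat_lit 259) (b (n (nat_lit 234) (b (n (nat_lit 235) (b (n (nat_lit 236) (b (b (n (nat_lit 258) (b (n (nat_lit 260) (b (l (nat_lit 1) (nat_lit 232) (nat_lit 257)) (l (nat_lit 5) (nat_lit 210) (nat_lit 211)))) (l (nat_lit 2) (nat_lit 233) (nat_lit 237)))) (n (nat_lit 233) (b (n (nat_lit 211) (b (l (nat_lit 1) (nat_lit 208) (nat_lit 212)) (l (nat_lit 5) (nat_lit 210) (nat_lit 260)))) (l (nat_lit 7) (nat_lit 208) (nat_lit 208))))) (n (nat_lit 233) (b (n (nat_lit 258) (b (l (nat_lit 2) (nat_lit 232) (nat_lit 257)) (l (nat_lit 2) (nat_lit 233) (nat_lit 237)))) (l (nat_lit 7) (nat_lit 208) (nat_lit 208)))))) (l (nat_lit 5) (nat_lit 209) (nat_lit 210)))) (l (nat_lit 4) (nat_lit 209) (nat_lit 209)))) (l (nat_lit 7) (nat_lit 259) (nat_lit 335))))))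
    envOK_nil (by decide +kernel)

theorem p12127 : Fam (nat_lit 11) (nat_lit 2348542687761878447098251799238205623463432741876637137099663489562801389831453099465998101397336859133083648) (nat_lit 2604992824316573169850645368157682123682994128957562273439447731983820180822071645492964253473747866949970339734776101676296937619970850816) (nat_lit 2604992824316573169850645368157682123682994128957562273439447731983820180822071645492964253473747866949970339734776101676296937619970850816) :=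
  chk_sound Env.nil
    (n (nat_lit 333) (b (b (n (nat_lit 336) (b (n (nat_lit 409) (b (b (n (nat_lit 358) (b (n (nat_lit 308) (b (n (nat_lit 383) (b (n (nat_lit 408) (b (n (nat_lit 407) (b (l (nat_lit 6) (nat_lit 307) (nat_lit 382)) (l (nat_lit 6) (nat_lit 332) (nat_lit 432)))) (l (nat_lit 4) (nat_lit 333) (nat_lit 434)))) (l (nat_lit 4) (nat_lit 308) (nat_lit 384)))) (l (nat_lit 3) (nat_lit 307) (nat_lit 307)))) (l (nat_lit 2) (nat_lit 332) (nat_lit 357)))) (n (nat_lit 308) (b (n (nat_lit 358) (b (n (nat_lit 384) (b (l (nat_lit 4) (nat_lit 308) (nat_lit 383)) (l (nat_lit 6) (nat_lit 309) (nat_lit 385)))) (l (nat_lit 2) (nat_lit 332) (nat_lit 357)))) (l (nat_lit 3) (nat_lit 307) (nat_lit 307))))) (b (n (nat_lit 385) (b (n (nat_lit 410) (b (n (nat_lit 411) (b (l (nat_lit 4) (nat_lit 335) (nat_lit 436)) (l (nat_lit 4) (nat_lit 310) (nat_lit 386)))) (l (nat_lit 6) (nat_lit 334) (nat_lit 434)))) (l (nat_lit 6) (nat_lit 309) (nat_lit 384)))) (n (nat_lit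 358) (b (n (nat_lit 410) (b (b (b (n (nat_lit 408) (b (b (n (nat_lit 407) (b (n (nat_lit 406) (b (n (nat_lit 431) (b (l (nat_lit 2) (nat_lit 406) (nat_lit 432)) (l (nat_lit 2) (nat_lit 405) (nat_lit 430)))) (n (nat_lit 381) (b (l (nat_lit 3) (nat_lit 380) (nat_lit 380)) (l (nat_lit 3) (nat_lit 381) (nat_lit 382)))))) (n (nat_lit 385) (b (l (nat_lit 1) (nat_lit 382) (nat_lit 386)) (l (nat_lit 6) (nat_lit 334) (nat_lit 434)))))) (n (nat_lit 407) (b (b (n (nat_lit 308) (b (n (nat_lit 382) (b (l (nat_lit 6) (nat_lit 307) (nat_lit 383)) (l (nat_lit 3) (nat_lit 381) (nat_lit 381)))) (l (nat_lit 3) (nat_lit 307) (nat_lit 307)))) (n (nat_lit 432) (b (l (nat_lit 2) (nat_lit 406) (nat_lit 431)) (l (nat_lit 6) (nat_lit 332) (nat_lit 383))))) (n (nat_lit 406) (b (n (nat_lit 431) (b (l (nat_lit 2) (nat_lit 406) (nat_lit 432)) (l (nat_lit 2) (nat_lit 405) (nat_lit 430)))) (n (nat_lit 381) (b (l (nat_lit 3) (nat_lit 380) (nat_lit 380)) (l (nat_lit 3) (nat_lit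 381) (nat_lit 382))))))))) (n (nat_lit 434) (b (l (nat_lit 6) (nat_lit 334) (nat_lit 385)) (l (nat_lit 4) (nat_lit 333) (nat_lit 383)))))) (n (nat_lit 411) (b (b (n (nat_lit 436) (b (n (nat_lit 437) (b (n (nat_lit 438) (b (l (nat_lit 3) (nat_lit 409) (nat_lit 435)) (l (nat_lit 3) (nat_lit 410) (nat_lit 439)))) (l (nat_lit 0) (nat_lit 408) (nat_lit 408)))) (l (nat_lit 4) (nat_lit 335) (nat_lit 385)))) (n (nat_lit 408) (b (n (nat_lit 407) (b (n (nat_lit 382) (b (l (nat_lit 3) (nat_lit 382) (nat_lit 383)) (l (nat_lit 3) (nat_lit 381) (nat_lit 381)))) (n (nat_lit 432) (b (l (nat_lit 2) (nat_lit 407) (nat_lit 433)) (l (nat_lit 2) (nat_lit 406) (nat_lit 431)))))) (n (nat_lit 412) (b (n (nat_lit 387) (b (l (nat_lit 1) (nat_lit 383) (nat_lit 386)) (l (nat_lit 1) (nat_lit 384) (nat_lit 388)))) (n (nat_lit 437) (b (l (nat_lit 0) (nat_lit 409) (nat_lit 438)) (l (nat_lit 0) (nat_lit 408) (nat_lit 436))))))))) (b (n (nat_lit 385) (b (l (nat_lit 4) (nat_lit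 335) (nat_lit 436)) (l (nat_lit 4) (nat_lit 310) (nat_lit 386)))) (n (nat_lit 408) (b (n (nat_lit 383) (b (n (nat_lit 432) (b (l (nat_lit 6) (nat_lit 332) (nat_lit 407)) (l (nat_lit 2) (nat_lit 407) (nat_lit 433)))) (l (nat_lit 3) (nat_lit 382) (nat_lit 382)))) (n (nat_lit 386) (b (l (nat_lit 1) (nat_lit 383) (nat_lit 387)) (l (nat_lit 4) (nat_lit 310) (nat_lit 385)))))))))) (b (n (nat_lit 408) (b (b (b (n (nat_lit 383) (b (n (nat_lit 308) (b (n (nat_lit 407) (b (l (nat_lit 6) (nat_lit 307) (nat_lit 382)) (l (nat_lit 6) (nat_lit 332) (nat_lit 432)))) (l (nat_lit 3) (nat_lit 307) (nat_lit 307)))) (l (nat_lit 4) (nat_lit 333) (nat_lit 434)))) (n (nat_lit 407) (b (b (n (nat_lit 411) (b (n (nat_lit 436) (b (l (nat_lit 0) (nat_lit 407) (nat_lit 435)) (l (nat_lit 0) (nat_lit 408) (nat_lit 437)))) (n (nat_lit 432) (b (l (nat_lit 2) (nat_lit 407) (nat_lit 433)) (l (nat_lit 2) (nat_lit 406) (nat_lit 431)))))) (n (nat_lit 406) (b (n (nat_lit 431) (b (l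 (nat_lit 2) (nat_lit 406) (nat_lit 432)) (l (nat_lit 2) (nat_lit 405) (nat_lit 430)))) (n (nat_lit 381) (b (l (nat_lit 3) (nat_lit 380) (nat_lit 380)) (l (nat_lit 3) (nat_lit 381) (nat_lit 382))))))) (n (nat_lit 406) (b (n (nat_lit 435) (b (l (nat_lit 0) (nat_lit 407) (nat_lit 436)) (l (nat_lit 0) (nat_lit 406) (nat_lit 434)))) (n (nat_lit 381) (b (l (nat_lit 3) (nat_lit 380) (nat_lit 380)) (l (nat_lit 3) (nat_lit 381) (nat_lit 382))))))))) (b (n (nat_lit 411) (b (n (nat_lit 412) (b (n (nat_lit 387) (b (l (nat_lit 1) (nat_lit 383) (nat_lit 386)) (l (nat_lit 1) (nat_lit 384) (nat_lit 388)))) (n (nat_lit 437) (b (l (nat_lit 0) (nat_lit 409) (nat_lit 438)) (l (nat_lit 0) (nat_lit 408) (nat_lit 436)))))) (n (nat_lit 383) (b (l (nat_lit 3) (nat_lit 382) (nat_lit 382)) (l (nat_lit 4) (nat_lit 333) (nat_lit 434)))))) (n (nat_lit 407) (b (n (nat_lit 308) (b (n (nat_lit 382) (b (l (nat_lit 6) (nat_lit 307) (nat_lit 383)) (l (nat_lit 3) (nat_lit 381) (nat_lit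 381)))) (l (nat_lit 3) (nat_lit 307) (nat_lit 307)))) (n (nat_lit 411) (b (n (nat_lit 436) (b (l (nat_lit 0) (nat_lit 407) (nat_lit 435)) (l (nat_lit 0) (nat_lit 408) (nat_lit 437)))) (n (nat_lit 432) (b (l (nat_lit 2) (nat_lit 407) (nat_lit 433)) (l (nat_lit 2) (nat_lit 406) (nat_lit 431)))))))))) (n (nat_lit 383) (b (n (nat_lit 432) (b (n (nat_lit 433) (b (l (nat_lit 6) (nat_lit 357) (nat_lit 457)) (l (nat_lit 2) (nat_lit 407) (nat_lit 411)))) (l (nat_lit 6) (nat_lit 332) (nat_lit 407)))) (l (nat_lit 4) (nat_lit 333) (nat_lit 434)))))) (n (nat_lit 385) (b (n (nat_lit 411) (b (l (nat_lit 4) (nat_lit 335) (nat_lit 436)) (l (nat_lit 4) (nat_lit 310) (nat_lit 386)))) (l (nat_lit 6) (nat_lit 334) (nat_lit 434)))))) (n (nat_lit 434) (b (n (nat_lit 408) (b (n (nat_lit 407) (b (b (n (nat_lit 406) (b (n (nat_lit 431) (b (l (nat_lit 2) (nat_lit 406) (nat_lit 432)) (l (nat_lit 2) (nat_lit 405) (nat_lit 430)))) (n (nat_lit 381) (b (l (nat_lit 3) (nat_lit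 380) (nat_lit 380)) (l (nat_lit 3) (nat_lit 381) (nat_lit 382)))))) (n (nat_lit 435) (b (l (nat_lit 0) (nat_lit 406) (nat_lit 406)) (l (nat_lit 0) (nat_lit 407) (nat_lit 436))))) (n (nat_lit 411) (b (n (nat_lit 436) (b (l (nat_lit 0) (nat_lit 407) (nat_lit 435)) (l (nat_lit 0) (nat_lit 408) (nat_lit 437)))) (n (nat_lit 432) (b (l (nat_lit 2) (nat_lit 407) (nat_lit 433)) (l (nat_lit 2) (nat_lit 406) (nat_lit 431)))))))) (l (nat_lit 4) (nat_lit 333) (nat_lit 383)))) (l (nat_lit 6) (nat_lit 334) (nat_lit 385)))))) (l (nat_lit 2) (nat_lit 332) (nat_lit 357))))))) (l (nat_lit 1) (nat_lit 308) (nat_lit 311)))) (n (nat_lit 332) (b (n (nat_lit 331) (b (n (nat_lit 356) (b (l (nat_lit 2) (nat_lit 331) (nat_lit 357)) (l (nat_lit 2) (nat_lit 330) (nat_lit 355)))) (n (nat_lit 306) (b (l (nat_lit 3) (nat_lit 306) (nat_lit 307)) (l (nat_lit 3) (nat_lit 305) (nat_lit 305)))))) (l (nat_lit 1) (nat_lit 307) (nat_lit 311))))) (b (n (nat_lit 311) (b (l (nat_lit 1)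 (nat_lit 307) (nat_lit 332)) (l (nat_lit 1) (nat_lit 308) (nat_lit 336)))) (n (nat_lit 357) (b (b (n (nat_lit 332) (b (n (nat_lit 307) (b (n (nat_lit 308) (b (n (nat_lit 382) (b (l (nat_lit 5) (nat_lit 307) (nat_lit 407)) (l (nat_lit 5) (nat_lit 282) (nat_lit 283)))) (l (nat_lit 3) (nat_lit 307) (nat_lit 336)))) (l (nat_lit 3) (nat_lit 306) (nat_lit 306)))) (l (nat_lit 2) (nat_lit 331) (nat_lit 356)))) (n (nat_lit 356) (b (n (nat_lit 358) (b (l (nat_lit 1) (nat_lit 330) (nat_lit 355)) (l (nat_lit 2) (nat_lit 332) (nat_lit 336)))) (l (nat_lit 2) (nat_lit 331) (nat_lit 332))))) (b (n (nat_lit 332) (b (n (nat_lit 307) (b (n (nat_lit 382) (b (b (n (nat_lit 407) (b (n (nat_lit 406) (b (l (nat_lit 6) (nat_lit 331) (nat_lit 431)) (l (nat_lit 6) (nat_lit 306) (nat_lit 381)))) (n (nat_lit 408) (b (l (nat_lit 4) (nat_lit 332) (nat_lit 433)) (l (nat_lit 4) (nat_lit 307) (nat_lit 383)))))) (n (nat_lit 282) (b (n (nat_lit 283) (b (l (nat_lit 5) (nat_lit 257)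 (nat_lit 258)) (l (nat_lit 5) (nat_lit 282) (nat_lit 308)))) (n (nat_lit 358) (b (l (nat_lit 4) (nat_lit 282) (nat_lit 383)) (l (nat_lit 4) (nat_lit 257) (nat_lit 257))))))) (n (nat_lit 308) (b (l (nat_lit 5) (nat_lit 307) (nat_lit 407)) (l (nat_lit 5) (nat_lit 282) (nat_lit 283)))))) (l (nat_lit 3) (nat_lit 306) (nat_lit 306)))) (l (nat_lit 2) (nat_lit 331) (nat_lit 356)))) (n (nat_lit 358) (b (n (nat_lit 409) (b (b (b (n (nat_lit 382) (b (b (n (nat_lit 308) (b (n (nat_lit 407) (b (l (nat_lit 6) (nat_lit 307) (nat_lit 383)) (l (nat_lit 5) (nat_lit 332) (nat_lit 432)))) (l (nat_lit 6) (nat_lit 282) (nat_lit 283)))) (n (nat_lit 308) (b (n (nat_lit 384) (b (l (nat_lit 4) (nat_lit 308) (nat_lit 383)) (l (nat_lit 6) (nat_lit 309) (nat_lit 385)))) (l (nat_lit 6) (nat_lit 282) (nat_lit 283))))) (n (nat_lit 407) (b (n (nat_lit 385) (b (n (nat_lit 410) (b (b (n (nat_lit 411) (b (l (nat_lit 4) (nat_lit 335) (nat_lit 436)) (l (nat_lit 4) (nat_lit 310) (nat_lit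 386)))) (n (nat_lit 408) (b (n (nat_lit 436) (b (l (nat_lit 0) (nat_lit 407) (nat_lit 435)) (l (nat_lit 4) (nat_lit 335) (nat_lit 411)))) (l (nat_lit 3) (nat_lit 381) (nat_lit 381))))) (n (nat_lit 408) (b (l (nat_lit 3) (nat_lit 381) (nat_lit 381)) (l (nat_lit 1) (nat_lit 382) (nat_lit 386)))))) (l (nat_lit 6) (nat_lit 309) (nat_lit 384)))) (l (nat_lit 5) (nat_lit 332) (nat_lit 432)))))) (n (nat_lit 410) (b (b (b (n (nat_lit 407) (b (n (nat_lit 385) (b (n (nat_lit 386) (b (l (nat_lit 4) (nat_lit 310) (nat_lit 411)) (l (nat_lit 1) (nat_lit 382) (nat_lit 408)))) (l (nat_lit 6) (nat_lit 334) (nat_lit 434)))) (n (nat_lit 382) (b (n (nat_lit 308) (b (l (nat_lit 6) (nat_lit 282) (nat_lit 283)) (l (nat_lit 6) (nat_lit 307) (nat_lit 383)))) (l (nat_lit 5) (nat_lit 332) (nat_lit 432)))))) (n (nat_lit 385) (b (n (nat_lit 411) (b (l (nat_lit 4) (nat_lit 335) (nat_lit 436)) (l (nat_lit 4) (nat_lit 310) (nat_lit 386)))) (l (nat_lit 6) (nat_lit 334) (nat_lit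 434))))) (b (n (nat_lit 408) (b (b (n (nat_lit 407) (b (b (n (nat_lit 406) (b (n (nat_lit 431) (b (l (nat_lit 2) (nat_lit 406) (nat_lit 432)) (l (nat_lit 2) (nat_lit 405) (nat_lit 430)))) (n (nat_lit 435) (b (l (nat_lit 0) (nat_lit 407) (nat_lit 436)) (l (nat_lit 0) (nat_lit 406) (nat_lit 434)))))) (n (nat_lit 406) (b (n (nat_lit 435) (b (l (nat_lit 0) (nat_lit 407) (nat_lit 436)) (l (nat_lit 0) (nat_lit 406) (nat_lit 434)))) (n (nat_lit 381) (b (l (nat_lit 3) (nat_lit 380) (nat_lit 380)) (l (nat_lit 3) (nat_lit 381) (nat_lit 382))))))) (n (nat_lit 432) (b (l (nat_lit 5) (nat_lit 332) (nat_lit 382)) (l (nat_lit 2) (nat_lit 406) (nat_lit 431)))))) (n (nat_lit 411) (b (n (nat_lit 412) (b (n (nat_lit 387) (b (l (nat_lit 1) (nat_lit 383) (nat_lit 386)) (l (nat_lit 1) (nat_lit 384) (nat_lit 388)))) (n (nat_lit 437) (b (l (nat_lit 0) (nat_lit 409) (nat_lit 438)) (l (nat_lit 0) (nat_lit 408) (nat_lit 436)))))) (n (nat_lit 383) (b (l (nat_lit 3) (nat_lit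 382) (nat_lit 382)) (l (nat_lit 4) (nat_lit 333) (nat_lit 434))))))) (b (n (nat_lit 383) (b (n (nat_lit 432) (b (n (nat_lit 433) (b (l (nat_lit 6) (nat_lit 357) (nat_lit 457)) (l (nat_lit 2) (nat_lit 407) (nat_lit 411)))) (l (nat_lit 6) (nat_lit 332) (nat_lit 407)))) (l (nat_lit 4) (nat_lit 333) (nat_lit 434)))) (n (nat_lit 407) (b (b (n (nat_lit 432) (b (l (nat_lit 2) (nat_lit 406) (nat_lit 431)) (l (nat_lit 6) (nat_lit 332) (nat_lit 383)))) (n (nat_lit 382) (b (n (nat_lit 308) (b (l (nat_lit 6) (nat_lit 282) (nat_lit 283)) (l (nat_lit 6) (nat_lit 307) (nat_lit 383)))) (l (nat_lit 3) (nat_lit 381) (nat_lit 381))))) (n (nat_lit 432) (b (l (nat_lit 5) (nat_lit 332) (nat_lit 382)) (l (nat_lit 2) (nat_lit 406) (nat_lit 431))))))))) (n (nat_lit 411) (b (b (n (nat_lit 385) (b (l (nat_lit 4) (nat_lit 335) (nat_lit 436)) (l (nat_lit 4) (nat_lit 310) (nat_lit 386)))) (n (nat_lit 408) (b (n (nat_lit 412) (b (n (nat_lit 387) (b (l (nat_lit 1) (nat_lit 383)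 (nat_lit 386)) (l (nat_lit 1) (nat_lit 384) (nat_lit 388)))) (n (nat_lit 437) (b (l (nat_lit 0) (nat_lit 409) (nat_lit 438)) (l (nat_lit 0) (nat_lit 408) (nat_lit 436)))))) (n (nat_lit 432) (b (n (nat_lit 407) (b (l (nat_lit 6) (nat_lit 332) (nat_lit 383)) (l (nat_lit 2) (nat_lit 406) (nat_lit 431)))) (l (nat_lit 2) (nat_lit 407) (nat_lit 433))))))) (b (n (nat_lit 436) (b (n (nat_lit 437) (b (n (nat_lit 438) (b (l (nat_lit 3) (nat_lit 409) (nat_lit 435)) (l (nat_lit 3) (nat_lit 410) (nat_lit 439)))) (l (nat_lit 0) (nat_lit 408) (nat_lit 408)))) (l (nat_lit 4) (nat_lit 335) (nat_lit 385)))) (n (nat_lit 408) (b (n (nat_lit 383) (b (n (nat_lit 432) (b (l (nat_lit 6) (nat_lit 332) (nat_lit 407)) (l (nat_lit 2) (nat_lit 407) (nat_lit 433)))) (l (nat_lit 3) (nat_lit 382) (nat_lit 382)))) (n (nat_lit 386) (b (l (nat_lit 1) (nat_lit 383) (nat_lit 387)) (l (nat_lit 4) (nat_lit 310) (nat_lit 385))))))))))) (n (nat_lit 434) (b (n (nat_lit 408) (b (n (nat_lit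 407) (b (n (nat_lit 435) (b (l (nat_lit 0) (nat_lit 406) (nat_lit 406)) (l (nat_lit 0) (nat_lit 407) (nat_lit 436)))) (n (nat_lit 432) (b (l (nat_lit 5) (nat_lit 332) (nat_lit 382)) (l (nat_lit 2) (nat_lit 406) (nat_lit 431)))))) (l (nat_lit 4) (nat_lit 333) (nat_lit 383)))) (l (nat_lit 6) (nat_lit 334) (nat_lit 385))))))) (b (n (nat_lit 384) (b (n (nat_lit 383) (b (n (nat_lit 434) (b (l (nat_lit 4) (nat_lit 333) (nat_lit 408)) (l (nat_lit 7) (nat_lit 358) (nat_lit 459)))) (l (nat_lit 4) (nat_lit 308) (nat_lit 308)))) (l (nat_lit 6) (nat_lit 309) (nat_lit 385)))) (n (nat_lit 385) (b (n (nat_lit 410) (b (n (nat_lit 411) (b (l (nat_lit 4) (nat_lit 335) (nat_lit 436)) (l (nat_lit 4) (nat_lit 310) (nat_lit 386)))) (l (nat_lit 6) (nat_lit 334) (nat_lit 434)))) (l (nat_lit 6) (nat_lit 309) (nat_lit 384)))))) (n (nat_lit 383) (b (b (n (nat_lit 408) (b (n (nat_lit 382) (b (n (nat_lit 381) (b (n (nat_lit 410) (b (l (nat_lit 0) (nat_lit 381) (nat_lit 384))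 (l (nat_lit 3) (nat_lit 382) (nat_lit 411)))) (l (nat_lit 0) (nat_lit 380) (nat_lit 380)))) (n (nat_lit 432) (b (n (nat_lit 433) (b (l (nat_lit 6) (nat_lit 357) (nat_lit 457)) (l (nat_lit 7) (nat_lit 357) (nat_lit 458)))) (l (nat_lit 6) (nat_lit 332) (nat_lit 407)))))) (l (nat_lit 4) (nat_lit 333) (nat_lit 434)))) (n (nat_lit 434) (b (n (nat_lit 384) (b (l (nat_lit 7) (nat_lit 358) (nat_lit 459)) (l (nat_lit 4) (nat_lit 308) (nat_lit 308)))) (l (nat_lit 4) (nat_lit 333) (nat_lit 408))))) (b (n (nat_lit 308) (b (n (nat_lit 382) (b (l (nat_lit 6) (nat_lit 282) (nat_lit 283)) (l (nat_lit 6) (nat_lit 307) (nat_lit 407)))) (l (nat_lit 4) (nat_lit 308) (nat_lit 384)))) (n (nat_lit 408) (b (n (nat_lit 407) (b (n (nat_lit 382) (b (n (nat_lit 410) (b (l (nat_lit 3) (nat_lit 381) (nat_lit 381)) (l (nat_lit 3) (nat_lit 382) (nat_lit 411)))) (l (nat_lit 6) (nat_lit 307) (nat_lit 308)))) (l (nat_lit 6) (nat_lit 332) (nat_lit 432)))) (l (nat_lit 4) (nat_lit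 333) (nat_lit 434))))))))) (l (nat_lit 2) (nat_lit 332) (nat_lit 336))))))))))
    envOK_nil (by decide +kernel)

theorem p12166 : Fam (nat_lit 14) (nat_lit 11742712913869176569071850478133651724641415091681857347474680655330047056470863143739196359956285440842006528) (nat_lit 2604992824316573314456639772366650260007752777458803704502596702590891189738589999482161788645009348634220366833681144484892382992841834496) (nat_lit 2604992824316573314456639772366650260007752777458803704502596702590891189738589999482161788645009348634220366833681144484892382992841834496) :=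
  chk_sound (Env.cons (nat_lit 11) (nat_lit 2348542687761878447098251799238205623463432741876637137099663489562801389831453099465998101397336859133083648) (nat_lit 2604992824316573169850645368157682123682994128957562273439447731983820180822071645492964253473747866949970339734776101676296937619970850816) (Env.cons (nat_lit 7) (nat_lit 2348542652765866850570061009278169989581490896225926242808264506750471687272205112275983329821126026764222464) (nat_lit 39402009719208458361079185585173533265156094626957593330577714471331401165623684190325935705157908546060929896284160) (Env.cons (nat_lit 12) (nat_lit 2348542652765858506870764108627711857358220594193996928598736608094438750105604614727291144131104066240512000) (nat_lit 1488566056713794927305503069458672909755168432409761304204626641198316035490188351089662846559767665224991158603482410603483805204072103936) Env.nil)))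
    (n (nat_lit 335) (b (b (b (n (nat_lit 334) (b (b (n (nat_lit 333) (b (b (n (nat_lit 332) (b (n (nat_lit 331) (b (n (nat_lit 356) (b (l (nat_lit 2) (nat_lit 331) (nat_lit 357)) (l (nat_lit 2) (nat_lit 330) (nat_lit 355)))) (l (nat_lit 0) (nat_lit 331) (nat_lit 359)))) (l (nat_lit 1) (nat_lit 307) (nat_lit 311)))) (n (nat_lit 332) (b (b (n (nat_lit 336) (b (n (nat_lit 307) (b (l (nat_lit 3) (nat_lit 306) (nat_lit 306)) (l (nat_lit 3) (nat_lit 307) (nat_lit 308)))) (n (nat_lit 357) (b (l (nat_lit 2) (nat_lit 331) (nat_lit 356)) (l (nat_lit 2) (nat_lit 332) (nat_lit 358)))))) (n (nat_lit 331) (b (n (nat_lit 356) (b (l (nat_lit 2) (nat_lit 331) (nat_lit 357)) (l (nat_lit 2) (nat_lit 330) (nat_lit 355)))) (l (nat_lit 0) (nat_lit 331) (nat_lit 359))))) (n (nat_lit 331) (b (n (nat_lit 306) (b (l (nat_lit 3) (nat_lit 306) (nat_lit 307)) (l (nat_lit 3) (nat_lit 305) (nat_lit 305)))) (l (nat_lit 0) (nat_lit 331) (nat_lit 359))))))) (b (n (nat_lit 311)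 (b (l (nat_lit 1) (nat_lit 307) (nat_lit 332)) (l (nat_lit 1) (nat_lit 308) (nat_lit 336)))) (n (nat_lit 336) (b (n (nat_lit 259) (b (b (n (nat_lit 358) (b (n (nat_lit 308) (b (n (nat_lit 284) (b (l (nat_lit 5) (nat_lit 258) (nat_lit 283)) (l (nat_lit 7) (nat_lit 259) (nat_lit 285)))) (l (nat_lit 3) (nat_lit 307) (nat_lit 307)))) (l (nat_lit 2) (nat_lit 332) (nat_lit 357)))) (n (nat_lit 308) (b (n (nat_lit 283) (b (n (nat_lit 258) (b (l (nat_lit 5) (nat_lit 233) (nat_lit 234)) (l (nat_lit 4) (nat_lit 258) (nat_lit 359)))) (n (nat_lit 358) (b (l (nat_lit 5) (nat_lit 258) (nat_lit 284)) (l (nat_lit 2) (nat_lit 332) (nat_lit 357)))))) (l (nat_lit 3) (nat_lit 307) (nat_lit 307))))) (b (n (nat_lit 285) (b (n (nat_lit 260) (b (l (nat_lit 7) (nat_lit 234) (nat_lit 234)) (l (nat_lit 6) (nat_lit 259) (nat_lit 359)))) (l (nat_lit 7) (nat_lit 259) (nat_lit 284)))) (n (nat_lit 260) (b (b (n (nat_lit 234) (b (n (nat_lit 258) (b (n (nat_lit 308) (b (l (nat_lit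 3) (nat_lit 307) (nat_lit 307)) (l (nat_lit 5) (nat_lit 233) (nat_lit 283)))) (n (nat_lit 257) (b (b (n (nat_lit 256) (b (n (nat_lit 281) (b (l (nat_lit 2) (nat_lit 256) (nat_lit 282)) (l (nat_lit 2) (nat_lit 255) (nat_lit 280)))) (n (nat_lit 231) (b (l (nat_lit 3) (nat_lit 231) (nat_lit 232)) (l (nat_lit 3) (nat_lit 230) (nat_lit 230)))))) (n (nat_lit 235) (b (l (nat_lit 1) (nat_lit 231) (nat_lit 256)) (l (nat_lit 1) (nat_lit 232) (nat_lit 236))))) (n (nat_lit 261) (b (n (nat_lit 232) (b (l (nat_lit 3) (nat_lit 231) (nat_lit 231)) (l (nat_lit 3) (nat_lit 232) (nat_lit 233)))) (n (nat_lit 236) (b (l (nat_lit 1) (nat_lit 233) (nat_lit 237)) (l (nat_lit 1) (nat_lit 232) (nat_lit 235)))))))))) (l (nat_lit 7) (nat_lit 234) (nat_lit 285)))) (n (nat_lit 308) (b (n (nat_lit 258) (b (b (n (nat_lit 283) (b (l (nat_lit 4) (nat_lit 258) (nat_lit 359)) (l (nat_lit 5) (nat_lit 233) (nat_lit 234)))) (n (nat_lit 257) (b (b (n (nat_lit 261) (b (n (nat_lit 232)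 (b (l (nat_lit 3) (nat_lit 231) (nat_lit 231)) (l (nat_lit 3) (nat_lit 232) (nat_lit 233)))) (n (nat_lit 236) (b (l (nat_lit 1) (nat_lit 233) (nat_lit 237)) (l (nat_lit 1) (nat_lit 232) (nat_lit 235)))))) (n (nat_lit 256) (b (n (nat_lit 281) (b (l (nat_lit 2) (nat_lit 256) (nat_lit 282)) (l (nat_lit 2) (nat_lit 255) (nat_lit 280)))) (n (nat_lit 235) (b (l (nat_lit 1) (nat_lit 231) (nat_lit 234)) (l (nat_lit 1) (nat_lit 232) (nat_lit 236))))))) (n (nat_lit 256) (b (n (nat_lit 281) (b (l (nat_lit 2) (nat_lit 256) (nat_lit 282)) (l (nat_lit 2) (nat_lit 255) (nat_lit 280)))) (n (nat_lit 231) (b (l (nat_lit 3) (nat_lit 231) (nat_lit 232)) (l (nat_lit 3) (nat_lit 230) (nat_lit 230))))))))) (n (nat_lit 283) (b (n (nat_lit 358) (b (n (nat_lit 257) (b (l (nat_lit 7) (nat_lit 257) (nat_lit 282)) (l (nat_lit 7) (nat_lit 232) (nat_lit 232)))) (l (nat_lit 2) (nat_lit 332) (nat_lit 357)))) (l (nat_lit 4) (nat_lit 258) (nat_lit 359)))))) (l (nat_lit 3) (nat_lit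 307) (nat_lit 307))))) (b (n (nat_lit 285) (b (l (nat_lit 6) (nat_lit 259) (nat_lit 359)) (l (nat_lit 7) (nat_lit 234) (nat_lit 234)))) (n (nat_lit 308) (b (n (nat_lit 258) (b (b (n (nat_lit 257) (b (n (nat_lit 256) (b (n (nat_lit 281) (b (l (nat_lit 2) (nat_lit 256) (nat_lit 282)) (l (nat_lit 2) (nat_lit 255) (nat_lit 280)))) (n (nat_lit 231) (b (l (nat_lit 3) (nat_lit 231) (nat_lit 232)) (l (nat_lit 3) (nat_lit 230) (nat_lit 230)))))) (n (nat_lit 285) (b (n (nat_lit 236) (b (l (nat_lit 5) (nat_lit 235) (nat_lit 261)) (l (nat_lit 1) (nat_lit 232) (nat_lit 235)))) (l (nat_lit 6) (nat_lit 259) (nat_lit 359)))))) (n (nat_lit 282) (b (b (n (nat_lit 257) (b (n (nat_lit 358) (b (l (nat_lit 7) (nat_lit 257) (nat_lit 283)) (l (nat_lit 2) (nat_lit 332) (nat_lit 357)))) (l (nat_lit 2) (nat_lit 256) (nat_lit 281)))) (n (nat_lit 261) (b (n (nat_lit 236) (b (l (nat_lit 5) (nat_lit 235) (nat_lit 285)) (l (nat_lit 1) (nat_lit 233) (nat_lit 237)))) (l (nat_lit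 2) (nat_lit 257) (nat_lit 283))))) (n (nat_lit 236) (b (n (nat_lit 261) (b (l (nat_lit 1) (nat_lit 233) (nat_lit 237)) (l (nat_lit 5) (nat_lit 235) (nat_lit 285)))) (n (nat_lit 257) (b (l (nat_lit 1) (nat_lit 232) (nat_lit 235)) (l (nat_lit 2) (nat_lit 256) (nat_lit 281))))))))) (b (n (nat_lit 283) (b (n (nat_lit 358) (b (n (nat_lit 257) (b (l (nat_lit 7) (nat_lit 257) (nat_lit 282)) (l (nat_lit 7) (nat_lit 232) (nat_lit 232)))) (l (nat_lit 2) (nat_lit 332) (nat_lit 357)))) (l (nat_lit 4) (nat_lit 258) (nat_lit 359)))) (n (nat_lit 359) (b (l (nat_lit 6) (nat_lit 259) (nat_lit 285)) (l (nat_lit 4) (nat_lit 258) (nat_lit 283))))))) (l (nat_lit 3) (nat_lit 307) (nat_lit 307)))))))))) (l (nat_lit 1) (nat_lit 308) (nat_lit 311))))))) (n (nat_lit 385) (b (b (b (n (nat_lit 410) (b (b (n (nat_lit 409) (b (l (nat_lit 6) (nat_lit 334) (nat_lit 434)) (l (nat_lit 6) (nat_lit 309) (nat_lit 384)))) (n (nat_lit 359) (b (n (nat_lit 285) (b (l (nat_lit 6) (nat_lit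 284) (nat_lit 384)) (l (nat_lit 6) (nat_lit 259) (nat_lit 260)))) (l (nat_lit 7) (nat_lit 334) (nat_lit 435))))) (n (nat_lit 435) (b (n (nat_lit 434) (b (l (nat_lit 6) (nat_lit 334) (nat_lit 409)) (l (nat_lit 6) (nat_lit 359) (nat_lit 459)))) (l (nat_lit 7) (nat_lit 334) (nat_lit 359)))))) (n (nat_lit 359) (b (n (nat_lit 410) (b (n (nat_lit 411) (b (l (nat_lit 4) (nat_lit 335) (nat_lit 436)) (l (nat_lit 4) (nat_lit 310) (nat_lit 386)))) (l (nat_lit 7) (nat_lit 334) (nat_lit 435)))) (n (nat_lit 285) (b (l (nat_lit 6) (nat_lit 284) (nat_lit 384)) (l (nat_lit 6) (nat_lit 259) (nat_lit 260))))))) (b (n (nat_lit 410) (b (n (nat_lit 411) (b (l (nat_lit 4) (nat_lit 335) (nat_lit 436)) (l (nat_lit 4) (nat_lit 310) (nat_lit 386)))) (n (nat_lit 409) (b (l (nat_lit 6) (nat_lit 334) (nat_lit 434)) (l (nat_lit 6) (nat_lit 309) (nat_lit 384)))))) (n (nat_lit 410) (b (n (nat_lit 435) (b (n (nat_lit 434) (b (l (nat_lit 6) (nat_lit 334) (nat_lit 409)) (l (nat_lit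 6) (nat_lit 359) (nat_lit 459)))) (l (nat_lit 7) (nat_lit 334) (nat_lit 359)))) (n (nat_lit 411) (b (l (nat_lit 4) (nat_lit 335) (nat_lit 436)) (l (nat_lit 4) (nat_lit 310) (nat_lit 386)))))))) (n (nat_lit 384) (b (n (nat_lit 386) (b (n (nat_lit 387) (b (n (nat_lit 359) (b (l (nat_lit 3) (nat_lit 359) (nat_lit 388)) (l (nat_lit 6) (nat_lit 284) (nat_lit 285)))) (l (nat_lit 1) (nat_lit 359) (nat_lit 363)))) (l (nat_lit 4) (nat_lit 310) (nat_lit 411)))) (l (nat_lit 6) (nat_lit 309) (nat_lit 409))))))) (r (nat_lit 0)))) (n (nat_lit 286) (b (b (n (nat_lit 311) (b (n (nat_lit 261) (b (l (nat_lit 6) (nat_lit 235) (nat_lit 236)) (l (nat_lit 6) (nat_lit 260) (nat_lit 336)))) (l (nat_lit 5) (nat_lit 285) (nat_lit 385)))) (n (nat_lit 285) (b (n (nat_lit 259) (b (n (nat_lit 260) (b (l (nat_lit 3) (nat_lit 259) (nat_lit 288)) (l (nat_lit 7) (nat_lit 234) (nat_lit 234)))) (l (nat_lit 7) (nat_lit 259) (nat_lit 284)))) (l (nat_lit 5) (nat_lit 260) (nat_lit 261)))))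 (n (nat_lit 285) (b (b (n (nat_lit 311) (b (n (nat_lit 260) (b (n (nat_lit 235) (b (l (nat_lit 4) (nat_lit 235) (nat_lit 336)) (l (nat_lit 4) (nat_lit 210) (nat_lit 210)))) (n (nat_lit 288) (b (l (nat_lit 3) (nat_lit 259) (nat_lit 259)) (l (nat_lit 2) (nat_lit 285) (nat_lit 289)))))) (l (nat_lit 5) (nat_lit 285) (nat_lit 385)))) (n (nat_lit 284) (b (n (nat_lit 283) (b (n (nat_lit 282) (b (n (nat_lit 307) (b (l (nat_lit 2) (nat_lit 281) (nat_lit 306)) (l (nat_lit 2) (nat_lit 282) (nat_lit 308)))) (n (nat_lit 257) (b (l (nat_lit 3) (nat_lit 256) (nat_lit 256)) (l (nat_lit 3) (nat_lit 257) (nat_lit 258)))))) (l (nat_lit 0) (nat_lit 283) (nat_lit 311)))) (l (nat_lit 7) (nat_lit 259) (nat_lit 259))))) (b (n (nat_lit 259) (b (n (nat_lit 260) (b (l (nat_lit 3) (nat_lit 259) (nat_lit 288)) (l (nat_lit 7) (nat_lit 234) (nat_lit 234)))) (l (nat_lit 7) (nat_lit 259) (nat_lit 284)))) (n (nat_lit 311) (b (n (nat_lit 334) (b (b (n (nat_lit 260) (b (n (nat_lit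 235) (b (l (nat_lit 4) (nat_lit 235) (nat_lit 336)) (l (nat_lit 4) (nat_lit 210) (nat_lit 210)))) (l (nat_lit 6) (nat_lit 259) (nat_lit 359)))) (n (nat_lit 333) (b (l (nat_lit 1) (nat_lit 308) (nat_lit 336)) (l (nat_lit 1) (nat_lit 307) (nat_lit 332))))) (n (nat_lit 332) (b (n (nat_lit 283) (b (n (nat_lit 357) (b (b (n (nat_lit 359) (b (n (nat_lit 358) (b (l (nat_lit 3) (nat_lit 331) (nat_lit 331)) (l (nat_lit 1) (nat_lit 331) (nat_lit 356)))) (l (nat_lit 6) (nat_lit 259) (nat_lit 260)))) (n (nat_lit 307) (b (b (n (nat_lit 258) (b (n (nat_lit 308) (b (l (nat_lit 5) (nat_lit 282) (nat_lit 382)) (l (nat_lit 6) (nat_lit 232) (nat_lit 233)))) (l (nat_lit 5) (nat_lit 257) (nat_lit 282)))) (n (nat_lit 382) (b (n (nat_lit 407) (b (n (nat_lit 406) (b (l (nat_lit 6) (nat_lit 331) (nat_lit 431)) (l (nat_lit 6) (nat_lit 306) (nat_lit 381)))) (n (nat_lit 408) (b (l (nat_lit 4) (nat_lit 332) (nat_lit 433)) (l (nat_lit 4) (nat_lit 307) (nat_lit 383)))))) (l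 (nat_lit 5) (nat_lit 282) (nat_lit 308))))) (n (nat_lit 282) (b (n (nat_lit 257) (b (n (nat_lit 356) (b (l (nat_lit 6) (nat_lit 256) (nat_lit 331)) (l (nat_lit 6) (nat_lit 281) (nat_lit 381)))) (n (nat_lit 256) (b (l (nat_lit 7) (nat_lit 256) (nat_lit 281)) (l (nat_lit 7) (nat_lit 231) (nat_lit 231)))))) (l (nat_lit 5) (nat_lit 257) (nat_lit 258))))))) (b (n (nat_lit 307) (b (b (n (nat_lit 382) (b (n (nat_lit 407) (b (n (nat_lit 406) (b (l (nat_lit 6) (nat_lit 331) (nat_lit 431)) (l (nat_lit 6) (nat_lit 306) (nat_lit 381)))) (n (nat_lit 408) (b (l (nat_lit 4) (nat_lit 332) (nat_lit 433)) (l (nat_lit 4) (nat_lit 307) (nat_lit 383)))))) (l (nat_lit 5) (nat_lit 282) (nat_lit 308)))) (n (nat_lit 258) (b (n (nat_lit 308) (b (l (nat_lit 5) (nat_lit 282) (nat_lit 382)) (l (nat_lit 6) (nat_lit 232) (nat_lit 233)))) (l (nat_lit 5) (nat_lit 257) (nat_lit 282))))) (n (nat_lit 358) (b (n (nat_lit 282) (b (l (nat_lit 5) (nat_lit 257) (nat_lit 258)) (l (nat_lit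 4) (nat_lit 282) (nat_lit 383)))) (n (nat_lit 359) (b (l (nat_lit 6) (nat_lit 259) (nat_lit 260)) (l (nat_lit 3) (nat_lit 331) (nat_lit 331)))))))) (n (nat_lit 307) (b (b (n (nat_lit 382) (b (n (nat_lit 407) (b (n (nat_lit 406) (b (l (nat_lit 6) (nat_lit 331) (nat_lit 431)) (l (nat_lit 6) (nat_lit 306) (nat_lit 381)))) (n (nat_lit 408) (b (l (nat_lit 4) (nat_lit 332) (nat_lit 433)) (l (nat_lit 4) (nat_lit 307) (nat_lit 383)))))) (l (nat_lit 5) (nat_lit 282) (nat_lit 308)))) (n (nat_lit 258) (b (n (nat_lit 308) (b (l (nat_lit 5) (nat_lit 282) (nat_lit 382)) (l (nat_lit 6) (nat_lit 232) (nat_lit 233)))) (l (nat_lit 5) (nat_lit 257) (nat_lit 282))))) (n (nat_lit 356) (b (n (nat_lit 359) (b (l (nat_lit 6) (nat_lit 259) (nat_lit 260)) (l (nat_lit 1) (nat_lit 331) (nat_lit 358)))) (n (nat_lit 282) (b (l (nat_lit 6) (nat_lit 281) (nat_lit 381)) (l (nat_lit 5) (nat_lit 257) (nat_lit 258))))))))))) (l (nat_lit 0) (nat_lit 283) (nat_lit 284)))) (l (nat_lit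 1) (nat_lit 307) (nat_lit 333)))))) (l (nat_lit 5) (nat_lit 285) (nat_lit 385)))))))))) (b (n (nat_lit 385) (b (b (n (nat_lit 410) (b (n (nat_lit 411) (b (l (nat_lit 4) (nat_lit 335) (nat_lit 436)) (l (nat_lit 4) (nat_lit 310) (nat_lit 386)))) (n (nat_lit 311) (b (l (nat_lit 5) (nat_lit 310) (nat_lit 336)) (l (nat_lit 5) (nat_lit 285) (nat_lit 286)))))) (n (nat_lit 410) (b (n (nat_lit 311) (b (l (nat_lit 5) (nat_lit 310) (nat_lit 336)) (l (nat_lit 5) (nat_lit 285) (nat_lit 286)))) (n (nat_lit 409) (b (l (nat_lit 6) (nat_lit 334) (nat_lit 434)) (l (nat_lit 6) (nat_lit 309) (nat_lit 384))))))) (n (nat_lit 384) (b (n (nat_lit 386) (b (n (nat_lit 387) (b (n (nat_lit 359) (b (l (nat_lit 3) (nat_lit 358) (nat_lit 358)) (l (nat_lit 3) (nat_lit 359) (nat_lit 388)))) (l (nat_lit 1) (nat_lit 359) (nat_lit 363)))) (l (nat_lit 4) (nat_lit 310) (nat_lit 411)))) (l (nat_lit 6) (nat_lit 309) (nat_lit 409)))))) (r (nat_lit 1)))) (b (n (nat_lit 286) (b (n (nat_lit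 285) (b (n (nat_lit 259) (b (n (nat_lit 260) (b (l (nat_lit 3) (nat_lit 259) (nat_lit 288)) (l (nat_lit 7) (nat_lit 234) (nat_lit 234)))) (l (nat_lit 7) (nat_lit 259) (nat_lit 284)))) (l (nat_lit 5) (nat_lit 260) (nat_lit 261)))) (n (nat_lit 385) (b (n (nat_lit 410) (b (n (nat_lit 411) (b (l (nat_lit 4) (nat_lit 335) (nat_lit 436)) (l (nat_lit 4) (nat_lit 310) (nat_lit 386)))) (n (nat_lit 409) (b (l (nat_lit 6) (nat_lit 334) (nat_lit 434)) (l (nat_lit 6) (nat_lit 309) (nat_lit 384)))))) (l (nat_lit 5) (nat_lit 285) (nat_lit 311)))))) (n (nat_lit 285) (b (b (n (nat_lit 260) (b (n (nat_lit 261) (b (l (nat_lit 5) (nat_lit 235) (nat_lit 236)) (l (nat_lit 5) (nat_lit 260) (nat_lit 286)))) (n (nat_lit 259) (b (l (nat_lit 7) (nat_lit 259) (nat_lit 284)) (l (nat_lit 7) (nat_lit 234) (nat_lit 234)))))) (n (nat_lit 260) (b (n (nat_lit 359) (b (l (nat_lit 6) (nat_lit 259) (nat_lit 334)) (l (nat_lit 6) (nat_lit 284) (nat_lit 384)))) (n (nat_lit 261) (b (l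 (nat_lit 5) (nat_lit 235) (nat_lit 236)) (l (nat_lit 5) (nat_lit 260) (nat_lit 286))))))) (b (n (nat_lit 260) (b (n (nat_lit 359) (b (l (nat_lit 6) (nat_lit 259) (nat_lit 334)) (l (nat_lit 6) (nat_lit 284) (nat_lit 384)))) (n (nat_lit 259) (b (l (nat_lit 7) (nat_lit 259) (nat_lit 284)) (l (nat_lit 7) (nat_lit 234) (nat_lit 234)))))) (r (nat_lit 2))))))))
    (envOK_cons p12127 (envOK_cons p10621 (envOK_cons p11863 envOK_nil))) (by decide +kernel)

theorem p12175 : Fam (nat_lit 6) (nat_lit 11472586867377443842757207194812741876452290043354628362256601730995863926846860835491581788160) (nat_lit 277780858604471703224229797874034694737117126510297926820724654936143061472071022809692433013563981824) (nat_lit 277780858604471703224229797874034694737117126510297926820724654936143061472071022809692433013563981824) :=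
  chk_sound Env.nil
    (n (nat_lit 311) (b (n (nat_lit 308) (b (b (n (nat_lit 334) (b (n (nat_lit 307) (b (n (nat_lit 335) (b (l (nat_lit 0) (nat_lit 307) (nat_lit 336)) (l (nat_lit 0) (nat_lit 306) (nat_lit 306)))) (n (nat_lit 282) (b (l (nat_lit 3) (nat_lit 281) (nat_lit 281)) (l (nat_lit 3) (nat_lit 282) (nat_lit 283)))))) (l (nat_lit 2) (nat_lit 308) (nat_lit 333)))) (n (nat_lit 307) (b (n (nat_lit 306) (b (n (nat_lit 331) (b (l (nat_lit 2) (nat_lit 306) (nat_lit 332)) (l (nat_lit 2) (nat_lit 305) (nat_lit 330)))) (n (nat_lit 335) (b (l (nat_lit 0) (nat_lit 306) (nat_lit 334)) (l (nat_lit 0) (nat_lit 307) (nat_lit 336)))))) (n (nat_lit 282) (b (l (nat_lit 3) (nat_lit 281) (nat_lit 281)) (l (nat_lit 3) (nat_lit 282) (nat_lit 283))))))) (b (n (nat_lit 333) (b (l (nat_lit 2) (nat_lit 307) (nat_lit 332)) (l (nat_lit 2) (nat_lit 308) (nat_lit 334)))) (n (nat_lit 307) (b (n (nat_lit 332) (b (l (nat_lit 2) (nat_lit 307) (nat_lit 333)) (l (nat_lit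 2) (nat_lit 306) (nat_lit 331)))) (n (nat_lit 282) (b (l (nat_lit 3) (nat_lit 281) (nat_lit 281)) (l (nat_lit 3) (nat_lit 282) (nat_lit 283))))))))) (l (nat_lit 1) (nat_lit 284) (nat_lit 288))))
    envOK_nil (by decide +kernel)

theorem p12321 : Fam (nat_lit 13) (nat_lit 11742712913869176569071850478133651724641415091681857347474680655330047056470863143739196359956285440842006528) (nat_lit 1860707389282376034501998256912839535745277508210352067145106317931146470703668756630142050700530651053677347255431884121480241721934610432) (nat_lit 1860707389282376034501998256912839535745277508210352067145106317931146470703668756630142050700530651053677347255431884121480241721934610432) :=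
  chk_sound (Env.cons (nat_lit 5) (nat_lit 2348542687761878447098500460856410516784510433000710547519713717638200063690173331454444681145843125820850176) (nat_lit 1322111996683511042797048530883713992409002494567338177122497448113840303153530030976118631881494130117496520684852029161472) Env.nil)
    (n (nat_lit 335) (b (b (n (nat_lit 385) (b (b (n (nat_lit 384) (b (n (nat_lit 386) (b (n (nat_lit 387) (b (n (nat_lit 359) (b (l (nat_lit 3) (nat_lit 358) (nat_lit 358)) (l (nat_lit 3) (nat_lit 359) (nat_lit 388)))) (l (nat_lit 1) (nat_lit 359) (nat_lit 363)))) (l (nat_lit 4) (nat_lit 310) (nat_lit 411)))) (l (nat_lit 6) (nat_lit 309) (nat_lit 409)))) (n (nat_lit 410) (b (n (nat_lit 309) (b (l (nat_lit 7) (nat_lit 309) (nat_lit 334)) (l (nat_lit 7) (nat_lit 284) (nat_lit 284)))) (n (nat_lit 411) (b (l (nat_lit 4) (nat_lit 335) (nat_lit 436)) (l (nat_lit 4) (nat_lit 310) (nat_lit 386))))))) (n (nat_lit 410) (b (n (nat_lit 309) (b (l (nat_lit 7) (nat_lit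 309) (nat_lit 334)) (l (nat_lit 7) (nat_lit 284) (nat_lit 284)))) (n (nat_lit 409) (b (l (nat_lit 6) (nat_lit 334) (nat_lit 434)) (l (nat_lit 6) (nat_lit 309) (nat_lit 384)))))))) (n (nat_lit 385) (b (b (n (nat_lit 410) (b (n (nat_lit 411) (b (l (nat_lit 4) (nat_lit 335) (nat_lit 436)) (l (nat_lit 4) (nat_lit 310) (nat_lit 386)))) (n (nat_lit 311) (b (l (nat_lit 5) (nat_lit 310) (nat_lit 336)) (l (nat_lit 5) (nat_lit 285) (nat_lit 286)))))) (n (nat_lit 410) (b (n (nat_lit 311) (b (l (nat_lit 5) (nat_lit 310) (nat_lit 336)) (l (nat_lit 5) (nat_lit 285) (nat_lit 286)))) (n (nat_lit 409) (b (l (nat_lit 6) (nat_lit 334) (nat_lit 434)) (l (nat_lit 6) (nat_lit 309) (nat_lit 384))))))) (n (nat_lit 384) (b (n (nat_lit 386) (b (n (nat_lit 387) (b (n (nat_lit 359) (b (l (nat_lit 3) (nat_lit 358) (nat_lit 358)) (l (nat_lit 3) (nat_lit 359) (nat_lit 388)))) (l (nat_lit 1) (nat_lit 359) (nat_lit 363)))) (l (nat_lit 4) (nat_lit 310) (nat_lit 411)))) (l (nat_lit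 6) (nat_lit 309) (nat_lit 409))))))) (b (n (nat_lit 311) (b (b (n (nat_lit 309) (b (n (nat_lit 284) (b (l (nat_lit 7) (nat_lit 284) (nat_lit 385)) (l (nat_lit 3) (nat_lit 283) (nat_lit 283)))) (l (nat_lit 1) (nat_lit 284) (nat_lit 288)))) (n (nat_lit 286) (b (n (nat_lit 261) (b (l (nat_lit 6) (nat_lit 235) (nat_lit 236)) (l (nat_lit 6) (nat_lit 260) (nat_lit 336)))) (l (nat_lit 5) (nat_lit 285) (nat_lit 385))))) (n (nat_lit 288) (b (n (nat_lit 289) (b (l (nat_lit 2) (nat_lit 285) (nat_lit 286)) (l (nat_lit 2) (nat_lit 286) (nat_lit 290)))) (l (nat_lit 1) (nat_lit 284) (nat_lit 309)))))) (n (nat_lit 334) (b (b (b (n (nat_lit 309) (b (b (n (nat_lit 311) (b (l (nat_lit 2) (nat_lit 308) (nat_lit 333)) (l (nat_lit 1) (nat_lit 284) (nat_lit 288)))) (n (nat_lit 311) (b (n (nat_lit 284) (b (l (nat_lit 4) (nat_lit 259) (nat_lit 259)) (l (nat_lit 3) (nat_lit 283) (nat_lit 283)))) (l (nat_lit 1) (nat_lit 284) (nat_lit 288))))) (n (nat_lit 284) (b (n (nat_lit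 359) (b (b (n (nat_lit 384) (b (n (nat_lit 283) (b (l (nat_lit 7) (nat_lit 283) (nat_lit 308)) (l (nat_lit 7) (nat_lit 258) (nat_lit 258)))) (l (nat_lit 5) (nat_lit 309) (nat_lit 409)))) (n (nat_lit 384) (b (n (nat_lit 383) (b (l (nat_lit 6) (nat_lit 283) (nat_lit 358)) (l (nat_lit 6) (nat_lit 308) (nat_lit 408)))) (l (nat_lit 5) (nat_lit 309) (nat_lit 409))))) (n (nat_lit 358) (b (n (nat_lit 357) (b (n (nat_lit 332) (b (n (nat_lit 283) (b (n (nat_lit 382) (b (n (nat_lit 308) (b (l (nat_lit 5) (nat_lit 282) (nat_lit 307)) (l (nat_lit 6) (nat_lit 282) (nat_lit 333)))) (l (nat_lit 2) (nat_lit 356) (nat_lit 381)))) (l (nat_lit 7) (nat_lit 258) (nat_lit 258)))) (l (nat_lit 3) (nat_lit 331) (nat_lit 331)))) (l (nat_lit 1) (nat_lit 331) (nat_lit 356)))) (l (nat_lit 6) (nat_lit 283) (nat_lit 383)))))) (l (nat_lit 4) (nat_lit 259) (nat_lit 259)))))) (n (nat_lit 333) (b (b (n (nat_lit 332) (b (n (nat_lit 331) (b (n (nat_lit 356) (b (l (nat_lit 2) (nat_lit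 331) (nat_lit 357)) (l (nat_lit 2) (nat_lit 330) (nat_lit 355)))) (l (nat_lit 0) (nat_lit 331) (nat_lit 359)))) (l (nat_lit 1) (nat_lit 307) (nat_lit 311)))) (n (nat_lit 332) (b (b (n (nat_lit 336) (b (n (nat_lit 307) (b (l (nat_lit 3) (nat_lit 306) (nat_lit 306)) (l (nat_lit 3) (nat_lit 307) (nat_lit 308)))) (n (nat_lit 357) (b (l (nat_lit 2) (nat_lit 331) (nat_lit 356)) (l (nat_lit 2) (nat_lit 332) (nat_lit 358)))))) (n (nat_lit 331) (b (n (nat_lit 356) (b (l (nat_lit 2) (nat_lit 331) (nat_lit 357)) (l (nat_lit 2) (nat_lit 330) (nat_lit 355)))) (l (nat_lit 0) (nat_lit 331) (nat_lit 359))))) (n (nat_lit 331) (b (n (nat_lit 306) (b (l (nat_lit 3) (nat_lit 306) (nat_lit 307)) (l (nat_lit 3) (nat_lit 305) (nat_lit 305)))) (l (nat_lit 0) (nat_lit 331) (nat_lit 359))))))) (b (n (nat_lit 311) (b (l (nat_lit 1) (nat_lit 307) (nat_lit 332)) (l (nat_lit 1) (nat_lit 308) (nat_lit 336)))) (n (nat_lit 336) (b (n (nat_lit 358) (b (n (nat_lit 308) (b (n (nat_lit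 383) (b (b (n (nat_lit 283) (b (n (nat_lit 258) (b (n (nat_lit 259) (b (l (nat_lit 5) (nat_lit 258) (nat_lit 284)) (l (nat_lit 5) (nat_lit 233) (nat_lit 234)))) (n (nat_lit 257) (b (l (nat_lit 7) (nat_lit 257) (nat_lit 282)) (l (nat_lit 7) (nat_lit 232) (nat_lit 232)))))) (n (nat_lit 408) (b (n (nat_lit 359) (b (l (nat_lit 4) (nat_lit 283) (nat_lit 384)) (l (nat_lit 5) (nat_lit 333) (nat_lit 433)))) (n (nat_lit 407) (b (l (nat_lit 6) (nat_lit 307) (nat_lit 382)) (l (nat_lit 6) (nat_lit 332) (nat_lit 432)))))))) (n (nat_lit 408) (b (n (nat_lit 433) (b (n (nat_lit 434) (b (l (nat_lit 4) (nat_lit 358) (nat_lit 459)) (l (nat_lit 4) (nat_lit 333) (nat_lit 409)))) (l (nat_lit 5) (nat_lit 333) (nat_lit 359)))) (n (nat_lit 407) (b (l (nat_lit 6) (nat_lit 307) (nat_lit 382)) (l (nat_lit 6) (nat_lit 332) (nat_lit 432))))))) (b (n (nat_lit 408) (b (n (nat_lit 407) (b (l (nat_lit 6) (nat_lit 307) (nat_lit 382)) (l (nat_lit 6) (nat_lit 332) (nat_lit 432))))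 (n (nat_lit 409) (b (l (nat_lit 4) (nat_lit 333) (nat_lit 434)) (l (nat_lit 4) (nat_lit 308) (nat_lit 384)))))) (n (nat_lit 283) (b (n (nat_lit 258) (b (n (nat_lit 259) (b (l (nat_lit 5) (nat_lit 258) (nat_lit 284)) (l (nat_lit 5) (nat_lit 233) (nat_lit 234)))) (n (nat_lit 257) (b (l (nat_lit 7) (nat_lit 257) (nat_lit 282)) (l (nat_lit 7) (nat_lit 232) (nat_lit 232)))))) (n (nat_lit 384) (b (l (nat_lit 4) (nat_lit 283) (nat_lit 359)) (l (nat_lit 4) (nat_lit 308) (nat_lit 409))))))))) (l (nat_lit 3) (nat_lit 307) (nat_lit 307)))) (l (nat_lit 2) (nat_lit 332) (nat_lit 357)))) (l (nat_lit 1) (nat_lit 308) (nat_lit 311)))))))) (b (n (nat_lit 311) (b (n (nat_lit 288) (b (n (nat_lit 289) (b (l (nat_lit 2) (nat_lit 285) (nat_lit 286)) (l (nat_lit 2) (nat_lit 286) (nat_lit 290)))) (l (nat_lit 1) (nat_lit 284) (nat_lit 309)))) (n (nat_lit 333) (b (l (nat_lit 1) (nat_lit 308) (nat_lit 336)) (l (nat_lit 1) (nat_lit 307) (nat_lit 332)))))) (r (nat_lit 0))))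 (n (nat_lit 333) (b (b (b (n (nat_lit 358) (b (b (n (nat_lit 383) (b (b (n (nat_lit 408) (b (n (nat_lit 433) (b (n (nat_lit 432) (b (l (nat_lit 6) (nat_lit 332) (nat_lit 407)) (l (nat_lit 6) (nat_lit 357) (nat_lit 457)))) (n (nat_lit 434) (b (l (nat_lit 4) (nat_lit 358) (nat_lit 459)) (l (nat_lit 4) (nat_lit 333) (nat_lit 409)))))) (l (nat_lit 5) (nat_lit 308) (nat_lit 309)))) (n (nat_lit 308) (b (n (nat_lit 408) (b (n (nat_lit 407) (b (l (nat_lit 6) (nat_lit 307) (nat_lit 382)) (l (nat_lit 6) (nat_lit 332) (nat_lit 432)))) (n (nat_lit 409) (b (l (nat_lit 4) (nat_lit 333) (nat_lit 434)) (l (nat_lit 4) (nat_lit 308) (nat_lit 384)))))) (n (nat_lit 307) (b (l (nat_lit 3) (nat_lit 307) (nat_lit 336)) (l (nat_lit 7) (nat_lit 282) (nat_lit 282))))))) (n (nat_lit 308) (b (n (nat_lit 307) (b (l (nat_lit 3) (nat_lit 307) (nat_lit 336)) (l (nat_lit 7) (nat_lit 282) (nat_lit 282)))) (n (nat_lit 283) (b (n (nat_lit 359) (b (l (nat_lit 4) (nat_lit 283) (nat_lit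 384)) (l (nat_lit 4) (nat_lit 258) (nat_lit 258)))) (n (nat_lit 284) (b (l (nat_lit 5) (nat_lit 258) (nat_lit 259)) (l (nat_lit 5) (nat_lit 283) (nat_lit 309)))))))))) (n (nat_lit 383) (b (b (n (nat_lit 308) (b (n (nat_lit 408) (b (n (nat_lit 407) (b (l (nat_lit 6) (nat_lit 307) (nat_lit 382)) (l (nat_lit 6) (nat_lit 332) (nat_lit 432)))) (n (nat_lit 409) (b (l (nat_lit 4) (nat_lit 333) (nat_lit 434)) (l (nat_lit 4) (nat_lit 308) (nat_lit 384)))))) (n (nat_lit 307) (b (l (nat_lit 3) (nat_lit 307) (nat_lit 336)) (l (nat_lit 7) (nat_lit 282) (nat_lit 282)))))) (n (nat_lit 309) (b (n (nat_lit 284) (b (l (nat_lit 6) (nat_lit 258) (nat_lit 259)) (l (nat_lit 5) (nat_lit 283) (nat_lit 308)))) (l (nat_lit 5) (nat_lit 308) (nat_lit 408))))) (b (n (nat_lit 308) (b (n (nat_lit 357) (b (n (nat_lit 382) (b (l (nat_lit 6) (nat_lit 282) (nat_lit 283)) (l (nat_lit 6) (nat_lit 307) (nat_lit 407)))) (l (nat_lit 2) (nat_lit 332) (nat_lit 336)))) (n (nat_lit 307)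 (b (n (nat_lit 309) (b (l (nat_lit 5) (nat_lit 283) (nat_lit 284)) (l (nat_lit 0) (nat_lit 306) (nat_lit 306)))) (l (nat_lit 7) (nat_lit 282) (nat_lit 282)))))) (n (nat_lit 408) (b (n (nat_lit 433) (b (n (nat_lit 432) (b (l (nat_lit 6) (nat_lit 332) (nat_lit 407)) (l (nat_lit 6) (nat_lit 357) (nat_lit 457)))) (n (nat_lit 434) (b (l (nat_lit 4) (nat_lit 358) (nat_lit 459)) (l (nat_lit 4) (nat_lit 333) (nat_lit 409)))))) (l (nat_lit 5) (nat_lit 308) (nat_lit 309)))))))) (b (n (nat_lit 357) (b (n (nat_lit 356) (b (l (nat_lit 1) (nat_lit 331) (nat_lit 359)) (l (nat_lit 1) (nat_lit 330) (nat_lit 355)))) (l (nat_lit 2) (nat_lit 332) (nat_lit 336)))) (n (nat_lit 383) (b (b (n (nat_lit 408) (b (n (nat_lit 433) (b (n (nat_lit 432) (b (l (nat_lit 6) (nat_lit 332) (nat_lit 407)) (l (nat_lit 6) (nat_lit 357) (nat_lit 457)))) (n (nat_lit 434) (b (l (nat_lit 4) (nat_lit 358) (nat_lit 459)) (l (nat_lit 4) (nat_lit 333) (nat_lit 409)))))) (l (nat_lit 5) (nat_lit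 308) (nat_lit 309)))) (n (nat_lit 308) (b (b (n (nat_lit 408) (b (n (nat_lit 407) (b (l (nat_lit 6) (nat_lit 307) (nat_lit 382)) (l (nat_lit 6) (nat_lit 332) (nat_lit 432)))) (n (nat_lit 409) (b (l (nat_lit 4) (nat_lit 333) (nat_lit 434)) (l (nat_lit 4) (nat_lit 308) (nat_lit 384)))))) (n (nat_lit 283) (b (n (nat_lit 382) (b (l (nat_lit 6) (nat_lit 307) (nat_lit 407)) (l (nat_lit 6) (nat_lit 282) (nat_lit 357)))) (n (nat_lit 282) (b (l (nat_lit 7) (nat_lit 257) (nat_lit 257)) (l (nat_lit 7) (nat_lit 282) (nat_lit 307))))))) (n (nat_lit 283) (b (n (nat_lit 359) (b (l (nat_lit 4) (nat_lit 283) (nat_lit 384)) (l (nat_lit 4) (nat_lit 258) (nat_lit 258)))) (n (nat_lit 282) (b (l (nat_lit 7) (nat_lit 257) (nat_lit 257)) (l (nat_lit 7) (nat_lit 282) (nat_lit 307))))))))) (b (n (nat_lit 308) (b (n (nat_lit 307) (b (n (nat_lit 309) (b (l (nat_lit 5) (nat_lit 283) (nat_lit 284)) (l (nat_lit 0) (nat_lit 306) (nat_lit 306)))) (l (nat_lit 7) (nat_lit 282)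 (nat_lit 282)))) (n (nat_lit 283) (b (n (nat_lit 359) (b (l (nat_lit 4) (nat_lit 283) (nat_lit 384)) (l (nat_lit 4) (nat_lit 258) (nat_lit 258)))) (n (nat_lit 382) (b (l (nat_lit 6) (nat_lit 307) (nat_lit 407)) (l (nat_lit 6) (nat_lit 282) (nat_lit 357)))))))) (n (nat_lit 309) (b (n (nat_lit 284) (b (l (nat_lit 6) (nat_lit 258) (nat_lit 259)) (l (nat_lit 5) (nat_lit 283) (nat_lit 308)))) (l (nat_lit 5) (nat_lit 308) (nat_lit 408)))))))))) (n (nat_lit 332) (b (n (nat_lit 331) (b (l (nat_lit 0) (nat_lit 331) (nat_lit 359)) (l (nat_lit 1) (nat_lit 306) (nat_lit 309)))) (n (nat_lit 307) (b (n (nat_lit 308) (b (n (nat_lit 357) (b (n (nat_lit 283) (b (l (nat_lit 5) (nat_lit 282) (nat_lit 382)) (l (nat_lit 6) (nat_lit 257) (nat_lit 258)))) (l (nat_lit 2) (nat_lit 331) (nat_lit 356)))) (l (nat_lit 3) (nat_lit 307) (nat_lit 336)))) (l (nat_lit 3) (nat_lit 306) (nat_lit 306))))))) (b (n (nat_lit 332) (b (n (nat_lit 331) (b (l (nat_lit 0) (nat_lit 331) (nat_lit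 359)) (l (nat_lit 1) (nat_lit 306) (nat_lit 309)))) (n (nat_lit 357) (b (n (nat_lit 307) (b (n (nat_lit 358) (b (n (nat_lit 282) (b (l (nat_lit 4) (nat_lit 257) (nat_lit 257)) (l (nat_lit 4) (nat_lit 282) (nat_lit 383)))) (l (nat_lit 2) (nat_lit 332) (nat_lit 336)))) (l (nat_lit 3) (nat_lit 306) (nat_lit 306)))) (l (nat_lit 2) (nat_lit 331) (nat_lit 356)))))) (n (nat_lit 332) (b (b (n (nat_lit 336) (b (n (nat_lit 307) (b (l (nat_lit 3) (nat_lit 306) (nat_lit 306)) (l (nat_lit 3) (nat_lit 307) (nat_lit 308)))) (n (nat_lit 357) (b (l (nat_lit 2) (nat_lit 331) (nat_lit 356)) (l (nat_lit 2) (nat_lit 332) (nat_lit 358)))))) (n (nat_lit 331) (b (n (nat_lit 306) (b (l (nat_lit 3) (nat_lit 306) (nat_lit 307)) (l (nat_lit 3) (nat_lit 305) (nat_lit 305)))) (l (nat_lit 1) (nat_lit 306) (nat_lit 309))))) (n (nat_lit 331) (b (n (nat_lit 356) (b (l (nat_lit 2) (nat_lit 331) (nat_lit 357)) (l (nat_lit 2) (nat_lit 330) (nat_lit 355)))) (l (nat_lit 1) (nat_lit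 306) (nat_lit 309)))))))) (b (b (n (nat_lit 332) (b (b (n (nat_lit 336) (b (n (nat_lit 307) (b (l (nat_lit 3) (nat_lit 306) (nat_lit 306)) (l (nat_lit 3) (nat_lit 307) (nat_lit 308)))) (n (nat_lit 357) (b (l (nat_lit 2) (nat_lit 331) (nat_lit 356)) (l (nat_lit 2) (nat_lit 332) (nat_lit 358)))))) (n (nat_lit 331) (b (n (nat_lit 356) (b (l (nat_lit 2) (nat_lit 331) (nat_lit 357)) (l (nat_lit 2) (nat_lit 330) (nat_lit 355)))) (l (nat_lit 0) (nat_lit 331) (nat_lit 359))))) (n (nat_lit 331) (b (n (nat_lit 306) (b (l (nat_lit 3) (nat_lit 306) (nat_lit 307)) (l (nat_lit 3) (nat_lit 305) (nat_lit 305)))) (l (nat_lit 0) (nat_lit 331) (nat_lit 359)))))) (n (nat_lit 332) (b (b (n (nat_lit 331) (b (n (nat_lit 356) (b (l (nat_lit 2) (nat_lit 331) (nat_lit 357)) (l (nat_lit 2) (nat_lit 330) (nat_lit 355)))) (l (nat_lit 1) (nat_lit 306) (nat_lit 309)))) (n (nat_lit 331) (b (n (nat_lit 356) (b (l (nat_lit 2) (nat_lit 331) (nat_lit 357)) (l (nat_lit 2) (nat_lit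 330) (nat_lit 355)))) (l (nat_lit 0) (nat_lit 331) (nat_lit 359))))) (b (n (nat_lit 331) (b (l (nat_lit 0) (nat_lit 331) (nat_lit 359)) (l (nat_lit 1) (nat_lit 306) (nat_lit 309)))) (n (nat_lit 357) (b (n (nat_lit 358) (b (n (nat_lit 382) (b (b (n (nat_lit 408) (b (n (nat_lit 407) (b (l (nat_lit 4) (nat_lit 332) (nat_lit 433)) (l (nat_lit 5) (nat_lit 332) (nat_lit 432)))) (n (nat_lit 409) (b (n (nat_lit 359) (b (l (nat_lit 2) (nat_lit 356) (nat_lit 381)) (l (nat_lit 5) (nat_lit 309) (nat_lit 384)))) (n (nat_lit 383) (b (l (nat_lit 4) (nat_lit 333) (nat_lit 434)) (l (nat_lit 5) (nat_lit 308) (nat_lit 309)))))))) (n (nat_lit 308) (b (l (nat_lit 5) (nat_lit 307) (nat_lit 407)) (l (nat_lit 6) (nat_lit 282) (nat_lit 283))))) (n (nat_lit 383) (b (n (nat_lit 408) (b (l (nat_lit 5) (nat_lit 308) (nat_lit 309)) (l (nat_lit 7) (nat_lit 332) (nat_lit 433)))) (n (nat_lit 308) (b (n (nat_lit 381) (b (n (nat_lit 405) (b (n (nat_lit 384) (b (l (nat_lit 4) (nat_lit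 308) (nat_lit 409)) (l (nat_lit 2) (nat_lit 380) (nat_lit 406)))) (n (nat_lit 380) (b (l (nat_lit 2) (nat_lit 379) (nat_lit 404)) (l (nat_lit 1) (nat_lit 354) (nat_lit 379)))))) (l (nat_lit 2) (nat_lit 356) (nat_lit 359)))) (l (nat_lit 6) (nat_lit 282) (nat_lit 283)))))))) (l (nat_lit 2) (nat_lit 332) (nat_lit 336)))) (l (nat_lit 2) (nat_lit 331) (nat_lit 356)))))))) (b (n (nat_lit 332) (b (b (n (nat_lit 331) (b (n (nat_lit 306) (b (l (nat_lit 3) (nat_lit 306) (nat_lit 307)) (l (nat_lit 3) (nat_lit 305) (nat_lit 305)))) (l (nat_lit 0) (nat_lit 331) (nat_lit 359)))) (n (nat_lit 331) (b (n (nat_lit 306) (b (l (nat_lit 3) (nat_lit 306) (nat_lit 307)) (l (nat_lit 3) (nat_lit 305) (nat_lit 305)))) (l (nat_lit 1) (nat_lit 306) (nat_lit 309))))) (b (n (nat_lit 331) (b (l (nat_lit 0) (nat_lit 331) (nat_lit 359)) (l (nat_lit 1) (nat_lit 306) (nat_lit 309)))) (n (nat_lit 307) (b (n (nat_lit 308) (b (n (nat_lit 282) (b (b (n (nat_lit 358) (b (l (nat_lit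 4) (nat_lit 257) (nat_lit 257)) (l (nat_lit 7) (nat_lit 282) (nat_lit 383)))) (n (nat_lit 258) (b (n (nat_lit 257) (b (l (nat_lit 5) (nat_lit 232) (nat_lit 233)) (l (nat_lit 4) (nat_lit 232) (nat_lit 232)))) (n (nat_lit 259) (b (n (nat_lit 309) (b (l (nat_lit 3) (nat_lit 281) (nat_lit 281)) (l (nat_lit 4) (nat_lit 259) (nat_lit 284)))) (n (nat_lit 283) (b (l (nat_lit 4) (nat_lit 258) (nat_lit 359)) (l (nat_lit 5) (nat_lit 233) (nat_lit 234))))))))) (n (nat_lit 283) (b (n (nat_lit 258) (b (l (nat_lit 4) (nat_lit 258) (nat_lit 359)) (l (nat_lit 6) (nat_lit 232) (nat_lit 233)))) (n (nat_lit 358) (b (n (nat_lit 281) (b (n (nat_lit 255) (b (n (nat_lit 284) (b (l (nat_lit 5) (nat_lit 258) (nat_lit 259)) (l (nat_lit 3) (nat_lit 255) (nat_lit 256)))) (n (nat_lit 280) (b (l (nat_lit 3) (nat_lit 254) (nat_lit 254)) (l (nat_lit 0) (nat_lit 279) (nat_lit 279)))))) (l (nat_lit 3) (nat_lit 281) (nat_lit 309)))) (l (nat_lit 7) (nat_lit 282) (nat_lit 383))))))))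 (l (nat_lit 3) (nat_lit 307) (nat_lit 336)))) (l (nat_lit 3) (nat_lit 306) (nat_lit 306))))))) (n (nat_lit 332) (b (b (n (nat_lit 331) (b (n (nat_lit 356) (b (l (nat_lit 2) (nat_lit 331) (nat_lit 357)) (l (nat_lit 2) (nat_lit 330) (nat_lit 355)))) (l (nat_lit 1) (nat_lit 306) (nat_lit 309)))) (n (nat_lit 331) (b (l (nat_lit 0) (nat_lit 331) (nat_lit 359)) (l (nat_lit 1) (nat_lit 306) (nat_lit 309))))) (n (nat_lit 307) (b (n (nat_lit 357) (b (n (nat_lit 358) (b (n (nat_lit 382) (b (n (nat_lit 407) (b (l (nat_lit 5) (nat_lit 307) (nat_lit 308)) (l (nat_lit 5) (nat_lit 332) (nat_lit 432)))) (n (nat_lit 381) (b (l (nat_lit 6) (nat_lit 306) (nat_lit 406)) (l (nat_lit 2) (nat_lit 356) (nat_lit 359)))))) (n (nat_lit 282) (b (l (nat_lit 4) (nat_lit 257) (nat_lit 257)) (l (nat_lit 4) (nat_lit 282) (nat_lit 383)))))) (l (nat_lit 2) (nat_lit 331) (nat_lit 356)))) (l (nat_lit 3) (nat_lit 306) (nat_lit 306)))))))))))))))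
    (envOK_cons p10657 envOK_nil) (by decide +kernel)

theorem p12346 : Fam (nat_lit 9) (nat_lit 2348542582773843657513928090976303615138684896048577864645516769201210956012429369884400366417210628714266624) (nat_lit 243994942998471850227730026899280681879577120076558181333071593704906483173785297785705706050151107683575140218020730630009792757760) (nat_lit 243994942998471850227730026899280681879577120076558181333071593704906483173785297785705706050151107683575140218020730630009792757760) :=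
  chk_sound (Env.cons (nat_lit 6) (nat_lit 11472586867377443842757207194812741876452290043354628362256601730995863926846860835491581788160) (nat_lit 277780858604471703224229797874034694737117126510297926820724654936143061472071022809692433013563981824) (Env.cons (nat_lit 7) (nat_lit 2348542582773836356776802411964516759038529368494193598367756199429139670691018709790487079807075967402246144) (nat_lit 243994942998471535011680455743431672878754695788724500093026486796010381501189158672289487695840561998475874281252869113966489501696) Env.nil))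
    (n (nat_lit 309) (b (b (b (n (nat_lit 335) (b (b (n (nat_lit 385) (b (b (n (nat_lit 410) (b (n (nat_lit 411) (b (l (nat_lit 4) (nat_lit 335) (nat_lit 436)) (l (nat_lit 4) (nat_lit 310) (nat_lit 386)))) (l (nat_lit 7) (nat_lit 309) (nat_lit 334)))) (n (nat_lit 410) (b (n (nat_lit 409) (b (l (nat_lit 6) (nat_lit 334) (nat_lit 434)) (l (nat_lit 6) (nat_lit 309) (nat_lit 384)))) (l (nat_lit 7) (nat_lit 309) (nat_lit 334))))) (n (nat_lit 384) (b (n (nat_lit 386) (b (n (nat_lit 359) (b (n (nat_lit 358) (b (l (nat_lit 3) (nat_lit 358) (nat_lit 387)) (l (nat_lit 0) (nat_lit 357) (nat_lit 357)))) (l (nat_lit 6) (nat_lit 284) (nat_lit 285)))) (l (nat_lit 4) (nat_lit 310) (nat_lit 411)))) (l (nat_lit 6) (nat_lit 309) (nat_lit 409)))))) (n (nat_lit 285) (b (b (n (nat_lit 288) (b (l (nat_lit 2) (nat_lit 284) (nat_lit 286)) (l (nat_lit 1) (nat_lit 284) (nat_lit 311)))) (n (nat_lit 260) (b (n (nat_lit 359) (b (l (nat_lit 6) (nat_lit 259) (nat_lit 334)) (l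 (nat_lit 6) (nat_lit 284) (nat_lit 384)))) (n (nat_lit 261) (b (l (nat_lit 5) (nat_lit 235) (nat_lit 236)) (l (nat_lit 5) (nat_lit 260) (nat_lit 286))))))) (n (nat_lit 334) (b (n (nat_lit 311) (b (l (nat_lit 2) (nat_lit 308) (nat_lit 333)) (l (nat_lit 1) (nat_lit 284) (nat_lit 288)))) (n (nat_lit 260) (b (l (nat_lit 6) (nat_lit 259) (nat_lit 359)) (l (nat_lit 6) (nat_lit 234) (nat_lit 235))))))))) (b (n (nat_lit 286) (b (b (n (nat_lit 285) (b (l (nat_lit 2) (nat_lit 284) (nat_lit 288)) (l (nat_lit 5) (nat_lit 260) (nat_lit 261)))) (n (nat_lit 261) (b (n (nat_lit 311) (b (l (nat_lit 5) (nat_lit 285) (nat_lit 385)) (l (nat_lit 6) (nat_lit 235) (nat_lit 236)))) (l (nat_lit 5) (nat_lit 260) (nat_lit 285))))) (n (nat_lit 311) (b (l (nat_lit 1) (nat_lit 284) (nat_lit 288)) (l (nat_lit 5) (nat_lit 285) (nat_lit 385)))))) (n (nat_lit 311) (b (n (nat_lit 385) (b (n (nat_lit 334) (b (l (nat_lit 7) (nat_lit 309) (nat_lit 410)) (l (nat_lit 2) (nat_lit 308)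 (nat_lit 333)))) (l (nat_lit 5) (nat_lit 285) (nat_lit 286)))) (l (nat_lit 1) (nat_lit 284) (nat_lit 288))))))) (r (nat_lit 0))) (b (n (nat_lit 285) (b (b (n (nat_lit 286) (b (n (nat_lit 335) (b (n (nat_lit 385) (b (n (nat_lit 410) (b (n (nat_lit 411) (b (l (nat_lit 4) (nat_lit 335) (nat_lit 436)) (l (nat_lit 4) (nat_lit 310) (nat_lit 386)))) (l (nat_lit 7) (nat_lit 309) (nat_lit 334)))) (n (nat_lit 384) (b (l (nat_lit 6) (nat_lit 284) (nat_lit 359)) (l (nat_lit 6) (nat_lit 309) (nat_lit 409)))))) (l (nat_lit 5) (nat_lit 260) (nat_lit 261)))) (l (nat_lit 2) (nat_lit 284) (nat_lit 288)))) (n (nat_lit 286) (b (n (nat_lit 308) (b (l (nat_lit 2) (nat_lit 283) (nat_lit 284)) (l (nat_lit 1) (nat_lit 282) (nat_lit 307)))) (l (nat_lit 2) (nat_lit 284) (nat_lit 288))))) (r (nat_lit 1)))) (n (nat_lit 311) (b (n (nat_lit 286) (b (n (nat_lit 335) (b (n (nat_lit 261) (b (l (nat_lit 6) (nat_lit 235) (nat_lit 236)) (l (nat_lit 5) (nat_lit 260) (nat_lit 285))))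 (l (nat_lit 5) (nat_lit 285) (nat_lit 385)))) (l (nat_lit 1) (nat_lit 283) (nat_lit 308)))) (l (nat_lit 1) (nat_lit 284) (nat_lit 288)))))) (b (n (nat_lit 311) (b (n (nat_lit 308) (b (n (nat_lit 307) (b (n (nat_lit 332) (b (l (nat_lit 2) (nat_lit 307) (nat_lit 333)) (l (nat_lit 2) (nat_lit 306) (nat_lit 331)))) (n (nat_lit 282) (b (l (nat_lit 3) (nat_lit 281) (nat_lit 281)) (l (nat_lit 3) (nat_lit 282) (nat_lit 283)))))) (l (nat_lit 1) (nat_lit 283) (nat_lit 286)))) (l (nat_lit 1) (nat_lit 284) (nat_lit 288)))) (n (nat_lit 308) (b (b (n (nat_lit 286) (b (n (nat_lit 285) (b (l (nat_lit 2) (nat_lit 283) (nat_lit 284)) (l (nat_lit 1) (nat_lit 282) (nat_lit 307)))) (l (nat_lit 1) (nat_lit 283) (nat_lit 311)))) (n (nat_lit 307) (b (b (n (nat_lit 311) (b (n (nat_lit 282) (b (l (nat_lit 3) (nat_lit 281) (nat_lit 281)) (l (nat_lit 3) (nat_lit 282) (nat_lit 283)))) (n (nat_lit 332) (b (l (nat_lit 2) (nat_lit 307) (nat_lit 333)) (l (nat_lit 2) (nat_lit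 306) (nat_lit 331)))))) (n (nat_lit 306) (b (n (nat_lit 331) (b (l (nat_lit 2) (nat_lit 306) (nat_lit 332)) (l (nat_lit 2) (nat_lit 305) (nat_lit 330)))) (n (nat_lit 335) (b (l (nat_lit 0) (nat_lit 306) (nat_lit 334)) (l (nat_lit 0) (nat_lit 307) (nat_lit 336))))))) (n (nat_lit 306) (b (n (nat_lit 335) (b (l (nat_lit 0) (nat_lit 306) (nat_lit 334)) (l (nat_lit 0) (nat_lit 307) (nat_lit 336)))) (n (nat_lit 281) (b (l (nat_lit 3) (nat_lit 280) (nat_lit 280)) (l (nat_lit 3) (nat_lit 281) (nat_lit 282))))))))) (b (n (nat_lit 311) (b (n (nat_lit 333) (b (l (nat_lit 2) (nat_lit 307) (nat_lit 332)) (l (nat_lit 2) (nat_lit 308) (nat_lit 334)))) (l (nat_lit 1) (nat_lit 283) (nat_lit 286)))) (n (nat_lit 307) (b (b (n (nat_lit 306) (b (n (nat_lit 335) (b (l (nat_lit 0) (nat_lit 306) (nat_lit 334)) (l (nat_lit 0) (nat_lit 307) (nat_lit 336)))) (n (nat_lit 281) (b (l (nat_lit 3) (nat_lit 280) (nat_lit 280)) (l (nat_lit 3) (nat_lit 281) (nat_lit 282)))))) (n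 (nat_lit 306) (b (n (nat_lit 331) (b (l (nat_lit 2) (nat_lit 306) (nat_lit 332)) (l (nat_lit 2) (nat_lit 305) (nat_lit 330)))) (n (nat_lit 285) (b (l (nat_lit 1) (nat_lit 281) (nat_lit 284)) (l (nat_lit 1) (nat_lit 282) (nat_lit 286))))))) (n (nat_lit 335) (b (n (nat_lit 384) (b (n (nat_lit 385) (b (l (nat_lit 7) (nat_lit 284) (nat_lit 284)) (l (nat_lit 6) (nat_lit 309) (nat_lit 409)))) (n (nat_lit 285) (b (l (nat_lit 6) (nat_lit 284) (nat_lit 359)) (l (nat_lit 1) (nat_lit 282) (nat_lit 286)))))) (l (nat_lit 0) (nat_lit 307) (nat_lit 336))))))))))))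
    (envOK_cons p12175 (envOK_cons p11553 envOK_nil)) (by decide +kernel)

theorem p12355 : Fam (nat_lit 5) (nat_lit 2348542617769847953304931036520001169590201791363886140054142625222619704785586638983390206446160233099165696) (nat_lit 110906792392224513821902557359380095572167598546640963163477420094509263551325555951542090171238045923132020618182255893655907729408) (nat_lit 110906792392224513821902557359380095572167598546640963163477420094509263551325555951542090171238045923132020618182255893655907729408) :=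
  chk_sound Env.nil
    (n (nat_lit 359) (b (b (n (nat_lit 284) (b (n (nat_lit 259) (b (n (nat_lit 260) (b (l (nat_lit 5) (nat_lit 234) (nat_lit 235)) (l (nat_lit 5) (nat_lit 259) (nat_lit 285)))) (n (nat_lit 358) (b (l (nat_lit 6) (nat_lit 258) (nat_lit 333)) (l (nat_lit 6) (nat_lit 283) (nat_lit 383)))))) (l (nat_lit 4) (nat_lit 284) (nat_lit 385)))) (n (nat_lit 384) (b (n (nat_lit 409) (b (n (nat_lit 408) (b (l (nat_lit 6) (nat_lit 308) (nat_lit 383)) (l (nat_lit 6) (nat_lit 333) (nat_lit 433)))) (n (nat_lit 410) (b (l (nat_lit 4) (nat_lit 334) (nat_lit 435)) (l (nat_lit 4) (nat_lit 309) (nat_lit 385)))))) (l (nat_lit 5) (nat_lit 284) (nat_lit 285))))) (b (n (nat_lit 285) (b (n (nat_lit 260) (b (l (nat_lit 6) (nat_lit 234) (nat_lit 235)) (l (nat_lit 5) (nat_lit 259) (nat_lit 284)))) (l (nat_lit 5) (nat_lit 284) (nat_lit 384)))) (n (nat_lit 385) (b (n (nat_lit 410) (b (l (nat_lit 4) (nat_lit 309) (nat_lit 384)) (l (nat_lit 7) (nat_lit 334) (nat_lit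 435)))) (l (nat_lit 4) (nat_lit 284) (nat_lit 284)))))))
    envOK_nil (by decide +kernel)

theorem p12508 : Fam (nat_lit 9) (nat_lit 11472586960625550669592202598946913403981197562190156636759298751082859594314266525341589700608) (nat_lit 11472587609476967967887769047013575002409483039008403910133444978082148020147600700506613219328) (nat_lit 11472587609476967967887769047013575002409483039008403910133444978082148020147600700506613219328) :=
  chk_sound Env.nil
    (n (nat_lit 235) (b (b (b (n (nat_lit 283) (b (n (nat_lit 282) (b (n (nat_lit 260) (b (l (nat_lit 1) (nat_lit 257) (nat_lit 261)) (l (nat_lit 6) (nat_lit 209) (nat_lit 210)))) (l (nat_lit 0) (nat_lit 281) (nat_lit 281)))) (n (nat_lit 286) (b (n (nat_lit 258) (b (l (nat_lit 3) (nat_lit 257) (nat_lit 257)) (l (nat_lit 3) (nat_lit 258) (nat_lit 259)))) (l (nat_lit 2) (nat_lit 284) (nat_lit 288)))))) (n (nat_lit 259) (b (n (nat_lit 234) (b (l (nat_lit 4) (nat_lit 209) (nat_lit 209)) (l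 (nat_lit 5) (nat_lit 209) (nat_lit 210)))) (n (nat_lit 286) (b (l (nat_lit 3) (nat_lit 258) (nat_lit 258)) (l (nat_lit 2) (nat_lit 284) (nat_lit 288))))))) (b (n (nat_lit 234) (b (b (n (nat_lit 209) (b (l (nat_lit 7) (nat_lit 209) (nat_lit 260)) (l (nat_lit 4) (nat_lit 209) (nat_lit 259)))) (n (nat_lit 259) (b (l (nat_lit 5) (nat_lit 209) (nat_lit 210)) (l (nat_lit 4) (nat_lit 209) (nat_lit 209))))) (b (n (nat_lit 210) (b (l (nat_lit 5) (nat_lit 209) (nat_lit 259)) (l (nat_lit 6) (nat_lit 209) (nat_lit 260)))) (n (nat_lit 260) (b (l (nat_lit 7) (nat_lit 209) (nat_lit 209)) (l (nat_lit 6) (nat_lit 209) (nat_lit 210))))))) (n (nat_lit 283) (b (b (n (nat_lit 257) (b (n (nat_lit 286) (b (l (nat_lit 2) (nat_lit 284) (nat_lit 288)) (l (nat_lit 3) (nat_lit 257) (nat_lit 258)))) (n (nat_lit 282) (b (l (nat_lit 3) (nat_lit 256) (nat_lit 256)) (l (nat_lit 0) (nat_lit 281) (nat_lit 281)))))) (n (nat_lit 282) (b (n (nat_lit 260) (b (l (nat_lit 1) (nat_lit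 257) (nat_lit 261)) (l (nat_lit 6) (nat_lit 209) (nat_lit 210)))) (l (nat_lit 0) (nat_lit 281) (nat_lit 281))))) (n (nat_lit 286) (b (n (nat_lit 233) (b (b (n (nat_lit 234) (b (b (n (nat_lit 260) (b (l (nat_lit 7) (nat_lit 209) (nat_lit 209)) (l (nat_lit 6) (nat_lit 209) (nat_lit 210)))) (n (nat_lit 257) (b (n (nat_lit 211) (b (n (nat_lit 236) (b (l (nat_lit 1) (nat_lit 208) (nat_lit 212)) (l (nat_lit 4) (nat_lit 211) (nat_lit 261)))) (n (nat_lit 232) (b (l (nat_lit 1) (nat_lit 207) (nat_lit 210)) (l (nat_lit 2) (nat_lit 231) (nat_lit 256)))))) (l (nat_lit 3) (nat_lit 257) (nat_lit 258))))) (n (nat_lit 232) (b (n (nat_lit 260) (b (l (nat_lit 7) (nat_lit 209) (nat_lit 209)) (l (nat_lit 0) (nat_lit 232) (nat_lit 261)))) (n (nat_lit 257) (b (l (nat_lit 3) (nat_lit 257) (nat_lit 258)) (l (nat_lit 2) (nat_lit 231) (nat_lit 256)))))))) (n (nat_lit 258) (b (l (nat_lit 4) (nat_lit 208) (nat_lit 208)) (l (nat_lit 3) (nat_lit 257) (nat_lit 257))))) (n (nat_lit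 234) (b (b (n (nat_lit 236) (b (n (nat_lit 209) (b (n (nat_lit 208) (b (l (nat_lit 3) (nat_lit 207) (nat_lit 207)) (l (nat_lit 3) (nat_lit 208) (nat_lit 237)))) (l (nat_lit 7) (nat_lit 209) (nat_lit 260)))) (n (nat_lit 211) (b (l (nat_lit 1) (nat_lit 208) (nat_lit 212)) (l (nat_lit 4) (nat_lit 211) (nat_lit 261)))))) (n (nat_lit 211) (b (b (n (nat_lit 210) (b (n (nat_lit 212) (b (l (nat_lit 2) (nat_lit 208) (nat_lit 209)) (l (nat_lit 2) (nat_lit 209) (nat_lit 213)))) (l (nat_lit 1) (nat_lit 207) (nat_lit 232)))) (n (nat_lit 207) (b (n (nat_lit 236) (b (l (nat_lit 6) (nat_lit 210) (nat_lit 261)) (l (nat_lit 3) (nat_lit 207) (nat_lit 208)))) (n (nat_lit 232) (b (l (nat_lit 3) (nat_lit 206) (nat_lit 206)) (l (nat_lit 1) (nat_lit 207) (nat_lit 210))))))) (n (nat_lit 236) (b (l (nat_lit 6) (nat_lit 210) (nat_lit 261)) (l (nat_lit 1) (nat_lit 208) (nat_lit 212))))))) (b (n (nat_lit 260) (b (l (nat_lit 7) (nat_lit 209) (nat_lit 209)) (l (nat_lit 6) (nat_lit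 209) (nat_lit 210)))) (n (nat_lit 211) (b (n (nat_lit 236) (b (l (nat_lit 1) (nat_lit 208) (nat_lit 212)) (l (nat_lit 4) (nat_lit 211) (nat_lit 261)))) (n (nat_lit 210) (b (l (nat_lit 1) (nat_lit 207) (nat_lit 232)) (l (nat_lit 6) (nat_lit 209) (nat_lit 260))))))))))) (l (nat_lit 2) (nat_lit 284) (nat_lit 288)))))))) (n (nat_lit 286) (b (n (nat_lit 236) (b (b (n (nat_lit 211) (b (l (nat_lit 5) (nat_lit 210) (nat_lit 260)) (l (nat_lit 6) (nat_lit 210) (nat_lit 261)))) (n (nat_lit 258) (b (n (nat_lit 234) (b (n (nat_lit 257) (b (l (nat_lit 3) (nat_lit 257) (nat_lit 283)) (l (nat_lit 2) (nat_lit 232) (nat_lit 233)))) (n (nat_lit 260) (b (l (nat_lit 5) (nat_lit 210) (nat_lit 211)) (l (nat_lit 7) (nat_lit 209) (nat_lit 209)))))) (l (nat_lit 3) (nat_lit 258) (nat_lit 259))))) (b (n (nat_lit 258) (b (n (nat_lit 233) (b (b (n (nat_lit 283) (b (l (nat_lit 4) (nat_lit 208) (nat_lit 208)) (l (nat_lit 3) (nat_lit 257) (nat_lit 257)))) (n (nat_lit 234) (b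 (n (nat_lit 211) (b (l (nat_lit 1) (nat_lit 208) (nat_lit 212)) (l (nat_lit 6) (nat_lit 210) (nat_lit 261)))) (l (nat_lit 2) (nat_lit 232) (nat_lit 257))))) (n (nat_lit 234) (b (n (nat_lit 211) (b (l (nat_lit 1) (nat_lit 208) (nat_lit 212)) (l (nat_lit 6) (nat_lit 210) (nat_lit 261)))) (n (nat_lit 208) (b (l (nat_lit 3) (nat_lit 207) (nat_lit 207)) (l (nat_lit 4) (nat_lit 208) (nat_lit 283)))))))) (l (nat_lit 3) (nat_lit 258) (nat_lit 259)))) (n (nat_lit 234) (b (b (n (nat_lit 209) (b (l (nat_lit 7) (nat_lit 209) (nat_lit 260)) (l (nat_lit 4) (nat_lit 209) (nat_lit 259)))) (n (nat_lit 233) (b (b (n (nat_lit 232) (b (n (nat_lit 257) (b (l (nat_lit 2) (nat_lit 232) (nat_lit 258)) (l (nat_lit 2) (nat_lit 231) (nat_lit 256)))) (n (nat_lit 260) (b (l (nat_lit 7) (nat_lit 209) (nat_lit 209)) (l (nat_lit 0) (nat_lit 232) (nat_lit 261)))))) (n (nat_lit 208) (b (n (nat_lit 258) (b (l (nat_lit 4) (nat_lit 208) (nat_lit 283)) (l (nat_lit 2) (nat_lit 232)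 (nat_lit 257)))) (l (nat_lit 3) (nat_lit 207) (nat_lit 207))))) (n (nat_lit 209) (b (n (nat_lit 208) (b (l (nat_lit 3) (nat_lit 207) (nat_lit 207)) (l (nat_lit 3) (nat_lit 208) (nat_lit 237)))) (l (nat_lit 7) (nat_lit 209) (nat_lit 260))))))) (n (nat_lit 258) (b (n (nat_lit 257) (b (l (nat_lit 3) (nat_lit 257) (nat_lit 283)) (l (nat_lit 2) (nat_lit 232) (nat_lit 233)))) (l (nat_lit 3) (nat_lit 258) (nat_lit 259))))))))) (l (nat_lit 2) (nat_lit 284) (nat_lit 288))))))
    envOK_nil (by decide +kernel)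

theorem p12544 : Fam (nat_lit 10) (nat_lit 11472586898460146118368872329524132385628592549633137787090834071024862482669329398774917758976) (nat_lit 24626254900233995088760565934322125716311136085709274059754411368018626259022912163960305305968551814753121485193216) (nat_lit 24626254900233995088760565934322125716311136085709274059754411368018626259022912163960305305968551814753121485193216) :=
  chk_sound (Env.cons (nat_lit 9) (nat_lit 11472586960625550669592202598946913403981197562190156636759298751082859594314266525341589700608) (nat_lit 11472587609476967967887769047013575002409483039008403910133444978082148020147600700506613219328) Env.nil)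
    (n (nat_lit 285) (b (b (r (nat_lit 0)) (n (nat_lit 286) (b (l (nat_lit 2) (nat_lit 284) (nat_lit 288)) (l (nat_lit 2) (nat_lit 283) (nat_lit 308))))) (n (nat_lit 282) (b (b (n (nat_lit 283) (b (n (nat_lit 260) (b (n (nat_lit 235) (b (l (nat_lit 6) (nat_lit 209) (nat_lit 210)) (l (nat_lit 6) (nat_lit 234) (nat_lit 334)))) (l (nat_lit 1) (nat_lit 257) (nat_lit 261)))) (n (nat_lit 307) (b (n (nat_lit 332) (b (b (n (nat_lit 258) (b (n (nat_lit 308) (b (l (nat_lit 2) (nat_lit 306) (nat_lit 331)) (l (nat_lit 6) (nat_lit 232) (nat_lit 233)))) (l (nat_lit 5) (nat_lit 257) (nat_lit 357)))) (n (nat_lit 257) (b (n (nat_lit 331) (b (l (nat_lit 2) (nat_lit 306) (nat_lit 308)) (l (nat_lit 6) (nat_lit 256) (nat_lit 356)))) (l (nat_lit 3) (nat_lit 256) (nat_lit 256))))) (n (nat_lit 257) (b (n (nat_lit 258) (b (l (nat_lit 5) (nat_lit 232) (nat_lit 233)) (l (nat_lit 5) (nat_lit 257) (nat_lit 357)))) (l (nat_lit 3) (nat_lit 256) (nat_lit 256)))))) (l (nat_lit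 2) (nat_lit 281) (nat_lit 306)))))) (n (nat_lit 307) (b (b (n (nat_lit 308) (b (n (nat_lit 332) (b (n (nat_lit 257) (b (n (nat_lit 256) (b (n (nat_lit 258) (b (l (nat_lit 5) (nat_lit 232) (nat_lit 233)) (l (nat_lit 0) (nat_lit 256) (nat_lit 259)))) (l (nat_lit 7) (nat_lit 231) (nat_lit 231)))) (n (nat_lit 333) (b (l (nat_lit 4) (nat_lit 232) (nat_lit 232)) (l (nat_lit 4) (nat_lit 257) (nat_lit 358)))))) (l (nat_lit 2) (nat_lit 306) (nat_lit 331)))) (l (nat_lit 3) (nat_lit 281) (nat_lit 281)))) (n (nat_lit 308) (b (n (nat_lit 332) (b (n (nat_lit 257) (b (n (nat_lit 256) (b (n (nat_lit 258) (b (l (nat_lit 5) (nat_lit 232) (nat_lit 233)) (l (nat_lit 0) (nat_lit 256) (nat_lit 259)))) (l (nat_lit 7) (nat_lit 231) (nat_lit 231)))) (n (nat_lit 333) (b (l (nat_lit 4) (nat_lit 232) (nat_lit 232)) (l (nat_lit 4) (nat_lit 257) (nat_lit 358)))))) (l (nat_lit 2) (nat_lit 306) (nat_lit 331)))) (l (nat_lit 1) (nat_lit 281) (nat_lit 306))))) (b (n (nat_lit 308)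 (b (l (nat_lit 1) (nat_lit 281) (nat_lit 306)) (l (nat_lit 3) (nat_lit 281) (nat_lit 281)))) (n (nat_lit 257) (b (b (b (n (nat_lit 258) (b (n (nat_lit 260) (b (n (nat_lit 235) (b (l (nat_lit 6) (nat_lit 209) (nat_lit 210)) (l (nat_lit 6) (nat_lit 234) (nat_lit 334)))) (n (nat_lit 259) (b (l (nat_lit 2) (nat_lit 256) (nat_lit 281)) (l (nat_lit 0) (nat_lit 256) (nat_lit 256)))))) (n (nat_lit 233) (b (n (nat_lit 208) (b (l (nat_lit 6) (nat_lit 182) (nat_lit 183)) (l (nat_lit 5) (nat_lit 207) (nat_lit 232)))) (l (nat_lit 5) (nat_lit 232) (nat_lit 332)))))) (n (nat_lit 232) (b (b (n (nat_lit 332) (b (n (nat_lit 233) (b (l (nat_lit 5) (nat_lit 207) (nat_lit 208)) (l (nat_lit 5) (nat_lit 232) (nat_lit 258)))) (n (nat_lit 331) (b (l (nat_lit 6) (nat_lit 231) (nat_lit 306)) (l (nat_lit 6) (nat_lit 256) (nat_lit 356)))))) (n (nat_lit 207) (b (n (nat_lit 306) (b (l (nat_lit 6) (nat_lit 231) (nat_lit 331)) (l (nat_lit 6) (nat_lit 206) (nat_lit 281)))) (n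 (nat_lit 206) (b (l (nat_lit 7) (nat_lit 181) (nat_lit 181)) (l (nat_lit 7) (nat_lit 206) (nat_lit 231))))))) (n (nat_lit 207) (b (n (nat_lit 208) (b (l (nat_lit 5) (nat_lit 207) (nat_lit 233)) (l (nat_lit 5) (nat_lit 182) (nat_lit 183)))) (n (nat_lit 206) (b (l (nat_lit 7) (nat_lit 181) (nat_lit 181)) (l (nat_lit 7) (nat_lit 206) (nat_lit 231))))))))) (b (n (nat_lit 332) (b (b (n (nat_lit 357) (b (n (nat_lit 356) (b (l (nat_lit 6) (nat_lit 256) (nat_lit 331)) (l (nat_lit 6) (nat_lit 281) (nat_lit 381)))) (n (nat_lit 358) (b (l (nat_lit 4) (nat_lit 282) (nat_lit 383)) (l (nat_lit 4) (nat_lit 257) (nat_lit 333)))))) (n (nat_lit 232) (b (n (nat_lit 231) (b (l (nat_lit 7) (nat_lit 231) (nat_lit 256)) (l (nat_lit 7) (nat_lit 206) (nat_lit 206)))) (n (nat_lit 331) (b (l (nat_lit 6) (nat_lit 231) (nat_lit 306)) (l (nat_lit 6) (nat_lit 256) (nat_lit 356))))))) (n (nat_lit 357) (b (n (nat_lit 358) (b (l (nat_lit 4) (nat_lit 282) (nat_lit 383)) (l (nat_lit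 4) (nat_lit 257) (nat_lit 333)))) (n (nat_lit 256) (b (l (nat_lit 7) (nat_lit 256) (nat_lit 281)) (l (nat_lit 7) (nat_lit 231) (nat_lit 231)))))))) (n (nat_lit 332) (b (n (nat_lit 256) (b (n (nat_lit 258) (b (l (nat_lit 5) (nat_lit 232) (nat_lit 233)) (l (nat_lit 0) (nat_lit 256) (nat_lit 259)))) (l (nat_lit 7) (nat_lit 231) (nat_lit 231)))) (n (nat_lit 357) (b (n (nat_lit 356) (b (l (nat_lit 6) (nat_lit 256) (nat_lit 331)) (l (nat_lit 6) (nat_lit 281) (nat_lit 381)))) (n (nat_lit 358) (b (l (nat_lit 4) (nat_lit 282) (nat_lit 383)) (l (nat_lit 4) (nat_lit 257) (nat_lit 333)))))))))) (n (nat_lit 232) (b (n (nat_lit 207) (b (n (nat_lit 306) (b (l (nat_lit 6) (nat_lit 231) (nat_lit 331)) (l (nat_lit 6) (nat_lit 206) (nat_lit 281)))) (n (nat_lit 206) (b (l (nat_lit 7) (nat_lit 181) (nat_lit 181)) (l (nat_lit 7) (nat_lit 206) (nat_lit 231)))))) (n (nat_lit 235) (b (b (n (nat_lit 234) (b (n (nat_lit 259) (b (l (nat_lit 5) (nat_lit 209) (nat_lit 210))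 (l (nat_lit 4) (nat_lit 209) (nat_lit 209)))) (n (nat_lit 233) (b (l (nat_lit 2) (nat_lit 231) (nat_lit 256)) (l (nat_lit 5) (nat_lit 207) (nat_lit 208)))))) (n (nat_lit 260) (b (l (nat_lit 6) (nat_lit 234) (nat_lit 334)) (l (nat_lit 6) (nat_lit 209) (nat_lit 210))))) (n (nat_lit 234) (b (n (nat_lit 260) (b (l (nat_lit 6) (nat_lit 234) (nat_lit 334)) (l (nat_lit 7) (nat_lit 209) (nat_lit 209)))) (n (nat_lit 233) (b (l (nat_lit 2) (nat_lit 231) (nat_lit 256)) (l (nat_lit 5) (nat_lit 207) (nat_lit 208)))))))))))))))) (b (n (nat_lit 260) (b (n (nat_lit 235) (b (l (nat_lit 6) (nat_lit 209) (nat_lit 210)) (l (nat_lit 6) (nat_lit 234) (nat_lit 334)))) (n (nat_lit 283) (b (l (nat_lit 1) (nat_lit 257) (nat_lit 261)) (l (nat_lit 0) (nat_lit 281) (nat_lit 281)))))) (n (nat_lit 307) (b (b (n (nat_lit 306) (b (l (nat_lit 1) (nat_lit 281) (nat_lit 308)) (l (nat_lit 2) (nat_lit 281) (nat_lit 283)))) (n (nat_lit 308) (b (l (nat_lit 1) (nat_lit 281) (nat_lit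 306)) (l (nat_lit 3) (nat_lit 281) (nat_lit 281))))) (b (n (nat_lit 283) (b (l (nat_lit 2) (nat_lit 281) (nat_lit 306)) (l (nat_lit 0) (nat_lit 281) (nat_lit 281)))) (n (nat_lit 281) (b (l (nat_lit 3) (nat_lit 281) (nat_lit 308)) (l (nat_lit 0) (nat_lit 281) (nat_lit 283))))))))))))
    (envOK_cons p12508 envOK_nil) (by decide +kernel)

theorem p12560 : Fam (nat_lit 6) (nat_lit 3911109082332888854538332005423853696512894942408224957429947747767661734501223616692956954624) (nat_lit 22181358709814498736318810971576354495096176825412007264839936433298238058045016678538477960690220023112477538529223079635005210624) (nat_lit 22181358709814498736318810971576354495096176825412007264839936433298238058045016678538477960690220023112477538529223079635005210624) :=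
  chk_sound Env.nil
    (n (nat_lit 332) (b (n (nat_lit 357) (b (b (n (nat_lit 382) (b (n (nat_lit 381) (b (l (nat_lit 6) (nat_lit 281) (nat_lit 356)) (l (nat_lit 6) (nat_lit 306) (nat_lit 406)))) (n (nat_lit 383) (b (l (nat_lit 4) (nat_lit 307) (nat_lit 408)) (l (nat_lit 4) (nat_lit 282) (nat_lit 358)))))) (n (nat_lit 382) (b (n (nat_lit 407) (b (n (nat_lit 408) (b (l (nat_lit 4) (nat_lit 332) (nat_lit 433)) (l (nat_lit 4) (nat_lit 307) (nat_lit 383)))) (l (nat_lit 5) (nat_lit 307) (nat_lit 333)))) (n (nat_lit 381) (b (l (nat_lit 6) (nat_lit 281) (nat_lit 356)) (l (nat_lit 6) (nat_lit 306) (nat_lit 406))))))) (b (n (nat_lit 257) (b (n (nat_lit 232) (b (n (nat_lit 233) (b (l (nat_lit 5) (nat_lit 207) (nat_lit 208)) (l (nat_lit 5) (nat_lit 232) (nat_lit 258)))) (n (nat_lit 231) (b (l (nat_lit 7) (nat_lit 231) (nat_lit 256)) (l (nat_lit 7) (nat_lit 206) (nat_lit 206)))))) (n (nat_lit 382) (b (n (nat_lit 333) (b (l (nat_lit 4) (nat_lit 257) (nat_lit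 358)) (l (nat_lit 5) (nat_lit 307) (nat_lit 407)))) (n (nat_lit 381) (b (l (nat_lit 6) (nat_lit 281) (nat_lit 356)) (l (nat_lit 6) (nat_lit 306) (nat_lit 406)))))))) (n (nat_lit 257) (b (n (nat_lit 232) (b (n (nat_lit 233) (b (l (nat_lit 5) (nat_lit 207) (nat_lit 208)) (l (nat_lit 5) (nat_lit 232) (nat_lit 258)))) (n (nat_lit 231) (b (l (nat_lit 7) (nat_lit 231) (nat_lit 256)) (l (nat_lit 7) (nat_lit 206) (nat_lit 206)))))) (n (nat_lit 358) (b (l (nat_lit 4) (nat_lit 282) (nat_lit 383)) (l (nat_lit 4) (nat_lit 257) (nat_lit 333))))))))) (l (nat_lit 2) (nat_lit 306) (nat_lit 331))))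
    envOK_nil (by decide +kernel)

theorem p12617 : Fam (nat_lit 11) (nat_lit 2348542582773836356777019990880446040694472348227757832485300148995113510317398912780377837087018950754041856) (nat_lit 22181358709814774550365708546839997209945611531269329660663310716465261481309150830651679401010508149720270835663817904816140582912) (nat_lit 22181358709814774550365708546839997209945611531269329660663310716465261481309150830651679401010508149720270835663817904816140582912) :=
  chk_sound (Env.cons (nat_lit 6) (nat_lit 3911109082332888854538332005423853696512894942408224957429947747767661734501223616692956954624) (nat_lit 22181358709814498736318810971576354495096176825412007264839936433298238058045016678538477960690220023112477538529223079635005210624) Env.nil)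
    (n (nat_lit 282) (b (b (b (n (nat_lit 307) (b (b (n (nat_lit 308) (b (r (nat_lit 0)) (l (nat_lit 3) (nat_lit 281) (nat_lit 281)))) (n (nat_lit 308) (b (n (nat_lit 285) (b (l (nat_lit 1) (nat_lit 281) (nat_lit 306)) (l (nat_lit 2) (nat_lit 283) (nat_lit 286)))) (r (nat_lit 0))))) (b (n (nat_lit 308) (b (n (nat_lit 285) (b (l (nat_lit 1) (nat_lit 281) (nat_lit 306)) (l (nat_lit 2) (nat_lit 283) (nat_lit 286)))) (l (nat_lit 3) (nat_lit 281) (nat_lit 281)))) (n (nat_lit 332) (b (b (b (n (nat_lit 357) (b (n (nat_lit 382) (b (n (nat_lit 381) (b (l (nat_lit 6) (nat_lit 281) (nat_lit 356)) (l (nat_lit 6) (nat_lit 306) (nat_lit 406)))) (n (nat_lit 281) (b (l (nat_lit 7) (nat_lit 256) (nat_lit 256)) (l (nat_lit 7) (nat_lit 281) (nat_lit 306)))))) (n (nat_lit 358) (b (n (nat_lit 359) (b (n (nat_lit 385) (b (l (nat_lit 4) (nat_lit 284) (nat_lit 334)) (l (nat_lit 0) (nat_lit 357) (nat_lit 386)))) (l (nat_lit 3) (nat_lit 331) (nat_lit 331)))) (l (nat_lit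 4) (nat_lit 282) (nat_lit 383)))))) (n (nat_lit 257) (b (n (nat_lit 232) (b (n (nat_lit 233) (b (l (nat_lit 5) (nat_lit 207) (nat_lit 208)) (l (nat_lit 5) (nat_lit 232) (nat_lit 258)))) (n (nat_lit 231) (b (l (nat_lit 7) (nat_lit 231) (nat_lit 256)) (l (nat_lit 7) (nat_lit 206) (nat_lit 206)))))) (n (nat_lit 334) (b (n (nat_lit 333) (b (l (nat_lit 1) (nat_lit 306) (nat_lit 331)) (l (nat_lit 4) (nat_lit 257) (nat_lit 358)))) (n (nat_lit 359) (b (n (nat_lit 285) (b (l (nat_lit 5) (nat_lit 284) (nat_lit 384)) (l (nat_lit 5) (nat_lit 259) (nat_lit 260)))) (l (nat_lit 4) (nat_lit 284) (nat_lit 385))))))))) (b (n (nat_lit 257) (b (b (n (nat_lit 357) (b (n (nat_lit 256) (b (l (nat_lit 7) (nat_lit 256) (nat_lit 281)) (l (nat_lit 7) (nat_lit 231) (nat_lit 231)))) (n (nat_lit 356) (b (l (nat_lit 6) (nat_lit 256) (nat_lit 331)) (l (nat_lit 6) (nat_lit 281) (nat_lit 381)))))) (n (nat_lit 232) (b (n (nat_lit 331) (b (l (nat_lit 6) (nat_lit 231) (nat_lit 306))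 (l (nat_lit 6) (nat_lit 256) (nat_lit 356)))) (n (nat_lit 233) (b (l (nat_lit 5) (nat_lit 207) (nat_lit 208)) (l (nat_lit 5) (nat_lit 232) (nat_lit 258))))))) (n (nat_lit 232) (b (n (nat_lit 233) (b (l (nat_lit 5) (nat_lit 207) (nat_lit 208)) (l (nat_lit 5) (nat_lit 232) (nat_lit 258)))) (n (nat_lit 231) (b (l (nat_lit 7) (nat_lit 231) (nat_lit 256)) (l (nat_lit 7) (nat_lit 206) (nat_lit 206)))))))) (n (nat_lit 357) (b (b (n (nat_lit 382) (b (n (nat_lit 381) (b (l (nat_lit 6) (nat_lit 281) (nat_lit 356)) (l (nat_lit 6) (nat_lit 306) (nat_lit 406)))) (n (nat_lit 383) (b (l (nat_lit 4) (nat_lit 307) (nat_lit 408)) (l (nat_lit 4) (nat_lit 282) (nat_lit 358)))))) (n (nat_lit 257) (b (n (nat_lit 358) (b (l (nat_lit 4) (nat_lit 282) (nat_lit 383)) (l (nat_lit 4) (nat_lit 257) (nat_lit 333)))) (n (nat_lit 256) (b (l (nat_lit 7) (nat_lit 256) (nat_lit 281)) (l (nat_lit 7) (nat_lit 231) (nat_lit 231))))))) (n (nat_lit 382) (b (n (nat_lit 381) (b (l (nat_lit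 6) (nat_lit 281) (nat_lit 356)) (l (nat_lit 6) (nat_lit 306) (nat_lit 406)))) (n (nat_lit 281) (b (l (nat_lit 7) (nat_lit 256) (nat_lit 256)) (l (nat_lit 7) (nat_lit 281) (nat_lit 306)))))))))) (n (nat_lit 357) (b (b (n (nat_lit 382) (b (n (nat_lit 407) (b (n (nat_lit 408) (b (l (nat_lit 4) (nat_lit 332) (nat_lit 433)) (l (nat_lit 4) (nat_lit 307) (nat_lit 383)))) (n (nat_lit 306) (b (l (nat_lit 7) (nat_lit 306) (nat_lit 331)) (l (nat_lit 7) (nat_lit 281) (nat_lit 281)))))) (n (nat_lit 381) (b (l (nat_lit 6) (nat_lit 281) (nat_lit 356)) (l (nat_lit 6) (nat_lit 306) (nat_lit 406)))))) (n (nat_lit 358) (b (n (nat_lit 359) (b (n (nat_lit 385) (b (l (nat_lit 4) (nat_lit 284) (nat_lit 334)) (l (nat_lit 0) (nat_lit 357) (nat_lit 386)))) (l (nat_lit 3) (nat_lit 331) (nat_lit 331)))) (l (nat_lit 4) (nat_lit 282) (nat_lit 383))))) (b (n (nat_lit 382) (b (n (nat_lit 381) (b (l (nat_lit 6) (nat_lit 281) (nat_lit 356)) (l (nat_lit 6) (nat_lit 306) (nat_lit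 406)))) (n (nat_lit 383) (b (l (nat_lit 4) (nat_lit 307) (nat_lit 408)) (l (nat_lit 4) (nat_lit 282) (nat_lit 358)))))) (n (nat_lit 331) (b (n (nat_lit 356) (b (l (nat_lit 6) (nat_lit 256) (nat_lit 257)) (l (nat_lit 6) (nat_lit 281) (nat_lit 381)))) (n (nat_lit 334) (b (n (nat_lit 359) (b (l (nat_lit 4) (nat_lit 284) (nat_lit 385)) (l (nat_lit 3) (nat_lit 331) (nat_lit 358)))) (l (nat_lit 1) (nat_lit 306) (nat_lit 333)))))))))))))) (n (nat_lit 281) (b (n (nat_lit 307) (b (n (nat_lit 332) (b (b (n (nat_lit 256) (b (n (nat_lit 231) (b (l (nat_lit 4) (nat_lit 231) (nat_lit 306)) (l (nat_lit 4) (nat_lit 206) (nat_lit 206)))) (l (nat_lit 7) (nat_lit 256) (nat_lit 357)))) (n (nat_lit 357) (b (b (n (nat_lit 257) (b (n (nat_lit 358) (b (l (nat_lit 4) (nat_lit 282) (nat_lit 383)) (l (nat_lit 4) (nat_lit 257) (nat_lit 333)))) (n (nat_lit 356) (b (l (nat_lit 6) (nat_lit 256) (nat_lit 331)) (l (nat_lit 6) (nat_lit 281) (nat_lit 381)))))) (n (nat_lit 382)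 (b (n (nat_lit 383) (b (l (nat_lit 4) (nat_lit 307) (nat_lit 408)) (l (nat_lit 4) (nat_lit 282) (nat_lit 358)))) (l (nat_lit 7) (nat_lit 281) (nat_lit 306))))) (n (nat_lit 382) (b (n (nat_lit 381) (b (l (nat_lit 6) (nat_lit 281) (nat_lit 356)) (l (nat_lit 6) (nat_lit 306) (nat_lit 406)))) (l (nat_lit 7) (nat_lit 281) (nat_lit 306))))))) (b (n (nat_lit 256) (b (n (nat_lit 231) (b (l (nat_lit 4) (nat_lit 206) (nat_lit 206)) (l (nat_lit 7) (nat_lit 231) (nat_lit 257)))) (l (nat_lit 7) (nat_lit 256) (nat_lit 357)))) (n (nat_lit 257) (b (b (n (nat_lit 232) (b (n (nat_lit 331) (b (l (nat_lit 6) (nat_lit 231) (nat_lit 306)) (l (nat_lit 6) (nat_lit 256) (nat_lit 356)))) (n (nat_lit 233) (b (l (nat_lit 5) (nat_lit 207) (nat_lit 208)) (l (nat_lit 5) (nat_lit 232) (nat_lit 258)))))) (n (nat_lit 232) (b (n (nat_lit 233) (b (l (nat_lit 5) (nat_lit 207) (nat_lit 208)) (l (nat_lit 5) (nat_lit 232) (nat_lit 258)))) (n (nat_lit 231) (b (l (nat_lit 7) (nat_lit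 231) (nat_lit 256)) (l (nat_lit 7) (nat_lit 206) (nat_lit 206))))))) (b (n (nat_lit 232) (b (n (nat_lit 231) (b (l (nat_lit 7) (nat_lit 231) (nat_lit 256)) (l (nat_lit 7) (nat_lit 206) (nat_lit 206)))) (n (nat_lit 331) (b (l (nat_lit 6) (nat_lit 231) (nat_lit 306)) (l (nat_lit 6) (nat_lit 256) (nat_lit 356)))))) (n (nat_lit 256) (b (n (nat_lit 258) (b (n (nat_lit 255) (b (n (nat_lit 331) (b (n (nat_lit 230) (b (l (nat_lit 3) (nat_lit 229) (nat_lit 229)) (l (nat_lit 7) (nat_lit 230) (nat_lit 306)))) (l (nat_lit 6) (nat_lit 256) (nat_lit 356)))) (n (nat_lit 279) (b (n (nat_lit 254) (b (l (nat_lit 0) (nat_lit 253) (nat_lit 253)) (l (nat_lit 2) (nat_lit 253) (nat_lit 278)))) (l (nat_lit 2) (nat_lit 254) (nat_lit 280)))))) (l (nat_lit 5) (nat_lit 232) (nat_lit 233)))) (l (nat_lit 7) (nat_lit 231) (nat_lit 231)))))))))) (l (nat_lit 3) (nat_lit 281) (nat_lit 308)))) (l (nat_lit 0) (nat_lit 281) (nat_lit 283))))) (b (n (nat_lit 283) (b (n (nat_lit 285)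 (b (n (nat_lit 286) (b (n (nat_lit 257) (b (l (nat_lit 3) (nat_lit 256) (nat_lit 256)) (l (nat_lit 3) (nat_lit 257) (nat_lit 258)))) (l (nat_lit 2) (nat_lit 284) (nat_lit 288)))) (n (nat_lit 260) (b (n (nat_lit 235) (b (l (nat_lit 6) (nat_lit 209) (nat_lit 210)) (l (nat_lit 6) (nat_lit 234) (nat_lit 334)))) (l (nat_lit 1) (nat_lit 257) (nat_lit 261)))))) (l (nat_lit 0) (nat_lit 281) (nat_lit 281)))) (n (nat_lit 285) (b (n (nat_lit 260) (b (n (nat_lit 235) (b (l (nat_lit 6) (nat_lit 209) (nat_lit 210)) (l (nat_lit 6) (nat_lit 234) (nat_lit 334)))) (n (nat_lit 283) (b (l (nat_lit 1) (nat_lit 257) (nat_lit 261)) (l (nat_lit 0) (nat_lit 281) (nat_lit 281)))))) (n (nat_lit 286) (b (l (nat_lit 2) (nat_lit 284) (nat_lit 288)) (l (nat_lit 2) (nat_lit 283) (nat_lit 308)))))))) (n (nat_lit 285) (b (b (n (nat_lit 286) (b (l (nat_lit 2) (nat_lit 284) (nat_lit 288)) (l (nat_lit 2) (nat_lit 283) (nat_lit 308)))) (n (nat_lit 283) (b (n (nat_lit 286) (b (n (nat_lit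 257) (b (l (nat_lit 3) (nat_lit 256) (nat_lit 256)) (l (nat_lit 3) (nat_lit 257) (nat_lit 258)))) (l (nat_lit 2) (nat_lit 284) (nat_lit 288)))) (n (nat_lit 260) (b (n (nat_lit 235) (b (l (nat_lit 6) (nat_lit 209) (nat_lit 210)) (l (nat_lit 6) (nat_lit 234) (nat_lit 334)))) (l (nat_lit 1) (nat_lit 257) (nat_lit 261))))))) (n (nat_lit 283) (b (n (nat_lit 260) (b (n (nat_lit 235) (b (l (nat_lit 6) (nat_lit 209) (nat_lit 210)) (l (nat_lit 6) (nat_lit 234) (nat_lit 334)))) (l (nat_lit 1) (nat_lit 257) (nat_lit 261)))) (n (nat_lit 307) (b (n (nat_lit 332) (b (b (n (nat_lit 258) (b (n (nat_lit 308) (b (l (nat_lit 2) (nat_lit 306) (nat_lit 331)) (l (nat_lit 6) (nat_lit 232) (nat_lit 233)))) (l (nat_lit 5) (nat_lit 257) (nat_lit 357)))) (n (nat_lit 257) (b (n (nat_lit 331) (b (l (nat_lit 2) (nat_lit 306) (nat_lit 308)) (l (nat_lit 6) (nat_lit 256) (nat_lit 356)))) (l (nat_lit 3) (nat_lit 256) (nat_lit 256))))) (n (nat_lit 257) (b (n (nat_lit 258) (b (l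 (nat_lit 5) (nat_lit 232) (nat_lit 233)) (l (nat_lit 5) (nat_lit 257) (nat_lit 357)))) (l (nat_lit 3) (nat_lit 256) (nat_lit 256)))))) (l (nat_lit 2) (nat_lit 281) (nat_lit 306))))))))))
    (envOK_cons p12560 envOK_nil) (by decide +kernel)

theorem p12711 : Fam (nat_lit 12) (nat_lit 2348542582773836356777019990880446040694472348227757832485300148995113510317398912780377837087018950754041856) (nat_lit 826320273741239482872394811584233384281561020697324964466015251215782006297896730966183014749832080631581334923335604109312) (nat_lit 826320273741239482872394811584233384281561020697324964466015251215782006297896730966183014749832080631581334923335604109312) :=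
  chk_sound Env.nil
    (n (nat_lit 259) (b (b (b (n (nat_lit 358) (b (b (n (nat_lit 334) (b (n (nat_lit 285) (b (n (nat_lit 286) (b (l (nat_lit 2) (nat_lit 284) (nat_lit 288)) (l (nat_lit 2) (nat_lit 283) (nat_lit 308)))) (n (nat_lit 359) (b (l (nat_lit 5) (nat_lit 284) (nat_lit 384)) (l (nat_lit 4) (nat_lit 284) (nat_lit 385)))))) (l (nat_lit 6) (nat_lit 258) (nat_lit 333)))) (n (nat_lit 334) (b (n (nat_lit 359) (b (l (nat_lit 4) (nat_lit 284) (nat_lit 385)) (l (nat_lit 6) (nat_lit 283) (nat_lit 383)))) (l (nat_lit 6) (nat_lit 258) (nat_lit 333))))) (b (n (nat_lit 308) (b (b (n (nat_lit 307) (b (n (nat_lit 285) (b (l (nat_lit 1) (nat_lit 281) (nat_lit 306)) (l (nat_lit 2) (nat_lit 283) (nat_lit 286)))) (n (nat_lit 282) (b (n (nat_lit 333) (b (n (nat_lit 332) (b (l (nat_lit 4) (nat_lit 257) (nat_lit 257)) (l (nat_lit 2) (nat_lit 306) (nat_lit 331)))) (l (nat_lit 7) (nat_lit 282) (nat_lit 383)))) (l (nat_lit 3) (nat_lit 281) (nat_lit 281))))))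 (n (nat_lit 307) (b (n (nat_lit 285) (b (l (nat_lit 1) (nat_lit 281) (nat_lit 306)) (l (nat_lit 2) (nat_lit 283) (nat_lit 286)))) (n (nat_lit 282) (b (n (nat_lit 332) (b (n (nat_lit 357) (b (n (nat_lit 382) (b (n (nat_lit 381) (b (l (nat_lit 6) (nat_lit 281) (nat_lit 356)) (l (nat_lit 6) (nat_lit 306) (nat_lit 406)))) (l (nat_lit 5) (nat_lit 282) (nat_lit 283)))) (l (nat_lit 4) (nat_lit 282) (nat_lit 383)))) (l (nat_lit 2) (nat_lit 306) (nat_lit 331)))) (l (nat_lit 3) (nat_lit 281) (nat_lit 281))))))) (b (n (nat_lit 333) (b (l (nat_lit 5) (nat_lit 258) (nat_lit 283)) (l (nat_lit 5) (nat_lit 283) (nat_lit 383)))) (n (nat_lit 307) (b (n (nat_lit 285) (b (l (nat_lit 1) (nat_lit 281) (nat_lit 306)) (l (nat_lit 2) (nat_lit 283) (nat_lit 286)))) (n (nat_lit 282) (b (n (nat_lit 333) (b (n (nat_lit 332) (b (l (nat_lit 4) (nat_lit 257) (nat_lit 257)) (l (nat_lit 2) (nat_lit 306) (nat_lit 331)))) (l (nat_lit 5) (nat_lit 258) (nat_lit 283)))) (l (nat_lit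 3) (nat_lit 281) (nat_lit 281))))))))) (n (nat_lit 359) (b (b (n (nat_lit 334) (b (n (nat_lit 285) (b (l (nat_lit 5) (nat_lit 284) (nat_lit 384)) (l (nat_lit 5) (nat_lit 259) (nat_lit 260)))) (l (nat_lit 4) (nat_lit 284) (nat_lit 385)))) (n (nat_lit 334) (b (n (nat_lit 260) (b (l (nat_lit 5) (nat_lit 234) (nat_lit 235)) (l (nat_lit 5) (nat_lit 259) (nat_lit 285)))) (l (nat_lit 6) (nat_lit 283) (nat_lit 383))))) (b (n (nat_lit 334) (b (l (nat_lit 4) (nat_lit 284) (nat_lit 385)) (l (nat_lit 6) (nat_lit 283) (nat_lit 383)))) (n (nat_lit 357) (b (b (n (nat_lit 356) (b (n (nat_lit 385) (b (l (nat_lit 0) (nat_lit 357) (nat_lit 386)) (l (nat_lit 0) (nat_lit 356) (nat_lit 384)))) (n (nat_lit 331) (b (l (nat_lit 3) (nat_lit 331) (nat_lit 332)) (l (nat_lit 3) (nat_lit 330) (nat_lit 330)))))) (n (nat_lit 356) (b (n (nat_lit 385) (b (l (nat_lit 0) (nat_lit 357) (nat_lit 386)) (l (nat_lit 0) (nat_lit 356) (nat_lit 384)))) (n (nat_lit 381) (b (l (nat_lit 2)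 (nat_lit 355) (nat_lit 380)) (l (nat_lit 2) (nat_lit 356) (nat_lit 382))))))) (n (nat_lit 382) (b (n (nat_lit 332) (b (n (nat_lit 307) (b (n (nat_lit 306) (b (n (nat_lit 308) (b (l (nat_lit 5) (nat_lit 282) (nat_lit 283)) (l (nat_lit 1) (nat_lit 281) (nat_lit 285)))) (l (nat_lit 7) (nat_lit 281) (nat_lit 281)))) (n (nat_lit 383) (b (l (nat_lit 4) (nat_lit 307) (nat_lit 408)) (l (nat_lit 4) (nat_lit 282) (nat_lit 282)))))) (l (nat_lit 3) (nat_lit 331) (nat_lit 331)))) (l (nat_lit 2) (nat_lit 356) (nat_lit 381)))))))))))) (n (nat_lit 334) (b (b (n (nat_lit 285) (b (n (nat_lit 286) (b (l (nat_lit 2) (nat_lit 284) (nat_lit 288)) (l (nat_lit 2) (nat_lit 283) (nat_lit 308)))) (n (nat_lit 359) (b (l (nat_lit 5) (nat_lit 284) (nat_lit 384)) (l (nat_lit 4) (nat_lit 284) (nat_lit 385)))))) (n (nat_lit 234) (b (n (nat_lit 209) (b (n (nat_lit 208) (b (l (nat_lit 7) (nat_lit 183) (nat_lit 183)) (l (nat_lit 7) (nat_lit 208) (nat_lit 233)))) (l (nat_lit 4) (nat_lit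 209) (nat_lit 285)))) (n (nat_lit 333) (b (l (nat_lit 6) (nat_lit 233) (nat_lit 308)) (l (nat_lit 6) (nat_lit 258) (nat_lit 358))))))) (n (nat_lit 359) (b (n (nat_lit 358) (b (l (nat_lit 6) (nat_lit 258) (nat_lit 333)) (l (nat_lit 6) (nat_lit 283) (nat_lit 383)))) (l (nat_lit 4) (nat_lit 284) (nat_lit 385))))))) (b (n (nat_lit 234) (b (b (n (nat_lit 209) (b (n (nat_lit 208) (b (l (nat_lit 7) (nat_lit 183) (nat_lit 183)) (l (nat_lit 7) (nat_lit 208) (nat_lit 233)))) (l (nat_lit 4) (nat_lit 209) (nat_lit 285)))) (n (nat_lit 285) (b (n (nat_lit 286) (b (l (nat_lit 2) (nat_lit 284) (nat_lit 288)) (l (nat_lit 2) (nat_lit 283) (nat_lit 308)))) (n (nat_lit 334) (b (n (nat_lit 359) (b (l (nat_lit 5) (nat_lit 284) (nat_lit 384)) (l (nat_lit 4) (nat_lit 284) (nat_lit 385)))) (n (nat_lit 235) (b (l (nat_lit 6) (nat_lit 234) (nat_lit 260)) (l (nat_lit 5) (nat_lit 209) (nat_lit 210))))))))) (n (nat_lit 209) (b (n (nat_lit 208) (b (l (nat_lit 7) (nat_lit 183)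 (nat_lit 183)) (l (nat_lit 7) (nat_lit 208) (nat_lit 233)))) (n (nat_lit 210) (b (l (nat_lit 5) (nat_lit 184) (nat_lit 185)) (l (nat_lit 5) (nat_lit 209) (nat_lit 235)))))))) (n (nat_lit 234) (b (n (nat_lit 334) (b (n (nat_lit 359) (b (n (nat_lit 358) (b (l (nat_lit 6) (nat_lit 258) (nat_lit 333)) (l (nat_lit 6) (nat_lit 283) (nat_lit 383)))) (l (nat_lit 4) (nat_lit 284) (nat_lit 385)))) (n (nat_lit 235) (b (l (nat_lit 5) (nat_lit 209) (nat_lit 210)) (l (nat_lit 5) (nat_lit 234) (nat_lit 260)))))) (n (nat_lit 209) (b (n (nat_lit 208) (b (l (nat_lit 7) (nat_lit 183) (nat_lit 183)) (l (nat_lit 7) (nat_lit 208) (nat_lit 233)))) (l (nat_lit 4) (nat_lit 209) (nat_lit 285)))))))) (b (n (nat_lit 234) (b (b (n (nat_lit 334) (b (n (nat_lit 235) (b (l (nat_lit 5) (nat_lit 209) (nat_lit 210)) (l (nat_lit 5) (nat_lit 234) (nat_lit 260)))) (n (nat_lit 333) (b (l (nat_lit 6) (nat_lit 233) (nat_lit 308)) (l (nat_lit 6) (nat_lit 258) (nat_lit 358)))))) (n (nat_lit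 209) (b (n (nat_lit 308) (b (l (nat_lit 6) (nat_lit 233) (nat_lit 333)) (l (nat_lit 6) (nat_lit 208) (nat_lit 283)))) (n (nat_lit 208) (b (l (nat_lit 7) (nat_lit 183) (nat_lit 183)) (l (nat_lit 7) (nat_lit 208) (nat_lit 233))))))) (n (nat_lit 209) (b (n (nat_lit 208) (b (l (nat_lit 7) (nat_lit 183) (nat_lit 183)) (l (nat_lit 7) (nat_lit 208) (nat_lit 233)))) (n (nat_lit 210) (b (l (nat_lit 5) (nat_lit 184) (nat_lit 185)) (l (nat_lit 5) (nat_lit 209) (nat_lit 235)))))))) (n (nat_lit 234) (b (b (n (nat_lit 209) (b (n (nat_lit 208) (b (l (nat_lit 7) (nat_lit 183) (nat_lit 183)) (l (nat_lit 7) (nat_lit 208) (nat_lit 233)))) (l (nat_lit 4) (nat_lit 209) (nat_lit 285)))) (n (nat_lit 209) (b (n (nat_lit 308) (b (l (nat_lit 6) (nat_lit 233) (nat_lit 333)) (l (nat_lit 6) (nat_lit 208) (nat_lit 283)))) (n (nat_lit 210) (b (l (nat_lit 5) (nat_lit 184) (nat_lit 185)) (l (nat_lit 5) (nat_lit 209) (nat_lit 235))))))) (n (nat_lit 308) (b (n (nat_lit 285) (b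 (n (nat_lit 235) (b (n (nat_lit 307) (b (n (nat_lit 233) (b (n (nat_lit 282) (b (n (nat_lit 232) (b (n (nat_lit 207) (b (n (nat_lit 257) (b (l (nat_lit 4) (nat_lit 207) (nat_lit 283)) (l (nat_lit 2) (nat_lit 231) (nat_lit 256)))) (l (nat_lit 3) (nat_lit 206) (nat_lit 206)))) (n (nat_lit 260) (b (l (nat_lit 0) (nat_lit 231) (nat_lit 231)) (l (nat_lit 0) (nat_lit 232) (nat_lit 261)))))) (l (nat_lit 3) (nat_lit 281) (nat_lit 281)))) (l (nat_lit 7) (nat_lit 208) (nat_lit 208)))) (l (nat_lit 1) (nat_lit 281) (nat_lit 306)))) (l (nat_lit 5) (nat_lit 209) (nat_lit 210)))) (l (nat_lit 2) (nat_lit 283) (nat_lit 286)))) (l (nat_lit 6) (nat_lit 233) (nat_lit 333)))))))))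
    envOK_nil (by decide +kernel)

theorem p12746 : Fam (nat_lit 11) (nat_lit 2348542582773836356777019990880446040694472348227757832485300148995113510317398912780377837087018950754041856) (nat_lit 98505019894503606349160687513860693430498268130338105393547569351015495235362447887614185299680274555648256872808448) (nat_lit 98505019894503606349160687513860693430498268130338105393547569351015495235362447887614185299680274555648256872808448) :=
  chk_sound Env.nil
    (n (nat_lit 334) (b (b (n (nat_lit 359) (b (n (nat_lit 259) (b (n (nat_lit 258) (b (l (nat_lit 7) (nat_lit 233) (nat_lit 233)) (l (nat_lit 7) (nat_lit 258) (nat_lit 283)))) (n (nat_lit 358) (b (l (nat_lit 6) (nat_lit 258) (nat_lit 333)) (l (nat_lit 6) (nat_lit 283) (nat_lit 383)))))) (l (nat_lit 4) (nat_lit 284) (nat_lit 385)))) (n (nat_lit 285) (b (n (nat_lit 286) (b (l (nat_lit 2) (nat_lit 284) (nat_lit 288)) (l (nat_lit 2) (nat_lit 283) (nat_lit 308)))) (n (nat_lit 359) (b (l (nat_lit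 4) (nat_lit 284) (nat_lit 385)) (l (nat_lit 5) (nat_lit 259) (nat_lit 260))))))) (n (nat_lit 259) (b (b (b (n (nat_lit 234) (b (n (nat_lit 209) (b (n (nat_lit 208) (b (l (nat_lit 7) (nat_lit 183) (nat_lit 183)) (l (nat_lit 7) (nat_lit 208) (nat_lit 233)))) (l (nat_lit 4) (nat_lit 209) (nat_lit 285)))) (n (nat_lit 333) (b (l (nat_lit 6) (nat_lit 233) (nat_lit 308)) (l (nat_lit 6) (nat_lit 258) (nat_lit 358)))))) (n (nat_lit 285) (b (n (nat_lit 234) (b (n (nat_lit 333) (b (l (nat_lit 6) (nat_lit 233) (nat_lit 308)) (l (nat_lit 6) (nat_lit 258) (nat_lit 358)))) (l (nat_lit 4) (nat_lit 209) (nat_lit 209)))) (n (nat_lit 286) (b (l (nat_lit 3) (nat_lit 258) (nat_lit 258)) (l (nat_lit 2) (nat_lit 284) (nat_lit 288))))))) (b (n (nat_lit 234) (b (b (n (nat_lit 233) (b (l (nat_lit 7) (nat_lit 233) (nat_lit 258)) (l (nat_lit 7) (nat_lit 208) (nat_lit 208)))) (n (nat_lit 285) (b (n (nat_lit 286) (b (l (nat_lit 3) (nat_lit 258) (nat_lit 258)) (l (nat_lit 2)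 (nat_lit 284) (nat_lit 288)))) (l (nat_lit 4) (nat_lit 209) (nat_lit 209))))) (n (nat_lit 209) (b (n (nat_lit 208) (b (l (nat_lit 7) (nat_lit 183) (nat_lit 183)) (l (nat_lit 7) (nat_lit 208) (nat_lit 233)))) (l (nat_lit 4) (nat_lit 209) (nat_lit 285)))))) (n (nat_lit 234) (b (n (nat_lit 333) (b (l (nat_lit 6) (nat_lit 233) (nat_lit 308)) (l (nat_lit 6) (nat_lit 258) (nat_lit 358)))) (n (nat_lit 233) (b (l (nat_lit 7) (nat_lit 233) (nat_lit 258)) (l (nat_lit 7) (nat_lit 208) (nat_lit 208)))))))) (n (nat_lit 258) (b (n (nat_lit 285) (b (n (nat_lit 333) (b (n (nat_lit 332) (b (n (nat_lit 257) (b (n (nat_lit 283) (b (b (n (nat_lit 308) (b (l (nat_lit 7) (nat_lit 232) (nat_lit 232)) (l (nat_lit 6) (nat_lit 257) (nat_lit 357)))) (n (nat_lit 282) (b (n (nat_lit 307) (b (l (nat_lit 5) (nat_lit 257) (nat_lit 357)) (l (nat_lit 2) (nat_lit 281) (nat_lit 306)))) (l (nat_lit 0) (nat_lit 281) (nat_lit 281))))) (n (nat_lit 260) (b (n (nat_lit 232) (b (l (nat_lit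 7) (nat_lit 232) (nat_lit 308)) (l (nat_lit 3) (nat_lit 231) (nat_lit 231)))) (n (nat_lit 282) (b (l (nat_lit 1) (nat_lit 257) (nat_lit 261)) (l (nat_lit 0) (nat_lit 281) (nat_lit 281)))))))) (l (nat_lit 0) (nat_lit 256) (nat_lit 256)))) (l (nat_lit 1) (nat_lit 306) (nat_lit 331)))) (l (nat_lit 6) (nat_lit 258) (nat_lit 358)))) (l (nat_lit 3) (nat_lit 258) (nat_lit 286)))) (l (nat_lit 7) (nat_lit 233) (nat_lit 233))))))))
    envOK_nil (by decide +kernel)

theorem p12752 : Fam (nat_lit 5) (nat_lit 34996014725415730184051144647200731644970148856069408160275234187762038456506693610278461080090968064) (nat_lit 34996014725416414003508155629284558719021465874421229044723962032629912654849935805208281178722795520) (nat_lit 34996014725416414003508155629284558719021465874421229044723962032629912654849935805208281178722795520) :=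
  chk_sound Env.nil
    (n (nat_lit 259) (b (b (b (n (nat_lit 234) (b (n (nat_lit 233) (b (l (nat_lit 7) (nat_lit 233) (nat_lit 258)) (l (nat_lit 7) (nat_lit 208) (nat_lit 208)))) (n (nat_lit 235) (b (l (nat_lit 5) (nat_lit 209) (nat_lit 210)) (l (nat_lit 5) (nat_lit 234) (nat_lit 260)))))) (n (nat_lit 234) (b (n (nat_lit 209) (b (n (nat_lit 208) (b (l (nat_lit 7) (nat_lit 183) (nat_lit 183)) (l (nat_lit 7) (nat_lit 208) (nat_lit 233)))) (l (nat_lit 4) (nat_lit 209) (nat_lit 285)))) (n (nat_lit 235) (b (l (nat_lit 5) (nat_lit 209) (nat_lit 210)) (l (nat_lit 5) (nat_lit 234) (nat_lit 260))))))) (b (n (nat_lit 285) (b (n (nat_lit 286) (b (l (nat_lit 3) (nat_lit 258) (nat_lit 258)) (l (nat_lit 2) (nat_lit 284) (nat_lit 288)))) (n (nat_lit 235) (b (n (nat_lit 234) (b (l (nat_lit 4) (nat_lit 209) (nat_lit 209)) (l (nat_lit 5) (nat_lit 209) (nat_lit 210)))) (l (nat_lit 6) (nat_lit 234) (nat_lit 260)))))) (n (nat_lit 234) (b (b (n (nat_lit 233) (b (l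 (nat_lit 7) (nat_lit 233) (nat_lit 258)) (l (nat_lit 7) (nat_lit 208) (nat_lit 208)))) (n (nat_lit 285) (b (n (nat_lit 286) (b (l (nat_lit 3) (nat_lit 258) (nat_lit 258)) (l (nat_lit 2) (nat_lit 284) (nat_lit 288)))) (l (nat_lit 4) (nat_lit 209) (nat_lit 209))))) (n (nat_lit 209) (b (n (nat_lit 208) (b (l (nat_lit 7) (nat_lit 183) (nat_lit 183)) (l (nat_lit 7) (nat_lit 208) (nat_lit 233)))) (l (nat_lit 4) (nat_lit 209) (nat_lit 285)))))))) (n (nat_lit 258) (b (n (nat_lit 260) (b (n (nat_lit 286) (b (l (nat_lit 0) (nat_lit 258) (nat_lit 261)) (l (nat_lit 3) (nat_lit 258) (nat_lit 285)))) (l (nat_lit 5) (nat_lit 234) (nat_lit 235)))) (l (nat_lit 7) (nat_lit 233) (nat_lit 233))))))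
    envOK_nil (by decide +kernel)

theorem p12810 : Fam (nat_lit 10) (nat_lit 2348542582773844700476379056935455396248012073040705499299840604669996115948679468326181667714167477949693952) (nat_lit 826319995464570720836348191609535065173640245256329610738861019301044674521609335731792805640971224325592379718910915641344) (nat_lit 826319995464570720836348191609535065173640245256329610738861019301044674521609335731792805640971224325592379718910915641344) :=
  chk_sound (Env.cons (nat_lit 9) (nat_lit 11472586960625550669592202598946913403981197562190156636759298751082859594314266525341589700608) (nat_lit 11472587609476967967887769047013575002409483039008403910133444978082148020147600700506613219328) Env.nil)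
    (n (nat_lit 285) (b (b (r (nat_lit 0)) (n (nat_lit 286) (b (l (nat_lit 2) (nat_lit 284) (nat_lit 288)) (l (nat_lit 2) (nat_lit 283) (nat_lit 308))))) (n (nat_lit 282) (b (b (n (nat_lit 283) (b (n (nat_lit 260) (b (n (nat_lit 235) (b (n (nat_lit 234) (b (n (nat_lit 257) (b (n (nat_lit 236) (b (n (nat_lit 258) (b (l (nat_lit 2) (nat_lit 232) (nat_lit 233)) (l (nat_lit 1) (nat_lit 232) (nat_lit 259)))) (l (nat_lit 5) (nat_lit 210) (nat_lit 211)))) (l (nat_lit 3) (nat_lit 256) (nat_lit 256)))) (l (nat_lit 7) (nat_lit 209) (nat_lit 209)))) (l (nat_lit 6) (nat_lit 209) (nat_lit 210)))) (l (nat_lit 1) (nat_lit 257) (nat_lit 261)))) (l (nat_lit 0) (nat_lit 281) (nat_lit 281)))) (n (nat_lit 307) (b (b (n (nat_lit 332) (b (b (n (nat_lit 257) (b (n (nat_lit 256) (b (l (nat_lit 7) (nat_lit 231) (nat_lit 231)) (l (nat_lit 3) (nat_lit 256) (nat_lit 283)))) (n (nat_lit 331) (b (l (nat_lit 2) (nat_lit 306) (nat_lit 308)) (l (nat_lit 6) (nat_lit 256) (nat_lit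 356)))))) (n (nat_lit 257) (b (b (n (nat_lit 357) (b (n (nat_lit 258) (b (l (nat_lit 5) (nat_lit 232) (nat_lit 233)) (l (nat_lit 5) (nat_lit 257) (nat_lit 283)))) (n (nat_lit 358) (b (l (nat_lit 4) (nat_lit 282) (nat_lit 383)) (l (nat_lit 4) (nat_lit 257) (nat_lit 333)))))) (n (nat_lit 256) (b (l (nat_lit 7) (nat_lit 231) (nat_lit 231)) (l (nat_lit 3) (nat_lit 256) (nat_lit 283))))) (n (nat_lit 256) (b (n (nat_lit 258) (b (l (nat_lit 5) (nat_lit 232) (nat_lit 233)) (l (nat_lit 0) (nat_lit 256) (nat_lit 259)))) (l (nat_lit 7) (nat_lit 231) (nat_lit 231))))))) (b (n (nat_lit 357) (b (b (n (nat_lit 382) (b (n (nat_lit 283) (b (l (nat_lit 5) (nat_lit 257) (nat_lit 258)) (l (nat_lit 5) (nat_lit 282) (nat_lit 308)))) (n (nat_lit 381) (b (l (nat_lit 6) (nat_lit 281) (nat_lit 356)) (l (nat_lit 6) (nat_lit 306) (nat_lit 406)))))) (n (nat_lit 358) (b (n (nat_lit 331) (b (l (nat_lit 3) (nat_lit 331) (nat_lit 359)) (l (nat_lit 2) (nat_lit 306) (nat_lit 308))))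 (l (nat_lit 4) (nat_lit 282) (nat_lit 383))))) (n (nat_lit 382) (b (n (nat_lit 381) (b (l (nat_lit 6) (nat_lit 281) (nat_lit 356)) (l (nat_lit 6) (nat_lit 306) (nat_lit 406)))) (n (nat_lit 383) (b (l (nat_lit 4) (nat_lit 307) (nat_lit 408)) (l (nat_lit 4) (nat_lit 282) (nat_lit 358)))))))) (n (nat_lit 257) (b (n (nat_lit 256) (b (n (nat_lit 258) (b (l (nat_lit 5) (nat_lit 232) (nat_lit 233)) (l (nat_lit 0) (nat_lit 256) (nat_lit 259)))) (l (nat_lit 7) (nat_lit 231) (nat_lit 231)))) (n (nat_lit 331) (b (l (nat_lit 2) (nat_lit 306) (nat_lit 308)) (l (nat_lit 6) (nat_lit 256) (nat_lit 356))))))))) (n (nat_lit 308) (b (n (nat_lit 332) (b (n (nat_lit 257) (b (n (nat_lit 256) (b (n (nat_lit 258) (b (l (nat_lit 5) (nat_lit 232) (nat_lit 233)) (l (nat_lit 0) (nat_lit 256) (nat_lit 259)))) (l (nat_lit 7) (nat_lit 231) (nat_lit 231)))) (n (nat_lit 333) (b (l (nat_lit 4) (nat_lit 232) (nat_lit 232)) (l (nat_lit 4) (nat_lit 257) (nat_lit 358)))))) (l (nat_lit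 2) (nat_lit 306) (nat_lit 331)))) (l (nat_lit 1) (nat_lit 281) (nat_lit 306))))) (b (n (nat_lit 306) (b (l (nat_lit 1) (nat_lit 281) (nat_lit 308)) (l (nat_lit 2) (nat_lit 281) (nat_lit 283)))) (n (nat_lit 283) (b (n (nat_lit 260) (b (n (nat_lit 235) (b (n (nat_lit 257) (b (n (nat_lit 258) (b (n (nat_lit 236) (b (l (nat_lit 1) (nat_lit 232) (nat_lit 259)) (l (nat_lit 5) (nat_lit 210) (nat_lit 211)))) (n (nat_lit 233) (b (l (nat_lit 4) (nat_lit 208) (nat_lit 208)) (l (nat_lit 5) (nat_lit 232) (nat_lit 332)))))) (l (nat_lit 3) (nat_lit 256) (nat_lit 256)))) (l (nat_lit 6) (nat_lit 209) (nat_lit 210)))) (l (nat_lit 1) (nat_lit 257) (nat_lit 261)))) (l (nat_lit 2) (nat_lit 281) (nat_lit 306)))))))) (b (n (nat_lit 307) (b (b (n (nat_lit 306) (b (l (nat_lit 1) (nat_lit 281) (nat_lit 308)) (l (nat_lit 2) (nat_lit 281) (nat_lit 283)))) (n (nat_lit 308) (b (l (nat_lit 1) (nat_lit 281) (nat_lit 306)) (l (nat_lit 3) (nat_lit 281) (nat_lit 281))))) (b (n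 (nat_lit 283) (b (l (nat_lit 2) (nat_lit 281) (nat_lit 306)) (l (nat_lit 0) (nat_lit 281) (nat_lit 281)))) (n (nat_lit 281) (b (l (nat_lit 3) (nat_lit 281) (nat_lit 308)) (l (nat_lit 0) (nat_lit 281) (nat_lit 283))))))) (n (nat_lit 307) (b (b (n (nat_lit 308) (b (n (nat_lit 332) (b (n (nat_lit 257) (b (n (nat_lit 256) (b (n (nat_lit 258) (b (l (nat_lit 5) (nat_lit 232) (nat_lit 233)) (l (nat_lit 0) (nat_lit 256) (nat_lit 259)))) (l (nat_lit 7) (nat_lit 231) (nat_lit 231)))) (n (nat_lit 333) (b (l (nat_lit 4) (nat_lit 232) (nat_lit 232)) (l (nat_lit 4) (nat_lit 257) (nat_lit 358)))))) (l (nat_lit 2) (nat_lit 306) (nat_lit 331)))) (l (nat_lit 3) (nat_lit 281) (nat_lit 281)))) (n (nat_lit 308) (b (n (nat_lit 332) (b (n (nat_lit 257) (b (n (nat_lit 256) (b (n (nat_lit 258) (b (l (nat_lit 5) (nat_lit 232) (nat_lit 233)) (l (nat_lit 0) (nat_lit 256) (nat_lit 259)))) (l (nat_lit 7) (nat_lit 231) (nat_lit 231)))) (n (nat_lit 333) (b (l (nat_lit 4) (nat_lit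 232) (nat_lit 232)) (l (nat_lit 4) (nat_lit 257) (nat_lit 358)))))) (l (nat_lit 2) (nat_lit 306) (nat_lit 331)))) (l (nat_lit 1) (nat_lit 281) (nat_lit 306))))) (b (n (nat_lit 308) (b (l (nat_lit 1) (nat_lit 281) (nat_lit 306)) (l (nat_lit 3) (nat_lit 281) (nat_lit 281)))) (n (nat_lit 257) (b (b (b (n (nat_lit 235) (b (b (n (nat_lit 233) (b (b (n (nat_lit 234) (b (n (nat_lit 232) (b (l (nat_lit 5) (nat_lit 207) (nat_lit 208)) (l (nat_lit 2) (nat_lit 231) (nat_lit 256)))) (n (nat_lit 260) (b (l (nat_lit 7) (nat_lit 209) (nat_lit 209)) (l (nat_lit 6) (nat_lit 209) (nat_lit 210)))))) (n (nat_lit 258) (b (n (nat_lit 208) (b (l (nat_lit 6) (nat_lit 182) (nat_lit 183)) (l (nat_lit 5) (nat_lit 207) (nat_lit 232)))) (l (nat_lit 5) (nat_lit 232) (nat_lit 332))))) (n (nat_lit 234) (b (n (nat_lit 258) (b (l (nat_lit 5) (nat_lit 232) (nat_lit 332)) (l (nat_lit 2) (nat_lit 232) (nat_lit 236)))) (n (nat_lit 260) (b (l (nat_lit 7) (nat_lit 209) (nat_lit 209))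 (l (nat_lit 6) (nat_lit 209) (nat_lit 210)))))))) (n (nat_lit 258) (b (n (nat_lit 259) (b (n (nat_lit 260) (b (l (nat_lit 2) (nat_lit 256) (nat_lit 281)) (l (nat_lit 1) (nat_lit 232) (nat_lit 236)))) (l (nat_lit 0) (nat_lit 256) (nat_lit 256)))) (n (nat_lit 233) (b (n (nat_lit 208) (b (l (nat_lit 6) (nat_lit 182) (nat_lit 183)) (l (nat_lit 5) (nat_lit 207) (nat_lit 232)))) (l (nat_lit 5) (nat_lit 232) (nat_lit 332))))))) (b (n (nat_lit 234) (b (b (n (nat_lit 209) (b (l (nat_lit 7) (nat_lit 209) (nat_lit 260)) (l (nat_lit 4) (nat_lit 209) (nat_lit 259)))) (n (nat_lit 259) (b (l (nat_lit 5) (nat_lit 209) (nat_lit 210)) (l (nat_lit 4) (nat_lit 209) (nat_lit 209))))) (b (n (nat_lit 210) (b (l (nat_lit 5) (nat_lit 209) (nat_lit 259)) (l (nat_lit 6) (nat_lit 209) (nat_lit 260)))) (n (nat_lit 260) (b (l (nat_lit 7) (nat_lit 209) (nat_lit 209)) (l (nat_lit 6) (nat_lit 209) (nat_lit 210))))))) (n (nat_lit 256) (b (n (nat_lit 231) (b (n (nat_lit 206) (b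 (l (nat_lit 4) (nat_lit 181) (nat_lit 181)) (l (nat_lit 7) (nat_lit 206) (nat_lit 232)))) (l (nat_lit 7) (nat_lit 231) (nat_lit 332)))) (n (nat_lit 259) (b (n (nat_lit 234) (b (l (nat_lit 4) (nat_lit 209) (nat_lit 209)) (l (nat_lit 5) (nat_lit 209) (nat_lit 210)))) (l (nat_lit 0) (nat_lit 256) (nat_lit 258))))))))) (n (nat_lit 235) (b (b (n (nat_lit 234) (b (b (n (nat_lit 209) (b (l (nat_lit 7) (nat_lit 209) (nat_lit 260)) (l (nat_lit 4) (nat_lit 209) (nat_lit 259)))) (n (nat_lit 259) (b (l (nat_lit 5) (nat_lit 209) (nat_lit 210)) (l (nat_lit 4) (nat_lit 209) (nat_lit 209))))) (b (n (nat_lit 210) (b (l (nat_lit 5) (nat_lit 209) (nat_lit 259)) (l (nat_lit 6) (nat_lit 209) (nat_lit 260)))) (n (nat_lit 260) (b (l (nat_lit 7) (nat_lit 209) (nat_lit 209)) (l (nat_lit 6) (nat_lit 209) (nat_lit 210))))))) (n (nat_lit 332) (b (n (nat_lit 357) (b (n (nat_lit 356) (b (l (nat_lit 6) (nat_lit 256) (nat_lit 331)) (l (nat_lit 6) (nat_lit 281) (nat_lit 381))))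 (n (nat_lit 358) (b (l (nat_lit 4) (nat_lit 282) (nat_lit 383)) (l (nat_lit 4) (nat_lit 257) (nat_lit 333)))))) (n (nat_lit 259) (b (n (nat_lit 234) (b (l (nat_lit 4) (nat_lit 209) (nat_lit 209)) (l (nat_lit 5) (nat_lit 209) (nat_lit 210)))) (n (nat_lit 258) (b (l (nat_lit 0) (nat_lit 256) (nat_lit 256)) (l (nat_lit 5) (nat_lit 232) (nat_lit 233))))))))) (b (n (nat_lit 258) (b (n (nat_lit 259) (b (n (nat_lit 260) (b (l (nat_lit 2) (nat_lit 256) (nat_lit 281)) (l (nat_lit 1) (nat_lit 232) (nat_lit 236)))) (l (nat_lit 0) (nat_lit 256) (nat_lit 256)))) (n (nat_lit 233) (b (n (nat_lit 208) (b (l (nat_lit 6) (nat_lit 182) (nat_lit 183)) (l (nat_lit 5) (nat_lit 207) (nat_lit 232)))) (l (nat_lit 5) (nat_lit 232) (nat_lit 332)))))) (n (nat_lit 233) (b (b (n (nat_lit 234) (b (n (nat_lit 232) (b (l (nat_lit 5) (nat_lit 207) (nat_lit 208)) (l (nat_lit 2) (nat_lit 231) (nat_lit 256)))) (n (nat_lit 260) (b (l (nat_lit 7) (nat_lit 209) (nat_lit 209)) (l (nat_lit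 6) (nat_lit 209) (nat_lit 210)))))) (n (nat_lit 258) (b (n (nat_lit 208) (b (l (nat_lit 6) (nat_lit 182) (nat_lit 183)) (l (nat_lit 5) (nat_lit 207) (nat_lit 232)))) (l (nat_lit 5) (nat_lit 232) (nat_lit 332))))) (n (nat_lit 234) (b (n (nat_lit 258) (b (l (nat_lit 5) (nat_lit 232) (nat_lit 332)) (l (nat_lit 2) (nat_lit 232) (nat_lit 236)))) (n (nat_lit 260) (b (l (nat_lit 7) (nat_lit 209) (nat_lit 209)) (l (nat_lit 6) (nat_lit 209) (nat_lit 210)))))))))))) (b (n (nat_lit 232) (b (b (n (nat_lit 332) (b (n (nat_lit 233) (b (l (nat_lit 5) (nat_lit 207) (nat_lit 208)) (l (nat_lit 5) (nat_lit 232) (nat_lit 258)))) (n (nat_lit 331) (b (l (nat_lit 6) (nat_lit 231) (nat_lit 306)) (l (nat_lit 6) (nat_lit 256) (nat_lit 356)))))) (n (nat_lit 207) (b (n (nat_lit 306) (b (l (nat_lit 6) (nat_lit 231) (nat_lit 331)) (l (nat_lit 6) (nat_lit 206) (nat_lit 281)))) (n (nat_lit 206) (b (l (nat_lit 7) (nat_lit 181) (nat_lit 181)) (l (nat_lit 7) (nat_lit 206) (nat_lit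 231))))))) (n (nat_lit 207) (b (n (nat_lit 208) (b (l (nat_lit 5) (nat_lit 207) (nat_lit 233)) (l (nat_lit 5) (nat_lit 182) (nat_lit 183)))) (n (nat_lit 206) (b (l (nat_lit 7) (nat_lit 181) (nat_lit 181)) (l (nat_lit 7) (nat_lit 206) (nat_lit 231)))))))) (n (nat_lit 332) (b (b (n (nat_lit 357) (b (n (nat_lit 356) (b (l (nat_lit 6) (nat_lit 256) (nat_lit 331)) (l (nat_lit 6) (nat_lit 281) (nat_lit 381)))) (n (nat_lit 358) (b (l (nat_lit 4) (nat_lit 282) (nat_lit 383)) (l (nat_lit 4) (nat_lit 257) (nat_lit 333)))))) (n (nat_lit 232) (b (n (nat_lit 231) (b (l (nat_lit 7) (nat_lit 231) (nat_lit 256)) (l (nat_lit 7) (nat_lit 206) (nat_lit 206)))) (n (nat_lit 331) (b (l (nat_lit 6) (nat_lit 231) (nat_lit 306)) (l (nat_lit 6) (nat_lit 256) (nat_lit 356))))))) (n (nat_lit 357) (b (n (nat_lit 358) (b (l (nat_lit 4) (nat_lit 282) (nat_lit 383)) (l (nat_lit 4) (nat_lit 257) (nat_lit 333)))) (n (nat_lit 256) (b (l (nat_lit 7) (nat_lit 256) (nat_lit 281))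 (l (nat_lit 7) (nat_lit 231) (nat_lit 231)))))))))) (b (n (nat_lit 332) (b (n (nat_lit 256) (b (n (nat_lit 258) (b (l (nat_lit 5) (nat_lit 232) (nat_lit 233)) (l (nat_lit 0) (nat_lit 256) (nat_lit 259)))) (l (nat_lit 7) (nat_lit 231) (nat_lit 231)))) (n (nat_lit 357) (b (n (nat_lit 356) (b (l (nat_lit 6) (nat_lit 256) (nat_lit 331)) (l (nat_lit 6) (nat_lit 281) (nat_lit 381)))) (n (nat_lit 358) (b (l (nat_lit 4) (nat_lit 282) (nat_lit 383)) (l (nat_lit 4) (nat_lit 257) (nat_lit 333)))))))) (n (nat_lit 232) (b (b (n (nat_lit 207) (b (n (nat_lit 306) (b (l (nat_lit 6) (nat_lit 231) (nat_lit 331)) (l (nat_lit 6) (nat_lit 206) (nat_lit 281)))) (n (nat_lit 206) (b (l (nat_lit 7) (nat_lit 181) (nat_lit 181)) (l (nat_lit 7) (nat_lit 206) (nat_lit 231)))))) (n (nat_lit 207) (b (n (nat_lit 208) (b (l (nat_lit 5) (nat_lit 207) (nat_lit 233)) (l (nat_lit 5) (nat_lit 182) (nat_lit 183)))) (n (nat_lit 306) (b (l (nat_lit 6) (nat_lit 231) (nat_lit 331)) (l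 (nat_lit 6) (nat_lit 206) (nat_lit 281))))))) (n (nat_lit 231) (b (n (nat_lit 259) (b (b (n (nat_lit 233) (b (n (nat_lit 234) (b (l (nat_lit 4) (nat_lit 209) (nat_lit 209)) (l (nat_lit 0) (nat_lit 231) (nat_lit 260)))) (l (nat_lit 5) (nat_lit 207) (nat_lit 208)))) (n (nat_lit 258) (b (l (nat_lit 3) (nat_lit 231) (nat_lit 260)) (l (nat_lit 0) (nat_lit 256) (nat_lit 256))))) (n (nat_lit 258) (b (n (nat_lit 233) (b (l (nat_lit 5) (nat_lit 207) (nat_lit 208)) (l (nat_lit 0) (nat_lit 230) (nat_lit 230)))) (l (nat_lit 0) (nat_lit 256) (nat_lit 256)))))) (l (nat_lit 7) (nat_lit 206) (nat_lit 206)))))))))))))))))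
    (envOK_cons p12508 envOK_nil) (by decide +kernel)

theorem p12811 : Fam (nat_lit 13) (nat_lit 2348542582773844700476347974233179784582877361650196322997334326160571281716339439327625845245604194613723136) (nat_lit 22181360031926714593488293725327751301996179818044986844629639352073291492175318755953716696068380344246797455889744188218242236416) (nat_lit 22181360031926714593488293725327751301996179818044986844629639352073291492175318755953716696068380344246797455889744188218242236416) :=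
  chk_sound (Env.cons (nat_lit 10) (nat_lit 11472586898460146118368872329524132385628592549633137787090834071024862482669329398774917758976) (nat_lit 24626254900233995088760565934322125716311136085709274059754411368018626259022912163960305305968551814753121485193216) (Env.cons (nat_lit 9) (nat_lit 34996014725415543687838417313923821906190482366134439992481511342245323407027674336139144685112262656) (nat_lit 495791991368439800349311766707040488928144052979909304297897655629125023771720638312607553648373144869111224366931686457344) (Env.cons (nat_lit 11) (nat_lit 2348542582773836356777019990880446040694472348227757832485300148995113510317398912780377837087018950754041856) (nat_lit 22181358709814774550365708546839997209945611531269329660663310716465261481309150830651679401010508149720270835663817904816140582912) (Env.cons (nat_lit 12) (nat_lit 2348542582773836356777019990880446040694472348227757832485300148995113510317398912780377837087018950754041856)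 (nat_lit 826320273741239482872394811584233384281561020697324964466015251215782006297896730966183014749832080631581334923335604109312) (Env.cons (nat_lit 11) (nat_lit 2348542582773836356777019990880446040694472348227757832485300148995113510317398912780377837087018950754041856) (nat_lit 98505019894503606349160687513860693430498268130338105393547569351015495235362447887614185299680274555648256872808448) (Env.cons (nat_lit 5) (nat_lit 34996014725415730184051144647200731644970148856069408160275234187762038456506693610278461080090968064) (nat_lit 34996014725416414003508155629284558719021465874421229044723962032629912654849935805208281178722795520) (Env.cons (nat_lit 10) (nat_lit 2348542582773844700476379056935455396248012073040705499299840604669996115948679468326181667714167477949693952) (nat_lit 826319995464570720836348191609535065173640245256329610738861019301044674521609335731792805640971224325592379718910915641344) Env.nil)))))))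
    (n (nat_lit 284) (b (b (b (b (n (nat_lit 334) (b (b (b (n (nat_lit 359) (b (n (nat_lit 384) (b (b (n (nat_lit 383) (b (l (nat_lit 6) (nat_lit 283) (nat_lit 358)) (l (nat_lit 6) (nat_lit 308) (nat_lit 408)))) (n (nat_lit 308) (b (n (nat_lit 333) (b (n (nat_lit 259) (b (l (nat_lit 6) (nat_lit 258) (nat_lit 358)) (l (nat_lit 6) (nat_lit 233) (nat_lit 234)))) (l (nat_lit 7) (nat_lit 308) (nat_lit 409)))) (l (nat_lit 7) (nat_lit 283) (nat_lit 283))))) (n (nat_lit 409) (b (n (nat_lit 408) (b (l (nat_lit 6) (nat_lit 308) (nat_lit 383)) (l (nat_lit 6) (nat_lit 333) (nat_lit 433)))) (n (nat_lit 308) (b (l (nat_lit 7) (nat_lit 308) (nat_lit 333)) (l (nat_lit 7) (nat_lit 283) (nat_lit 283)))))))) (l (nat_lit 4) (nat_lit 284) (nat_lit 385)))) (n (nat_lit 359) (b (n (nat_lit 259) (b (b (n (nat_lit 258) (b (l (nat_lit 7) (nat_lit 233) (nat_lit 233)) (l (nat_lit 7) (nat_lit 258) (nat_lit 283)))) (n (nat_lit 234) (b (n (nat_lit 235) (b (l (nat_lit 5) (nat_lit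 209) (nat_lit 210)) (l (nat_lit 5) (nat_lit 234) (nat_lit 260)))) (n (nat_lit 308) (b (n (nat_lit 283) (b (l (nat_lit 7) (nat_lit 283) (nat_lit 384)) (l (nat_lit 6) (nat_lit 208) (nat_lit 209)))) (l (nat_lit 6) (nat_lit 233) (nat_lit 333))))))) (n (nat_lit 234) (b (n (nat_lit 233) (b (l (nat_lit 7) (nat_lit 233) (nat_lit 258)) (l (nat_lit 7) (nat_lit 208) (nat_lit 208)))) (n (nat_lit 235) (b (l (nat_lit 5) (nat_lit 209) (nat_lit 210)) (l (nat_lit 5) (nat_lit 234) (nat_lit 260)))))))) (l (nat_lit 4) (nat_lit 284) (nat_lit 385))))) (b (n (nat_lit 259) (b (n (nat_lit 359) (b (n (nat_lit 358) (b (l (nat_lit 6) (nat_lit 258) (nat_lit 333)) (l (nat_lit 6) (nat_lit 283) (nat_lit 383)))) (l (nat_lit 4) (nat_lit 284) (nat_lit 385)))) (n (nat_lit 234) (b (n (nat_lit 233) (b (l (nat_lit 7) (nat_lit 233) (nat_lit 258)) (l (nat_lit 7) (nat_lit 208) (nat_lit 208)))) (n (nat_lit 235) (b (l (nat_lit 5) (nat_lit 209) (nat_lit 210)) (l (nat_lit 5) (nat_lit 234)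 (nat_lit 260)))))))) (n (nat_lit 359) (b (n (nat_lit 384) (b (n (nat_lit 383) (b (l (nat_lit 6) (nat_lit 283) (nat_lit 358)) (l (nat_lit 6) (nat_lit 308) (nat_lit 408)))) (n (nat_lit 283) (b (l (nat_lit 7) (nat_lit 283) (nat_lit 308)) (l (nat_lit 7) (nat_lit 258) (nat_lit 258)))))) (l (nat_lit 4) (nat_lit 284) (nat_lit 385)))))) (n (nat_lit 259) (b (b (n (nat_lit 234) (b (n (nat_lit 209) (b (n (nat_lit 208) (b (l (nat_lit 7) (nat_lit 183) (nat_lit 183)) (l (nat_lit 7) (nat_lit 208) (nat_lit 233)))) (l (nat_lit 4) (nat_lit 209) (nat_lit 285)))) (n (nat_lit 333) (b (l (nat_lit 6) (nat_lit 233) (nat_lit 308)) (l (nat_lit 6) (nat_lit 258) (nat_lit 358)))))) (n (nat_lit 234) (b (n (nat_lit 209) (b (n (nat_lit 210) (b (l (nat_lit 5) (nat_lit 184) (nat_lit 185)) (l (nat_lit 5) (nat_lit 209) (nat_lit 235)))) (l (nat_lit 4) (nat_lit 209) (nat_lit 285)))) (n (nat_lit 333) (b (l (nat_lit 6) (nat_lit 233) (nat_lit 308)) (l (nat_lit 6) (nat_lit 258) (nat_lit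 358))))))) (b (n (nat_lit 234) (b (n (nat_lit 233) (b (l (nat_lit 7) (nat_lit 233) (nat_lit 258)) (l (nat_lit 7) (nat_lit 208) (nat_lit 208)))) (n (nat_lit 235) (b (l (nat_lit 5) (nat_lit 209) (nat_lit 210)) (l (nat_lit 5) (nat_lit 234) (nat_lit 260)))))) (n (nat_lit 258) (b (n (nat_lit 260) (b (n (nat_lit 333) (b (n (nat_lit 283) (b (n (nat_lit 257) (b (n (nat_lit 256) (b (l (nat_lit 0) (nat_lit 255) (nat_lit 255)) (l (nat_lit 0) (nat_lit 256) (nat_lit 285)))) (n (nat_lit 232) (b (l (nat_lit 7) (nat_lit 232) (nat_lit 308)) (l (nat_lit 3) (nat_lit 231) (nat_lit 231)))))) (n (nat_lit 282) (b (l (nat_lit 1) (nat_lit 256) (nat_lit 281)) (l (nat_lit 2) (nat_lit 257) (nat_lit 261)))))) (l (nat_lit 6) (nat_lit 258) (nat_lit 358)))) (l (nat_lit 5) (nat_lit 234) (nat_lit 235)))) (l (nat_lit 7) (nat_lit 233) (nat_lit 233))))))))) (r (nat_lit 0))) (b (n (nat_lit 334) (b (b (n (nat_lit 359) (b (n (nat_lit 259) (b (n (nat_lit 258) (b (l (nat_lit 7) (nat_lit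 233) (nat_lit 233)) (l (nat_lit 7) (nat_lit 258) (nat_lit 283)))) (n (nat_lit 358) (b (l (nat_lit 6) (nat_lit 258) (nat_lit 333)) (l (nat_lit 6) (nat_lit 283) (nat_lit 383)))))) (l (nat_lit 4) (nat_lit 284) (nat_lit 385)))) (n (nat_lit 285) (b (n (nat_lit 286) (b (l (nat_lit 2) (nat_lit 284) (nat_lit 288)) (l (nat_lit 2) (nat_lit 283) (nat_lit 308)))) (n (nat_lit 359) (b (l (nat_lit 5) (nat_lit 284) (nat_lit 384)) (l (nat_lit 4) (nat_lit 284) (nat_lit 385))))))) (n (nat_lit 259) (b (b (n (nat_lit 234) (b (n (nat_lit 209) (b (n (nat_lit 210) (b (l (nat_lit 5) (nat_lit 184) (nat_lit 185)) (l (nat_lit 5) (nat_lit 209) (nat_lit 235)))) (l (nat_lit 4) (nat_lit 209) (nat_lit 285)))) (n (nat_lit 333) (b (l (nat_lit 6) (nat_lit 233) (nat_lit 308)) (l (nat_lit 6) (nat_lit 258) (nat_lit 358)))))) (n (nat_lit 234) (b (b (n (nat_lit 233) (b (l (nat_lit 7) (nat_lit 233) (nat_lit 258)) (l (nat_lit 7) (nat_lit 208) (nat_lit 208)))) (n (nat_lit 285) (b (n (nat_lit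 286) (b (l (nat_lit 3) (nat_lit 258) (nat_lit 258)) (l (nat_lit 2) (nat_lit 284) (nat_lit 288)))) (l (nat_lit 4) (nat_lit 209) (nat_lit 209))))) (n (nat_lit 209) (b (n (nat_lit 208) (b (l (nat_lit 7) (nat_lit 183) (nat_lit 183)) (l (nat_lit 7) (nat_lit 208) (nat_lit 233)))) (l (nat_lit 4) (nat_lit 209) (nat_lit 285))))))) (b (n (nat_lit 234) (b (n (nat_lit 333) (b (l (nat_lit 6) (nat_lit 233) (nat_lit 308)) (l (nat_lit 6) (nat_lit 258) (nat_lit 358)))) (n (nat_lit 233) (b (l (nat_lit 7) (nat_lit 233) (nat_lit 258)) (l (nat_lit 7) (nat_lit 208) (nat_lit 208)))))) (n (nat_lit 285) (b (b (n (nat_lit 286) (b (l (nat_lit 2) (nat_lit 284) (nat_lit 288)) (l (nat_lit 2) (nat_lit 283) (nat_lit 308)))) (n (nat_lit 258) (b (l (nat_lit 3) (nat_lit 258) (nat_lit 286)) (l (nat_lit 7) (nat_lit 233) (nat_lit 233))))) (r (nat_lit 1))))))))) (r (nat_lit 2)))) (b (b (n (nat_lit 285) (b (b (n (nat_lit 235) (b (n (nat_lit 259) (b (n (nat_lit 234) (b (l (nat_lit 4)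 (nat_lit 209) (nat_lit 209)) (l (nat_lit 5) (nat_lit 209) (nat_lit 210)))) (n (nat_lit 286) (b (l (nat_lit 3) (nat_lit 258) (nat_lit 258)) (l (nat_lit 2) (nat_lit 284) (nat_lit 288)))))) (n (nat_lit 334) (b (n (nat_lit 359) (b (l (nat_lit 5) (nat_lit 284) (nat_lit 384)) (l (nat_lit 4) (nat_lit 284) (nat_lit 385)))) (l (nat_lit 6) (nat_lit 234) (nat_lit 260)))))) (n (nat_lit 286) (b (l (nat_lit 2) (nat_lit 284) (nat_lit 288)) (l (nat_lit 2) (nat_lit 283) (nat_lit 308))))) (n (nat_lit 334) (b (n (nat_lit 359) (b (l (nat_lit 5) (nat_lit 284) (nat_lit 384)) (l (nat_lit 4) (nat_lit 284) (nat_lit 385)))) (n (nat_lit 259) (b (b (n (nat_lit 234) (b (n (nat_lit 333) (b (l (nat_lit 6) (nat_lit 233) (nat_lit 308)) (l (nat_lit 6) (nat_lit 258) (nat_lit 358)))) (l (nat_lit 4) (nat_lit 209) (nat_lit 209)))) (n (nat_lit 235) (b (n (nat_lit 234) (b (l (nat_lit 4) (nat_lit 209) (nat_lit 209)) (l (nat_lit 5) (nat_lit 209) (nat_lit 210)))) (l (nat_lit 6) (nat_lit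 234) (nat_lit 260))))) (n (nat_lit 260) (b (n (nat_lit 282) (b (b (n (nat_lit 333) (b (n (nat_lit 283) (b (n (nat_lit 258) (b (n (nat_lit 257) (b (n (nat_lit 232) (b (l (nat_lit 7) (nat_lit 232) (nat_lit 308)) (l (nat_lit 3) (nat_lit 231) (nat_lit 231)))) (l (nat_lit 3) (nat_lit 256) (nat_lit 256)))) (n (nat_lit 332) (b (n (nat_lit 307) (b (l (nat_lit 5) (nat_lit 257) (nat_lit 357)) (l (nat_lit 2) (nat_lit 281) (nat_lit 306)))) (l (nat_lit 1) (nat_lit 306) (nat_lit 331)))))) (l (nat_lit 1) (nat_lit 257) (nat_lit 261)))) (l (nat_lit 6) (nat_lit 258) (nat_lit 358)))) (n (nat_lit 283) (b (l (nat_lit 1) (nat_lit 257) (nat_lit 261)) (l (nat_lit 1) (nat_lit 256) (nat_lit 281))))) (n (nat_lit 257) (b (b (n (nat_lit 307) (b (b (n (nat_lit 308) (b (n (nat_lit 333) (b (l (nat_lit 4) (nat_lit 232) (nat_lit 232)) (l (nat_lit 6) (nat_lit 258) (nat_lit 358)))) (l (nat_lit 1) (nat_lit 281) (nat_lit 306)))) (n (nat_lit 332) (b (n (nat_lit 308) (b (l (nat_lit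 2) (nat_lit 306) (nat_lit 331)) (l (nat_lit 1) (nat_lit 281) (nat_lit 306)))) (n (nat_lit 256) (b (l (nat_lit 7) (nat_lit 231) (nat_lit 231)) (l (nat_lit 0) (nat_lit 256) (nat_lit 258))))))) (n (nat_lit 332) (b (n (nat_lit 256) (b (l (nat_lit 7) (nat_lit 231) (nat_lit 231)) (l (nat_lit 0) (nat_lit 256) (nat_lit 258)))) (n (nat_lit 331) (b (l (nat_lit 1) (nat_lit 306) (nat_lit 333)) (l (nat_lit 6) (nat_lit 256) (nat_lit 356)))))))) (n (nat_lit 307) (b (b (n (nat_lit 308) (b (l (nat_lit 1) (nat_lit 281) (nat_lit 306)) (l (nat_lit 3) (nat_lit 281) (nat_lit 281)))) (n (nat_lit 332) (b (b (n (nat_lit 357) (b (n (nat_lit 256) (b (l (nat_lit 7) (nat_lit 256) (nat_lit 281)) (l (nat_lit 7) (nat_lit 231) (nat_lit 231)))) (n (nat_lit 356) (b (l (nat_lit 6) (nat_lit 256) (nat_lit 331)) (l (nat_lit 6) (nat_lit 281) (nat_lit 381)))))) (n (nat_lit 357) (b (n (nat_lit 358) (b (l (nat_lit 4) (nat_lit 282) (nat_lit 383)) (l (nat_lit 4) (nat_lit 257) (nat_lit 333))))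 (n (nat_lit 256) (b (l (nat_lit 7) (nat_lit 256) (nat_lit 281)) (l (nat_lit 7) (nat_lit 231) (nat_lit 231))))))) (n (nat_lit 333) (b (l (nat_lit 1) (nat_lit 306) (nat_lit 331)) (l (nat_lit 6) (nat_lit 258) (nat_lit 358))))))) (n (nat_lit 308) (b (n (nat_lit 333) (b (l (nat_lit 4) (nat_lit 232) (nat_lit 232)) (l (nat_lit 6) (nat_lit 258) (nat_lit 358)))) (l (nat_lit 1) (nat_lit 281) (nat_lit 306))))))) (b (n (nat_lit 258) (b (l (nat_lit 2) (nat_lit 256) (nat_lit 281)) (l (nat_lit 0) (nat_lit 256) (nat_lit 256)))) (n (nat_lit 331) (b (n (nat_lit 333) (b (l (nat_lit 1) (nat_lit 306) (nat_lit 332)) (l (nat_lit 6) (nat_lit 258) (nat_lit 358)))) (n (nat_lit 306) (b (n (nat_lit 307) (b (l (nat_lit 1) (nat_lit 281) (nat_lit 308)) (l (nat_lit 6) (nat_lit 231) (nat_lit 232)))) (n (nat_lit 281) (b (l (nat_lit 5) (nat_lit 256) (nat_lit 356)) (l (nat_lit 2) (nat_lit 256) (nat_lit 258))))))))))))) (l (nat_lit 6) (nat_lit 234) (nat_lit 235)))))))))) (n (nat_lit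 334) (b (b (b (n (nat_lit 259) (b (b (n (nat_lit 234) (b (n (nat_lit 233) (b (l (nat_lit 7) (nat_lit 233) (nat_lit 258)) (l (nat_lit 7) (nat_lit 208) (nat_lit 208)))) (n (nat_lit 235) (b (l (nat_lit 5) (nat_lit 209) (nat_lit 210)) (l (nat_lit 5) (nat_lit 234) (nat_lit 260)))))) (n (nat_lit 234) (b (n (nat_lit 235) (b (l (nat_lit 5) (nat_lit 209) (nat_lit 210)) (l (nat_lit 5) (nat_lit 234) (nat_lit 260)))) (n (nat_lit 333) (b (l (nat_lit 6) (nat_lit 233) (nat_lit 308)) (l (nat_lit 6) (nat_lit 258) (nat_lit 358))))))) (b (n (nat_lit 234) (b (n (nat_lit 333) (b (l (nat_lit 6) (nat_lit 233) (nat_lit 308)) (l (nat_lit 6) (nat_lit 258) (nat_lit 358)))) (n (nat_lit 233) (b (l (nat_lit 7) (nat_lit 233) (nat_lit 258)) (l (nat_lit 7) (nat_lit 208) (nat_lit 208)))))) (n (nat_lit 258) (b (n (nat_lit 260) (b (n (nat_lit 333) (b (n (nat_lit 257) (b (b (n (nat_lit 261) (b (n (nat_lit 282) (b (l (nat_lit 2) (nat_lit 256) (nat_lit 281)) (l (nat_lit 2) (nat_lit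 257) (nat_lit 283)))) (l (nat_lit 0) (nat_lit 258) (nat_lit 286)))) (n (nat_lit 256) (b (n (nat_lit 281) (b (l (nat_lit 2) (nat_lit 256) (nat_lit 282)) (l (nat_lit 2) (nat_lit 255) (nat_lit 280)))) (n (nat_lit 231) (b (l (nat_lit 3) (nat_lit 231) (nat_lit 232)) (l (nat_lit 3) (nat_lit 230) (nat_lit 230))))))) (b (n (nat_lit 256) (b (n (nat_lit 255) (b (n (nat_lit 280) (b (l (nat_lit 2) (nat_lit 254) (nat_lit 279)) (l (nat_lit 2) (nat_lit 255) (nat_lit 281)))) (l (nat_lit 0) (nat_lit 255) (nat_lit 283)))) (n (nat_lit 231) (b (l (nat_lit 3) (nat_lit 231) (nat_lit 232)) (l (nat_lit 3) (nat_lit 230) (nat_lit 230)))))) (n (nat_lit 283) (b (n (nat_lit 261) (b (l (nat_lit 0) (nat_lit 258) (nat_lit 286)) (l (nat_lit 2) (nat_lit 257) (nat_lit 282)))) (n (nat_lit 232) (b (l (nat_lit 7) (nat_lit 232) (nat_lit 308)) (l (nat_lit 3) (nat_lit 231) (nat_lit 231))))))))) (l (nat_lit 6) (nat_lit 258) (nat_lit 358)))) (l (nat_lit 5) (nat_lit 234) (nat_lit 235))))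 (l (nat_lit 7) (nat_lit 233) (nat_lit 233))))))) (n (nat_lit 359) (b (n (nat_lit 259) (b (b (n (nat_lit 258) (b (l (nat_lit 7) (nat_lit 233) (nat_lit 233)) (l (nat_lit 7) (nat_lit 258) (nat_lit 283)))) (n (nat_lit 234) (b (n (nat_lit 235) (b (l (nat_lit 5) (nat_lit 209) (nat_lit 210)) (l (nat_lit 5) (nat_lit 234) (nat_lit 260)))) (n (nat_lit 308) (b (n (nat_lit 283) (b (l (nat_lit 7) (nat_lit 283) (nat_lit 384)) (l (nat_lit 6) (nat_lit 208) (nat_lit 209)))) (l (nat_lit 6) (nat_lit 233) (nat_lit 333))))))) (n (nat_lit 234) (b (n (nat_lit 233) (b (l (nat_lit 7) (nat_lit 233) (nat_lit 258)) (l (nat_lit 7) (nat_lit 208) (nat_lit 208)))) (n (nat_lit 235) (b (l (nat_lit 5) (nat_lit 209) (nat_lit 210)) (l (nat_lit 5) (nat_lit 234) (nat_lit 260)))))))) (l (nat_lit 4) (nat_lit 284) (nat_lit 385))))) (b (n (nat_lit 259) (b (n (nat_lit 359) (b (n (nat_lit 358) (b (l (nat_lit 6) (nat_lit 258) (nat_lit 333)) (l (nat_lit 6) (nat_lit 283) (nat_lit 383)))) (l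 (nat_lit 4) (nat_lit 284) (nat_lit 385)))) (n (nat_lit 234) (b (n (nat_lit 233) (b (l (nat_lit 7) (nat_lit 233) (nat_lit 258)) (l (nat_lit 7) (nat_lit 208) (nat_lit 208)))) (n (nat_lit 235) (b (l (nat_lit 5) (nat_lit 209) (nat_lit 210)) (l (nat_lit 5) (nat_lit 234) (nat_lit 260)))))))) (n (nat_lit 359) (b (n (nat_lit 384) (b (n (nat_lit 383) (b (l (nat_lit 6) (nat_lit 283) (nat_lit 358)) (l (nat_lit 6) (nat_lit 308) (nat_lit 408)))) (n (nat_lit 283) (b (l (nat_lit 7) (nat_lit 283) (nat_lit 308)) (l (nat_lit 7) (nat_lit 258) (nat_lit 258)))))) (l (nat_lit 4) (nat_lit 284) (nat_lit 385)))))) (n (nat_lit 359) (b (n (nat_lit 384) (b (b (n (nat_lit 383) (b (l (nat_lit 6) (nat_lit 283) (nat_lit 358)) (l (nat_lit 6) (nat_lit 308) (nat_lit 408)))) (n (nat_lit 308) (b (n (nat_lit 333) (b (n (nat_lit 259) (b (l (nat_lit 6) (nat_lit 258) (nat_lit 358)) (l (nat_lit 6) (nat_lit 233) (nat_lit 234)))) (l (nat_lit 7) (nat_lit 308) (nat_lit 409)))) (l (nat_lit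 7) (nat_lit 283) (nat_lit 283))))) (n (nat_lit 409) (b (n (nat_lit 408) (b (l (nat_lit 6) (nat_lit 308) (nat_lit 383)) (l (nat_lit 6) (nat_lit 333) (nat_lit 433)))) (n (nat_lit 308) (b (l (nat_lit 7) (nat_lit 308) (nat_lit 333)) (l (nat_lit 7) (nat_lit 283) (nat_lit 283)))))))) (l (nat_lit 4) (nat_lit 284) (nat_lit 385))))))) (b (r (nat_lit 3)) (n (nat_lit 285) (b (b (n (nat_lit 283) (b (n (nat_lit 260) (b (n (nat_lit 235) (b (l (nat_lit 6) (nat_lit 209) (nat_lit 210)) (l (nat_lit 6) (nat_lit 234) (nat_lit 334)))) (n (nat_lit 282) (b (l (nat_lit 1) (nat_lit 257) (nat_lit 261)) (l (nat_lit 0) (nat_lit 281) (nat_lit 281)))))) (n (nat_lit 286) (b (n (nat_lit 258) (b (l (nat_lit 3) (nat_lit 257) (nat_lit 257)) (l (nat_lit 3) (nat_lit 258) (nat_lit 259)))) (l (nat_lit 2) (nat_lit 284) (nat_lit 288)))))) (n (nat_lit 286) (b (l (nat_lit 2) (nat_lit 284) (nat_lit 288)) (l (nat_lit 2) (nat_lit 283) (nat_lit 308))))) (n (nat_lit 259) (b (b (n (nat_lit 234)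 (b (n (nat_lit 235) (b (n (nat_lit 236) (b (b (n (nat_lit 258) (b (n (nat_lit 260) (b (l (nat_lit 1) (nat_lit 232) (nat_lit 257)) (l (nat_lit 5) (nat_lit 210) (nat_lit 211)))) (l (nat_lit 2) (nat_lit 233) (nat_lit 237)))) (n (nat_lit 233) (b (n (nat_lit 211) (b (l (nat_lit 1) (nat_lit 208) (nat_lit 212)) (l (nat_lit 5) (nat_lit 210) (nat_lit 260)))) (l (nat_lit 7) (nat_lit 208) (nat_lit 208))))) (n (nat_lit 233) (b (n (nat_lit 258) (b (l (nat_lit 2) (nat_lit 232) (nat_lit 257)) (l (nat_lit 2) (nat_lit 233) (nat_lit 237)))) (l (nat_lit 7) (nat_lit 208) (nat_lit 208)))))) (l (nat_lit 5) (nat_lit 209) (nat_lit 210)))) (l (nat_lit 4) (nat_lit 209) (nat_lit 209)))) (n (nat_lit 334) (b (n (nat_lit 234) (b (n (nat_lit 233) (b (l (nat_lit 7) (nat_lit 233) (nat_lit 258)) (l (nat_lit 7) (nat_lit 208) (nat_lit 208)))) (l (nat_lit 4) (nat_lit 209) (nat_lit 209)))) (n (nat_lit 359) (b (l (nat_lit 5) (nat_lit 284) (nat_lit 384)) (l (nat_lit 4) (nat_lit 284)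 (nat_lit 385))))))) (b (n (nat_lit 334) (b (n (nat_lit 359) (b (l (nat_lit 5) (nat_lit 284) (nat_lit 384)) (l (nat_lit 4) (nat_lit 284) (nat_lit 385)))) (n (nat_lit 235) (b (n (nat_lit 234) (b (l (nat_lit 4) (nat_lit 209) (nat_lit 209)) (l (nat_lit 5) (nat_lit 209) (nat_lit 210)))) (l (nat_lit 6) (nat_lit 234) (nat_lit 260)))))) (n (nat_lit 260) (b (b (n (nat_lit 235) (b (n (nat_lit 236) (b (n (nat_lit 258) (b (n (nat_lit 237) (b (l (nat_lit 1) (nat_lit 233) (nat_lit 261)) (l (nat_lit 2) (nat_lit 234) (nat_lit 238)))) (l (nat_lit 1) (nat_lit 232) (nat_lit 257)))) (l (nat_lit 5) (nat_lit 210) (nat_lit 211)))) (l (nat_lit 6) (nat_lit 209) (nat_lit 210)))) (n (nat_lit 334) (b (l (nat_lit 5) (nat_lit 259) (nat_lit 359)) (l (nat_lit 6) (nat_lit 234) (nat_lit 235))))) (n (nat_lit 258) (b (n (nat_lit 334) (b (l (nat_lit 5) (nat_lit 259) (nat_lit 359)) (l (nat_lit 7) (nat_lit 233) (nat_lit 233)))) (n (nat_lit 257) (b (n (nat_lit 282) (b (n (nat_lit 232)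 (b (n (nat_lit 283) (b (n (nat_lit 207) (b (l (nat_lit 4) (nat_lit 207) (nat_lit 308)) (l (nat_lit 4) (nat_lit 182) (nat_lit 182)))) (l (nat_lit 2) (nat_lit 257) (nat_lit 261)))) (l (nat_lit 3) (nat_lit 231) (nat_lit 231)))) (l (nat_lit 2) (nat_lit 256) (nat_lit 281)))) (l (nat_lit 0) (nat_lit 256) (nat_lit 256)))))))))))))))) (b (b (r (nat_lit 4)) (n (nat_lit 334) (b (b (r (nat_lit 5)) (n (nat_lit 259) (b (n (nat_lit 359) (b (n (nat_lit 358) (b (l (nat_lit 6) (nat_lit 258) (nat_lit 333)) (l (nat_lit 6) (nat_lit 283) (nat_lit 383)))) (l (nat_lit 4) (nat_lit 284) (nat_lit 385)))) (n (nat_lit 234) (b (n (nat_lit 233) (b (l (nat_lit 7) (nat_lit 233) (nat_lit 258)) (l (nat_lit 7) (nat_lit 208) (nat_lit 208)))) (n (nat_lit 235) (b (l (nat_lit 5) (nat_lit 209) (nat_lit 210)) (l (nat_lit 5) (nat_lit 234) (nat_lit 260))))))))) (n (nat_lit 285) (b (n (nat_lit 286) (b (l (nat_lit 2) (nat_lit 284) (nat_lit 288)) (l (nat_lit 2) (nat_lit 283) (nat_lit 308))))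 (n (nat_lit 359) (b (l (nat_lit 5) (nat_lit 284) (nat_lit 384)) (l (nat_lit 4) (nat_lit 284) (nat_lit 385))))))))) (b (n (nat_lit 334) (b (b (n (nat_lit 359) (b (n (nat_lit 259) (b (n (nat_lit 258) (b (l (nat_lit 7) (nat_lit 233) (nat_lit 233)) (l (nat_lit 7) (nat_lit 258) (nat_lit 283)))) (n (nat_lit 358) (b (l (nat_lit 6) (nat_lit 258) (nat_lit 333)) (l (nat_lit 6) (nat_lit 283) (nat_lit 383)))))) (l (nat_lit 4) (nat_lit 284) (nat_lit 385)))) (n (nat_lit 359) (b (n (nat_lit 285) (b (l (nat_lit 5) (nat_lit 284) (nat_lit 384)) (l (nat_lit 5) (nat_lit 259) (nat_lit 260)))) (l (nat_lit 4) (nat_lit 284) (nat_lit 385))))) (r (nat_lit 5)))) (r (nat_lit 6))))))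
    (envOK_cons p12544 (envOK_cons p11212 (envOK_cons p12617 (envOK_cons p12711 (envOK_cons p12746 (envOK_cons p12752 (envOK_cons p12810 envOK_nil))))))) (by decide +kernel)

theorem p12812 : Fam (nat_lit 14) (nat_lit 2348542582773843657513928090976303615138684896048577864645516769201210956012429369884400366417210628714266624) (nat_lit 110906792888016665260991943425569302385359540209030211320698863449266425942215551300929402701445846448820638333265877957882016694272) (nat_lit 110906792888016665260991943425569302385359540209030211320698863449266425942215551300929402701445846448820638333265877957882016694272) :=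
  chk_sound (Env.cons (nat_lit 5) (nat_lit 2348542617769847953304931036520001169590201791363886140054142625222619704785586638983390206446160233099165696) (nat_lit 110906792392224513821902557359380095572167598546640963163477420094509263551325555951542090171238045923132020618182255893655907729408) (Env.cons (nat_lit 13) (nat_lit 2348542582773844700476347974233179784582877361650196322997334326160571281716339439327625845245604194613723136) (nat_lit 22181360031926714593488293725327751301996179818044986844629639352073291492175318755953716696068380344246797455889744188218242236416) Env.nil))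
    (n (nat_lit 309) (b (b (b (n (nat_lit 334) (b (b (n (nat_lit 359) (b (b (n (nat_lit 285) (b (n (nat_lit 260) (b (l (nat_lit 6) (nat_lit 234) (nat_lit 235)) (l (nat_lit 5) (nat_lit 259) (nat_lit 284)))) (l (nat_lit 5) (nat_lit 284) (nat_lit 384)))) (n (nat_lit 384) (b (n (nat_lit 409) (b (n (nat_lit 408) (b (l (nat_lit 6) (nat_lit 308) (nat_lit 383)) (l (nat_lit 6) (nat_lit 333) (nat_lit 433)))) (n (nat_lit 410) (b (l (nat_lit 4) (nat_lit 334) (nat_lit 435)) (l (nat_lit 4) (nat_lit 309) (nat_lit 385)))))) (l (nat_lit 5) (nat_lit 284) (nat_lit 285))))) (n (nat_lit 284) (b (n (nat_lit 283) (b (l (nat_lit 3) (nat_lit 283) (nat_lit 311)) (l (nat_lit 7) (nat_lit 258) (nat_lit 258)))) (l (nat_lit 4) (nat_lit 284) (nat_lit 385)))))) (n (nat_lit 311) (b (n (nat_lit 308) (b (n (nat_lit 283) (b (l (nat_lit 3) (nat_lit 283) (nat_lit 284)) (l (nat_lit 3) (nat_lit 282) (nat_lit 282)))) (l (nat_lit 1) (nat_lit 283) (nat_lit 286)))) (l (nat_lit 2) (nat_lit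 308) (nat_lit 333))))) (b (r (nat_lit 0)) (n (nat_lit 308) (b (b (n (nat_lit 283) (b (n (nat_lit 258) (b (n (nat_lit 359) (b (l (nat_lit 4) (nat_lit 258) (nat_lit 333)) (l (nat_lit 7) (nat_lit 283) (nat_lit 384)))) (l (nat_lit 4) (nat_lit 233) (nat_lit 233)))) (n (nat_lit 282) (b (n (nat_lit 281) (b (l (nat_lit 0) (nat_lit 280) (nat_lit 280)) (l (nat_lit 3) (nat_lit 281) (nat_lit 307)))) (l (nat_lit 3) (nat_lit 282) (nat_lit 311)))))) (n (nat_lit 307) (b (n (nat_lit 306) (b (n (nat_lit 331) (b (l (nat_lit 2) (nat_lit 306) (nat_lit 332)) (l (nat_lit 2) (nat_lit 305) (nat_lit 330)))) (n (nat_lit 281) (b (l (nat_lit 3) (nat_lit 280) (nat_lit 280)) (l (nat_lit 3) (nat_lit 281) (nat_lit 282)))))) (n (nat_lit 286) (b (l (nat_lit 1) (nat_lit 282) (nat_lit 285)) (l (nat_lit 1) (nat_lit 283) (nat_lit 311))))))) (b (n (nat_lit 311) (b (l (nat_lit 2) (nat_lit 308) (nat_lit 333)) (l (nat_lit 1) (nat_lit 283) (nat_lit 286)))) (n (nat_lit 307) (b (b (b (n (nat_lit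 285) (b (n (nat_lit 359) (b (n (nat_lit 283) (b (b (n (nat_lit 258) (b (l (nat_lit 4) (nat_lit 233) (nat_lit 233)) (l (nat_lit 4) (nat_lit 258) (nat_lit 333)))) (n (nat_lit 332) (b (n (nat_lit 357) (b (n (nat_lit 258) (b (l (nat_lit 5) (nat_lit 257) (nat_lit 282)) (l (nat_lit 6) (nat_lit 232) (nat_lit 233)))) (l (nat_lit 5) (nat_lit 282) (nat_lit 382)))) (l (nat_lit 2) (nat_lit 306) (nat_lit 331))))) (n (nat_lit 306) (b (n (nat_lit 331) (b (l (nat_lit 2) (nat_lit 306) (nat_lit 332)) (l (nat_lit 2) (nat_lit 305) (nat_lit 330)))) (n (nat_lit 305) (b (n (nat_lit 304) (b (n (nat_lit 279) (b (l (nat_lit 3) (nat_lit 279) (nat_lit 280)) (l (nat_lit 3) (nat_lit 278) (nat_lit 278)))) (l (nat_lit 1) (nat_lit 279) (nat_lit 282)))) (l (nat_lit 0) (nat_lit 305) (nat_lit 333)))))))) (l (nat_lit 5) (nat_lit 284) (nat_lit 384)))) (l (nat_lit 1) (nat_lit 282) (nat_lit 286)))) (n (nat_lit 306) (b (n (nat_lit 305) (b (n (nat_lit 280) (b (l (nat_lit 3) (nat_lit 280)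 (nat_lit 281)) (l (nat_lit 3) (nat_lit 279) (nat_lit 279)))) (l (nat_lit 0) (nat_lit 305) (nat_lit 333)))) (n (nat_lit 331) (b (l (nat_lit 2) (nat_lit 306) (nat_lit 332)) (l (nat_lit 2) (nat_lit 305) (nat_lit 330))))))) (b (n (nat_lit 306) (b (b (n (nat_lit 281) (b (l (nat_lit 3) (nat_lit 280) (nat_lit 280)) (l (nat_lit 3) (nat_lit 281) (nat_lit 282)))) (n (nat_lit 305) (b (n (nat_lit 304) (b (n (nat_lit 282) (b (l (nat_lit 3) (nat_lit 281) (nat_lit 281)) (l (nat_lit 1) (nat_lit 279) (nat_lit 283)))) (n (nat_lit 329) (b (l (nat_lit 2) (nat_lit 304) (nat_lit 330)) (l (nat_lit 2) (nat_lit 303) (nat_lit 328)))))) (l (nat_lit 0) (nat_lit 305) (nat_lit 333))))) (n (nat_lit 305) (b (n (nat_lit 304) (b (n (nat_lit 329) (b (l (nat_lit 2) (nat_lit 304) (nat_lit 330)) (l (nat_lit 2) (nat_lit 303) (nat_lit 328)))) (n (nat_lit 279) (b (l (nat_lit 3) (nat_lit 279) (nat_lit 280)) (l (nat_lit 3) (nat_lit 278) (nat_lit 278)))))) (l (nat_lit 0) (nat_lit 305) (nat_lit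 333)))))) (n (nat_lit 306) (b (n (nat_lit 331) (b (l (nat_lit 2) (nat_lit 306) (nat_lit 332)) (l (nat_lit 2) (nat_lit 305) (nat_lit 330)))) (n (nat_lit 281) (b (l (nat_lit 3) (nat_lit 280) (nat_lit 280)) (l (nat_lit 3) (nat_lit 281) (nat_lit 282)))))))) (n (nat_lit 332) (b (n (nat_lit 282) (b (n (nat_lit 357) (b (b (n (nat_lit 382) (b (n (nat_lit 381) (b (l (nat_lit 6) (nat_lit 281) (nat_lit 356)) (l (nat_lit 6) (nat_lit 306) (nat_lit 406)))) (n (nat_lit 383) (b (l (nat_lit 4) (nat_lit 307) (nat_lit 408)) (l (nat_lit 4) (nat_lit 282) (nat_lit 358)))))) (n (nat_lit 257) (b (n (nat_lit 258) (b (l (nat_lit 5) (nat_lit 232) (nat_lit 233)) (l (nat_lit 5) (nat_lit 257) (nat_lit 283)))) (n (nat_lit 333) (b (l (nat_lit 4) (nat_lit 232) (nat_lit 232)) (l (nat_lit 4) (nat_lit 257) (nat_lit 358))))))) (n (nat_lit 283) (b (l (nat_lit 5) (nat_lit 282) (nat_lit 382)) (l (nat_lit 5) (nat_lit 257) (nat_lit 258)))))) (l (nat_lit 3) (nat_lit 281) (nat_lit 281))))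 (l (nat_lit 2) (nat_lit 306) (nat_lit 331)))))))))))) (n (nat_lit 311) (b (n (nat_lit 308) (b (n (nat_lit 307) (b (n (nat_lit 332) (b (l (nat_lit 2) (nat_lit 307) (nat_lit 333)) (l (nat_lit 2) (nat_lit 306) (nat_lit 331)))) (n (nat_lit 282) (b (l (nat_lit 3) (nat_lit 281) (nat_lit 281)) (l (nat_lit 3) (nat_lit 282) (nat_lit 283)))))) (l (nat_lit 1) (nat_lit 283) (nat_lit 286)))) (l (nat_lit 1) (nat_lit 284) (nat_lit 288))))) (b (n (nat_lit 334) (b (b (n (nat_lit 359) (b (b (n (nat_lit 288) (b (n (nat_lit 285) (b (l (nat_lit 5) (nat_lit 284) (nat_lit 384)) (l (nat_lit 2) (nat_lit 284) (nat_lit 286)))) (l (nat_lit 1) (nat_lit 284) (nat_lit 311)))) (n (nat_lit 311) (b (n (nat_lit 284) (b (l (nat_lit 3) (nat_lit 283) (nat_lit 283)) (l (nat_lit 4) (nat_lit 284) (nat_lit 385)))) (l (nat_lit 1) (nat_lit 284) (nat_lit 288))))) (n (nat_lit 285) (b (n (nat_lit 284) (b (l (nat_lit 5) (nat_lit 259) (nat_lit 260)) (l (nat_lit 4) (nat_lit 284) (nat_lit 385))))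 (l (nat_lit 5) (nat_lit 284) (nat_lit 384)))))) (n (nat_lit 311) (b (l (nat_lit 2) (nat_lit 308) (nat_lit 333)) (l (nat_lit 1) (nat_lit 284) (nat_lit 288))))) (r (nat_lit 0)))) (n (nat_lit 286) (b (b (n (nat_lit 311) (b (l (nat_lit 1) (nat_lit 283) (nat_lit 308)) (l (nat_lit 1) (nat_lit 284) (nat_lit 288)))) (n (nat_lit 288) (b (l (nat_lit 2) (nat_lit 284) (nat_lit 285)) (l (nat_lit 1) (nat_lit 284) (nat_lit 311))))) (b (n (nat_lit 285) (b (n (nat_lit 308) (b (l (nat_lit 2) (nat_lit 283) (nat_lit 284)) (l (nat_lit 1) (nat_lit 282) (nat_lit 307)))) (l (nat_lit 2) (nat_lit 284) (nat_lit 288)))) (n (nat_lit 308) (b (n (nat_lit 285) (b (l (nat_lit 2) (nat_lit 283) (nat_lit 284)) (l (nat_lit 1) (nat_lit 282) (nat_lit 307)))) (l (nat_lit 1) (nat_lit 283) (nat_lit 311))))))))) (b (n (nat_lit 311) (b (n (nat_lit 308) (b (n (nat_lit 283) (b (l (nat_lit 3) (nat_lit 283) (nat_lit 284)) (l (nat_lit 3) (nat_lit 282) (nat_lit 282)))) (n (nat_lit 333) (b (l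 (nat_lit 2) (nat_lit 307) (nat_lit 332)) (l (nat_lit 2) (nat_lit 308) (nat_lit 334)))))) (l (nat_lit 1) (nat_lit 284) (nat_lit 288)))) (r (nat_lit 1)))))
    (envOK_cons p12355 (envOK_cons p12811 envOK_nil)) (by decide +kernel)

theorem p12829 : Fam (nat_lit 8) (nat_lit 11742712913869176569071850478133651724641415091681857347474680655330047056470863143739196359956285440842006528) (nat_lit 249739894445239640551363157614608212829475496386627445983974654357645788052344747571670197325949845311919673261764830711307558335613824737757626368) (nat_lit 249739894445239640551363157614608212829475496386627445983974654357645788052344747571670197325949845311919673261764830711307558335613824737757626368) :=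
  chk_sound (Env.cons (nat_lit 5) (nat_lit 2348542652765866850570309670896374882902568587349999653228314734825870361130925344264429909569632293451988992) (nat_lit 39402009719208624592135181689872712968372538662582151020701617892116702533782974432209264985702927852709468543385600) Env.nil)
    (n (nat_lit 335) (b (b (b (r (nat_lit 0)) (n (nat_lit 286) (b (b (n (nat_lit 311) (b (n (nat_lit 288) (b (l (nat_lit 2) (nat_lit 285) (nat_lit 289)) (l (nat_lit 1) (nat_lit 284) (nat_lit 309)))) (l (nat_lit 5) (nat_lit 285) (nat_lit 385)))) (n (nat_lit 261) (b (n (nat_lit 311) (b (l (nat_lit 6) (nat_lit 235) (nat_lit 236)) (l (nat_lit 6) (nat_lit 260) (nat_lit 336)))) (l (nat_lit 5) (nat_lit 260) (nat_lit 285))))) (n (nat_lit 285) (b (n (nat_lit 260) (b (b (n (nat_lit 235) (b (n (nat_lit 334) (b (l (nat_lit 6) (nat_lit 259) (nat_lit 359)) (l (nat_lit 6) (nat_lit 234) (nat_lit 309)))) (n (nat_lit 234) (b (l (nat_lit 7) (nat_lit 234) (nat_lit 259)) (l (nat_lit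 7) (nat_lit 209) (nat_lit 209)))))) (n (nat_lit 309) (b (n (nat_lit 334) (b (l (nat_lit 6) (nat_lit 234) (nat_lit 235)) (l (nat_lit 6) (nat_lit 259) (nat_lit 359)))) (l (nat_lit 2) (nat_lit 284) (nat_lit 288))))) (n (nat_lit 259) (b (l (nat_lit 7) (nat_lit 234) (nat_lit 234)) (l (nat_lit 3) (nat_lit 259) (nat_lit 288)))))) (l (nat_lit 5) (nat_lit 260) (nat_lit 261))))))) (b (n (nat_lit 385) (b (b (b (n (nat_lit 384) (b (n (nat_lit 386) (b (n (nat_lit 387) (b (n (nat_lit 359) (b (l (nat_lit 3) (nat_lit 358) (nat_lit 358)) (l (nat_lit 3) (nat_lit 359) (nat_lit 388)))) (l (nat_lit 1) (nat_lit 359) (nat_lit 363)))) (l (nat_lit 4) (nat_lit 310) (nat_lit 411)))) (l (nat_lit 6) (nat_lit 309) (nat_lit 409)))) (n (nat_lit 410) (b (n (nat_lit 411) (b (l (nat_lit 4) (nat_lit 335) (nat_lit 436)) (l (nat_lit 4) (nat_lit 310) (nat_lit 386)))) (n (nat_lit 334) (b (n (nat_lit 359) (b (n (nat_lit 285) (b (l (nat_lit 6) (nat_lit 284) (nat_lit 384)) (l (nat_lit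 6) (nat_lit 259) (nat_lit 260)))) (l (nat_lit 7) (nat_lit 334) (nat_lit 435)))) (l (nat_lit 7) (nat_lit 309) (nat_lit 309))))))) (b (n (nat_lit 410) (b (b (n (nat_lit 409) (b (l (nat_lit 6) (nat_lit 334) (nat_lit 434)) (l (nat_lit 6) (nat_lit 309) (nat_lit 384)))) (n (nat_lit 435) (b (n (nat_lit 460) (b (n (nat_lit 461) (b (l (nat_lit 4) (nat_lit 385) (nat_lit 486)) (l (nat_lit 4) (nat_lit 360) (nat_lit 436)))) (n (nat_lit 459) (b (l (nat_lit 6) (nat_lit 359) (nat_lit 434)) (l (nat_lit 6) (nat_lit 384) (nat_lit 484)))))) (n (nat_lit 334) (b (l (nat_lit 7) (nat_lit 309) (nat_lit 309)) (l (nat_lit 7) (nat_lit 334) (nat_lit 359))))))) (n (nat_lit 359) (b (n (nat_lit 334) (b (l (nat_lit 7) (nat_lit 309) (nat_lit 309)) (l (nat_lit 7) (nat_lit 334) (nat_lit 435)))) (n (nat_lit 384) (b (l (nat_lit 6) (nat_lit 284) (nat_lit 285)) (l (nat_lit 6) (nat_lit 309) (nat_lit 409)))))))) (n (nat_lit 410) (b (n (nat_lit 435) (b (n (nat_lit 334) (b (l (nat_lit 7)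 (nat_lit 309) (nat_lit 309)) (l (nat_lit 7) (nat_lit 334) (nat_lit 359)))) (n (nat_lit 434) (b (l (nat_lit 6) (nat_lit 334) (nat_lit 409)) (l (nat_lit 6) (nat_lit 359) (nat_lit 459)))))) (n (nat_lit 411) (b (l (nat_lit 4) (nat_lit 335) (nat_lit 436)) (l (nat_lit 4) (nat_lit 310) (nat_lit 386)))))))) (n (nat_lit 410) (b (n (nat_lit 411) (b (l (nat_lit 4) (nat_lit 335) (nat_lit 436)) (l (nat_lit 4) (nat_lit 310) (nat_lit 386)))) (n (nat_lit 409) (b (l (nat_lit 6) (nat_lit 334) (nat_lit 434)) (l (nat_lit 6) (nat_lit 309) (nat_lit 384)))))))) (n (nat_lit 385) (b (b (n (nat_lit 410) (b (n (nat_lit 411) (b (l (nat_lit 4) (nat_lit 335) (nat_lit 436)) (l (nat_lit 4) (nat_lit 310) (nat_lit 386)))) (n (nat_lit 311) (b (l (nat_lit 5) (nat_lit 310) (nat_lit 336)) (l (nat_lit 5) (nat_lit 285) (nat_lit 286)))))) (n (nat_lit 410) (b (n (nat_lit 311) (b (l (nat_lit 5) (nat_lit 310) (nat_lit 336)) (l (nat_lit 5) (nat_lit 285) (nat_lit 286)))) (n (nat_lit 409)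 (b (l (nat_lit 6) (nat_lit 334) (nat_lit 434)) (l (nat_lit 6) (nat_lit 309) (nat_lit 384))))))) (n (nat_lit 384) (b (n (nat_lit 386) (b (n (nat_lit 387) (b (n (nat_lit 359) (b (l (nat_lit 3) (nat_lit 358) (nat_lit 358)) (l (nat_lit 3) (nat_lit 359) (nat_lit 388)))) (l (nat_lit 1) (nat_lit 359) (nat_lit 363)))) (l (nat_lit 4) (nat_lit 310) (nat_lit 411)))) (l (nat_lit 6) (nat_lit 309) (nat_lit 409)))))))) (n (nat_lit 385) (b (n (nat_lit 410) (b (n (nat_lit 411) (b (l (nat_lit 4) (nat_lit 335) (nat_lit 436)) (l (nat_lit 4) (nat_lit 310) (nat_lit 386)))) (n (nat_lit 409) (b (l (nat_lit 6) (nat_lit 334) (nat_lit 434)) (l (nat_lit 6) (nat_lit 309) (nat_lit 384)))))) (n (nat_lit 311) (b (n (nat_lit 309) (b (n (nat_lit 308) (b (n (nat_lit 307) (b (n (nat_lit 282) (b (l (nat_lit 3) (nat_lit 281) (nat_lit 281)) (l (nat_lit 3) (nat_lit 282) (nat_lit 283)))) (l (nat_lit 0) (nat_lit 307) (nat_lit 336)))) (n (nat_lit 333) (b (l (nat_lit 2) (nat_lit 307) (nat_lit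 332)) (l (nat_lit 2) (nat_lit 308) (nat_lit 334)))))) (l (nat_lit 1) (nat_lit 284) (nat_lit 288)))) (l (nat_lit 5) (nat_lit 285) (nat_lit 286))))))))
    (envOK_cons p10638 envOK_nil) (by decide +kernel)

theorem p12883 : Fam (nat_lit 13) (nat_lit 2348542582773843657513928090976303615138684896048577864645516769201210956012429369884400366417210628714266624) (nat_lit 27726698098056167857485358548463054275397386014144346718481857675631751137156643497529700779812157377684108820260949621146862485504) (nat_lit 27726698098056167857485358548463054275397386014144346718481857675631751137156643497529700779812157377684108820260949621146862485504) :=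
  chk_sound (Env.cons (nat_lit 6) (nat_lit 11472586867377443842757207194812741876452290043354628362256601730995863926846860835491581788160) (nat_lit 277780858604471703224229797874034694737117126510297926820724654936143061472071022809692433013563981824) Env.nil)
    (n (nat_lit 309) (b (b (b (n (nat_lit 285) (b (b (n (nat_lit 260) (b (b (n (nat_lit 235) (b (n (nat_lit 210) (b (n (nat_lit 211) (b (l (nat_lit 5) (nat_lit 210) (nat_lit 236)) (l (nat_lit 5) (nat_lit 185) (nat_lit 186)))) (n (nat_lit 209) (b (l (nat_lit 7) (nat_lit 184) (nat_lit 184)) (l (nat_lit 7) (nat_lit 209) (nat_lit 234)))))) (l (nat_lit 6) (nat_lit 234) (nat_lit 334)))) (n (nat_lit 335) (b (n (nat_lit 359) (b (l (nat_lit 6) (nat_lit 259) (nat_lit 334)) (l (nat_lit 6) (nat_lit 284) (nat_lit 384)))) (n (nat_lit 259) (b (l (nat_lit 7) (nat_lit 259) (nat_lit 284)) (l (nat_lit 7) (nat_lit 234) (nat_lit 234))))))) (b (n (nat_lit 334) (b (n (nat_lit 359) (b (l (nat_lit 5) (nat_lit 284)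 (nat_lit 384)) (l (nat_lit 5) (nat_lit 259) (nat_lit 284)))) (l (nat_lit 6) (nat_lit 234) (nat_lit 235)))) (n (nat_lit 235) (b (b (n (nat_lit 335) (b (n (nat_lit 234) (b (l (nat_lit 7) (nat_lit 234) (nat_lit 259)) (l (nat_lit 7) (nat_lit 209) (nat_lit 209)))) (n (nat_lit 236) (b (l (nat_lit 5) (nat_lit 210) (nat_lit 211)) (l (nat_lit 5) (nat_lit 235) (nat_lit 261)))))) (n (nat_lit 210) (b (n (nat_lit 209) (b (l (nat_lit 7) (nat_lit 184) (nat_lit 184)) (l (nat_lit 7) (nat_lit 209) (nat_lit 234)))) (l (nat_lit 6) (nat_lit 209) (nat_lit 284))))) (n (nat_lit 210) (b (n (nat_lit 211) (b (l (nat_lit 5) (nat_lit 210) (nat_lit 236)) (l (nat_lit 5) (nat_lit 185) (nat_lit 186)))) (l (nat_lit 6) (nat_lit 209) (nat_lit 284))))))))) (n (nat_lit 286) (b (n (nat_lit 308) (b (l (nat_lit 2) (nat_lit 283) (nat_lit 284)) (l (nat_lit 1) (nat_lit 282) (nat_lit 307)))) (l (nat_lit 2) (nat_lit 284) (nat_lit 288))))) (n (nat_lit 286) (b (n (nat_lit 335) (b (n (nat_lit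 359) (b (n (nat_lit 334) (b (n (nat_lit 357) (b (b (n (nat_lit 332) (b (b (n (nat_lit 307) (b (n (nat_lit 333) (b (l (nat_lit 3) (nat_lit 306) (nat_lit 306)) (l (nat_lit 0) (nat_lit 331) (nat_lit 331)))) (l (nat_lit 1) (nat_lit 282) (nat_lit 308)))) (n (nat_lit 307) (b (n (nat_lit 382) (b (b (n (nat_lit 407) (b (n (nat_lit 406) (b (l (nat_lit 6) (nat_lit 331) (nat_lit 431)) (l (nat_lit 6) (nat_lit 306) (nat_lit 381)))) (n (nat_lit 408) (b (l (nat_lit 4) (nat_lit 332) (nat_lit 433)) (l (nat_lit 4) (nat_lit 307) (nat_lit 383)))))) (n (nat_lit 282) (b (n (nat_lit 381) (b (l (nat_lit 6) (nat_lit 281) (nat_lit 356)) (l (nat_lit 6) (nat_lit 306) (nat_lit 406)))) (n (nat_lit 281) (b (l (nat_lit 7) (nat_lit 256) (nat_lit 256)) (l (nat_lit 7) (nat_lit 281) (nat_lit 306))))))) (n (nat_lit 407) (b (n (nat_lit 408) (b (l (nat_lit 4) (nat_lit 332) (nat_lit 433)) (l (nat_lit 4) (nat_lit 307) (nat_lit 383)))) (n (nat_lit 306) (b (l (nat_lit 7) (nat_lit 306)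 (nat_lit 331)) (l (nat_lit 7) (nat_lit 281) (nat_lit 281)))))))) (l (nat_lit 1) (nat_lit 282) (nat_lit 308))))) (b (n (nat_lit 333) (b (l (nat_lit 2) (nat_lit 331) (nat_lit 356)) (l (nat_lit 1) (nat_lit 306) (nat_lit 331)))) (n (nat_lit 307) (b (n (nat_lit 333) (b (l (nat_lit 3) (nat_lit 306) (nat_lit 306)) (l (nat_lit 2) (nat_lit 331) (nat_lit 356)))) (l (nat_lit 1) (nat_lit 282) (nat_lit 308))))))) (n (nat_lit 358) (b (l (nat_lit 1) (nat_lit 332) (nat_lit 336)) (l (nat_lit 1) (nat_lit 331) (nat_lit 356))))) (n (nat_lit 307) (b (n (nat_lit 332) (b (b (n (nat_lit 358) (b (l (nat_lit 3) (nat_lit 331) (nat_lit 331)) (l (nat_lit 1) (nat_lit 332) (nat_lit 336)))) (n (nat_lit 333) (b (l (nat_lit 3) (nat_lit 306) (nat_lit 306)) (l (nat_lit 1) (nat_lit 306) (nat_lit 331))))) (n (nat_lit 382) (b (n (nat_lit 306) (b (l (nat_lit 3) (nat_lit 306) (nat_lit 333)) (l (nat_lit 7) (nat_lit 281) (nat_lit 281)))) (n (nat_lit 358) (b (l (nat_lit 1) (nat_lit 332)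 (nat_lit 336)) (l (nat_lit 2) (nat_lit 356) (nat_lit 381)))))))) (l (nat_lit 1) (nat_lit 282) (nat_lit 308)))))) (l (nat_lit 6) (nat_lit 259) (nat_lit 260)))) (l (nat_lit 6) (nat_lit 284) (nat_lit 384)))) (l (nat_lit 5) (nat_lit 260) (nat_lit 261)))) (l (nat_lit 2) (nat_lit 284) (nat_lit 288)))))) (r (nat_lit 0))) (b (n (nat_lit 311) (b (n (nat_lit 284) (b (n (nat_lit 334) (b (n (nat_lit 285) (b (n (nat_lit 359) (b (l (nat_lit 5) (nat_lit 284) (nat_lit 384)) (l (nat_lit 5) (nat_lit 259) (nat_lit 260)))) (n (nat_lit 259) (b (n (nat_lit 258) (b (l (nat_lit 3) (nat_lit 258) (nat_lit 286)) (l (nat_lit 7) (nat_lit 233) (nat_lit 233)))) (l (nat_lit 7) (nat_lit 259) (nat_lit 335)))))) (l (nat_lit 2) (nat_lit 308) (nat_lit 333)))) (l (nat_lit 3) (nat_lit 283) (nat_lit 283)))) (l (nat_lit 1) (nat_lit 284) (nat_lit 288)))) (n (nat_lit 286) (b (b (n (nat_lit 311) (b (l (nat_lit 1) (nat_lit 283) (nat_lit 308)) (l (nat_lit 1) (nat_lit 284) (nat_lit 288))))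 (n (nat_lit 288) (b (l (nat_lit 2) (nat_lit 284) (nat_lit 285)) (l (nat_lit 1) (nat_lit 284) (nat_lit 311))))) (b (n (nat_lit 285) (b (n (nat_lit 308) (b (l (nat_lit 2) (nat_lit 283) (nat_lit 284)) (l (nat_lit 1) (nat_lit 282) (nat_lit 307)))) (l (nat_lit 2) (nat_lit 284) (nat_lit 288)))) (n (nat_lit 308) (b (n (nat_lit 285) (b (l (nat_lit 2) (nat_lit 283) (nat_lit 284)) (l (nat_lit 1) (nat_lit 282) (nat_lit 307)))) (l (nat_lit 1) (nat_lit 283) (nat_lit 311))))))))) (n (nat_lit 308) (b (b (n (nat_lit 286) (b (n (nat_lit 285) (b (l (nat_lit 2) (nat_lit 283) (nat_lit 284)) (l (nat_lit 1) (nat_lit 282) (nat_lit 307)))) (l (nat_lit 1) (nat_lit 283) (nat_lit 311)))) (n (nat_lit 307) (b (b (n (nat_lit 311) (b (n (nat_lit 282) (b (l (nat_lit 3) (nat_lit 281) (nat_lit 281)) (l (nat_lit 3) (nat_lit 282) (nat_lit 283)))) (n (nat_lit 332) (b (l (nat_lit 2) (nat_lit 307) (nat_lit 333)) (l (nat_lit 2) (nat_lit 306) (nat_lit 331)))))) (n (nat_lit 306) (b (n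 (nat_lit 331) (b (l (nat_lit 2) (nat_lit 306) (nat_lit 332)) (l (nat_lit 2) (nat_lit 305) (nat_lit 330)))) (n (nat_lit 335) (b (l (nat_lit 0) (nat_lit 306) (nat_lit 334)) (l (nat_lit 0) (nat_lit 307) (nat_lit 336))))))) (n (nat_lit 306) (b (n (nat_lit 335) (b (l (nat_lit 0) (nat_lit 306) (nat_lit 334)) (l (nat_lit 0) (nat_lit 307) (nat_lit 336)))) (n (nat_lit 281) (b (l (nat_lit 3) (nat_lit 280) (nat_lit 280)) (l (nat_lit 3) (nat_lit 281) (nat_lit 282))))))))) (b (n (nat_lit 311) (b (n (nat_lit 333) (b (l (nat_lit 2) (nat_lit 307) (nat_lit 332)) (l (nat_lit 2) (nat_lit 308) (nat_lit 334)))) (l (nat_lit 1) (nat_lit 283) (nat_lit 286)))) (n (nat_lit 307) (b (b (n (nat_lit 306) (b (n (nat_lit 335) (b (l (nat_lit 0) (nat_lit 306) (nat_lit 334)) (l (nat_lit 0) (nat_lit 307) (nat_lit 336)))) (n (nat_lit 281) (b (l (nat_lit 3) (nat_lit 280) (nat_lit 280)) (l (nat_lit 3) (nat_lit 281) (nat_lit 282)))))) (n (nat_lit 306) (b (n (nat_lit 331) (b (l (nat_lit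 2) (nat_lit 306) (nat_lit 332)) (l (nat_lit 2) (nat_lit 305) (nat_lit 330)))) (n (nat_lit 285) (b (l (nat_lit 1) (nat_lit 281) (nat_lit 284)) (l (nat_lit 1) (nat_lit 282) (nat_lit 286))))))) (n (nat_lit 332) (b (n (nat_lit 282) (b (n (nat_lit 357) (b (b (n (nat_lit 382) (b (n (nat_lit 381) (b (l (nat_lit 6) (nat_lit 281) (nat_lit 356)) (l (nat_lit 6) (nat_lit 306) (nat_lit 406)))) (n (nat_lit 383) (b (l (nat_lit 4) (nat_lit 307) (nat_lit 408)) (l (nat_lit 4) (nat_lit 282) (nat_lit 358)))))) (n (nat_lit 257) (b (n (nat_lit 258) (b (l (nat_lit 5) (nat_lit 232) (nat_lit 233)) (l (nat_lit 5) (nat_lit 257) (nat_lit 283)))) (n (nat_lit 333) (b (l (nat_lit 4) (nat_lit 232) (nat_lit 232)) (l (nat_lit 4) (nat_lit 257) (nat_lit 358))))))) (n (nat_lit 283) (b (l (nat_lit 5) (nat_lit 282) (nat_lit 382)) (l (nat_lit 5) (nat_lit 257) (nat_lit 258)))))) (l (nat_lit 3) (nat_lit 281) (nat_lit 281)))) (l (nat_lit 2) (nat_lit 306) (nat_lit 331)))))))))))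
    (envOK_cons p12175 envOK_nil) (by decide +kernel)

theorem p12908 : Fam (nat_lit 13) (nat_lit 2348542582773843657513928090976303615138684896048577864645516769201210956012429369884400366417210628714266624) (nat_lit 826320074268583113625553775503687595489797644564375946999371072457772262970998393927938040205851759075538384976632717770752) (nat_lit 826320074268583113625553775503687595489797644564375946999371072457772262970998393927938040205851759075538384976632717770752) :=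
  chk_sound (Env.cons (nat_lit 8) (nat_lit 2348542582773836356777019990880446040694472348227757832485300148995113510317398912780377837087018950754041856) (nat_lit 2348542652765860071315295331882492612918443695037573132509707347704584273810734946662198866562587468549324800) (Env.cons (nat_lit 11) (nat_lit 2348542582773836356777019990880446040694472348227757832485300148995113510317398912780377837087018950754041856) (nat_lit 98505019894503606349160687513860693430498268130338105393547569351015495235362447887614185299680274555648256872808448) Env.nil))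
    (n (nat_lit 309) (b (b (b (n (nat_lit 308) (b (b (n (nat_lit 286) (b (n (nat_lit 285) (b (l (nat_lit 2) (nat_lit 283) (nat_lit 284)) (l (nat_lit 1) (nat_lit 282) (nat_lit 307)))) (l (nat_lit 1) (nat_lit 283) (nat_lit 311)))) (n (nat_lit 307) (b (b (n (nat_lit 311) (b (n (nat_lit 282) (b (l (nat_lit 3) (nat_lit 281) (nat_lit 281)) (l (nat_lit 3) (nat_lit 282) (nat_lit 283)))) (n (nat_lit 332) (b (l (nat_lit 2) (nat_lit 307) (nat_lit 333)) (l (nat_lit 2) (nat_lit 306) (nat_lit 331)))))) (n (nat_lit 306) (b (n (nat_lit 331) (b (l (nat_lit 2) (nat_lit 306) (nat_lit 332)) (l (nat_lit 2) (nat_lit 305) (nat_lit 330)))) (n (nat_lit 335) (b (l (nat_lit 0) (nat_lit 306) (nat_lit 334)) (l (nat_lit 0) (nat_lit 307) (nat_lit 336))))))) (n (nat_lit 306) (b (n (nat_lit 335) (b (l (nat_lit 0) (nat_lit 306) (nat_lit 334)) (l (nat_lit 0) (nat_lit 307) (nat_lit 336)))) (n (nat_lit 281) (b (l (nat_lit 3) (nat_lit 280) (nat_lit 280)) (l (nat_lit 3) (nat_lit 281)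 (nat_lit 282))))))))) (b (n (nat_lit 311) (b (n (nat_lit 333) (b (l (nat_lit 2) (nat_lit 307) (nat_lit 332)) (l (nat_lit 2) (nat_lit 308) (nat_lit 334)))) (l (nat_lit 1) (nat_lit 283) (nat_lit 286)))) (n (nat_lit 307) (b (b (n (nat_lit 306) (b (n (nat_lit 335) (b (l (nat_lit 0) (nat_lit 306) (nat_lit 334)) (l (nat_lit 0) (nat_lit 307) (nat_lit 336)))) (n (nat_lit 281) (b (l (nat_lit 3) (nat_lit 280) (nat_lit 280)) (l (nat_lit 3) (nat_lit 281) (nat_lit 282)))))) (n (nat_lit 306) (b (n (nat_lit 331) (b (l (nat_lit 2) (nat_lit 306) (nat_lit 332)) (l (nat_lit 2) (nat_lit 305) (nat_lit 330)))) (n (nat_lit 285) (b (l (nat_lit 1) (nat_lit 281) (nat_lit 284)) (l (nat_lit 1) (nat_lit 282) (nat_lit 286))))))) (n (nat_lit 335) (b (n (nat_lit 285) (b (n (nat_lit 284) (b (l (nat_lit 7) (nat_lit 284) (nat_lit 385)) (l (nat_lit 7) (nat_lit 259) (nat_lit 259)))) (l (nat_lit 1) (nat_lit 282) (nat_lit 286)))) (l (nat_lit 0) (nat_lit 307) (nat_lit 336))))))))) (n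 (nat_lit 311) (b (n (nat_lit 286) (b (n (nat_lit 335) (b (n (nat_lit 261) (b (l (nat_lit 6) (nat_lit 235) (nat_lit 236)) (l (nat_lit 5) (nat_lit 260) (nat_lit 285)))) (l (nat_lit 5) (nat_lit 285) (nat_lit 385)))) (l (nat_lit 1) (nat_lit 283) (nat_lit 308)))) (l (nat_lit 1) (nat_lit 284) (nat_lit 288))))) (b (n (nat_lit 311) (b (n (nat_lit 308) (b (n (nat_lit 307) (b (n (nat_lit 332) (b (l (nat_lit 2) (nat_lit 307) (nat_lit 333)) (l (nat_lit 2) (nat_lit 306) (nat_lit 331)))) (n (nat_lit 282) (b (l (nat_lit 3) (nat_lit 281) (nat_lit 281)) (l (nat_lit 3) (nat_lit 282) (nat_lit 283)))))) (l (nat_lit 1) (nat_lit 283) (nat_lit 286)))) (l (nat_lit 1) (nat_lit 284) (nat_lit 288)))) (n (nat_lit 284) (b (n (nat_lit 311) (b (l (nat_lit 3) (nat_lit 283) (nat_lit 283)) (l (nat_lit 1) (nat_lit 284) (nat_lit 288)))) (n (nat_lit 335) (b (n (nat_lit 259) (b (l (nat_lit 4) (nat_lit 259) (nat_lit 334)) (l (nat_lit 4) (nat_lit 234) (nat_lit 234)))) (l (nat_lit 7)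 (nat_lit 284) (nat_lit 385)))))))) (n (nat_lit 284) (b (b (r (nat_lit 0)) (r (nat_lit 1))) (b (n (nat_lit 285) (b (b (n (nat_lit 335) (b (n (nat_lit 286) (b (l (nat_lit 5) (nat_lit 260) (nat_lit 261)) (l (nat_lit 2) (nat_lit 284) (nat_lit 288)))) (l (nat_lit 7) (nat_lit 284) (nat_lit 385)))) (n (nat_lit 286) (b (l (nat_lit 2) (nat_lit 284) (nat_lit 288)) (l (nat_lit 2) (nat_lit 283) (nat_lit 308))))) (n (nat_lit 282) (b (b (n (nat_lit 307) (b (b (n (nat_lit 306) (b (l (nat_lit 1) (nat_lit 281) (nat_lit 308)) (l (nat_lit 2) (nat_lit 281) (nat_lit 283)))) (n (nat_lit 308) (b (l (nat_lit 1) (nat_lit 281) (nat_lit 306)) (l (nat_lit 3) (nat_lit 281) (nat_lit 281))))) (b (n (nat_lit 283) (b (l (nat_lit 2) (nat_lit 281) (nat_lit 306)) (l (nat_lit 0) (nat_lit 281) (nat_lit 281)))) (n (nat_lit 281) (b (l (nat_lit 3) (nat_lit 281) (nat_lit 308)) (l (nat_lit 0) (nat_lit 281) (nat_lit 283))))))) (n (nat_lit 260) (b (n (nat_lit 335) (b (n (nat_lit 261) (b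 (l (nat_lit 1) (nat_lit 257) (nat_lit 283)) (l (nat_lit 5) (nat_lit 235) (nat_lit 236)))) (l (nat_lit 7) (nat_lit 284) (nat_lit 385)))) (n (nat_lit 235) (b (l (nat_lit 6) (nat_lit 209) (nat_lit 210)) (l (nat_lit 6) (nat_lit 234) (nat_lit 334))))))) (n (nat_lit 307) (b (b (n (nat_lit 308) (b (l (nat_lit 1) (nat_lit 281) (nat_lit 306)) (l (nat_lit 3) (nat_lit 281) (nat_lit 281)))) (n (nat_lit 332) (b (b (n (nat_lit 334) (b (n (nat_lit 335) (b (n (nat_lit 333) (b (l (nat_lit 3) (nat_lit 306) (nat_lit 306)) (l (nat_lit 1) (nat_lit 306) (nat_lit 331)))) (l (nat_lit 7) (nat_lit 284) (nat_lit 385)))) (n (nat_lit 260) (b (l (nat_lit 5) (nat_lit 259) (nat_lit 359)) (l (nat_lit 6) (nat_lit 234) (nat_lit 235)))))) (n (nat_lit 357) (b (b (n (nat_lit 382) (b (n (nat_lit 381) (b (l (nat_lit 6) (nat_lit 281) (nat_lit 356)) (l (nat_lit 6) (nat_lit 306) (nat_lit 406)))) (n (nat_lit 383) (b (l (nat_lit 4) (nat_lit 307) (nat_lit 408)) (l (nat_lit 4) (nat_lit 282)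 (nat_lit 358)))))) (n (nat_lit 257) (b (n (nat_lit 358) (b (l (nat_lit 4) (nat_lit 282) (nat_lit 383)) (l (nat_lit 4) (nat_lit 257) (nat_lit 333)))) (n (nat_lit 256) (b (l (nat_lit 7) (nat_lit 256) (nat_lit 281)) (l (nat_lit 7) (nat_lit 231) (nat_lit 231))))))) (n (nat_lit 382) (b (n (nat_lit 381) (b (l (nat_lit 6) (nat_lit 281) (nat_lit 356)) (l (nat_lit 6) (nat_lit 306) (nat_lit 406)))) (n (nat_lit 281) (b (l (nat_lit 7) (nat_lit 256) (nat_lit 256)) (l (nat_lit 7) (nat_lit 281) (nat_lit 306))))))))) (b (n (nat_lit 357) (b (b (n (nat_lit 382) (b (n (nat_lit 281) (b (l (nat_lit 7) (nat_lit 256) (nat_lit 256)) (l (nat_lit 7) (nat_lit 281) (nat_lit 306)))) (n (nat_lit 383) (b (l (nat_lit 4) (nat_lit 307) (nat_lit 408)) (l (nat_lit 4) (nat_lit 282) (nat_lit 358)))))) (n (nat_lit 359) (b (n (nat_lit 334) (b (l (nat_lit 4) (nat_lit 284) (nat_lit 385)) (l (nat_lit 5) (nat_lit 259) (nat_lit 260)))) (n (nat_lit 358) (b (l (nat_lit 3) (nat_lit 331) (nat_lit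 331)) (l (nat_lit 4) (nat_lit 282) (nat_lit 383))))))) (n (nat_lit 257) (b (n (nat_lit 356) (b (l (nat_lit 6) (nat_lit 256) (nat_lit 331)) (l (nat_lit 6) (nat_lit 281) (nat_lit 381)))) (n (nat_lit 256) (b (l (nat_lit 7) (nat_lit 256) (nat_lit 281)) (l (nat_lit 7) (nat_lit 231) (nat_lit 231)))))))) (n (nat_lit 357) (b (b (n (nat_lit 257) (b (n (nat_lit 356) (b (l (nat_lit 6) (nat_lit 256) (nat_lit 331)) (l (nat_lit 6) (nat_lit 281) (nat_lit 381)))) (n (nat_lit 256) (b (l (nat_lit 7) (nat_lit 256) (nat_lit 281)) (l (nat_lit 7) (nat_lit 231) (nat_lit 231)))))) (n (nat_lit 359) (b (n (nat_lit 334) (b (l (nat_lit 4) (nat_lit 284) (nat_lit 385)) (l (nat_lit 5) (nat_lit 259) (nat_lit 260)))) (n (nat_lit 358) (b (l (nat_lit 3) (nat_lit 331) (nat_lit 331)) (l (nat_lit 4) (nat_lit 282) (nat_lit 383))))))) (n (nat_lit 257) (b (n (nat_lit 358) (b (l (nat_lit 4) (nat_lit 282) (nat_lit 383)) (l (nat_lit 4) (nat_lit 257) (nat_lit 333)))) (n (nat_lit 256) (b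 (l (nat_lit 7) (nat_lit 256) (nat_lit 281)) (l (nat_lit 7) (nat_lit 231) (nat_lit 231)))))))))))) (b (n (nat_lit 308) (b (n (nat_lit 335) (b (l (nat_lit 0) (nat_lit 307) (nat_lit 336)) (l (nat_lit 7) (nat_lit 284) (nat_lit 385)))) (l (nat_lit 3) (nat_lit 281) (nat_lit 281)))) (n (nat_lit 308) (b (n (nat_lit 335) (b (l (nat_lit 0) (nat_lit 307) (nat_lit 336)) (l (nat_lit 7) (nat_lit 284) (nat_lit 385)))) (l (nat_lit 1) (nat_lit 281) (nat_lit 306))))))))))) (n (nat_lit 335) (b (n (nat_lit 259) (b (l (nat_lit 4) (nat_lit 259) (nat_lit 334)) (l (nat_lit 4) (nat_lit 234) (nat_lit 234)))) (l (nat_lit 7) (nat_lit 284) (nat_lit 385)))))))))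
    (envOK_cons p11913 (envOK_cons p12746 envOK_nil)) (by decide +kernel)

theorem p12909 : Fam (nat_lit 15) (nat_lit 11742712913869174483147010711619899385753030160478620430771045541411326405063043004852745402299498309043093504) (nat_lit 249739895561666446971518563910184028154337829559042323377460748654644724188753214755159302361340744473260733044959648373759146539138016159398363136) (nat_lit 249739895561666446971518563910184028154337829559042323377460748654644724188753214755159302361340744473260733044959648373759146539138016159398363136) :=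
  chk_sound (Env.cons (nat_lit 14) (nat_lit 2348542582773843657513928090976303615138684896048577864645516769201210956012429369884400366417210628714266624) (nat_lit 5582121754719322629000424831111899787211658520944638363576981578233688758836421958485527978870475404869789578957074129956238840311247273984) (Env.cons (nat_lit 5) (nat_lit 2348542582773844700476347974233179784582877361650196322997334326160571281716339439327625845245604194613723136) (nat_lit 118206022111997434283643715901309473829464263182539705380813396165571797091128768855842316654651473692013679484076032) (Env.cons (nat_lit 8) (nat_lit 2348542582773836356777019990880446040694472348227757832485300148995113510317398912780377837087018950754041856) (nat_lit 2348542652765860071315295331882492612918443695037573132509707347704584273810734946662198866562587468549324800) (Env.cons (nat_lit 14) (nat_lit 11742712913869176569071850478133651724641415091681857347474680655330047056470863143739196359956285440842006528)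 (nat_lit 2604992824316573314456639772366650260007752777458803704502596702590891189738589999482161788645009348634220366833681144484892382992841834496) (Env.cons (nat_lit 6) (nat_lit 11472586867377443842757207194812741876452290043354628362256601730995863926846860835491581788160) (nat_lit 277780858604471703224229797874034694737117126510297926820724654936143061472071022809692433013563981824) (Env.cons (nat_lit 9) (nat_lit 2348542652765859549833183991884588026802413059795615386950554165053799075809514684170516622959497632139968512) (nat_lit 59103013844893248536315803325084041015690749413930316307174476888299144500754292432383561095360495112929883082194944) (Env.cons (nat_lit 13) (nat_lit 11742712913869176569071850478133651724641415091681857347474680655330047056470863143739196359956285440842006528) (nat_lit 1860707389282376034501998256912839535745277508210352067145106317931146470703668756630142050700530651053677347255431884121480241721934610432) (Env.cons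 (nat_lit 9) (nat_lit 2348542582773843657513928090976303615138684896048577864645516769201210956012429369884400366417210628714266624) (nat_lit 243994942998471850227730026899280681879577120076558181333071593704906483173785297785705706050151107683575140218020730630009792757760) (Env.cons (nat_lit 14) (nat_lit 2348542582773843657513928090976303615138684896048577864645516769201210956012429369884400366417210628714266624) (nat_lit 110906792888016665260991943425569302385359540209030211320698863449266425942215551300929402701445846448820638333265877957882016694272) (Env.cons (nat_lit 8) (nat_lit 11742712913869176569071850478133651724641415091681857347474680655330047056470863143739196359956285440842006528) (nat_lit 249739894445239640551363157614608212829475496386627445983974654357645788052344747571670197325949845311919673261764830711307558335613824737757626368) (Env.cons (nat_lit 7) (nat_lit 2348542652765866850570061009278169989581490896225926242808264506750471687272205112275983329821126026764222464)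 (nat_lit 39402009719208458361079185585173533265156094626957593330577714471331401165623684190325935705157908546060929896284160) (Env.cons (nat_lit 13) (nat_lit 2348542582773843657513928090976303615138684896048577864645516769201210956012429369884400366417210628714266624) (nat_lit 27726698098056167857485358548463054275397386014144346718481857675631751137156643497529700779812157377684108820260949621146862485504) (Env.cons (nat_lit 13) (nat_lit 2348542582773843657513928090976303615138684896048577864645516769201210956012429369884400366417210628714266624) (nat_lit 826320074268583113625553775503687595489797644564375946999371072457772262970998393927938040205851759075538384976632717770752) Env.nil)))))))))))))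
    (n (nat_lit 310) (b (b (b (b (r (nat_lit 0)) (n (nat_lit 309) (b (b (b (r (nat_lit 1)) (n (nat_lit 311) (b (n (nat_lit 308) (b (n (nat_lit 307) (b (n (nat_lit 332) (b (l (nat_lit 2) (nat_lit 307) (nat_lit 333)) (l (nat_lit 2) (nat_lit 306) (nat_lit 331)))) (n (nat_lit 282) (b (l (nat_lit 3) (nat_lit 281) (nat_lit 281)) (l (nat_lit 3) (nat_lit 282) (nat_lit 283)))))) (l (nat_lit 1) (nat_lit 283) (nat_lit 286)))) (l (nat_lit 1) (nat_lit 284) (nat_lit 288))))) (b (n (nat_lit 334) (b (n (nat_lit 385) (b (b (n (nat_lit 284) (b (l (nat_lit 4) (nat_lit 284) (nat_lit 359)) (l (nat_lit 7) (nat_lit 284) (nat_lit 335)))) (n (nat_lit 335) (b (l (nat_lit 7) (nat_lit 309) (nat_lit 410)) (l (nat_lit 7) (nat_lit 284) (nat_lit 284))))) (b (n (nat_lit 359) (b (n (nat_lit 410) (b (l (nat_lit 4) (nat_lit 309) (nat_lit 384)) (l (nat_lit 7) (nat_lit 334) (nat_lit 435)))) (l (nat_lit 4) (nat_lit 284) (nat_lit 284)))) (n (nat_lit 410) (b (n (nat_lit 359) (b (l (nat_lit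 4) (nat_lit 309) (nat_lit 384)) (l (nat_lit 7) (nat_lit 334) (nat_lit 435)))) (l (nat_lit 7) (nat_lit 309) (nat_lit 335))))))) (n (nat_lit 311) (b (l (nat_lit 2) (nat_lit 308) (nat_lit 333)) (l (nat_lit 1) (nat_lit 284) (nat_lit 288)))))) (n (nat_lit 286) (b (b (n (nat_lit 311) (b (l (nat_lit 1) (nat_lit 283) (nat_lit 308)) (l (nat_lit 1) (nat_lit 284) (nat_lit 288)))) (n (nat_lit 288) (b (l (nat_lit 2) (nat_lit 284) (nat_lit 285)) (l (nat_lit 1) (nat_lit 284) (nat_lit 311))))) (b (n (nat_lit 285) (b (n (nat_lit 308) (b (l (nat_lit 2) (nat_lit 283) (nat_lit 284)) (l (nat_lit 1) (nat_lit 282) (nat_lit 307)))) (l (nat_lit 2) (nat_lit 284) (nat_lit 288)))) (n (nat_lit 308) (b (n (nat_lit 285) (b (l (nat_lit 2) (nat_lit 283) (nat_lit 284)) (l (nat_lit 1) (nat_lit 282) (nat_lit 307)))) (l (nat_lit 1) (nat_lit 283) (nat_lit 311))))))))) (n (nat_lit 284) (b (b (n (nat_lit 334) (b (b (n (nat_lit 259) (b (b (n (nat_lit 234) (b (n (nat_lit 209) (b (n (nat_lit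 208) (b (l (nat_lit 7) (nat_lit 183) (nat_lit 183)) (l (nat_lit 7) (nat_lit 208) (nat_lit 233)))) (l (nat_lit 4) (nat_lit 209) (nat_lit 285)))) (n (nat_lit 333) (b (l (nat_lit 6) (nat_lit 233) (nat_lit 308)) (l (nat_lit 6) (nat_lit 258) (nat_lit 358)))))) (n (nat_lit 234) (b (n (nat_lit 209) (b (n (nat_lit 210) (b (l (nat_lit 5) (nat_lit 184) (nat_lit 185)) (l (nat_lit 5) (nat_lit 209) (nat_lit 235)))) (l (nat_lit 4) (nat_lit 209) (nat_lit 285)))) (n (nat_lit 333) (b (l (nat_lit 6) (nat_lit 233) (nat_lit 308)) (l (nat_lit 6) (nat_lit 258) (nat_lit 358))))))) (b (n (nat_lit 234) (b (n (nat_lit 233) (b (l (nat_lit 7) (nat_lit 233) (nat_lit 258)) (l (nat_lit 7) (nat_lit 208) (nat_lit 208)))) (n (nat_lit 235) (b (l (nat_lit 5) (nat_lit 209) (nat_lit 210)) (l (nat_lit 5) (nat_lit 234) (nat_lit 260)))))) (n (nat_lit 258) (b (n (nat_lit 285) (b (n (nat_lit 333) (b (n (nat_lit 260) (b (n (nat_lit 257) (b (n (nat_lit 232) (b (n (nat_lit 282) (b (n (nat_lit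 308) (b (l (nat_lit 4) (nat_lit 232) (nat_lit 307)) (l (nat_lit 7) (nat_lit 232) (nat_lit 283)))) (l (nat_lit 2) (nat_lit 256) (nat_lit 281)))) (l (nat_lit 3) (nat_lit 231) (nat_lit 231)))) (l (nat_lit 0) (nat_lit 256) (nat_lit 256)))) (l (nat_lit 6) (nat_lit 234) (nat_lit 235)))) (l (nat_lit 6) (nat_lit 258) (nat_lit 358)))) (l (nat_lit 3) (nat_lit 258) (nat_lit 286)))) (l (nat_lit 7) (nat_lit 233) (nat_lit 233))))))) (n (nat_lit 359) (b (n (nat_lit 384) (b (n (nat_lit 383) (b (l (nat_lit 6) (nat_lit 283) (nat_lit 358)) (l (nat_lit 6) (nat_lit 308) (nat_lit 408)))) (n (nat_lit 283) (b (l (nat_lit 7) (nat_lit 283) (nat_lit 308)) (l (nat_lit 7) (nat_lit 258) (nat_lit 258)))))) (l (nat_lit 4) (nat_lit 284) (nat_lit 385))))) (n (nat_lit 359) (b (n (nat_lit 285) (b (l (nat_lit 5) (nat_lit 284) (nat_lit 384)) (l (nat_lit 5) (nat_lit 259) (nat_lit 260)))) (l (nat_lit 4) (nat_lit 284) (nat_lit 385)))))) (n (nat_lit 335) (b (n (nat_lit 259) (b (l (nat_lit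 4) (nat_lit 259) (nat_lit 334)) (l (nat_lit 4) (nat_lit 234) (nat_lit 234)))) (l (nat_lit 7) (nat_lit 284) (nat_lit 385))))) (b (n (nat_lit 285) (b (n (nat_lit 359) (b (b (n (nat_lit 384) (b (l (nat_lit 6) (nat_lit 284) (nat_lit 335)) (l (nat_lit 5) (nat_lit 284) (nat_lit 334)))) (n (nat_lit 334) (b (l (nat_lit 4) (nat_lit 284) (nat_lit 385)) (l (nat_lit 5) (nat_lit 284) (nat_lit 384))))) (b (n (nat_lit 385) (b (l (nat_lit 4) (nat_lit 284) (nat_lit 334)) (l (nat_lit 7) (nat_lit 284) (nat_lit 335)))) (n (nat_lit 335) (b (l (nat_lit 6) (nat_lit 284) (nat_lit 384)) (l (nat_lit 7) (nat_lit 284) (nat_lit 385))))))) (n (nat_lit 286) (b (l (nat_lit 2) (nat_lit 284) (nat_lit 288)) (l (nat_lit 2) (nat_lit 283) (nat_lit 308)))))) (r (nat_lit 2)))))))) (b (r (nat_lit 3)) (n (nat_lit 309) (b (b (b (r (nat_lit 4)) (n (nat_lit 334) (b (n (nat_lit 385) (b (b (n (nat_lit 284) (b (l (nat_lit 4) (nat_lit 284) (nat_lit 359)) (l (nat_lit 7) (nat_lit 284) (nat_lit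 335)))) (n (nat_lit 335) (b (l (nat_lit 7) (nat_lit 309) (nat_lit 410)) (l (nat_lit 7) (nat_lit 284) (nat_lit 284))))) (b (n (nat_lit 359) (b (n (nat_lit 410) (b (l (nat_lit 4) (nat_lit 309) (nat_lit 384)) (l (nat_lit 7) (nat_lit 334) (nat_lit 435)))) (l (nat_lit 4) (nat_lit 284) (nat_lit 284)))) (n (nat_lit 410) (b (n (nat_lit 359) (b (l (nat_lit 4) (nat_lit 309) (nat_lit 384)) (l (nat_lit 7) (nat_lit 334) (nat_lit 435)))) (l (nat_lit 7) (nat_lit 309) (nat_lit 335))))))) (n (nat_lit 311) (b (l (nat_lit 2) (nat_lit 308) (nat_lit 333)) (l (nat_lit 1) (nat_lit 284) (nat_lit 288))))))) (b (n (nat_lit 311) (b (n (nat_lit 308) (b (n (nat_lit 283) (b (l (nat_lit 3) (nat_lit 283) (nat_lit 284)) (l (nat_lit 3) (nat_lit 282) (nat_lit 282)))) (n (nat_lit 333) (b (l (nat_lit 2) (nat_lit 307) (nat_lit 332)) (l (nat_lit 2) (nat_lit 308) (nat_lit 334)))))) (l (nat_lit 1) (nat_lit 284) (nat_lit 288)))) (n (nat_lit 284) (b (n (nat_lit 311) (b (l (nat_lit 3) (nat_lit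 283) (nat_lit 283)) (l (nat_lit 1) (nat_lit 284) (nat_lit 288)))) (n (nat_lit 335) (b (n (nat_lit 259) (b (l (nat_lit 4) (nat_lit 234) (nat_lit 234)) (l (nat_lit 7) (nat_lit 259) (nat_lit 285)))) (l (nat_lit 7) (nat_lit 284) (nat_lit 385)))))))) (n (nat_lit 335) (b (b (n (nat_lit 385) (b (b (n (nat_lit 410) (b (n (nat_lit 411) (b (l (nat_lit 4) (nat_lit 335) (nat_lit 436)) (l (nat_lit 4) (nat_lit 310) (nat_lit 386)))) (l (nat_lit 7) (nat_lit 309) (nat_lit 334)))) (n (nat_lit 410) (b (n (nat_lit 409) (b (l (nat_lit 6) (nat_lit 334) (nat_lit 434)) (l (nat_lit 6) (nat_lit 309) (nat_lit 384)))) (l (nat_lit 7) (nat_lit 309) (nat_lit 334))))) (n (nat_lit 384) (b (n (nat_lit 386) (b (n (nat_lit 359) (b (n (nat_lit 358) (b (l (nat_lit 3) (nat_lit 358) (nat_lit 387)) (l (nat_lit 0) (nat_lit 357) (nat_lit 357)))) (l (nat_lit 6) (nat_lit 284) (nat_lit 285)))) (l (nat_lit 4) (nat_lit 310) (nat_lit 411)))) (l (nat_lit 6) (nat_lit 309) (nat_lit 409)))))) (n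 (nat_lit 385) (b (n (nat_lit 410) (b (n (nat_lit 411) (b (l (nat_lit 4) (nat_lit 335) (nat_lit 436)) (l (nat_lit 4) (nat_lit 310) (nat_lit 386)))) (n (nat_lit 409) (b (l (nat_lit 6) (nat_lit 334) (nat_lit 434)) (l (nat_lit 6) (nat_lit 309) (nat_lit 384)))))) (l (nat_lit 7) (nat_lit 284) (nat_lit 284))))) (b (n (nat_lit 284) (b (n (nat_lit 259) (b (l (nat_lit 4) (nat_lit 259) (nat_lit 334)) (l (nat_lit 4) (nat_lit 234) (nat_lit 234)))) (l (nat_lit 7) (nat_lit 284) (nat_lit 385)))) (n (nat_lit 285) (b (b (n (nat_lit 260) (b (b (n (nat_lit 259) (b (l (nat_lit 7) (nat_lit 259) (nat_lit 284)) (l (nat_lit 7) (nat_lit 234) (nat_lit 234)))) (n (nat_lit 235) (b (n (nat_lit 210) (b (n (nat_lit 209) (b (l (nat_lit 7) (nat_lit 184) (nat_lit 184)) (l (nat_lit 7) (nat_lit 209) (nat_lit 234)))) (l (nat_lit 6) (nat_lit 209) (nat_lit 284)))) (n (nat_lit 236) (b (l (nat_lit 5) (nat_lit 210) (nat_lit 211)) (l (nat_lit 5) (nat_lit 235) (nat_lit 261))))))) (b (n (nat_lit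 235) (b (n (nat_lit 236) (b (l (nat_lit 5) (nat_lit 210) (nat_lit 211)) (l (nat_lit 5) (nat_lit 235) (nat_lit 261)))) (n (nat_lit 284) (b (l (nat_lit 7) (nat_lit 259) (nat_lit 259)) (l (nat_lit 6) (nat_lit 209) (nat_lit 210)))))) (n (nat_lit 235) (b (n (nat_lit 234) (b (l (nat_lit 7) (nat_lit 234) (nat_lit 259)) (l (nat_lit 7) (nat_lit 209) (nat_lit 209)))) (n (nat_lit 236) (b (l (nat_lit 5) (nat_lit 210) (nat_lit 211)) (l (nat_lit 5) (nat_lit 235) (nat_lit 261))))))))) (n (nat_lit 260) (b (n (nat_lit 235) (b (n (nat_lit 234) (b (l (nat_lit 7) (nat_lit 234) (nat_lit 259)) (l (nat_lit 7) (nat_lit 209) (nat_lit 209)))) (n (nat_lit 236) (b (l (nat_lit 5) (nat_lit 210) (nat_lit 211)) (l (nat_lit 5) (nat_lit 235) (nat_lit 261)))))) (n (nat_lit 359) (b (l (nat_lit 6) (nat_lit 259) (nat_lit 334)) (l (nat_lit 6) (nat_lit 284) (nat_lit 384))))))) (b (n (nat_lit 359) (b (n (nat_lit 334) (b (n (nat_lit 358) (b (n (nat_lit 383) (b (n (nat_lit 408) (b (l (nat_lit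 5) (nat_lit 333) (nat_lit 433)) (l (nat_lit 5) (nat_lit 308) (nat_lit 333)))) (l (nat_lit 6) (nat_lit 283) (nat_lit 284)))) (n (nat_lit 357) (b (l (nat_lit 1) (nat_lit 331) (nat_lit 356)) (l (nat_lit 1) (nat_lit 332) (nat_lit 336)))))) (l (nat_lit 6) (nat_lit 259) (nat_lit 260)))) (l (nat_lit 6) (nat_lit 284) (nat_lit 384)))) (r (nat_lit 5)))))))))))) (b (b (r (nat_lit 6)) (r (nat_lit 7))) (b (r (nat_lit 8)) (r (nat_lit 9))))) (b (b (b (n (nat_lit 309) (b (b (r (nat_lit 1)) (r (nat_lit 4))) (b (n (nat_lit 311) (b (n (nat_lit 308) (b (n (nat_lit 307) (b (n (nat_lit 332) (b (l (nat_lit 2) (nat_lit 307) (nat_lit 333)) (l (nat_lit 2) (nat_lit 306) (nat_lit 331)))) (n (nat_lit 282) (b (l (nat_lit 3) (nat_lit 281) (nat_lit 281)) (l (nat_lit 3) (nat_lit 282) (nat_lit 283)))))) (l (nat_lit 1) (nat_lit 283) (nat_lit 286)))) (l (nat_lit 1) (nat_lit 284) (nat_lit 288)))) (n (nat_lit 335) (b (b (n (nat_lit 284) (b (n (nat_lit 259) (b (l (nat_lit 4) (nat_lit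 259) (nat_lit 334)) (l (nat_lit 4) (nat_lit 234) (nat_lit 234)))) (l (nat_lit 7) (nat_lit 284) (nat_lit 385)))) (n (nat_lit 385) (b (n (nat_lit 410) (b (n (nat_lit 411) (b (l (nat_lit 4) (nat_lit 335) (nat_lit 436)) (l (nat_lit 4) (nat_lit 310) (nat_lit 386)))) (l (nat_lit 7) (nat_lit 309) (nat_lit 334)))) (n (nat_lit 285) (b (n (nat_lit 286) (b (l (nat_lit 5) (nat_lit 260) (nat_lit 261)) (l (nat_lit 2) (nat_lit 284) (nat_lit 288)))) (n (nat_lit 384) (b (l (nat_lit 6) (nat_lit 284) (nat_lit 359)) (l (nat_lit 6) (nat_lit 309) (nat_lit 409))))))))) (b (n (nat_lit 284) (b (n (nat_lit 259) (b (l (nat_lit 4) (nat_lit 234) (nat_lit 234)) (l (nat_lit 7) (nat_lit 259) (nat_lit 285)))) (l (nat_lit 7) (nat_lit 284) (nat_lit 385)))) (n (nat_lit 285) (b (n (nat_lit 286) (b (l (nat_lit 5) (nat_lit 260) (nat_lit 261)) (l (nat_lit 2) (nat_lit 284) (nat_lit 288)))) (n (nat_lit 260) (b (n (nat_lit 359) (b (l (nat_lit 6) (nat_lit 259) (nat_lit 334)) (l (nat_lit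 6) (nat_lit 284) (nat_lit 384)))) (n (nat_lit 259) (b (l (nat_lit 7) (nat_lit 259) (nat_lit 284)) (l (nat_lit 7) (nat_lit 234) (nat_lit 234)))))))))))))) (n (nat_lit 335) (b (b (n (nat_lit 385) (b (b (n (nat_lit 384) (b (n (nat_lit 386) (b (n (nat_lit 387) (b (n (nat_lit 359) (b (l (nat_lit 3) (nat_lit 358) (nat_lit 358)) (l (nat_lit 3) (nat_lit 359) (nat_lit 388)))) (l (nat_lit 1) (nat_lit 359) (nat_lit 363)))) (l (nat_lit 4) (nat_lit 310) (nat_lit 411)))) (l (nat_lit 6) (nat_lit 309) (nat_lit 409)))) (n (nat_lit 410) (b (n (nat_lit 309) (b (l (nat_lit 7) (nat_lit 309) (nat_lit 334)) (l (nat_lit 7) (nat_lit 284) (nat_lit 284)))) (n (nat_lit 411) (b (l (nat_lit 4) (nat_lit 335) (nat_lit 436)) (l (nat_lit 4) (nat_lit 310) (nat_lit 386))))))) (n (nat_lit 410) (b (n (nat_lit 309) (b (l (nat_lit 7) (nat_lit 309) (nat_lit 334)) (l (nat_lit 7) (nat_lit 284) (nat_lit 284)))) (n (nat_lit 409) (b (l (nat_lit 6) (nat_lit 334) (nat_lit 434)) (l (nat_lit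 6) (nat_lit 309) (nat_lit 384)))))))) (n (nat_lit 385) (b (b (n (nat_lit 410) (b (n (nat_lit 411) (b (l (nat_lit 4) (nat_lit 335) (nat_lit 436)) (l (nat_lit 4) (nat_lit 310) (nat_lit 386)))) (n (nat_lit 311) (b (l (nat_lit 5) (nat_lit 310) (nat_lit 336)) (l (nat_lit 5) (nat_lit 285) (nat_lit 286)))))) (n (nat_lit 410) (b (n (nat_lit 311) (b (l (nat_lit 5) (nat_lit 310) (nat_lit 336)) (l (nat_lit 5) (nat_lit 285) (nat_lit 286)))) (n (nat_lit 409) (b (l (nat_lit 6) (nat_lit 334) (nat_lit 434)) (l (nat_lit 6) (nat_lit 309) (nat_lit 384))))))) (n (nat_lit 384) (b (n (nat_lit 386) (b (n (nat_lit 387) (b (n (nat_lit 359) (b (l (nat_lit 3) (nat_lit 358) (nat_lit 358)) (l (nat_lit 3) (nat_lit 359) (nat_lit 388)))) (l (nat_lit 1) (nat_lit 359) (nat_lit 363)))) (l (nat_lit 4) (nat_lit 310) (nat_lit 411)))) (l (nat_lit 6) (nat_lit 309) (nat_lit 409))))))) (b (n (nat_lit 385) (b (b (n (nat_lit 410) (b (n (nat_lit 411) (b (l (nat_lit 4) (nat_lit 335) (nat_lit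 436)) (l (nat_lit 4) (nat_lit 310) (nat_lit 386)))) (n (nat_lit 311) (b (l (nat_lit 5) (nat_lit 310) (nat_lit 336)) (l (nat_lit 5) (nat_lit 285) (nat_lit 286)))))) (n (nat_lit 410) (b (n (nat_lit 309) (b (l (nat_lit 7) (nat_lit 309) (nat_lit 334)) (l (nat_lit 7) (nat_lit 284) (nat_lit 284)))) (n (nat_lit 411) (b (l (nat_lit 4) (nat_lit 335) (nat_lit 436)) (l (nat_lit 4) (nat_lit 310) (nat_lit 386))))))) (n (nat_lit 285) (b (n (nat_lit 286) (b (l (nat_lit 5) (nat_lit 285) (nat_lit 311)) (l (nat_lit 5) (nat_lit 260) (nat_lit 261)))) (n (nat_lit 284) (b (l (nat_lit 7) (nat_lit 284) (nat_lit 309)) (l (nat_lit 7) (nat_lit 259) (nat_lit 259)))))))) (r (nat_lit 10)))))) (b (n (nat_lit 335) (b (b (n (nat_lit 311) (b (b (n (nat_lit 309) (b (n (nat_lit 284) (b (l (nat_lit 7) (nat_lit 284) (nat_lit 385)) (l (nat_lit 3) (nat_lit 283) (nat_lit 283)))) (l (nat_lit 1) (nat_lit 284) (nat_lit 288)))) (n (nat_lit 286) (b (n (nat_lit 261) (b (l (nat_lit 6) (nat_lit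 235) (nat_lit 236)) (l (nat_lit 6) (nat_lit 260) (nat_lit 336)))) (l (nat_lit 5) (nat_lit 285) (nat_lit 385))))) (n (nat_lit 288) (b (n (nat_lit 289) (b (l (nat_lit 2) (nat_lit 285) (nat_lit 286)) (l (nat_lit 2) (nat_lit 286) (nat_lit 290)))) (l (nat_lit 1) (nat_lit 284) (nat_lit 309)))))) (n (nat_lit 385) (b (b (n (nat_lit 410) (b (n (nat_lit 411) (b (l (nat_lit 4) (nat_lit 335) (nat_lit 436)) (l (nat_lit 4) (nat_lit 310) (nat_lit 386)))) (n (nat_lit 409) (b (l (nat_lit 6) (nat_lit 334) (nat_lit 434)) (l (nat_lit 6) (nat_lit 309) (nat_lit 384)))))) (n (nat_lit 285) (b (n (nat_lit 284) (b (l (nat_lit 7) (nat_lit 284) (nat_lit 309)) (l (nat_lit 7) (nat_lit 259) (nat_lit 259)))) (n (nat_lit 384) (b (l (nat_lit 6) (nat_lit 284) (nat_lit 359)) (l (nat_lit 6) (nat_lit 309) (nat_lit 409))))))) (n (nat_lit 410) (b (n (nat_lit 309) (b (l (nat_lit 7) (nat_lit 309) (nat_lit 334)) (l (nat_lit 7) (nat_lit 284) (nat_lit 284)))) (n (nat_lit 411) (b (l (nat_lit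 4) (nat_lit 335) (nat_lit 436)) (l (nat_lit 4) (nat_lit 310) (nat_lit 386))))))))) (b (n (nat_lit 385) (b (b (n (nat_lit 285) (b (n (nat_lit 286) (b (l (nat_lit 5) (nat_lit 285) (nat_lit 311)) (l (nat_lit 5) (nat_lit 260) (nat_lit 261)))) (n (nat_lit 384) (b (l (nat_lit 6) (nat_lit 284) (nat_lit 359)) (l (nat_lit 6) (nat_lit 309) (nat_lit 409)))))) (n (nat_lit 410) (b (n (nat_lit 411) (b (l (nat_lit 4) (nat_lit 335) (nat_lit 436)) (l (nat_lit 4) (nat_lit 310) (nat_lit 386)))) (n (nat_lit 409) (b (l (nat_lit 6) (nat_lit 334) (nat_lit 434)) (l (nat_lit 6) (nat_lit 309) (nat_lit 384))))))) (n (nat_lit 410) (b (n (nat_lit 411) (b (l (nat_lit 4) (nat_lit 335) (nat_lit 436)) (l (nat_lit 4) (nat_lit 310) (nat_lit 386)))) (n (nat_lit 311) (b (l (nat_lit 5) (nat_lit 310) (nat_lit 336)) (l (nat_lit 5) (nat_lit 285) (nat_lit 286)))))))) (n (nat_lit 285) (b (b (n (nat_lit 260) (b (n (nat_lit 359) (b (l (nat_lit 6) (nat_lit 259) (nat_lit 334)) (l (nat_lit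 6) (nat_lit 284) (nat_lit 384)))) (n (nat_lit 261) (b (l (nat_lit 5) (nat_lit 235) (nat_lit 236)) (l (nat_lit 5) (nat_lit 260) (nat_lit 286)))))) (n (nat_lit 286) (b (n (nat_lit 311) (b (n (nat_lit 284) (b (l (nat_lit 7) (nat_lit 259) (nat_lit 259)) (l (nat_lit 0) (nat_lit 283) (nat_lit 283)))) (n (nat_lit 288) (b (l (nat_lit 2) (nat_lit 285) (nat_lit 289)) (l (nat_lit 1) (nat_lit 284) (nat_lit 309)))))) (l (nat_lit 5) (nat_lit 260) (nat_lit 261))))) (n (nat_lit 260) (b (n (nat_lit 359) (b (l (nat_lit 6) (nat_lit 259) (nat_lit 334)) (l (nat_lit 6) (nat_lit 284) (nat_lit 384)))) (n (nat_lit 259) (b (l (nat_lit 7) (nat_lit 259) (nat_lit 284)) (l (nat_lit 7) (nat_lit 234) (nat_lit 234))))))))))) (n (nat_lit 286) (b (b (b (n (nat_lit 285) (b (b (n (nat_lit 335) (b (n (nat_lit 284) (b (n (nat_lit 309) (b (l (nat_lit 7) (nat_lit 284) (nat_lit 385)) (l (nat_lit 2) (nat_lit 283) (nat_lit 308)))) (l (nat_lit 7) (nat_lit 259) (nat_lit 259)))) (l (nat_lit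 5) (nat_lit 260) (nat_lit 261)))) (n (nat_lit 335) (b (n (nat_lit 259) (b (n (nat_lit 260) (b (l (nat_lit 3) (nat_lit 259) (nat_lit 288)) (l (nat_lit 7) (nat_lit 234) (nat_lit 234)))) (l (nat_lit 7) (nat_lit 259) (nat_lit 284)))) (l (nat_lit 5) (nat_lit 260) (nat_lit 261))))) (b (n (nat_lit 309) (b (n (nat_lit 308) (b (l (nat_lit 2) (nat_lit 283) (nat_lit 284)) (l (nat_lit 1) (nat_lit 282) (nat_lit 307)))) (l (nat_lit 2) (nat_lit 284) (nat_lit 288)))) (n (nat_lit 288) (b (n (nat_lit 261) (b (n (nat_lit 260) (b (l (nat_lit 3) (nat_lit 260) (nat_lit 289)) (l (nat_lit 3) (nat_lit 259) (nat_lit 259)))) (l (nat_lit 5) (nat_lit 260) (nat_lit 335)))) (l (nat_lit 2) (nat_lit 284) (nat_lit 309))))))) (n (nat_lit 335) (b (n (nat_lit 385) (b (n (nat_lit 410) (b (n (nat_lit 411) (b (l (nat_lit 4) (nat_lit 335) (nat_lit 436)) (l (nat_lit 4) (nat_lit 310) (nat_lit 386)))) (n (nat_lit 409) (b (l (nat_lit 6) (nat_lit 334) (nat_lit 434)) (l (nat_lit 6) (nat_lit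 309) (nat_lit 384)))))) (l (nat_lit 5) (nat_lit 285) (nat_lit 311)))) (n (nat_lit 285) (b (n (nat_lit 259) (b (n (nat_lit 260) (b (l (nat_lit 3) (nat_lit 259) (nat_lit 288)) (l (nat_lit 7) (nat_lit 234) (nat_lit 234)))) (l (nat_lit 7) (nat_lit 259) (nat_lit 284)))) (l (nat_lit 5) (nat_lit 260) (nat_lit 261))))))) (b (n (nat_lit 309) (b (b (n (nat_lit 311) (b (l (nat_lit 1) (nat_lit 283) (nat_lit 308)) (l (nat_lit 1) (nat_lit 284) (nat_lit 288)))) (n (nat_lit 288) (b (l (nat_lit 2) (nat_lit 284) (nat_lit 285)) (l (nat_lit 1) (nat_lit 284) (nat_lit 311))))) (b (n (nat_lit 308) (b (n (nat_lit 285) (b (l (nat_lit 2) (nat_lit 283) (nat_lit 284)) (l (nat_lit 1) (nat_lit 282) (nat_lit 307)))) (l (nat_lit 1) (nat_lit 283) (nat_lit 311)))) (n (nat_lit 285) (b (n (nat_lit 308) (b (l (nat_lit 2) (nat_lit 283) (nat_lit 284)) (l (nat_lit 1) (nat_lit 282) (nat_lit 307)))) (l (nat_lit 2) (nat_lit 284) (nat_lit 288))))))) (n (nat_lit 311) (b (n (nat_lit 309)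 (b (l (nat_lit 1) (nat_lit 284) (nat_lit 288)) (l (nat_lit 1) (nat_lit 283) (nat_lit 308)))) (n (nat_lit 335) (b (n (nat_lit 261) (b (l (nat_lit 6) (nat_lit 235) (nat_lit 236)) (l (nat_lit 6) (nat_lit 260) (nat_lit 336)))) (l (nat_lit 5) (nat_lit 285) (nat_lit 385)))))))) (n (nat_lit 335) (b (b (n (nat_lit 285) (b (n (nat_lit 284) (b (n (nat_lit 309) (b (l (nat_lit 7) (nat_lit 284) (nat_lit 385)) (l (nat_lit 2) (nat_lit 283) (nat_lit 308)))) (l (nat_lit 7) (nat_lit 259) (nat_lit 259)))) (l (nat_lit 5) (nat_lit 260) (nat_lit 261)))) (n (nat_lit 385) (b (n (nat_lit 410) (b (n (nat_lit 411) (b (l (nat_lit 4) (nat_lit 335) (nat_lit 436)) (l (nat_lit 4) (nat_lit 310) (nat_lit 386)))) (n (nat_lit 409) (b (l (nat_lit 6) (nat_lit 334) (nat_lit 434)) (l (nat_lit 6) (nat_lit 309) (nat_lit 384)))))) (l (nat_lit 5) (nat_lit 285) (nat_lit 311))))) (n (nat_lit 261) (b (n (nat_lit 311) (b (l (nat_lit 6) (nat_lit 235) (nat_lit 236)) (l (nat_lit 6) (nat_lit 260)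 (nat_lit 336)))) (l (nat_lit 5) (nat_lit 260) (nat_lit 285)))))))))) (b (r (nat_lit 11)) (r (nat_lit 12))))))
    (envOK_cons p11865 (envOK_cons p11872 (envOK_cons p11913 (envOK_cons p12166 (envOK_cons p12175 (envOK_cons p11184 (envOK_cons p12321 (envOK_cons p12346 (envOK_cons p12812 (envOK_cons p12829 (envOK_cons p10621 (envOK_cons p12883 (envOK_cons p12908 envOK_nil))))))))))))) (by decide +kernel)

theorem p12910 : Fam (nat_lit 16) (nat_lit 9394170331095341255257530114830562358377347611570300560063754569879117379948434561389046403914729606011158528) (nat_lit 67039042821409607515004787046970629839679138989517038463964883215505237028145831408405500546381636541469051735658530296734213625217559743755511070891966464) (nat_lit 67039042821409607515004787046970629839679138989517038463964883215505237028145831408405500546381636541469051735658530296734213625217559743755511070891966464) :=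
  chk_sound (Env.cons (nat_lit 9) (nat_lit 16439798079416840938925971905198573440504395258295260172185627484475744455292259891780143399069035715106963456) (nat_lit 83359682273777802591521313665342163581168879759465790917605182233325702032073775840107980765986836232266555435154232503267231381784327356416) (Env.cons (nat_lit 10) (nat_lit 16439798079416840938925971905198573440504395258295260172185627484475744455292259891780143399069035715106963456) (nat_lit 67039042446799771429247101081180866804236944874007920408423638600903755436229694423593721237343251137780781351788578930810195077751752719870897386550198272) (Env.cons (nat_lit 6) (nat_lit 16439798079416840938925971905198573440504395258295260172185627484475744455292259891780143399069035715106963456) (nat_lit 88725438144538006355076865783019240566035136821172703565565906395933399162138955895179025290340044159799203952607263752179433865216) (Env.cons (nat_lit 11) (nat_lit 16439798079416840938925971905198573440504395258295260172185627484475744455292259891780143399069035715106963456)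 (nat_lit 9909604707525669657556473212900387202382317067857487015826110416127101267160554002283975981194753972206289322854318080) (Env.cons (nat_lit 9) (nat_lit 17614069370803757552870712203593241954192236532749420107539272970241848967849564113511992898261420066622930944) (nat_lit 17862789175910939576838481636012977652737239211289949078031830109269231887651134131032356868511726639625488322874272089269714396406232383488) (Env.cons (nat_lit 9) (nat_lit 17614069370803757552870712203593241954192236532749420107539272970241848967849564113511992898261420066622930944) (nat_lit 44362716428045130479169864710373218565862411503513179007787325034568788674583620144389556489031750909884126009177457842194430820352) (Env.cons (nat_lit 11) (nat_lit 17614069370803757552870712203593241954192236532749420107539272970241848967849564113511992898261420066622930944) (nat_lit 124869965085413809541353598525057826397228750198860187706424978462659066501207083831441386396323356089870708056312798678286049947238758814117265408)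 (Env.cons (nat_lit 7) (nat_lit 17614069370803757552870712203593241954192236532749420107539272970241848967849564113511992898261420066622930944) (nat_lit 88725432856090068873539852953310821330519497179182504301329871686504825413804324505073422457319520890021664961158895855526475726848) (Env.cons (nat_lit 5) (nat_lit 17614069370803749209171104475920027705317619116812399030304682286491567688359563325977742487885765272739512320) (nat_lit 34476774063402197858887453902892294402590270594050897646761453905816519159836210196222901286877350250980861735337984) (Env.cons (nat_lit 8) (nat_lit 17614069370803757552870712203593241954192236532749420107539272970241848967849564113511992898261420066622930944) (nat_lit 44362716428045130479169864710392903822906936836834735949175858971677350147337914989245589931199484630637152026119986602152531329024) (Env.cons (nat_lit 8) (nat_lit 16439798079416840938925971905198573440504395258295260172185627484475744455292259891780143399069035715106963456)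 (nat_lit 7442828847326029555544434359821330571960901092421029294779994552217181882831670659913484150651965566336499648894873849093766635619140763648) (Env.cons (nat_lit 14) (nat_lit 16439798079416840938925971905198573440504395258295260172185627484475744455292259891780143399069035715106963456) (nat_lit 9909604708112805294501463139004817963114510001665700057885779638470786253712382340083622330708482214508027058751275008) (Env.cons (nat_lit 6) (nat_lit 16439798079416832595226364177525359191629777842358239094951036800725463175802259104245892988693380921223544832) (nat_lit 2644224500667917623364905886016321613072358936829873798384214368344359416517851485343790241038549365401125715733527803199488) (Env.cons (nat_lit 9) (nat_lit 16439798079416840938925971905198573440504395258295260172185627484475744455292259891780143399069035715106963456) (nat_lit 83359682096326936879336447677478377978013855194627520657632238687098761263288429870880452245934628830502617419094215754691525118478413463552)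 (Env.cons (nat_lit 8) (nat_lit 16439798079416832595226364177525359191629777842358239094951036800725463175802259104245892988693380921223544832) (nat_lit 1488565773901480198137609259142918000250862157299365790597189695951081996270062541331684636730139339991350911847646219656461706372961009664) (Env.cons (nat_lit 10) (nat_lit 11742712913869174483147010711619899385753030160478620430771045541411326405063043004852745402299498309043093504) (nat_lit 7814972791749537740322217696969833508310112720785194467935833697585401957686126278375864505288780931171212573520210656445484166908668280832) (Env.cons (nat_lit 14) (nat_lit 11742712913869174483147010711619899385753030160478620430771045541411326405063043004852745402299498309043093504) (nat_lit 67039042446799773662115736246125175834415781960434465603677431851875737538138622858975078035256526080628273001999529856724443245474999690760863919833612288) (Env.cons (nat_lit 8) (nat_lit 16439798079416832595226364177525359191629777842358239094951036800725463175802259104245892988693380921223544832)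 (nat_lit 2977131547802960396277710695213279661485318887348863734008618082694153383426840711239436111409272040635154677422272630896570800687705751552) (Env.cons (nat_lit 13) (nat_lit 16439798079416840938925971905198573440504395258295260172185627484475744455292259891780143399069035715106963456) (nat_lit 67039042446799769940701401308540609930463382487357531215472869414378750174087428838561422323909338549145273695441532710609980014365330567779616403543293952) (Env.cons (nat_lit 9) (nat_lit 16439798079416840938925971905198573440504395258295260172185627484475744455292259891780143399069035715106963456) (nat_lit 199791917640183764849257601937247717816306557523655789339531129767175731846663065617824386828011566921023954454228814534934787684402605477733597184) (Env.cons (nat_lit 9) (nat_lit 11742712913869166139447402983946685136878412744541599353536454857661045125573042217318494991923843515159674880) (nat_lit 2977131547802960396282788628839048337428738126270476236398608259106470375135168259343810678240164605769860567514076001153986777642853990400)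 (Env.cons (nat_lit 8) (nat_lit 11742712913869174483147010711619899385753030160478620430771045541411326405063043004852745402299498309043093504) (nat_lit 88725439466659720558475154818286899824041665401227465289159324875312300275369248556427525444023459479153068570644527551503187050496) (Env.cons (nat_lit 6) (nat_lit 16439798079416840938925971905198573440504395258295260172185627484475744455292259891780143399069035715106963456) (nat_lit 1322112486746033566730899757360028112398574660484073139497898464811925006740781789978407157445090130497632750659115293868032) (Env.cons (nat_lit 7) (nat_lit 16439798079416840938925971905198573440504395258295260172185627484475744455292259891780143399069035715106963456) (nat_lit 2644225126174709332537593946280447956706837054392206979184930549583919561754080356427674869245118521851289440245538650849280) (Env.cons (nat_lit 5) (nat_lit 7045627818313531220424431097961296598765548753963402477939261563971567759952322092305376948682382567716945920)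 (nat_lit 177450865712180137747051523395313392541769649381444763015795575987376687431636447061116294479801897030965759055854145930483468337152) (Env.cons (nat_lit 10) (nat_lit 16439798079416840938925971905198573440504395258295260172185627484475744455292259891780143399069035715106963456) (nat_lit 124869965085408840917113657487835221946196672141337220129701691223301372016586524591934673293219174746078539739168956529361089768351643906080768000) (Env.cons (nat_lit 10) (nat_lit 16439798079416840938925971905198573440504395258295260172185627484475744455292259891780143399069035715106963456) (nat_lit 17862789175910939576838550589523821343128354718569360354155274647000557121463456788111538069067424347105959537837943732778012844356886593536) (Env.cons (nat_lit 9) (nat_lit 16439798079416840938925971905198573440504395258295260172185627484475744455292259891780143399069035715106963456) (nat_lit 99895958820091882424626156745731285453701716279182162290716675659337814161830401381211751331364921450291787038108184503187395840385440938480107520)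 (Env.cons (nat_lit 9) (nat_lit 11742712913869174483147010711619899385753030160478620430771045541411326405063043004852745402299498309043093504) (nat_lit 88725432856100027730738097182141055278683881177314152413123611943700534635573742264220539144076528157324499350355682636229976784896) (Env.cons (nat_lit 5) (nat_lit 16439798079416832595226364177525359191629777842358239094951036800725463175802259104245892988693380921223544832) (nat_lit 10008109723603791413790083862396902192194604983262269119221366572924795279962697491948654419998285836846239466427252736) (Env.cons (nat_lit 11) (nat_lit 16439798079416840938925971905198573440504395258295260172185627484475744455292259891780143399069035715106963456) (nat_lit 92291076606647654901849340458931802648660181556111647815868296750843395856289218488206386091666104814489495772439114938420256178156739756032) (Env.cons (nat_lit 15) (nat_lit 11742712913869174483147010711619899385753030160478620430771045541411326405063043004852745402299498309043093504)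 (nat_lit 67039042446799780360641522676713268159541088556680591561385839652860668640810834447173651841936685923584684446104542001955993911960958364869617203799916544) (Env.cons (nat_lit 7) (nat_lit 16439798079416832595226364177525359191629777842358239094951036800725463175802259104245892988693380921223544832) (nat_lit 88725434178203139261715784333933248820768897710660866315529385778610971417522916715210719652693347123906453678720894314410812637184) (Env.cons (nat_lit 8) (nat_lit 16439798079416840938925971905198573440504395258295260172185627484475744455292259891780143399069035715106963456) (nat_lit 3721414423663014777771128699471729033405502383818067776344410092921319139277714339512653118232663379057849650619268174757098532986593214464) (Env.cons (nat_lit 15) (nat_lit 11742712913869174483147010711619899385753030160478620430771045541411326405063043004852745402299498309043093504) (nat_lit 249739895561666446971518563910184028154337829559042323377460748654644724188753214755159302361340744473260733044959648373759146539138016159398363136)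 Env.nil)))))))))))))))))))))))))))))))))))
    (n (nat_lit 360) (b (b (b (b (b (n (nat_lit 361) (b (b (b (r (nat_lit 0)) (r (nat_lit 1))) (b (r (nat_lit 2)) (r (nat_lit 3)))) (b (n (nat_lit 363) (b (b (n (nat_lit 359) (b (n (nat_lit 388) (b (l (nat_lit 0) (nat_lit 360) (nat_lit 389)) (l (nat_lit 0) (nat_lit 359) (nat_lit 387)))) (n (nat_lit 384) (b (l (nat_lit 2) (nat_lit 359) (nat_lit 385)) (l (nat_lit 2) (nat_lit 358) (nat_lit 383)))))) (n (nat_lit 364) (b (n (nat_lit 339) (b (l (nat_lit 1) (nat_lit 336) (nat_lit 340)) (l (nat_lit 1) (nat_lit 335) (nat_lit 338)))) (n (nat_lit 385) (b (l (nat_lit 2) (nat_lit 360) (nat_lit 386)) (l (nat_lit 2) (nat_lit 359) (nat_lit 384))))))) (n (nat_lit 364) (b (n (nat_lit 389) (b (l (nat_lit 0) (nat_lit 360) (nat_lit 388)) (l (nat_lit 0) (nat_lit 361) (nat_lit 390)))) (n (nat_lit 339) (b (l (nat_lit 1) (nat_lit 336) (nat_lit 340)) (l (nat_lit 1) (nat_lit 335) (nat_lit 338)))))))) (n (nat_lit 359) (b (b (r (nat_lit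 4)) (r (nat_lit 5))) (b (n (nat_lit 358) (b (n (nat_lit 357) (b (n (nat_lit 382) (b (l (nat_lit 2) (nat_lit 357) (nat_lit 383)) (l (nat_lit 2) (nat_lit 356) (nat_lit 381)))) (n (nat_lit 332) (b (l (nat_lit 3) (nat_lit 331) (nat_lit 331)) (l (nat_lit 3) (nat_lit 332) (nat_lit 333)))))) (n (nat_lit 387) (b (l (nat_lit 0) (nat_lit 358) (nat_lit 386)) (l (nat_lit 0) (nat_lit 359) (nat_lit 388)))))) (r (nat_lit 6)))))))) (n (nat_lit 361) (b (b (b (r (nat_lit 3)) (n (nat_lit 359) (b (b (b (r (nat_lit 5)) (r (nat_lit 7))) (b (r (nat_lit 8)) (n (nat_lit 358) (b (n (nat_lit 383) (b (l (nat_lit 2) (nat_lit 358) (nat_lit 384)) (l (nat_lit 2) (nat_lit 357) (nat_lit 382)))) (n (nat_lit 333) (b (l (nat_lit 3) (nat_lit 332) (nat_lit 332)) (l (nat_lit 3) (nat_lit 333) (nat_lit 334)))))))) (r (nat_lit 9))))) (b (r (nat_lit 10)) (n (nat_lit 359) (b (b (n (nat_lit 363) (b (n (nat_lit 384) (b (l (nat_lit 2) (nat_lit 359) (nat_lit 385)) (l (nat_lit 2) (nat_lit 358)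 (nat_lit 383)))) (n (nat_lit 388) (b (l (nat_lit 0) (nat_lit 360) (nat_lit 389)) (l (nat_lit 0) (nat_lit 359) (nat_lit 387)))))) (n (nat_lit 358) (b (n (nat_lit 383) (b (l (nat_lit 2) (nat_lit 358) (nat_lit 384)) (l (nat_lit 2) (nat_lit 357) (nat_lit 382)))) (n (nat_lit 333) (b (l (nat_lit 3) (nat_lit 332) (nat_lit 332)) (l (nat_lit 3) (nat_lit 333) (nat_lit 334))))))) (n (nat_lit 363) (b (n (nat_lit 334) (b (l (nat_lit 3) (nat_lit 333) (nat_lit 333)) (l (nat_lit 3) (nat_lit 334) (nat_lit 335)))) (n (nat_lit 388) (b (l (nat_lit 0) (nat_lit 360) (nat_lit 389)) (l (nat_lit 0) (nat_lit 359) (nat_lit 387)))))))))) (b (n (nat_lit 363) (b (b (n (nat_lit 364) (b (n (nat_lit 389) (b (l (nat_lit 0) (nat_lit 360) (nat_lit 388)) (l (nat_lit 0) (nat_lit 361) (nat_lit 390)))) (n (nat_lit 339) (b (l (nat_lit 1) (nat_lit 336) (nat_lit 340)) (l (nat_lit 1) (nat_lit 335) (nat_lit 338)))))) (n (nat_lit 359) (b (n (nat_lit 388) (b (l (nat_lit 0) (nat_lit 360) (nat_lit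 389)) (l (nat_lit 0) (nat_lit 359) (nat_lit 387)))) (n (nat_lit 334) (b (l (nat_lit 3) (nat_lit 333) (nat_lit 333)) (l (nat_lit 3) (nat_lit 334) (nat_lit 335))))))) (n (nat_lit 364) (b (n (nat_lit 335) (b (l (nat_lit 3) (nat_lit 334) (nat_lit 334)) (l (nat_lit 3) (nat_lit 335) (nat_lit 336)))) (n (nat_lit 339) (b (l (nat_lit 1) (nat_lit 336) (nat_lit 340)) (l (nat_lit 1) (nat_lit 335) (nat_lit 338)))))))) (r (nat_lit 11)))))) (b (n (nat_lit 361) (b (b (b (r (nat_lit 12)) (r (nat_lit 1))) (b (r (nat_lit 13)) (n (nat_lit 363) (b (b (n (nat_lit 364) (b (n (nat_lit 389) (b (l (nat_lit 0) (nat_lit 360) (nat_lit 388)) (l (nat_lit 0) (nat_lit 361) (nat_lit 390)))) (n (nat_lit 385) (b (l (nat_lit 2) (nat_lit 360) (nat_lit 386)) (l (nat_lit 2) (nat_lit 359) (nat_lit 384)))))) (n (nat_lit 359) (b (n (nat_lit 384) (b (l (nat_lit 2) (nat_lit 359) (nat_lit 385)) (l (nat_lit 2) (nat_lit 358) (nat_lit 383)))) (n (nat_lit 334) (b (l (nat_lit 3) (nat_lit 333)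 (nat_lit 333)) (l (nat_lit 3) (nat_lit 334) (nat_lit 335))))))) (n (nat_lit 364) (b (n (nat_lit 389) (b (l (nat_lit 0) (nat_lit 360) (nat_lit 388)) (l (nat_lit 0) (nat_lit 361) (nat_lit 390)))) (n (nat_lit 335) (b (l (nat_lit 3) (nat_lit 334) (nat_lit 334)) (l (nat_lit 3) (nat_lit 335) (nat_lit 336)))))))))) (b (b (n (nat_lit 359) (b (b (n (nat_lit 363) (b (n (nat_lit 384) (b (l (nat_lit 2) (nat_lit 359) (nat_lit 385)) (l (nat_lit 2) (nat_lit 358) (nat_lit 383)))) (n (nat_lit 388) (b (l (nat_lit 0) (nat_lit 360) (nat_lit 389)) (l (nat_lit 0) (nat_lit 359) (nat_lit 387)))))) (n (nat_lit 358) (b (n (nat_lit 383) (b (l (nat_lit 2) (nat_lit 358) (nat_lit 384)) (l (nat_lit 2) (nat_lit 357) (nat_lit 382)))) (n (nat_lit 333) (b (l (nat_lit 3) (nat_lit 332) (nat_lit 332)) (l (nat_lit 3) (nat_lit 333) (nat_lit 334))))))) (n (nat_lit 363) (b (n (nat_lit 334) (b (l (nat_lit 3) (nat_lit 333) (nat_lit 333)) (l (nat_lit 3) (nat_lit 334) (nat_lit 335)))) (n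 (nat_lit 388) (b (l (nat_lit 0) (nat_lit 360) (nat_lit 389)) (l (nat_lit 0) (nat_lit 359) (nat_lit 387)))))))) (n (nat_lit 359) (b (b (n (nat_lit 363) (b (n (nat_lit 334) (b (l (nat_lit 3) (nat_lit 333) (nat_lit 333)) (l (nat_lit 3) (nat_lit 334) (nat_lit 335)))) (n (nat_lit 388) (b (l (nat_lit 0) (nat_lit 360) (nat_lit 389)) (l (nat_lit 0) (nat_lit 359) (nat_lit 387)))))) (n (nat_lit 358) (b (n (nat_lit 383) (b (l (nat_lit 2) (nat_lit 358) (nat_lit 384)) (l (nat_lit 2) (nat_lit 357) (nat_lit 382)))) (n (nat_lit 387) (b (l (nat_lit 0) (nat_lit 358) (nat_lit 386)) (l (nat_lit 0) (nat_lit 359) (nat_lit 388))))))) (n (nat_lit 358) (b (n (nat_lit 383) (b (l (nat_lit 2) (nat_lit 358) (nat_lit 384)) (l (nat_lit 2) (nat_lit 357) (nat_lit 382)))) (n (nat_lit 333) (b (l (nat_lit 3) (nat_lit 332) (nat_lit 332)) (l (nat_lit 3) (nat_lit 333) (nat_lit 334))))))))) (r (nat_lit 14))))) (r (nat_lit 15)))) (b (b (r (nat_lit 16)) (n (nat_lit 361) (b (b (b (r (nat_lit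 17)) (r (nat_lit 1))) (b (r (nat_lit 18)) (r (nat_lit 19)))) (b (b (r (nat_lit 10)) (n (nat_lit 363) (b (b (n (nat_lit 385) (b (n (nat_lit 335) (b (n (nat_lit 311) (b (n (nat_lit 310) (b (n (nat_lit 309) (b (l (nat_lit 1) (nat_lit 284) (nat_lit 288)) (l (nat_lit 7) (nat_lit 284) (nat_lit 284)))) (l (nat_lit 5) (nat_lit 285) (nat_lit 286)))) (n (nat_lit 336) (b (l (nat_lit 5) (nat_lit 286) (nat_lit 386)) (l (nat_lit 5) (nat_lit 310) (nat_lit 410)))))) (l (nat_lit 3) (nat_lit 334) (nat_lit 334)))) (l (nat_lit 2) (nat_lit 359) (nat_lit 384)))) (n (nat_lit 364) (b (n (nat_lit 389) (b (l (nat_lit 0) (nat_lit 360) (nat_lit 388)) (l (nat_lit 0) (nat_lit 361) (nat_lit 390)))) (n (nat_lit 335) (b (l (nat_lit 3) (nat_lit 334) (nat_lit 334)) (l (nat_lit 3) (nat_lit 335) (nat_lit 336))))))) (n (nat_lit 364) (b (n (nat_lit 389) (b (l (nat_lit 0) (nat_lit 360) (nat_lit 388)) (l (nat_lit 0) (nat_lit 361) (nat_lit 390)))) (n (nat_lit 385) (b (l (nat_lit 2) (nat_lit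 360) (nat_lit 386)) (l (nat_lit 2) (nat_lit 359) (nat_lit 384))))))))) (n (nat_lit 363) (b (n (nat_lit 364) (b (n (nat_lit 389) (b (l (nat_lit 0) (nat_lit 360) (nat_lit 388)) (l (nat_lit 0) (nat_lit 361) (nat_lit 390)))) (n (nat_lit 339) (b (l (nat_lit 1) (nat_lit 336) (nat_lit 340)) (l (nat_lit 1) (nat_lit 335) (nat_lit 338)))))) (n (nat_lit 385) (b (n (nat_lit 335) (b (n (nat_lit 310) (b (n (nat_lit 309) (b (n (nat_lit 311) (b (l (nat_lit 5) (nat_lit 285) (nat_lit 286)) (l (nat_lit 1) (nat_lit 284) (nat_lit 288)))) (l (nat_lit 7) (nat_lit 284) (nat_lit 284)))) (n (nat_lit 386) (b (l (nat_lit 4) (nat_lit 285) (nat_lit 285)) (l (nat_lit 4) (nat_lit 310) (nat_lit 411)))))) (l (nat_lit 3) (nat_lit 334) (nat_lit 334)))) (l (nat_lit 2) (nat_lit 359) (nat_lit 384)))))))))) (b (r (nat_lit 20)) (r (nat_lit 21))))) (b (b (b (n (nat_lit 361) (b (b (b (r (nat_lit 12)) (r (nat_lit 19))) (b (r (nat_lit 2)) (r (nat_lit 22)))) (n (nat_lit 359) (b (b (b (r (nat_lit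 5)) (r (nat_lit 7))) (b (r (nat_lit 8)) (n (nat_lit 358) (b (n (nat_lit 383) (b (l (nat_lit 2) (nat_lit 358) (nat_lit 384)) (l (nat_lit 2) (nat_lit 357) (nat_lit 382)))) (n (nat_lit 333) (b (l (nat_lit 3) (nat_lit 332) (nat_lit 332)) (l (nat_lit 3) (nat_lit 333) (nat_lit 334)))))))) (r (nat_lit 9)))))) (n (nat_lit 361) (b (b (b (r (nat_lit 22)) (r (nat_lit 3))) (b (r (nat_lit 23)) (n (nat_lit 363) (b (n (nat_lit 335) (b (r (nat_lit 24)) (l (nat_lit 3) (nat_lit 334) (nat_lit 334)))) (n (nat_lit 364) (b (n (nat_lit 389) (b (l (nat_lit 0) (nat_lit 360) (nat_lit 388)) (l (nat_lit 0) (nat_lit 361) (nat_lit 390)))) (n (nat_lit 339) (b (l (nat_lit 1) (nat_lit 336) (nat_lit 340)) (l (nat_lit 1) (nat_lit 335) (nat_lit 338)))))))))) (b (n (nat_lit 363) (b (b (n (nat_lit 359) (b (n (nat_lit 388) (b (l (nat_lit 0) (nat_lit 360) (nat_lit 389)) (l (nat_lit 0) (nat_lit 359) (nat_lit 387)))) (n (nat_lit 384) (b (l (nat_lit 2) (nat_lit 359) (nat_lit 385)) (l (nat_lit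 2) (nat_lit 358) (nat_lit 383)))))) (n (nat_lit 364) (b (n (nat_lit 389) (b (l (nat_lit 0) (nat_lit 360) (nat_lit 388)) (l (nat_lit 0) (nat_lit 361) (nat_lit 390)))) (n (nat_lit 335) (b (l (nat_lit 3) (nat_lit 334) (nat_lit 334)) (l (nat_lit 3) (nat_lit 335) (nat_lit 336))))))) (n (nat_lit 364) (b (n (nat_lit 385) (b (l (nat_lit 2) (nat_lit 360) (nat_lit 386)) (l (nat_lit 2) (nat_lit 359) (nat_lit 384)))) (n (nat_lit 335) (b (l (nat_lit 3) (nat_lit 334) (nat_lit 334)) (l (nat_lit 3) (nat_lit 335) (nat_lit 336)))))))) (n (nat_lit 363) (b (n (nat_lit 364) (b (n (nat_lit 389) (b (l (nat_lit 0) (nat_lit 360) (nat_lit 388)) (l (nat_lit 0) (nat_lit 361) (nat_lit 390)))) (n (nat_lit 339) (b (l (nat_lit 1) (nat_lit 336) (nat_lit 340)) (l (nat_lit 1) (nat_lit 335) (nat_lit 338)))))) (n (nat_lit 385) (b (n (nat_lit 335) (b (n (nat_lit 310) (b (n (nat_lit 309) (b (n (nat_lit 311) (b (l (nat_lit 5) (nat_lit 285) (nat_lit 286)) (l (nat_lit 1) (nat_lit 284)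 (nat_lit 288)))) (l (nat_lit 7) (nat_lit 284) (nat_lit 284)))) (n (nat_lit 386) (b (l (nat_lit 4) (nat_lit 285) (nat_lit 285)) (l (nat_lit 4) (nat_lit 310) (nat_lit 411)))))) (l (nat_lit 3) (nat_lit 334) (nat_lit 334)))) (l (nat_lit 2) (nat_lit 359) (nat_lit 384)))))))))) (b (n (nat_lit 361) (b (b (b (r (nat_lit 1)) (r (nat_lit 13))) (b (r (nat_lit 25)) (r (nat_lit 22)))) (b (n (nat_lit 363) (b (b (n (nat_lit 364) (b (n (nat_lit 389) (b (l (nat_lit 0) (nat_lit 360) (nat_lit 388)) (l (nat_lit 0) (nat_lit 361) (nat_lit 390)))) (n (nat_lit 385) (b (l (nat_lit 2) (nat_lit 360) (nat_lit 386)) (l (nat_lit 2) (nat_lit 359) (nat_lit 384)))))) (n (nat_lit 359) (b (n (nat_lit 384) (b (l (nat_lit 2) (nat_lit 359) (nat_lit 385)) (l (nat_lit 2) (nat_lit 358) (nat_lit 383)))) (n (nat_lit 334) (b (l (nat_lit 3) (nat_lit 333) (nat_lit 333)) (l (nat_lit 3) (nat_lit 334) (nat_lit 335))))))) (n (nat_lit 364) (b (n (nat_lit 389) (b (l (nat_lit 0) (nat_lit 360) (nat_lit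 388)) (l (nat_lit 0) (nat_lit 361) (nat_lit 390)))) (n (nat_lit 335) (b (l (nat_lit 3) (nat_lit 334) (nat_lit 334)) (l (nat_lit 3) (nat_lit 335) (nat_lit 336)))))))) (n (nat_lit 359) (b (b (n (nat_lit 363) (b (n (nat_lit 384) (b (l (nat_lit 2) (nat_lit 359) (nat_lit 385)) (l (nat_lit 2) (nat_lit 358) (nat_lit 383)))) (n (nat_lit 388) (b (l (nat_lit 0) (nat_lit 360) (nat_lit 389)) (l (nat_lit 0) (nat_lit 359) (nat_lit 387)))))) (n (nat_lit 358) (b (n (nat_lit 383) (b (l (nat_lit 2) (nat_lit 358) (nat_lit 384)) (l (nat_lit 2) (nat_lit 357) (nat_lit 382)))) (n (nat_lit 333) (b (l (nat_lit 3) (nat_lit 332) (nat_lit 332)) (l (nat_lit 3) (nat_lit 333) (nat_lit 334))))))) (n (nat_lit 363) (b (n (nat_lit 334) (b (l (nat_lit 3) (nat_lit 333) (nat_lit 333)) (l (nat_lit 3) (nat_lit 334) (nat_lit 335)))) (n (nat_lit 388) (b (l (nat_lit 0) (nat_lit 360) (nat_lit 389)) (l (nat_lit 0) (nat_lit 359) (nat_lit 387))))))))))) (n (nat_lit 361) (b (b (b (r (nat_lit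 18)) (r (nat_lit 26))) (b (r (nat_lit 2)) (r (nat_lit 3)))) (n (nat_lit 363) (b (b (n (nat_lit 359) (b (n (nat_lit 388) (b (l (nat_lit 0) (nat_lit 360) (nat_lit 389)) (l (nat_lit 0) (nat_lit 359) (nat_lit 387)))) (n (nat_lit 384) (b (l (nat_lit 2) (nat_lit 359) (nat_lit 385)) (l (nat_lit 2) (nat_lit 358) (nat_lit 383)))))) (n (nat_lit 364) (b (n (nat_lit 339) (b (l (nat_lit 1) (nat_lit 336) (nat_lit 340)) (l (nat_lit 1) (nat_lit 335) (nat_lit 338)))) (n (nat_lit 385) (b (l (nat_lit 2) (nat_lit 360) (nat_lit 386)) (l (nat_lit 2) (nat_lit 359) (nat_lit 384))))))) (n (nat_lit 364) (b (n (nat_lit 389) (b (l (nat_lit 0) (nat_lit 360) (nat_lit 388)) (l (nat_lit 0) (nat_lit 361) (nat_lit 390)))) (n (nat_lit 339) (b (l (nat_lit 1) (nat_lit 336) (nat_lit 340)) (l (nat_lit 1) (nat_lit 335) (nat_lit 338)))))))))))) (b (b (n (nat_lit 361) (b (b (b (r (nat_lit 27)) (r (nat_lit 22))) (b (r (nat_lit 3)) (n (nat_lit 363) (b (n (nat_lit 335) (b (r (nat_lit 24))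 (l (nat_lit 3) (nat_lit 334) (nat_lit 334)))) (n (nat_lit 364) (b (n (nat_lit 389) (b (l (nat_lit 0) (nat_lit 360) (nat_lit 388)) (l (nat_lit 0) (nat_lit 361) (nat_lit 390)))) (n (nat_lit 339) (b (l (nat_lit 1) (nat_lit 336) (nat_lit 340)) (l (nat_lit 1) (nat_lit 335) (nat_lit 338)))))))))) (n (nat_lit 359) (b (b (n (nat_lit 363) (b (n (nat_lit 384) (b (l (nat_lit 2) (nat_lit 359) (nat_lit 385)) (l (nat_lit 2) (nat_lit 358) (nat_lit 383)))) (n (nat_lit 388) (b (l (nat_lit 0) (nat_lit 360) (nat_lit 389)) (l (nat_lit 0) (nat_lit 359) (nat_lit 387)))))) (n (nat_lit 358) (b (n (nat_lit 383) (b (l (nat_lit 2) (nat_lit 358) (nat_lit 384)) (l (nat_lit 2) (nat_lit 357) (nat_lit 382)))) (n (nat_lit 333) (b (l (nat_lit 3) (nat_lit 332) (nat_lit 332)) (l (nat_lit 3) (nat_lit 333) (nat_lit 334))))))) (n (nat_lit 358) (b (n (nat_lit 387) (b (l (nat_lit 0) (nat_lit 358) (nat_lit 386)) (l (nat_lit 0) (nat_lit 359) (nat_lit 388)))) (n (nat_lit 333) (b (l (nat_lit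 3) (nat_lit 332) (nat_lit 332)) (l (nat_lit 3) (nat_lit 333) (nat_lit 334)))))))))) (r (nat_lit 28))) (b (n (nat_lit 361) (b (b (b (r (nat_lit 19)) (n (nat_lit 363) (b (n (nat_lit 335) (b (r (nat_lit 24)) (l (nat_lit 3) (nat_lit 334) (nat_lit 334)))) (n (nat_lit 364) (b (n (nat_lit 389) (b (l (nat_lit 0) (nat_lit 360) (nat_lit 388)) (l (nat_lit 0) (nat_lit 361) (nat_lit 390)))) (n (nat_lit 339) (b (l (nat_lit 1) (nat_lit 336) (nat_lit 340)) (l (nat_lit 1) (nat_lit 335) (nat_lit 338))))))))) (b (r (nat_lit 29)) (n (nat_lit 363) (b (b (n (nat_lit 364) (b (n (nat_lit 389) (b (l (nat_lit 0) (nat_lit 360) (nat_lit 388)) (l (nat_lit 0) (nat_lit 361) (nat_lit 390)))) (n (nat_lit 339) (b (l (nat_lit 1) (nat_lit 336) (nat_lit 340)) (l (nat_lit 1) (nat_lit 335) (nat_lit 338)))))) (n (nat_lit 359) (b (n (nat_lit 388) (b (l (nat_lit 0) (nat_lit 360) (nat_lit 389)) (l (nat_lit 0) (nat_lit 359) (nat_lit 387)))) (n (nat_lit 334) (b (l (nat_lit 3) (nat_lit 333)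 (nat_lit 333)) (l (nat_lit 3) (nat_lit 334) (nat_lit 335))))))) (n (nat_lit 364) (b (n (nat_lit 335) (b (l (nat_lit 3) (nat_lit 334) (nat_lit 334)) (l (nat_lit 3) (nat_lit 335) (nat_lit 336)))) (n (nat_lit 339) (b (l (nat_lit 1) (nat_lit 336) (nat_lit 340)) (l (nat_lit 1) (nat_lit 335) (nat_lit 338)))))))))) (r (nat_lit 30)))) (r (nat_lit 31)))))) (b (b (n (nat_lit 361) (b (b (b (r (nat_lit 30)) (r (nat_lit 17))) (b (r (nat_lit 0)) (r (nat_lit 2)))) (b (b (r (nat_lit 3)) (n (nat_lit 363) (b (n (nat_lit 364) (b (n (nat_lit 389) (b (l (nat_lit 0) (nat_lit 360) (nat_lit 388)) (l (nat_lit 0) (nat_lit 361) (nat_lit 390)))) (n (nat_lit 339) (b (l (nat_lit 1) (nat_lit 336) (nat_lit 340)) (l (nat_lit 1) (nat_lit 335) (nat_lit 338)))))) (n (nat_lit 385) (b (n (nat_lit 335) (b (n (nat_lit 310) (b (n (nat_lit 309) (b (n (nat_lit 311) (b (l (nat_lit 5) (nat_lit 285) (nat_lit 286)) (l (nat_lit 1) (nat_lit 284) (nat_lit 288)))) (l (nat_lit 7) (nat_lit 284)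 (nat_lit 284)))) (n (nat_lit 386) (b (l (nat_lit 4) (nat_lit 285) (nat_lit 285)) (l (nat_lit 4) (nat_lit 310) (nat_lit 411)))))) (l (nat_lit 3) (nat_lit 334) (nat_lit 334)))) (l (nat_lit 2) (nat_lit 359) (nat_lit 384))))))) (n (nat_lit 359) (b (b (r (nat_lit 6)) (r (nat_lit 4))) (b (r (nat_lit 9)) (n (nat_lit 358) (b (n (nat_lit 383) (b (l (nat_lit 2) (nat_lit 358) (nat_lit 384)) (l (nat_lit 2) (nat_lit 357) (nat_lit 382)))) (n (nat_lit 387) (b (l (nat_lit 0) (nat_lit 358) (nat_lit 386)) (l (nat_lit 0) (nat_lit 359) (nat_lit 388)))))))))))) (n (nat_lit 361) (b (b (b (b (n (nat_lit 359) (b (b (r (nat_lit 6)) (r (nat_lit 4))) (b (r (nat_lit 9)) (n (nat_lit 358) (b (n (nat_lit 383) (b (l (nat_lit 2) (nat_lit 358) (nat_lit 384)) (l (nat_lit 2) (nat_lit 357) (nat_lit 382)))) (n (nat_lit 387) (b (l (nat_lit 0) (nat_lit 358) (nat_lit 386)) (l (nat_lit 0) (nat_lit 359) (nat_lit 388))))))))) (n (nat_lit 359) (b (b (r (nat_lit 4)) (r (nat_lit 5))) (b (n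 (nat_lit 358) (b (n (nat_lit 357) (b (n (nat_lit 382) (b (l (nat_lit 2) (nat_lit 357) (nat_lit 383)) (l (nat_lit 2) (nat_lit 356) (nat_lit 381)))) (n (nat_lit 332) (b (l (nat_lit 3) (nat_lit 331) (nat_lit 331)) (l (nat_lit 3) (nat_lit 332) (nat_lit 333)))))) (n (nat_lit 387) (b (l (nat_lit 0) (nat_lit 358) (nat_lit 386)) (l (nat_lit 0) (nat_lit 359) (nat_lit 388)))))) (r (nat_lit 6)))))) (b (r (nat_lit 14)) (r (nat_lit 26)))) (b (b (r (nat_lit 27)) (r (nat_lit 19))) (b (r (nat_lit 25)) (r (nat_lit 32))))) (b (b (r (nat_lit 23)) (r (nat_lit 33))) (n (nat_lit 359) (b (b (b (r (nat_lit 5)) (r (nat_lit 7))) (b (r (nat_lit 8)) (n (nat_lit 358) (b (n (nat_lit 383) (b (l (nat_lit 2) (nat_lit 358) (nat_lit 384)) (l (nat_lit 2) (nat_lit 357) (nat_lit 382)))) (n (nat_lit 333) (b (l (nat_lit 3) (nat_lit 332) (nat_lit 332)) (l (nat_lit 3) (nat_lit 333) (nat_lit 334)))))))) (r (nat_lit 9)))))))) (r (nat_lit 34)))))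
    (envOK_cons p10213 (envOK_cons p10254 (envOK_cons p10266 (envOK_cons p10291 (envOK_cons p10308 (envOK_cons p10331 (envOK_cons p10377 (envOK_cons p10402 (envOK_cons p10413 (envOK_cons p10430 (envOK_cons p10438 (envOK_cons p10549 (envOK_cons p10559 (envOK_cons p10563 (envOK_cons p10575 (envOK_cons p10746 (envOK_cons p10992 (envOK_cons p10999 (envOK_cons p10815 (envOK_cons p11022 (envOK_cons p11036 (envOK_cons p11037 (envOK_cons p10832 (envOK_cons p11043 (envOK_cons p10601 (envOK_cons p11059 (envOK_cons p11061 (envOK_cons p11067 (envOK_cons p11075 (envOK_cons p11035 (envOK_cons p11102 (envOK_cons p11161 (envOK_cons p11033 (envOK_cons p10839 (envOK_cons p12909 envOK_nil))))))))))))))))))))))))))))))))))) (by decide +kernel)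

end Crest.Agent.R35
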