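import Crest.Agent.R35.C6

/-! Generated strategy certificate for Snaky (part 7). -/

set_option autoImplicit false
set_option maxRecDepth 100000

namespace Crest.Agent.R35

local notation "l" => T.leaf
local notation "n" => T.node
local notation "b" => T.both
local notation "r" => T.ref

theorem p12990 : Fam (nat_lit 6) (nat_lit 1740631327434253247543837868513872940351596527790717011041623919126058239543866814365696) (nat_lit 37576682444254203357099193046192732914224377091625720333796817713420967952189500402719447579595767326896553984) (nat_lit 37576682444254203357099193046192732914224377091625720333796817713420967952189500402719447579595767326896553984) :=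
  chk_sound Env.nil
    (n (nat_lit 265) (b (b (n (nat_lit 290) (b (n (nat_lit 315) (b (n (nat_lit 314) (b (n (nat_lit 240) (b (l (nat_lit 6) (nat_lit 239) (nat_lit 339)) (l (nat_lit 6) (nat_lit 214) (nat_lit 215)))) (l (nat_lit 0) (nat_lit 286) (nat_lit 286)))) (l (nat_lit 0) (nat_lit 287) (nat_lit 316)))) (l (nat_lit 1) (nat_lit 262) (nat_lit 266)))) (n (nat_lit 266) (b (n (nat_lit 264) (b (l (nat_lit 2) (nat_lit 262) (nat_lit 263)) (l (nat_lit 2) (nat_lit 263) (nat_lit 267)))) (l (nat_lit 1) (nat_lit 262) (nat_lit 290))))) (b (n (nat_lit 264) (b (n (nat_lit 266) (b (l (nat_lit 2) (nat_lit 262) (nat_lit 263)) (l (nat_lit 2) (nat_lit 263) (nat_lit 267)))) (l (nat_lit 1) (nat_lit 261) (nat_lit 286)))) (n (nat_lit 314) (b (b (n (nat_lit 315) (b (n (nat_lit 316) (b (l (nat_lit 0) (nat_lit 287) (nat_lit 290)) (l (nat_lit 3) (nat_lit 288) (nat_lit 317)))) (l (nat_lit 0) (nat_lit 286) (nat_lit 286)))) (n (nat_lit 339) (b (b (n (nat_lit 364)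 (b (l (nat_lit 5) (nat_lit 264) (nat_lit 290)) (l (nat_lit 7) (nat_lit 263) (nat_lit 263)))) (n (nat_lit 264) (b (n (nat_lit 263) (b (l (nat_lit 7) (nat_lit 238) (nat_lit 238)) (l (nat_lit 7) (nat_lit 263) (nat_lit 364)))) (l (nat_lit 5) (nat_lit 239) (nat_lit 240))))) (n (nat_lit 240) (b (n (nat_lit 290) (b (l (nat_lit 6) (nat_lit 214) (nat_lit 215)) (l (nat_lit 6) (nat_lit 239) (nat_lit 315)))) (l (nat_lit 5) (nat_lit 239) (nat_lit 264))))))) (b (n (nat_lit 286) (b (l (nat_lit 0) (nat_lit 286) (nat_lit 315)) (l (nat_lit 1) (nat_lit 261) (nat_lit 264)))) (n (nat_lit 339) (b (n (nat_lit 364) (b (l (nat_lit 5) (nat_lit 264) (nat_lit 290)) (l (nat_lit 7) (nat_lit 263) (nat_lit 263)))) (n (nat_lit 264) (b (l (nat_lit 5) (nat_lit 239) (nat_lit 240)) (l (nat_lit 1) (nat_lit 261) (nat_lit 286))))))))))))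
    envOK_nil (by decide +kernel)

theorem p13029 : Fam (nat_lit 11) (nat_lit 9394170331095341255259022084539791718303813758314741022584055938331509423100755953319725882405767206137757696) (nat_lit 122124217943826644845154256928200935970746022488284197029887137047629732030195992088607034867976254939918761984) (nat_lit 122124217943826644845154256928200935970746022488284197029887137047629732030195992088607034867976254939918761984) :=
  chk_sound Env.nil
    (n (nat_lit 290) (b (b (b (n (nat_lit 263) (b (n (nat_lit 238) (b (n (nat_lit 291) (b (b (n (nat_lit 266) (b (l (nat_lit 1) (nat_lit 263) (nat_lit 267)) (l (nat_lit 1) (nat_lit 262) (nat_lit 265)))) (n (nat_lit 292) (b (n (nat_lit 293) (b (n (nat_lit 318) (b (l (nat_lit 0) (nat_lit 289) (nat_lit 317)) (l (nat_lit 0) (nat_lit 290) (nat_lit 319)))) (n (nat_lit 268) (b (l (nat_lit 1) (nat_lit 265) (nat_lit 269)) (l (nat_lit 1) (nat_lit 264) (nat_lit 267)))))) (l (nat_lit 3) (nat_lit 263)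 (nat_lit 264))))) (n (nat_lit 264) (b (n (nat_lit 265) (b (n (nat_lit 240) (b (b (n (nat_lit 215) (b (l (nat_lit 6) (nat_lit 214) (nat_lit 314)) (l (nat_lit 6) (nat_lit 189) (nat_lit 190)))) (n (nat_lit 315) (b (n (nat_lit 339) (b (n (nat_lit 340) (b (l (nat_lit 6) (nat_lit 264) (nat_lit 364)) (l (nat_lit 7) (nat_lit 264) (nat_lit 365)))) (l (nat_lit 7) (nat_lit 238) (nat_lit 314)))) (n (nat_lit 239) (b (n (nat_lit 241) (b (l (nat_lit 2) (nat_lit 238) (nat_lit 242)) (l (nat_lit 5) (nat_lit 215) (nat_lit 216)))) (l (nat_lit 7) (nat_lit 214) (nat_lit 214))))))) (n (nat_lit 239) (b (n (nat_lit 215) (b (n (nat_lit 237) (b (l (nat_lit 0) (nat_lit 236) (nat_lit 236)) (l (nat_lit 1) (nat_lit 212) (nat_lit 216)))) (l (nat_lit 6) (nat_lit 189) (nat_lit 190)))) (n (nat_lit 315) (b (l (nat_lit 7) (nat_lit 239) (nat_lit 340)) (l (nat_lit 4) (nat_lit 214) (nat_lit 214)))))))) (l (nat_lit 2) (nat_lit 262) (nat_lit 266)))) (l (nat_lit 3) (nat_lit 263)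 (nat_lit 292)))))) (l (nat_lit 6) (nat_lit 212) (nat_lit 213)))) (l (nat_lit 5) (nat_lit 262) (nat_lit 337)))) (n (nat_lit 263) (b (n (nat_lit 291) (b (b (n (nat_lit 316) (b (l (nat_lit 0) (nat_lit 288) (nat_lit 317)) (l (nat_lit 0) (nat_lit 287) (nat_lit 315)))) (n (nat_lit 292) (b (n (nat_lit 293) (b (n (nat_lit 268) (b (l (nat_lit 1) (nat_lit 265) (nat_lit 269)) (l (nat_lit 1) (nat_lit 264) (nat_lit 267)))) (n (nat_lit 315) (b (l (nat_lit 0) (nat_lit 287) (nat_lit 316)) (l (nat_lit 2) (nat_lit 289) (nat_lit 314)))))) (l (nat_lit 3) (nat_lit 263) (nat_lit 264))))) (n (nat_lit 292) (b (n (nat_lit 293) (b (n (nat_lit 318) (b (l (nat_lit 0) (nat_lit 289) (nat_lit 317)) (l (nat_lit 0) (nat_lit 290) (nat_lit 319)))) (n (nat_lit 268) (b (l (nat_lit 1) (nat_lit 265) (nat_lit 269)) (l (nat_lit 1) (nat_lit 264) (nat_lit 267)))))) (l (nat_lit 3) (nat_lit 263) (nat_lit 264)))))) (l (nat_lit 5) (nat_lit 262) (nat_lit 337))))) (b (n (nat_lit 291)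 (b (n (nat_lit 292) (b (n (nat_lit 317) (b (l (nat_lit 0) (nat_lit 288) (nat_lit 316)) (l (nat_lit 0) (nat_lit 289) (nat_lit 318)))) (n (nat_lit 263) (b (l (nat_lit 5) (nat_lit 262) (nat_lit 337)) (l (nat_lit 3) (nat_lit 263) (nat_lit 264)))))) (n (nat_lit 266) (b (l (nat_lit 1) (nat_lit 263) (nat_lit 267)) (l (nat_lit 1) (nat_lit 262) (nat_lit 265)))))) (n (nat_lit 291) (b (n (nat_lit 316) (b (l (nat_lit 0) (nat_lit 288) (nat_lit 317)) (l (nat_lit 0) (nat_lit 287) (nat_lit 315)))) (n (nat_lit 266) (b (l (nat_lit 1) (nat_lit 263) (nat_lit 267)) (l (nat_lit 1) (nat_lit 262) (nat_lit 265)))))))) (n (nat_lit 265) (b (n (nat_lit 315) (b (n (nat_lit 240) (b (b (n (nat_lit 215) (b (n (nat_lit 216) (b (l (nat_lit 5) (nat_lit 190) (nat_lit 191)) (l (nat_lit 5) (nat_lit 215) (nat_lit 241)))) (n (nat_lit 214) (b (l (nat_lit 7) (nat_lit 214) (nat_lit 239)) (l (nat_lit 7) (nat_lit 189) (nat_lit 189)))))) (n (nat_lit 314) (b (l (nat_lit 6) (nat_lit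 214) (nat_lit 215)) (l (nat_lit 6) (nat_lit 239) (nat_lit 339))))) (n (nat_lit 340) (b (n (nat_lit 239) (b (l (nat_lit 7) (nat_lit 214) (nat_lit 214)) (l (nat_lit 7) (nat_lit 239) (nat_lit 264)))) (n (nat_lit 339) (b (l (nat_lit 6) (nat_lit 264) (nat_lit 364)) (l (nat_lit 6) (nat_lit 239) (nat_lit 314)))))))) (l (nat_lit 0) (nat_lit 287) (nat_lit 316)))) (l (nat_lit 1) (nat_lit 262) (nat_lit 266))))))
    envOK_nil (by decide +kernel)

theorem p13043 : Fam (nat_lit 11) (nat_lit 8343700105050909624035516772798185167898074691139901078627207441251511143569872667327258951680) (nat_lit 37576682444254219783761393582844723043559783323248687009563423519454472325187605948946869941590392757257502720) (nat_lit 37576682444254219783761393582844723043559783323248687009563423519454472325187605948946869941590392757257502720) :=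
  chk_sound (Env.cons (nat_lit 6) (nat_lit 1740631327434253247543837868513872940351596527790717011041623919126058239543866814365696) (nat_lit 37576682444254203357099193046192732914224377091625720333796817713420967952189500402719447579595767326896553984) (Env.cons (nat_lit 5) (nat_lit 8343701224028191546055461622408243498244964917166240372659571682295459153178740945527353901056) (nat_lit 16426660086912893543187980730359994683401830518468878293663160813370932200830653188722380505088) Env.nil))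
    (n (nat_lit 289) (b (b (n (nat_lit 290) (b (n (nat_lit 291) (b (n (nat_lit 316) (b (l (nat_lit 0) (nat_lit 288) (nat_lit 317)) (l (nat_lit 0) (nat_lit 287) (nat_lit 315)))) (n (nat_lit 266) (b (l (nat_lit 1) (nat_lit 263) (nat_lit 267)) (l (nat_lit 1) (nat_lit 262) (nat_lit 265)))))) (l (nat_lit 2) (nat_lit 286) (nat_lit 311)))) (n (nat_lit 311) (b (n (nat_lit 310) (b (l (nat_lit 1) (nat_lit 284) (nat_lit 309)) (l (nat_lit 2) (nat_lit 285) (nat_lit 286)))) (l (nat_lit 2) (nat_lit 286) (nat_lit 290))))) (b (r (nat_lit 0)) (n (nat_lit 286) (b (b (r (nat_lit 1)) (n (nat_lit 285) (b (n (nat_lit 264) (b (l (nat_lit 1) (nat_lit 261) (nat_lit 265)) (l (nat_lit 1) (nat_lit 260) (nat_lit 263)))) (n (nat_lit 310) (b (l (nat_lit 2) (nat_lit 284) (nat_lit 309)) (l (nat_lit 2) (nat_lit 285) (nat_lit 311))))))) (b (n (nat_lit 285) (b (n (nat_lit 260) (b (l (nat_lit 3) (nat_lit 260) (nat_lit 261)) (l (nat_lit 3) (nat_lit 259) (nat_lit 259)))) (n (nat_lit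 264) (b (l (nat_lit 1) (nat_lit 261) (nat_lit 265)) (l (nat_lit 1) (nat_lit 260) (nat_lit 263)))))) (n (nat_lit 264) (b (n (nat_lit 311) (b (n (nat_lit 261) (b (n (nat_lit 236) (b (n (nat_lit 237) (b (n (nat_lit 238) (b (b (n (nat_lit 235) (b (l (nat_lit 0) (nat_lit 235) (nat_lit 263)) (l (nat_lit 7) (nat_lit 210) (nat_lit 210)))) (n (nat_lit 213) (b (n (nat_lit 314) (b (l (nat_lit 7) (nat_lit 213) (nat_lit 239)) (l (nat_lit 0) (nat_lit 286) (nat_lit 315)))) (l (nat_lit 6) (nat_lit 212) (nat_lit 263))))) (n (nat_lit 213) (b (n (nat_lit 235) (b (l (nat_lit 7) (nat_lit 210) (nat_lit 210)) (l (nat_lit 1) (nat_lit 210) (nat_lit 214)))) (n (nat_lit 314) (b (l (nat_lit 7) (nat_lit 213) (nat_lit 239)) (l (nat_lit 0) (nat_lit 286) (nat_lit 315)))))))) (l (nat_lit 5) (nat_lit 211) (nat_lit 212)))) (l (nat_lit 4) (nat_lit 211) (nat_lit 211)))) (l (nat_lit 3) (nat_lit 260) (nat_lit 260)))) (l (nat_lit 2) (nat_lit 285) (nat_lit 310)))) (l (nat_lit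 1) (nat_lit 261) (nat_lit 265))))))))))
    (envOK_cons p12990 (envOK_cons p6906 envOK_nil)) (by decide +kernel)

theorem p13102 : Fam (nat_lit 14) (nat_lit 9394170331095341255257530114830562358377347611570300560063754569879117379948434561389046403914729606011158528) (nat_lit 29771315544573625720335919446842555915829220522702684835155463480889113567008395171687495433180548525638093584578297243798150325858079866880) (nat_lit 29771315544573625720335919446842555915829220522702684835155463480889113567008395171687495433180548525638093584578297243798150325858079866880) :=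
  chk_sound (Env.cons (nat_lit 6) (nat_lit 1740631327434253247543837868513872940351596527790717011041623919126058239543866814365696) (nat_lit 37576682444254203357099193046192732914224377091625720333796817713420967952189500402719447579595767326896553984) (Env.cons (nat_lit 11) (nat_lit 9394170331095341255259022084539791718303813758314741022584055938331509423100755953319725882405767206137757696) (nat_lit 122124217943826644845154256928200935970746022488284197029887137047629732030195992088607034867976254939918761984) (Env.cons (nat_lit 11) (nat_lit 8343700105050909624035516772798185167898074691139901078627207441251511143569872667327258951680) (nat_lit 37576682444254219783761393582844723043559783323248687009563423519454472325187605948946869941590392757257502720) (Env.cons (nat_lit 5) (nat_lit 8343701224028191546055461622408243498244964917166240372659571682295459153178740945527353901056) (nat_lit 16426660086912893543187980730359994683401830518468878293663160813370932200830653188722380505088)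 (Env.cons (nat_lit 5) (nat_lit 9394171380975680807403646085958417125960985565154606311571133370498727177235873389555239140825399783193575424) (nat_lit 591832739747993152569891624890302243860184343414939709239059799219345131736606172054398406830879423347216613376) Env.nil)))))
    (n (nat_lit 288) (b (b (b (n (nat_lit 289) (b (b (b (n (nat_lit 314) (b (n (nat_lit 263) (b (n (nat_lit 238) (b (n (nat_lit 339) (b (l (nat_lit 7) (nat_lit 263) (nat_lit 364)) (l (nat_lit 7) (nat_lit 238) (nat_lit 264)))) (l (nat_lit 6) (nat_lit 212) (nat_lit 213)))) (l (nat_lit 5) (nat_lit 262) (nat_lit 337)))) (n (nat_lit 315) (b (n (nat_lit 316) (b (l (nat_lit 0) (nat_lit 287) (nat_lit 290)) (l (nat_lit 3) (nat_lit 288) (nat_lit 317)))) (l (nat_lit 0) (nat_lit 286) (nat_lit 286)))))) (n (nat_lit 337) (b (n (nat_lit 315) (b (n (nat_lit 286) (b (l (nat_lit 0) (nat_lit 286) (nat_lit 314)) (l (nat_lit 7) (nat_lit 261) (nat_lit 261)))) (n (nat_lit 290) (b (n (nat_lit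 266) (b (n (nat_lit 365) (b (n (nat_lit 291) (b (l (nat_lit 1) (nat_lit 263) (nat_lit 267)) (l (nat_lit 5) (nat_lit 265) (nat_lit 340)))) (n (nat_lit 363) (b (n (nat_lit 364) (b (n (nat_lit 366) (b (n (nat_lit 391) (b (l (nat_lit 0) (nat_lit 362) (nat_lit 390)) (l (nat_lit 0) (nat_lit 363) (nat_lit 392)))) (l (nat_lit 3) (nat_lit 337) (nat_lit 338)))) (l (nat_lit 3) (nat_lit 336) (nat_lit 336)))) (l (nat_lit 4) (nat_lit 287) (nat_lit 388)))))) (l (nat_lit 1) (nat_lit 262) (nat_lit 265)))) (l (nat_lit 0) (nat_lit 287) (nat_lit 316)))))) (l (nat_lit 5) (nat_lit 262) (nat_lit 263))))) (b (r (nat_lit 0)) (n (nat_lit 286) (b (b (n (nat_lit 285) (b (n (nat_lit 260) (b (l (nat_lit 3) (nat_lit 260) (nat_lit 261)) (l (nat_lit 3) (nat_lit 259) (nat_lit 259)))) (n (nat_lit 264) (b (l (nat_lit 1) (nat_lit 261) (nat_lit 265)) (l (nat_lit 1) (nat_lit 260) (nat_lit 263)))))) (n (nat_lit 263) (b (n (nat_lit 264) (b (l (nat_lit 1) (nat_lit 261) (nat_lit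 265)) (l (nat_lit 1) (nat_lit 260) (nat_lit 285)))) (l (nat_lit 5) (nat_lit 262) (nat_lit 337))))) (n (nat_lit 261) (b (l (nat_lit 3) (nat_lit 260) (nat_lit 260)) (l (nat_lit 7) (nat_lit 261) (nat_lit 337)))))))) (b (n (nat_lit 286) (b (n (nat_lit 290) (b (n (nat_lit 265) (b (l (nat_lit 1) (nat_lit 261) (nat_lit 264)) (l (nat_lit 1) (nat_lit 262) (nat_lit 266)))) (n (nat_lit 315) (b (l (nat_lit 0) (nat_lit 287) (nat_lit 316)) (l (nat_lit 0) (nat_lit 286) (nat_lit 314)))))) (n (nat_lit 261) (b (l (nat_lit 3) (nat_lit 260) (nat_lit 260)) (l (nat_lit 7) (nat_lit 261) (nat_lit 337)))))) (r (nat_lit 1))))) (r (nat_lit 2))) (b (n (nat_lit 289) (b (b (n (nat_lit 286) (b (n (nat_lit 290) (b (n (nat_lit 265) (b (l (nat_lit 1) (nat_lit 261) (nat_lit 264)) (l (nat_lit 1) (nat_lit 262) (nat_lit 266)))) (n (nat_lit 315) (b (l (nat_lit 0) (nat_lit 287) (nat_lit 316)) (l (nat_lit 0) (nat_lit 286) (nat_lit 314)))))) (n (nat_lit 261) (b (l (nat_lit 3) (nat_lit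 260) (nat_lit 260)) (l (nat_lit 7) (nat_lit 261) (nat_lit 337)))))) (n (nat_lit 290) (b (n (nat_lit 291) (b (n (nat_lit 316) (b (l (nat_lit 0) (nat_lit 288) (nat_lit 317)) (l (nat_lit 0) (nat_lit 287) (nat_lit 315)))) (n (nat_lit 266) (b (l (nat_lit 1) (nat_lit 263) (nat_lit 267)) (l (nat_lit 1) (nat_lit 262) (nat_lit 265)))))) (l (nat_lit 2) (nat_lit 286) (nat_lit 311))))) (n (nat_lit 286) (b (b (n (nat_lit 337) (b (n (nat_lit 311) (b (l (nat_lit 7) (nat_lit 286) (nat_lit 387)) (l (nat_lit 2) (nat_lit 285) (nat_lit 310)))) (l (nat_lit 7) (nat_lit 261) (nat_lit 261)))) (n (nat_lit 261) (b (l (nat_lit 3) (nat_lit 260) (nat_lit 260)) (l (nat_lit 7) (nat_lit 261) (nat_lit 337))))) (r (nat_lit 3)))))) (n (nat_lit 337) (b (n (nat_lit 387) (b (b (n (nat_lit 388) (b (l (nat_lit 4) (nat_lit 312) (nat_lit 413)) (l (nat_lit 4) (nat_lit 287) (nat_lit 363)))) (n (nat_lit 412) (b (n (nat_lit 437) (b (n (nat_lit 438) (b (l (nat_lit 4) (nat_lit 337) (nat_lit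 413)) (l (nat_lit 4) (nat_lit 362) (nat_lit 463)))) (n (nat_lit 436) (b (l (nat_lit 6) (nat_lit 361) (nat_lit 461)) (l (nat_lit 6) (nat_lit 336) (nat_lit 411)))))) (n (nat_lit 311) (b (l (nat_lit 7) (nat_lit 286) (nat_lit 286)) (l (nat_lit 7) (nat_lit 311) (nat_lit 336))))))) (n (nat_lit 412) (b (n (nat_lit 437) (b (n (nat_lit 363) (b (l (nat_lit 4) (nat_lit 287) (nat_lit 388)) (l (nat_lit 5) (nat_lit 337) (nat_lit 338)))) (n (nat_lit 436) (b (l (nat_lit 6) (nat_lit 361) (nat_lit 461)) (l (nat_lit 6) (nat_lit 336) (nat_lit 411)))))) (n (nat_lit 311) (b (l (nat_lit 7) (nat_lit 286) (nat_lit 286)) (l (nat_lit 7) (nat_lit 311) (nat_lit 336)))))))) (l (nat_lit 5) (nat_lit 262) (nat_lit 263)))))) (n (nat_lit 337) (b (n (nat_lit 336) (b (b (n (nat_lit 387) (b (n (nat_lit 412) (b (n (nat_lit 411) (b (l (nat_lit 6) (nat_lit 336) (nat_lit 436)) (l (nat_lit 6) (nat_lit 311) (nat_lit 386)))) (l (nat_lit 7) (nat_lit 311) (nat_lit 311)))) (n (nat_lit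 388) (b (l (nat_lit 4) (nat_lit 312) (nat_lit 413)) (l (nat_lit 4) (nat_lit 287) (nat_lit 363)))))) (n (nat_lit 363) (b (n (nat_lit 335) (b (n (nat_lit 364) (b (l (nat_lit 0) (nat_lit 335) (nat_lit 338)) (l (nat_lit 3) (nat_lit 336) (nat_lit 365)))) (l (nat_lit 0) (nat_lit 334) (nat_lit 334)))) (l (nat_lit 4) (nat_lit 287) (nat_lit 388))))) (b (n (nat_lit 387) (b (b (n (nat_lit 412) (b (n (nat_lit 413) (b (l (nat_lit 4) (nat_lit 337) (nat_lit 438)) (l (nat_lit 4) (nat_lit 312) (nat_lit 388)))) (l (nat_lit 7) (nat_lit 311) (nat_lit 311)))) (n (nat_lit 412) (b (n (nat_lit 413) (b (l (nat_lit 4) (nat_lit 337) (nat_lit 438)) (l (nat_lit 4) (nat_lit 312) (nat_lit 388)))) (n (nat_lit 411) (b (l (nat_lit 6) (nat_lit 336) (nat_lit 436)) (l (nat_lit 6) (nat_lit 311) (nat_lit 386))))))) (b (n (nat_lit 412) (b (n (nat_lit 411) (b (l (nat_lit 6) (nat_lit 336) (nat_lit 436)) (l (nat_lit 6) (nat_lit 311) (nat_lit 386)))) (l (nat_lit 7) (nat_lit 311)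 (nat_lit 311)))) (n (nat_lit 386) (b (n (nat_lit 388) (b (n (nat_lit 359) (b (b (n (nat_lit 385) (b (n (nat_lit 409) (b (n (nat_lit 384) (b (n (nat_lit 334) (b (b (n (nat_lit 333) (b (n (nat_lit 335) (b (l (nat_lit 5) (nat_lit 309) (nat_lit 310)) (l (nat_lit 1) (nat_lit 308) (nat_lit 311)))) (l (nat_lit 7) (nat_lit 308) (nat_lit 308)))) (n (nat_lit 310) (b (n (nat_lit 309) (b (l (nat_lit 1) (nat_lit 284) (nat_lit 311)) (l (nat_lit 5) (nat_lit 284) (nat_lit 285)))) (l (nat_lit 5) (nat_lit 309) (nat_lit 335))))) (b (n (nat_lit 308) (b (n (nat_lit 309) (b (l (nat_lit 3) (nat_lit 308) (nat_lit 335)) (l (nat_lit 7) (nat_lit 283) (nat_lit 283)))) (l (nat_lit 7) (nat_lit 308) (nat_lit 333)))) (n (nat_lit 309) (b (n (nat_lit 310) (b (l (nat_lit 1) (nat_lit 284) (nat_lit 311)) (l (nat_lit 5) (nat_lit 284) (nat_lit 285)))) (n (nat_lit 308) (b (l (nat_lit 7) (nat_lit 308) (nat_lit 333)) (l (nat_lit 7) (nat_lit 283) (nat_lit 283))))))))) (l (nat_lit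 2) (nat_lit 383) (nat_lit 408)))) (l (nat_lit 2) (nat_lit 384) (nat_lit 410)))) (l (nat_lit 3) (nat_lit 359) (nat_lit 360)))) (n (nat_lit 335) (b (b (n (nat_lit 334) (b (n (nat_lit 309) (b (n (nat_lit 311) (b (l (nat_lit 1) (nat_lit 284) (nat_lit 310)) (l (nat_lit 1) (nat_lit 308) (nat_lit 333)))) (l (nat_lit 3) (nat_lit 308) (nat_lit 308)))) (l (nat_lit 2) (nat_lit 333) (nat_lit 358)))) (n (nat_lit 358) (b (n (nat_lit 360) (b (l (nat_lit 1) (nat_lit 332) (nat_lit 357)) (l (nat_lit 2) (nat_lit 334) (nat_lit 338)))) (l (nat_lit 2) (nat_lit 333) (nat_lit 334))))) (n (nat_lit 338) (b (n (nat_lit 339) (b (n (nat_lit 340) (b (n (nat_lit 315) (b (l (nat_lit 1) (nat_lit 311) (nat_lit 314)) (l (nat_lit 1) (nat_lit 312) (nat_lit 316)))) (n (nat_lit 365) (b (l (nat_lit 0) (nat_lit 337) (nat_lit 366)) (l (nat_lit 0) (nat_lit 336) (nat_lit 364)))))) (n (nat_lit 310) (b (l (nat_lit 3) (nat_lit 309) (nat_lit 309)) (l (nat_lit 3) (nat_lit 310) (nat_lit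 311)))))) (l (nat_lit 2) (nat_lit 334) (nat_lit 360))))))) (b (n (nat_lit 385) (b (n (nat_lit 384) (b (n (nat_lit 409) (b (l (nat_lit 2) (nat_lit 383) (nat_lit 408)) (l (nat_lit 2) (nat_lit 384) (nat_lit 410)))) (l (nat_lit 3) (nat_lit 358) (nat_lit 358)))) (l (nat_lit 3) (nat_lit 359) (nat_lit 360)))) (n (nat_lit 384) (b (b (n (nat_lit 334) (b (b (n (nat_lit 358) (b (l (nat_lit 2) (nat_lit 333) (nat_lit 335)) (l (nat_lit 3) (nat_lit 358) (nat_lit 385)))) (n (nat_lit 309) (b (n (nat_lit 310) (b (l (nat_lit 1) (nat_lit 284) (nat_lit 311)) (l (nat_lit 5) (nat_lit 284) (nat_lit 285)))) (n (nat_lit 308) (b (l (nat_lit 3) (nat_lit 308) (nat_lit 335)) (l (nat_lit 7) (nat_lit 283) (nat_lit 283))))))) (n (nat_lit 309) (b (n (nat_lit 310) (b (l (nat_lit 1) (nat_lit 284) (nat_lit 311)) (l (nat_lit 5) (nat_lit 284) (nat_lit 285)))) (n (nat_lit 385) (b (l (nat_lit 3) (nat_lit 358) (nat_lit 358)) (l (nat_lit 4) (nat_lit 309) (nat_lit 410)))))))) (n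 (nat_lit 385) (b (n (nat_lit 409) (b (l (nat_lit 2) (nat_lit 383) (nat_lit 408)) (l (nat_lit 2) (nat_lit 384) (nat_lit 410)))) (l (nat_lit 3) (nat_lit 358) (nat_lit 358))))) (b (n (nat_lit 409) (b (b (n (nat_lit 385) (b (l (nat_lit 2) (nat_lit 384) (nat_lit 410)) (l (nat_lit 2) (nat_lit 383) (nat_lit 408)))) (n (nat_lit 334) (b (b (n (nat_lit 333) (b (n (nat_lit 335) (b (l (nat_lit 5) (nat_lit 309) (nat_lit 310)) (l (nat_lit 1) (nat_lit 308) (nat_lit 311)))) (l (nat_lit 7) (nat_lit 308) (nat_lit 308)))) (n (nat_lit 308) (b (n (nat_lit 309) (b (l (nat_lit 3) (nat_lit 308) (nat_lit 335)) (l (nat_lit 7) (nat_lit 283) (nat_lit 283)))) (l (nat_lit 7) (nat_lit 308) (nat_lit 333))))) (n (nat_lit 309) (b (n (nat_lit 310) (b (l (nat_lit 1) (nat_lit 284) (nat_lit 311)) (l (nat_lit 5) (nat_lit 284) (nat_lit 285)))) (n (nat_lit 408) (b (l (nat_lit 6) (nat_lit 308) (nat_lit 383)) (l (nat_lit 6) (nat_lit 333) (nat_lit 433))))))))) (n (nat_lit 334) (b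 (n (nat_lit 333) (b (n (nat_lit 335) (b (l (nat_lit 5) (nat_lit 309) (nat_lit 310)) (l (nat_lit 1) (nat_lit 308) (nat_lit 311)))) (l (nat_lit 7) (nat_lit 308) (nat_lit 308)))) (n (nat_lit 410) (b (l (nat_lit 2) (nat_lit 384) (nat_lit 385)) (l (nat_lit 4) (nat_lit 334) (nat_lit 435)))))))) (n (nat_lit 334) (b (b (b (n (nat_lit 309) (b (n (nat_lit 284) (b (n (nat_lit 383) (b (l (nat_lit 6) (nat_lit 283) (nat_lit 358)) (l (nat_lit 6) (nat_lit 308) (nat_lit 408)))) (n (nat_lit 283) (b (l (nat_lit 7) (nat_lit 283) (nat_lit 308)) (l (nat_lit 7) (nat_lit 258) (nat_lit 258)))))) (n (nat_lit 310) (b (l (nat_lit 1) (nat_lit 284) (nat_lit 311)) (l (nat_lit 5) (nat_lit 284) (nat_lit 285)))))) (n (nat_lit 335) (b (n (nat_lit 409) (b (n (nat_lit 333) (b (l (nat_lit 7) (nat_lit 308) (nat_lit 308)) (l (nat_lit 1) (nat_lit 308) (nat_lit 311)))) (l (nat_lit 5) (nat_lit 309) (nat_lit 310)))) (l (nat_lit 2) (nat_lit 333) (nat_lit 358))))) (b (n (nat_lit 309)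 (b (n (nat_lit 310) (b (l (nat_lit 1) (nat_lit 284) (nat_lit 311)) (l (nat_lit 5) (nat_lit 284) (nat_lit 285)))) (n (nat_lit 308) (b (l (nat_lit 3) (nat_lit 308) (nat_lit 335)) (l (nat_lit 7) (nat_lit 283) (nat_lit 283)))))) (n (nat_lit 310) (b (n (nat_lit 309) (b (l (nat_lit 1) (nat_lit 284) (nat_lit 311)) (l (nat_lit 5) (nat_lit 284) (nat_lit 285)))) (n (nat_lit 335) (b (l (nat_lit 5) (nat_lit 309) (nat_lit 409)) (l (nat_lit 2) (nat_lit 333) (nat_lit 358)))))))) (b (n (nat_lit 335) (b (n (nat_lit 333) (b (n (nat_lit 308) (b (l (nat_lit 3) (nat_lit 308) (nat_lit 309)) (l (nat_lit 3) (nat_lit 307) (nat_lit 307)))) (l (nat_lit 1) (nat_lit 308) (nat_lit 311)))) (l (nat_lit 2) (nat_lit 333) (nat_lit 358)))) (n (nat_lit 335) (b (n (nat_lit 310) (b (n (nat_lit 309) (b (l (nat_lit 3) (nat_lit 309) (nat_lit 338)) (l (nat_lit 3) (nat_lit 308) (nat_lit 308)))) (l (nat_lit 5) (nat_lit 309) (nat_lit 409)))) (l (nat_lit 2) (nat_lit 333) (nat_lit 358)))))))))))))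 (l (nat_lit 4) (nat_lit 312) (nat_lit 413)))) (l (nat_lit 6) (nat_lit 311) (nat_lit 411))))))) (n (nat_lit 335) (b (b (n (nat_lit 334) (b (b (n (nat_lit 333) (b (n (nat_lit 358) (b (l (nat_lit 2) (nat_lit 333) (nat_lit 359)) (l (nat_lit 2) (nat_lit 332) (nat_lit 357)))) (l (nat_lit 1) (nat_lit 308) (nat_lit 311)))) (n (nat_lit 309) (b (n (nat_lit 310) (b (l (nat_lit 1) (nat_lit 284) (nat_lit 311)) (l (nat_lit 3) (nat_lit 309) (nat_lit 338)))) (l (nat_lit 3) (nat_lit 308) (nat_lit 308))))) (n (nat_lit 338) (b (n (nat_lit 309) (b (l (nat_lit 3) (nat_lit 308) (nat_lit 308)) (l (nat_lit 3) (nat_lit 309) (nat_lit 310)))) (n (nat_lit 359) (b (l (nat_lit 2) (nat_lit 333) (nat_lit 358)) (l (nat_lit 2) (nat_lit 334) (nat_lit 360)))))))) (n (nat_lit 363) (b (n (nat_lit 364) (b (l (nat_lit 0) (nat_lit 335) (nat_lit 338)) (l (nat_lit 3) (nat_lit 336) (nat_lit 365)))) (l (nat_lit 0) (nat_lit 334) (nat_lit 334))))) (b (n (nat_lit 334) (b (n (nat_lit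 309) (b (n (nat_lit 311) (b (l (nat_lit 1) (nat_lit 284) (nat_lit 310)) (l (nat_lit 1) (nat_lit 308) (nat_lit 333)))) (l (nat_lit 3) (nat_lit 308) (nat_lit 308)))) (l (nat_lit 0) (nat_lit 334) (nat_lit 363)))) (n (nat_lit 338) (b (b (n (nat_lit 387) (b (b (n (nat_lit 412) (b (n (nat_lit 437) (b (n (nat_lit 438) (b (l (nat_lit 4) (nat_lit 337) (nat_lit 413)) (l (nat_lit 4) (nat_lit 362) (nat_lit 463)))) (l (nat_lit 5) (nat_lit 337) (nat_lit 363)))) (n (nat_lit 411) (b (l (nat_lit 6) (nat_lit 336) (nat_lit 436)) (l (nat_lit 6) (nat_lit 311) (nat_lit 386)))))) (n (nat_lit 412) (b (n (nat_lit 363) (b (l (nat_lit 5) (nat_lit 337) (nat_lit 437)) (l (nat_lit 0) (nat_lit 335) (nat_lit 364)))) (l (nat_lit 7) (nat_lit 311) (nat_lit 311))))) (b (n (nat_lit 310) (b (n (nat_lit 360) (b (n (nat_lit 385) (b (b (n (nat_lit 410) (b (n (nat_lit 409) (b (l (nat_lit 6) (nat_lit 334) (nat_lit 434)) (l (nat_lit 6) (nat_lit 309) (nat_lit 384)))) (l (nat_lit 5)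 (nat_lit 310) (nat_lit 311)))) (n (nat_lit 386) (b (n (nat_lit 363) (b (l (nat_lit 0) (nat_lit 335) (nat_lit 364)) (l (nat_lit 1) (nat_lit 359) (nat_lit 384)))) (l (nat_lit 6) (nat_lit 311) (nat_lit 411))))) (n (nat_lit 411) (b (n (nat_lit 410) (b (l (nat_lit 4) (nat_lit 335) (nat_lit 436)) (l (nat_lit 5) (nat_lit 310) (nat_lit 311)))) (l (nat_lit 6) (nat_lit 311) (nat_lit 386)))))) (l (nat_lit 2) (nat_lit 334) (nat_lit 359)))) (l (nat_lit 3) (nat_lit 309) (nat_lit 309)))) (n (nat_lit 412) (b (n (nat_lit 411) (b (l (nat_lit 6) (nat_lit 336) (nat_lit 436)) (l (nat_lit 6) (nat_lit 311) (nat_lit 386)))) (l (nat_lit 7) (nat_lit 311) (nat_lit 311))))))) (n (nat_lit 339) (b (n (nat_lit 340) (b (n (nat_lit 315) (b (l (nat_lit 1) (nat_lit 311) (nat_lit 314)) (l (nat_lit 1) (nat_lit 312) (nat_lit 316)))) (n (nat_lit 365) (b (l (nat_lit 0) (nat_lit 337) (nat_lit 366)) (l (nat_lit 0) (nat_lit 336) (nat_lit 364)))))) (n (nat_lit 310) (b (l (nat_lit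 3) (nat_lit 309) (nat_lit 309)) (l (nat_lit 3) (nat_lit 310) (nat_lit 311))))))) (b (n (nat_lit 310) (b (n (nat_lit 339) (b (n (nat_lit 340) (b (n (nat_lit 341) (b (n (nat_lit 366) (b (l (nat_lit 0) (nat_lit 337) (nat_lit 365)) (l (nat_lit 0) (nat_lit 338) (nat_lit 367)))) (l (nat_lit 2) (nat_lit 337) (nat_lit 363)))) (n (nat_lit 315) (b (l (nat_lit 1) (nat_lit 311) (nat_lit 314)) (l (nat_lit 1) (nat_lit 312) (nat_lit 316)))))) (l (nat_lit 3) (nat_lit 310) (nat_lit 311)))) (l (nat_lit 3) (nat_lit 309) (nat_lit 309)))) (r (nat_lit 4))))))))))) (l (nat_lit 5) (nat_lit 262) (nat_lit 263))))))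
    (envOK_cons p12990 (envOK_cons p13029 (envOK_cons p13043 (envOK_cons p6906 (envOK_cons p8648 envOK_nil))))) (by decide +kernel)

theorem p13103 : Fam (nat_lit 9) (nat_lit 14091255496642999367336883580736022164254095293449919224243745829193254150687650660782193990308612218191609856) (nat_lit 2977131547802960396282788628839048337428738126270476236398608259106470375135168259343810678240164605769860567514076001153986777642853990400) (nat_lit 2977131547802960396282788628839048337428738126270476236398608259106470375135168259343810678240164605769860567514076001153986777642853990400) :=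
  chk_sound (Env.cons (nat_lit 8) (nat_lit 16439798079416832595226364177525359191629777842358239094951036800725463175802259104245892988693380921223544832) (nat_lit 2977131547802960396277710695213279661485318887348863734008618082694153383426840711239436111409272040635154677422272630896570800687705751552) (Env.cons (nat_lit 6) (nat_lit 16439798079416832595226364177525359191629777842358239094951036800725463175802259104245892988693380921223544832) (nat_lit 2644224500667917623364905886016321613072358936829873798384214368344359416517851485343790241038549365401125715733527803199488) (Env.cons (nat_lit 7) (nat_lit 16439798079416832595226364177525359191629777842358239094951036800725463175802259104245892988693380921223544832) (nat_lit 88725434178203139261715784333933248820768897710660866315529385778610971417522916715210719652693347123906453678720894314410812637184) (Env.cons (nat_lit 5) (nat_lit 16439798079416832595226364177525359191629777842358239094951036800725463175802259104245892988693380921223544832)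 (nat_lit 10008109723603791413790083862396902192194604983262269119221366572924795279962697491948654419998285836846239466427252736) Env.nil))))
    (n (nat_lit 360) (b (b (b (r (nat_lit 0)) (r (nat_lit 1))) (b (r (nat_lit 2)) (n (nat_lit 363) (b (b (n (nat_lit 364) (b (n (nat_lit 389) (b (l (nat_lit 0) (nat_lit 360) (nat_lit 388)) (l (nat_lit 0) (nat_lit 361) (nat_lit 390)))) (n (nat_lit 385) (b (l (nat_lit 2) (nat_lit 360) (nat_lit 386)) (l (nat_lit 2) (nat_lit 359) (nat_lit 384)))))) (n (nat_lit 359) (b (n (nat_lit 384) (b (l (nat_lit 2) (nat_lit 359) (nat_lit 385)) (l (nat_lit 2) (nat_lit 358) (nat_lit 383)))) (n (nat_lit 334) (b (l (nat_lit 3) (nat_lit 333) (nat_lit 333)) (l (nat_lit 3) (nat_lit 334) (nat_lit 335))))))) (n (nat_lit 364) (b (n (nat_lit 389) (b (l (nat_lit 0) (nat_lit 360) (nat_lit 388)) (l (nat_lit 0) (nat_lit 361) (nat_lit 390)))) (n (nat_lit 335) (b (l (nat_lit 3) (nat_lit 334) (nat_lit 334)) (l (nat_lit 3) (nat_lit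 335) (nat_lit 336)))))))))) (b (b (r (nat_lit 3)) (n (nat_lit 359) (b (b (n (nat_lit 363) (b (n (nat_lit 384) (b (l (nat_lit 2) (nat_lit 359) (nat_lit 385)) (l (nat_lit 2) (nat_lit 358) (nat_lit 383)))) (n (nat_lit 388) (b (l (nat_lit 0) (nat_lit 360) (nat_lit 389)) (l (nat_lit 0) (nat_lit 359) (nat_lit 387)))))) (n (nat_lit 358) (b (n (nat_lit 383) (b (l (nat_lit 2) (nat_lit 358) (nat_lit 384)) (l (nat_lit 2) (nat_lit 357) (nat_lit 382)))) (n (nat_lit 333) (b (l (nat_lit 3) (nat_lit 332) (nat_lit 332)) (l (nat_lit 3) (nat_lit 333) (nat_lit 334))))))) (n (nat_lit 363) (b (n (nat_lit 334) (b (l (nat_lit 3) (nat_lit 333) (nat_lit 333)) (l (nat_lit 3) (nat_lit 334) (nat_lit 335)))) (n (nat_lit 388) (b (l (nat_lit 0) (nat_lit 360) (nat_lit 389)) (l (nat_lit 0) (nat_lit 359) (nat_lit 387))))))))) (b (n (nat_lit 359) (b (b (n (nat_lit 363) (b (n (nat_lit 334) (b (l (nat_lit 3) (nat_lit 333) (nat_lit 333)) (l (nat_lit 3) (nat_lit 334) (nat_lit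 335)))) (n (nat_lit 388) (b (l (nat_lit 0) (nat_lit 360) (nat_lit 389)) (l (nat_lit 0) (nat_lit 359) (nat_lit 387)))))) (n (nat_lit 358) (b (n (nat_lit 383) (b (l (nat_lit 2) (nat_lit 358) (nat_lit 384)) (l (nat_lit 2) (nat_lit 357) (nat_lit 382)))) (n (nat_lit 387) (b (l (nat_lit 0) (nat_lit 358) (nat_lit 386)) (l (nat_lit 0) (nat_lit 359) (nat_lit 388))))))) (n (nat_lit 358) (b (n (nat_lit 383) (b (l (nat_lit 2) (nat_lit 358) (nat_lit 384)) (l (nat_lit 2) (nat_lit 357) (nat_lit 382)))) (n (nat_lit 333) (b (l (nat_lit 3) (nat_lit 332) (nat_lit 332)) (l (nat_lit 3) (nat_lit 333) (nat_lit 334)))))))) (n (nat_lit 363) (b (b (n (nat_lit 359) (b (n (nat_lit 388) (b (l (nat_lit 0) (nat_lit 360) (nat_lit 389)) (l (nat_lit 0) (nat_lit 359) (nat_lit 387)))) (n (nat_lit 384) (b (l (nat_lit 2) (nat_lit 359) (nat_lit 385)) (l (nat_lit 2) (nat_lit 358) (nat_lit 383)))))) (n (nat_lit 364) (b (n (nat_lit 339) (b (l (nat_lit 1) (nat_lit 336) (nat_lit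 340)) (l (nat_lit 1) (nat_lit 335) (nat_lit 338)))) (n (nat_lit 385) (b (l (nat_lit 2) (nat_lit 360) (nat_lit 386)) (l (nat_lit 2) (nat_lit 359) (nat_lit 384))))))) (n (nat_lit 364) (b (n (nat_lit 389) (b (l (nat_lit 0) (nat_lit 360) (nat_lit 388)) (l (nat_lit 0) (nat_lit 361) (nat_lit 390)))) (n (nat_lit 339) (b (l (nat_lit 1) (nat_lit 336) (nat_lit 340)) (l (nat_lit 1) (nat_lit 335) (nat_lit 338))))))))))))
    (envOK_cons p10999 (envOK_cons p10559 (envOK_cons p11033 (envOK_cons p11035 envOK_nil)))) (by decide +kernel)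

theorem p13200 : Fam (nat_lit 10) (nat_lit 14091255496643007711036491308409236413128712709386940301478336512943535430177651448316444400684267012075028480) (nat_lit 178627890206414828477792799592556803856828120322166380770932825996815653078760044731606045993025131631312499103844316293072873822726115033088) (nat_lit 178627890206414828477792799592556803856828120322166380770932825996815653078760044731606045993025131631312499103844316293072873822726115033088) :=
  chk_sound Env.nil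
    (n (nat_lit 363) (b (b (b (n (nat_lit 339) (b (b (n (nat_lit 364) (b (n (nat_lit 389) (b (n (nat_lit 388) (b (n (nat_lit 314) (b (l (nat_lit 6) (nat_lit 313) (nat_lit 413)) (l (nat_lit 6) (nat_lit 288) (nat_lit 289)))) (l (nat_lit 0) (nat_lit 360) (nat_lit 360)))) (l (nat_lit 0) (nat_lit 361) (nat_lit 390)))) (l (nat_lit 1) (nat_lit 336) (nat_lit 340)))) (n (nat_lit 360) (b (n (nat_lit 359) (b (n (nat_lit 388) (b (l (nat_lit 0) (nat_lit 360) (nat_lit 389)) (l (nat_lit 0) (nat_lit 359) (nat_lit 387)))) (n (nat_lit 384) (b (l (nat_lit 2) (nat_lit 359) (nat_lit 385)) (l (nat_lit 2) (nat_lit 358) (nat_lit 383)))))) (l (nat_lit 1) (nat_lit 335) (nat_lit 338))))) (b (n (nat_lit 340) (b (n (nat_lit 338) (b (l (nat_lit 2) (nat_lit 337) (nat_lit 341)) (l (nat_lit 1) (nat_lit 335) (nat_lit 360)))) (l (nat_lit 1) (nat_lit 336) (nat_lit 364)))) (n (nat_lit 364) (b (n (nat_lit 389) (b (n (nat_lit 414) (b (b (n (nat_lit 413) (b (n (nat_lit 415) (b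 (n (nat_lit 388) (b (n (nat_lit 416) (b (l (nat_lit 3) (nat_lit 387) (nat_lit 387)) (l (nat_lit 3) (nat_lit 388) (nat_lit 417)))) (l (nat_lit 6) (nat_lit 313) (nat_lit 314)))) (l (nat_lit 4) (nat_lit 339) (nat_lit 440)))) (l (nat_lit 6) (nat_lit 338) (nat_lit 438)))) (n (nat_lit 439) (b (n (nat_lit 438) (b (l (nat_lit 6) (nat_lit 363) (nat_lit 463)) (l (nat_lit 6) (nat_lit 338) (nat_lit 413)))) (l (nat_lit 7) (nat_lit 338) (nat_lit 338))))) (n (nat_lit 439) (b (n (nat_lit 440) (b (l (nat_lit 4) (nat_lit 364) (nat_lit 465)) (l (nat_lit 4) (nat_lit 339) (nat_lit 415)))) (l (nat_lit 7) (nat_lit 338) (nat_lit 338)))))) (l (nat_lit 0) (nat_lit 361) (nat_lit 390)))) (l (nat_lit 1) (nat_lit 336) (nat_lit 340))))))) (n (nat_lit 360) (b (b (n (nat_lit 364) (b (n (nat_lit 335) (b (l (nat_lit 3) (nat_lit 334) (nat_lit 334)) (l (nat_lit 3) (nat_lit 335) (nat_lit 336)))) (n (nat_lit 339) (b (l (nat_lit 1) (nat_lit 336) (nat_lit 340)) (l (nat_lit 1)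 (nat_lit 335) (nat_lit 338)))))) (n (nat_lit 337) (b (n (nat_lit 338) (b (l (nat_lit 1) (nat_lit 334) (nat_lit 359)) (l (nat_lit 1) (nat_lit 335) (nat_lit 339)))) (l (nat_lit 4) (nat_lit 287) (nat_lit 388))))) (n (nat_lit 359) (b (n (nat_lit 384) (b (l (nat_lit 2) (nat_lit 359) (nat_lit 385)) (l (nat_lit 2) (nat_lit 358) (nat_lit 383)))) (n (nat_lit 334) (b (l (nat_lit 3) (nat_lit 333) (nat_lit 333)) (l (nat_lit 3) (nat_lit 334) (nat_lit 335))))))))) (b (n (nat_lit 364) (b (b (n (nat_lit 365) (b (n (nat_lit 340) (b (l (nat_lit 1) (nat_lit 336) (nat_lit 339)) (l (nat_lit 1) (nat_lit 337) (nat_lit 341)))) (n (nat_lit 390) (b (l (nat_lit 0) (nat_lit 362) (nat_lit 391)) (l (nat_lit 0) (nat_lit 361) (nat_lit 389)))))) (n (nat_lit 365) (b (n (nat_lit 336) (b (l (nat_lit 3) (nat_lit 336) (nat_lit 337)) (l (nat_lit 3) (nat_lit 335) (nat_lit 335)))) (n (nat_lit 390) (b (l (nat_lit 0) (nat_lit 362) (nat_lit 391)) (l (nat_lit 0) (nat_lit 361) (nat_lit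 389))))))) (n (nat_lit 360) (b (n (nat_lit 339) (b (l (nat_lit 1) (nat_lit 336) (nat_lit 340)) (l (nat_lit 1) (nat_lit 335) (nat_lit 338)))) (n (nat_lit 335) (b (l (nat_lit 3) (nat_lit 334) (nat_lit 334)) (l (nat_lit 3) (nat_lit 335) (nat_lit 336)))))))) (n (nat_lit 360) (b (n (nat_lit 359) (b (n (nat_lit 384) (b (l (nat_lit 2) (nat_lit 359) (nat_lit 385)) (l (nat_lit 2) (nat_lit 358) (nat_lit 383)))) (n (nat_lit 334) (b (l (nat_lit 3) (nat_lit 333) (nat_lit 333)) (l (nat_lit 3) (nat_lit 334) (nat_lit 335)))))) (n (nat_lit 388) (b (l (nat_lit 0) (nat_lit 360) (nat_lit 389)) (l (nat_lit 4) (nat_lit 287) (nat_lit 337)))))))) (n (nat_lit 388) (b (n (nat_lit 364) (b (b (n (nat_lit 339) (b (n (nat_lit 413) (b (n (nat_lit 314) (b (l (nat_lit 6) (nat_lit 288) (nat_lit 289)) (l (nat_lit 5) (nat_lit 313) (nat_lit 338)))) (l (nat_lit 5) (nat_lit 338) (nat_lit 438)))) (l (nat_lit 1) (nat_lit 336) (nat_lit 340)))) (n (nat_lit 365) (b (n (nat_lit 366)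 (b (n (nat_lit 341) (b (l (nat_lit 1) (nat_lit 337) (nat_lit 340)) (l (nat_lit 1) (nat_lit 338) (nat_lit 342)))) (l (nat_lit 2) (nat_lit 362) (nat_lit 387)))) (n (nat_lit 390) (b (l (nat_lit 0) (nat_lit 362) (nat_lit 391)) (l (nat_lit 0) (nat_lit 361) (nat_lit 389))))))) (n (nat_lit 389) (b (n (nat_lit 413) (b (b (n (nat_lit 339) (b (l (nat_lit 5) (nat_lit 338) (nat_lit 438)) (l (nat_lit 6) (nat_lit 313) (nat_lit 314)))) (n (nat_lit 414) (b (n (nat_lit 415) (b (n (nat_lit 416) (b (l (nat_lit 3) (nat_lit 387) (nat_lit 387)) (l (nat_lit 3) (nat_lit 388) (nat_lit 417)))) (n (nat_lit 339) (b (l (nat_lit 4) (nat_lit 339) (nat_lit 440)) (l (nat_lit 6) (nat_lit 313) (nat_lit 314)))))) (n (nat_lit 439) (b (l (nat_lit 7) (nat_lit 363) (nat_lit 464)) (l (nat_lit 4) (nat_lit 338) (nat_lit 338))))))) (n (nat_lit 439) (b (b (n (nat_lit 438) (b (l (nat_lit 4) (nat_lit 363) (nat_lit 464)) (l (nat_lit 5) (nat_lit 363) (nat_lit 463)))) (n (nat_lit 414)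 (b (l (nat_lit 7) (nat_lit 363) (nat_lit 464)) (l (nat_lit 4) (nat_lit 338) (nat_lit 338))))) (n (nat_lit 437) (b (n (nat_lit 438) (b (l (nat_lit 5) (nat_lit 363) (nat_lit 463)) (l (nat_lit 6) (nat_lit 362) (nat_lit 462)))) (n (nat_lit 338) (b (l (nat_lit 6) (nat_lit 337) (nat_lit 412)) (l (nat_lit 4) (nat_lit 338) (nat_lit 414)))))))))) (l (nat_lit 0) (nat_lit 361) (nat_lit 390)))))) (l (nat_lit 4) (nat_lit 287) (nat_lit 337))))))
    envOK_nil (by decide +kernel)

theorem p13239 : Fam (nat_lit 8) (nat_lit 14091255496643007711036491308409236413128712709386940301478336512943535430177651448316444400684267012075028480) (nat_lit 9751996833046830669178692562450754139789004903799827119800786062849989469809815656745961726172385900460302285253115904) (nat_lit 9751996833046830669178692562450754139789004903799827119800786062849989469809815656745961726172385900460302285253115904) :=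
  chk_sound Env.nil
    (n (nat_lit 337) (b (n (nat_lit 363) (b (n (nat_lit 360) (b (n (nat_lit 359) (b (n (nat_lit 384) (b (l (nat_lit 2) (nat_lit 359) (nat_lit 385)) (l (nat_lit 2) (nat_lit 358) (nat_lit 383)))) (n (nat_lit 334) (b (l (nat_lit 3) (nat_lit 333) (nat_lit 333)) (l (nat_lit 3) (nat_lit 334) (nat_lit 335)))))) (n (nat_lit 364) (b (b (n (nat_lit 339) (b (l (nat_lit 1) (nat_lit 336) (nat_lit 340)) (l (nat_lit 1) (nat_lit 335) (nat_lit 338)))) (n (nat_lit 365) (b (n (nat_lit 338) (b (l (nat_lit 1) (nat_lit 335) (nat_lit 339)) (l (nat_lit 3) (nat_lit 337) (nat_lit 366)))) (n (nat_lit 390) (b (l (nat_lit 0) (nat_lit 362) (nat_lit 391)) (l (nat_lit 0) (nat_lit 361) (nat_lit 389))))))) (b (n (nat_lit 365) (b (n (nat_lit 366) (b (n (nat_lit 341) (b (l (nat_lit 1) (nat_lit 337) (nat_lit 340)) (l (nat_lit 1) (nat_lit 338) (nat_lit 342)))) (l (nat_lit 3) (nat_lit 337) (nat_lit 338)))) (n (nat_lit 390) (b (l (nat_lit 0) (nat_lit 362)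 (nat_lit 391)) (l (nat_lit 0) (nat_lit 361) (nat_lit 389)))))) (n (nat_lit 365) (b (n (nat_lit 340) (b (l (nat_lit 1) (nat_lit 336) (nat_lit 339)) (l (nat_lit 1) (nat_lit 337) (nat_lit 341)))) (n (nat_lit 390) (b (l (nat_lit 0) (nat_lit 362) (nat_lit 391)) (l (nat_lit 0) (nat_lit 361) (nat_lit 389))))))))))) (l (nat_lit 4) (nat_lit 287) (nat_lit 388)))) (l (nat_lit 6) (nat_lit 286) (nat_lit 386))))
    envOK_nil (by decide +kernel)

theorem p13317 : Fam (nat_lit 9) (nat_lit 14091255496643007711036491308409236413128712709386940301478336512943535430177651448316444400684267012075028480) (nat_lit 499479860341638269426296051733220096650522096718162554013068903394409312275934661409303318786361761788756036392757036458596518647385030686601641984) (nat_lit 499479860341638269426296051733220096650522096718162554013068903394409312275934661409303318786361761788756036392757036458596518647385030686601641984) :=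
  chk_sound Env.nil
    (n (nat_lit 386) (b (n (nat_lit 411) (b (b (b (n (nat_lit 412) (b (b (n (nat_lit 413) (b (b (n (nat_lit 385) (b (n (nat_lit 384) (b (l (nat_lit 0) (nat_lit 384) (nat_lit 387)) (l (nat_lit 1) (nat_lit 358) (nat_lit 383)))) (l (nat_lit 3) (nat_lit 385) (nat_lit 414)))) (n (nat_lit 410) (b (n (nat_lit 414) (b (n (nat_lit 439) (b (l (nat_lit 0) (nat_lit 410) (nat_lit 438)) (l (nat_lit 0) (nat_lit 411) (nat_lit 440)))) (n (nat_lit 389) (b (l (nat_lit 1) (nat_lit 386) (nat_lit 390)) (l (nat_lit 1) (nat_lit 385) (nat_lit 388)))))) (n (nat_lit 435) (b (l (nat_lit 2) (nat_lit 409) (nat_lit 434)) (l (nat_lit 6) (nat_lit 335) (nat_lit 336))))))) (n (nat_lit 410) (b (n (nat_lit 435) (b (l (nat_lit 2) (nat_lit 409) (nat_lit 434)) (l (nat_lit 6) (nat_lit 335) (nat_lit 336)))) (n (nat_lit 409) (b (n (nat_lit 387) (b (l (nat_lit 1) (nat_lit 384) (nat_lit 388)) (l (nat_lit 1) (nat_lit 383) (nat_lit 408)))) (n (nat_lit 384) (b (l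 (nat_lit 3) (nat_lit 383) (nat_lit 383)) (l (nat_lit 3) (nat_lit 384) (nat_lit 385)))))))))) (n (nat_lit 413) (b (b (n (nat_lit 410) (b (b (n (nat_lit 409) (b (n (nat_lit 438) (b (l (nat_lit 0) (nat_lit 409) (nat_lit 437)) (l (nat_lit 0) (nat_lit 410) (nat_lit 439)))) (n (nat_lit 434) (b (l (nat_lit 2) (nat_lit 409) (nat_lit 435)) (l (nat_lit 2) (nat_lit 408) (nat_lit 433)))))) (n (nat_lit 414) (b (n (nat_lit 439) (b (l (nat_lit 0) (nat_lit 410) (nat_lit 438)) (l (nat_lit 0) (nat_lit 411) (nat_lit 440)))) (n (nat_lit 389) (b (l (nat_lit 1) (nat_lit 386) (nat_lit 390)) (l (nat_lit 1) (nat_lit 385) (nat_lit 388))))))) (n (nat_lit 409) (b (n (nat_lit 387) (b (l (nat_lit 1) (nat_lit 384) (nat_lit 388)) (l (nat_lit 1) (nat_lit 383) (nat_lit 408)))) (n (nat_lit 434) (b (l (nat_lit 2) (nat_lit 409) (nat_lit 435)) (l (nat_lit 2) (nat_lit 408) (nat_lit 433)))))))) (n (nat_lit 410) (b (n (nat_lit 385) (b (n (nat_lit 435) (b (l (nat_lit 5) (nat_lit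 360) (nat_lit 460)) (l (nat_lit 2) (nat_lit 409) (nat_lit 434)))) (l (nat_lit 3) (nat_lit 384) (nat_lit 384)))) (n (nat_lit 409) (b (n (nat_lit 388) (b (l (nat_lit 1) (nat_lit 385) (nat_lit 389)) (l (nat_lit 1) (nat_lit 384) (nat_lit 387)))) (n (nat_lit 438) (b (l (nat_lit 0) (nat_lit 409) (nat_lit 437)) (l (nat_lit 0) (nat_lit 410) (nat_lit 439))))))))) (b (n (nat_lit 385) (b (n (nat_lit 384) (b (l (nat_lit 1) (nat_lit 358) (nat_lit 383)) (l (nat_lit 3) (nat_lit 384) (nat_lit 410)))) (l (nat_lit 3) (nat_lit 385) (nat_lit 414)))) (n (nat_lit 385) (b (n (nat_lit 384) (b (l (nat_lit 0) (nat_lit 384) (nat_lit 387)) (l (nat_lit 1) (nat_lit 358) (nat_lit 383)))) (l (nat_lit 3) (nat_lit 385) (nat_lit 414)))))))) (b (n (nat_lit 437) (b (n (nat_lit 462) (b (l (nat_lit 7) (nat_lit 361) (nat_lit 387)) (l (nat_lit 7) (nat_lit 386) (nat_lit 487)))) (l (nat_lit 4) (nat_lit 336) (nat_lit 336)))) (n (nat_lit 410) (b (b (n (nat_lit 385) (b (n (nat_lit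 413) (b (l (nat_lit 3) (nat_lit 384) (nat_lit 384)) (l (nat_lit 3) (nat_lit 385) (nat_lit 414)))) (n (nat_lit 435) (b (l (nat_lit 5) (nat_lit 360) (nat_lit 460)) (l (nat_lit 6) (nat_lit 335) (nat_lit 336)))))) (n (nat_lit 336) (b (l (nat_lit 4) (nat_lit 336) (nat_lit 437)) (l (nat_lit 6) (nat_lit 335) (nat_lit 435))))) (b (n (nat_lit 413) (b (n (nat_lit 409) (b (n (nat_lit 438) (b (l (nat_lit 0) (nat_lit 409) (nat_lit 437)) (l (nat_lit 0) (nat_lit 410) (nat_lit 439)))) (n (nat_lit 434) (b (l (nat_lit 2) (nat_lit 409) (nat_lit 435)) (l (nat_lit 2) (nat_lit 408) (nat_lit 433)))))) (n (nat_lit 385) (b (l (nat_lit 3) (nat_lit 384) (nat_lit 384)) (l (nat_lit 3) (nat_lit 385) (nat_lit 414)))))) (n (nat_lit 413) (b (n (nat_lit 437) (b (n (nat_lit 438) (b (l (nat_lit 0) (nat_lit 410) (nat_lit 439)) (l (nat_lit 0) (nat_lit 409) (nat_lit 409)))) (l (nat_lit 4) (nat_lit 336) (nat_lit 336)))) (n (nat_lit 385) (b (l (nat_lit 3) (nat_lit 384) (nat_lit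 384)) (l (nat_lit 3) (nat_lit 385) (nat_lit 414)))))))))))) (n (nat_lit 436) (b (b (n (nat_lit 461) (b (n (nat_lit 460) (b (l (nat_lit 6) (nat_lit 360) (nat_lit 435)) (l (nat_lit 6) (nat_lit 385) (nat_lit 485)))) (n (nat_lit 462) (b (l (nat_lit 4) (nat_lit 386) (nat_lit 487)) (l (nat_lit 4) (nat_lit 361) (nat_lit 437)))))) (n (nat_lit 336) (b (n (nat_lit 435) (b (l (nat_lit 6) (nat_lit 360) (nat_lit 460)) (l (nat_lit 6) (nat_lit 335) (nat_lit 410)))) (n (nat_lit 335) (b (l (nat_lit 7) (nat_lit 310) (nat_lit 310)) (l (nat_lit 7) (nat_lit 335) (nat_lit 360))))))) (n (nat_lit 336) (b (n (nat_lit 437) (b (l (nat_lit 4) (nat_lit 361) (nat_lit 462)) (l (nat_lit 4) (nat_lit 336) (nat_lit 412)))) (n (nat_lit 335) (b (l (nat_lit 7) (nat_lit 310) (nat_lit 310)) (l (nat_lit 7) (nat_lit 335) (nat_lit 360))))))))) (b (n (nat_lit 436) (b (b (n (nat_lit 336) (b (n (nat_lit 437) (b (l (nat_lit 4) (nat_lit 361) (nat_lit 462)) (l (nat_lit 4) (nat_lit 336)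 (nat_lit 412)))) (n (nat_lit 335) (b (l (nat_lit 7) (nat_lit 310) (nat_lit 310)) (l (nat_lit 7) (nat_lit 335) (nat_lit 360)))))) (n (nat_lit 461) (b (n (nat_lit 462) (b (l (nat_lit 4) (nat_lit 386) (nat_lit 487)) (l (nat_lit 4) (nat_lit 361) (nat_lit 437)))) (l (nat_lit 5) (nat_lit 361) (nat_lit 387))))) (n (nat_lit 461) (b (n (nat_lit 360) (b (l (nat_lit 7) (nat_lit 335) (nat_lit 335)) (l (nat_lit 7) (nat_lit 360) (nat_lit 385)))) (l (nat_lit 5) (nat_lit 361) (nat_lit 387)))))) (n (nat_lit 436) (b (b (n (nat_lit 336) (b (n (nat_lit 435) (b (l (nat_lit 6) (nat_lit 360) (nat_lit 460)) (l (nat_lit 6) (nat_lit 335) (nat_lit 410)))) (n (nat_lit 335) (b (l (nat_lit 7) (nat_lit 310) (nat_lit 310)) (l (nat_lit 7) (nat_lit 335) (nat_lit 360)))))) (n (nat_lit 461) (b (n (nat_lit 460) (b (l (nat_lit 6) (nat_lit 360) (nat_lit 435)) (l (nat_lit 6) (nat_lit 385) (nat_lit 485)))) (l (nat_lit 5) (nat_lit 361) (nat_lit 387))))) (n (nat_lit 461) (b (n (nat_lit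 360) (b (l (nat_lit 7) (nat_lit 335) (nat_lit 335)) (l (nat_lit 7) (nat_lit 360) (nat_lit 385)))) (l (nat_lit 5) (nat_lit 361) (nat_lit 387)))))))) (n (nat_lit 436) (b (b (n (nat_lit 461) (b (n (nat_lit 462) (b (l (nat_lit 4) (nat_lit 386) (nat_lit 487)) (l (nat_lit 4) (nat_lit 361) (nat_lit 437)))) (l (nat_lit 5) (nat_lit 361) (nat_lit 387)))) (n (nat_lit 461) (b (n (nat_lit 460) (b (l (nat_lit 6) (nat_lit 360) (nat_lit 435)) (l (nat_lit 6) (nat_lit 385) (nat_lit 485)))) (n (nat_lit 462) (b (l (nat_lit 4) (nat_lit 386) (nat_lit 487)) (l (nat_lit 4) (nat_lit 361) (nat_lit 437))))))) (b (n (nat_lit 461) (b (n (nat_lit 460) (b (l (nat_lit 6) (nat_lit 360) (nat_lit 435)) (l (nat_lit 6) (nat_lit 385) (nat_lit 485)))) (l (nat_lit 5) (nat_lit 361) (nat_lit 387)))) (n (nat_lit 435) (b (n (nat_lit 437) (b (n (nat_lit 438) (b (n (nat_lit 412) (b (n (nat_lit 434) (b (l (nat_lit 1) (nat_lit 408) (nat_lit 433)) (l (nat_lit 1) (nat_lit 409) (nat_lit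 413)))) (n (nat_lit 463) (b (l (nat_lit 4) (nat_lit 362) (nat_lit 387)) (l (nat_lit 0) (nat_lit 435) (nat_lit 464)))))) (n (nat_lit 410) (b (l (nat_lit 3) (nat_lit 410) (nat_lit 439)) (l (nat_lit 3) (nat_lit 409) (nat_lit 409)))))) (l (nat_lit 4) (nat_lit 361) (nat_lit 462)))) (l (nat_lit 6) (nat_lit 360) (nat_lit 460))))))))) (l (nat_lit 6) (nat_lit 286) (nat_lit 337))))
    envOK_nil (by decide +kernel)

theorem p13318 : Fam (nat_lit 11) (nat_lit 9394170331095341255257530114830562358377347611570300560063754569879117379948434561389046403914729606011158528) (nat_lit 499479955609843540300674715967284539721055583019943266876411220959786793287966099005856480833547325397796639828711202053273763847807969494353051648) (nat_lit 499479955609843540300674715967284539721055583019943266876411220959786793287966099005856480833547325397796639828711202053273763847807969494353051648) :=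
  chk_sound (Env.cons (nat_lit 9) (nat_lit 14091255496642999367336883580736022164254095293449919224243745829193254150687650660782193990308612218191609856) (nat_lit 2977131547802960396282788628839048337428738126270476236398608259106470375135168259343810678240164605769860567514076001153986777642853990400) (Env.cons (nat_lit 10) (nat_lit 14091255496643007711036491308409236413128712709386940301478336512943535430177651448316444400684267012075028480) (nat_lit 178627890206414828477792799592556803856828120322166380770932825996815653078760044731606045993025131631312499103844316293072873822726115033088) (Env.cons (nat_lit 8) (nat_lit 14091255496643007711036491308409236413128712709386940301478336512943535430177651448316444400684267012075028480) (nat_lit 9751996833046830669178692562450754139789004903799827119800786062849989469809815656745961726172385900460302285253115904) (Env.cons (nat_lit 5) (nat_lit 14091255776611100483262017628089521484184247474592627455809528375442173050651635345836562573293953671025917952)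 (nat_lit 778189696945022438252205827644826465779541947062301697346472512651152089160107238398180989565057761858925853077929984) (Env.cons (nat_lit 9) (nat_lit 14091255496643007711036491308409236413128712709386940301478336512943535430177651448316444400684267012075028480) (nat_lit 499479860341638269426296051733220096650522096718162554013068903394409312275934661409303318786361761788756036392757036458596518647385030686601641984) Env.nil)))))
    (n (nat_lit 361) (b (b (b (r (nat_lit 0)) (n (nat_lit 386) (b (n (nat_lit 363) (b (b (n (nat_lit 364) (b (n (nat_lit 365) (b (n (nat_lit 390) (b (l (nat_lit 0) (nat_lit 362) (nat_lit 391)) (l (nat_lit 0) (nat_lit 361) (nat_lit 389)))) (l (nat_lit 2) (nat_lit 361) (nat_lit 387)))) (n (nat_lit 360) (b (n (nat_lit 339) (b (l (nat_lit 1) (nat_lit 336) (nat_lit 340)) (l (nat_lit 1) (nat_lit 335) (nat_lit 338)))) (n (nat_lit 335) (b (l (nat_lit 3) (nat_lit 334) (nat_lit 334)) (l (nat_lit 3) (nat_lit 335)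 (nat_lit 336)))))))) (n (nat_lit 364) (b (n (nat_lit 365) (b (n (nat_lit 340) (b (l (nat_lit 1) (nat_lit 336) (nat_lit 339)) (l (nat_lit 1) (nat_lit 337) (nat_lit 341)))) (n (nat_lit 390) (b (l (nat_lit 0) (nat_lit 362) (nat_lit 391)) (l (nat_lit 0) (nat_lit 361) (nat_lit 389)))))) (l (nat_lit 2) (nat_lit 360) (nat_lit 385))))) (n (nat_lit 360) (b (n (nat_lit 335) (b (n (nat_lit 411) (b (n (nat_lit 310) (b (l (nat_lit 4) (nat_lit 285) (nat_lit 285)) (l (nat_lit 7) (nat_lit 310) (nat_lit 336)))) (l (nat_lit 7) (nat_lit 335) (nat_lit 436)))) (l (nat_lit 3) (nat_lit 334) (nat_lit 334)))) (n (nat_lit 359) (b (b (n (nat_lit 384) (b (l (nat_lit 2) (nat_lit 359) (nat_lit 385)) (l (nat_lit 2) (nat_lit 358) (nat_lit 383)))) (n (nat_lit 358) (b (n (nat_lit 357) (b (n (nat_lit 332) (b (l (nat_lit 3) (nat_lit 331) (nat_lit 331)) (l (nat_lit 3) (nat_lit 332) (nat_lit 333)))) (l (nat_lit 0) (nat_lit 357) (nat_lit 385)))) (l (nat_lit 0) (nat_lit 358)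 (nat_lit 387))))) (n (nat_lit 358) (b (n (nat_lit 383) (b (l (nat_lit 2) (nat_lit 358) (nat_lit 384)) (l (nat_lit 2) (nat_lit 357) (nat_lit 382)))) (l (nat_lit 0) (nat_lit 358) (nat_lit 387)))))))))) (l (nat_lit 6) (nat_lit 286) (nat_lit 337))))) (b (n (nat_lit 337) (b (n (nat_lit 286) (b (n (nat_lit 288) (b (n (nat_lit 315) (b (b (n (nat_lit 363) (b (n (nat_lit 364) (b (b (n (nat_lit 365) (b (n (nat_lit 340) (b (l (nat_lit 1) (nat_lit 336) (nat_lit 339)) (l (nat_lit 1) (nat_lit 337) (nat_lit 341)))) (n (nat_lit 390) (b (l (nat_lit 0) (nat_lit 362) (nat_lit 391)) (l (nat_lit 0) (nat_lit 361) (nat_lit 389)))))) (n (nat_lit 339) (b (n (nat_lit 314) (b (n (nat_lit 389) (b (l (nat_lit 0) (nat_lit 361) (nat_lit 390)) (l (nat_lit 5) (nat_lit 289) (nat_lit 290)))) (n (nat_lit 336) (b (l (nat_lit 1) (nat_lit 311) (nat_lit 338)) (l (nat_lit 3) (nat_lit 335) (nat_lit 335)))))) (l (nat_lit 1) (nat_lit 336) (nat_lit 340))))) (n (nat_lit 336) (b (l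 (nat_lit 3) (nat_lit 336) (nat_lit 365)) (l (nat_lit 3) (nat_lit 335) (nat_lit 335)))))) (l (nat_lit 4) (nat_lit 287) (nat_lit 388)))) (n (nat_lit 363) (b (n (nat_lit 339) (b (b (n (nat_lit 338) (b (n (nat_lit 314) (b (l (nat_lit 1) (nat_lit 311) (nat_lit 336)) (l (nat_lit 0) (nat_lit 286) (nat_lit 289)))) (l (nat_lit 2) (nat_lit 336) (nat_lit 340)))) (n (nat_lit 340) (b (l (nat_lit 1) (nat_lit 336) (nat_lit 364)) (l (nat_lit 2) (nat_lit 336) (nat_lit 338))))) (b (n (nat_lit 336) (b (n (nat_lit 335) (b (l (nat_lit 3) (nat_lit 335) (nat_lit 364)) (l (nat_lit 0) (nat_lit 334) (nat_lit 334)))) (n (nat_lit 314) (b (l (nat_lit 1) (nat_lit 311) (nat_lit 338)) (l (nat_lit 0) (nat_lit 286) (nat_lit 289)))))) (n (nat_lit 364) (b (n (nat_lit 336) (b (l (nat_lit 3) (nat_lit 336) (nat_lit 365)) (l (nat_lit 3) (nat_lit 335) (nat_lit 335)))) (l (nat_lit 1) (nat_lit 336) (nat_lit 340))))))) (l (nat_lit 4) (nat_lit 287) (nat_lit 388))))) (b (n (nat_lit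 289) (b (n (nat_lit 290) (b (n (nat_lit 265) (b (l (nat_lit 1) (nat_lit 261) (nat_lit 264)) (l (nat_lit 1) (nat_lit 262) (nat_lit 266)))) (l (nat_lit 0) (nat_lit 287) (nat_lit 316)))) (l (nat_lit 0) (nat_lit 286) (nat_lit 314)))) (n (nat_lit 340) (b (b (n (nat_lit 363) (b (n (nat_lit 339) (b (l (nat_lit 1) (nat_lit 336) (nat_lit 364)) (l (nat_lit 2) (nat_lit 336) (nat_lit 338)))) (l (nat_lit 4) (nat_lit 287) (nat_lit 388)))) (n (nat_lit 290) (b (b (b (n (nat_lit 289) (b (n (nat_lit 265) (b (l (nat_lit 1) (nat_lit 261) (nat_lit 264)) (l (nat_lit 1) (nat_lit 262) (nat_lit 266)))) (l (nat_lit 0) (nat_lit 287) (nat_lit 316)))) (n (nat_lit 390) (b (n (nat_lit 365) (b (n (nat_lit 391) (b (l (nat_lit 4) (nat_lit 315) (nat_lit 416)) (l (nat_lit 4) (nat_lit 290) (nat_lit 366)))) (n (nat_lit 289) (b (l (nat_lit 7) (nat_lit 264) (nat_lit 264)) (l (nat_lit 0) (nat_lit 287) (nat_lit 316)))))) (n (nat_lit 388) (b (n (nat_lit 387) (b (l (nat_lit 4) (nat_lit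 312) (nat_lit 413)) (l (nat_lit 3) (nat_lit 361) (nat_lit 389)))) (l (nat_lit 4) (nat_lit 287) (nat_lit 363))))))) (b (n (nat_lit 265) (b (b (n (nat_lit 365) (b (n (nat_lit 266) (b (l (nat_lit 5) (nat_lit 265) (nat_lit 291)) (l (nat_lit 5) (nat_lit 240) (nat_lit 241)))) (n (nat_lit 366) (b (l (nat_lit 4) (nat_lit 265) (nat_lit 341)) (l (nat_lit 4) (nat_lit 290) (nat_lit 391)))))) (n (nat_lit 240) (b (n (nat_lit 241) (b (l (nat_lit 5) (nat_lit 240) (nat_lit 266)) (l (nat_lit 5) (nat_lit 215) (nat_lit 216)))) (n (nat_lit 239) (b (l (nat_lit 7) (nat_lit 214) (nat_lit 214)) (l (nat_lit 7) (nat_lit 239) (nat_lit 264))))))) (n (nat_lit 240) (b (n (nat_lit 239) (b (l (nat_lit 7) (nat_lit 214) (nat_lit 214)) (l (nat_lit 7) (nat_lit 239) (nat_lit 264)))) (n (nat_lit 341) (b (l (nat_lit 4) (nat_lit 240) (nat_lit 316)) (l (nat_lit 4) (nat_lit 265) (nat_lit 366)))))))) (n (nat_lit 265) (b (n (nat_lit 264) (b (l (nat_lit 7) (nat_lit 239) (nat_lit 239))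 (l (nat_lit 1) (nat_lit 261) (nat_lit 289)))) (n (nat_lit 365) (b (n (nat_lit 266) (b (l (nat_lit 5) (nat_lit 265) (nat_lit 291)) (l (nat_lit 5) (nat_lit 240) (nat_lit 241)))) (n (nat_lit 366) (b (l (nat_lit 4) (nat_lit 265) (nat_lit 341)) (l (nat_lit 4) (nat_lit 290) (nat_lit 391)))))))))) (n (nat_lit 265) (b (b (n (nat_lit 240) (b (n (nat_lit 341) (b (l (nat_lit 4) (nat_lit 240) (nat_lit 316)) (l (nat_lit 4) (nat_lit 265) (nat_lit 366)))) (n (nat_lit 241) (b (l (nat_lit 5) (nat_lit 240) (nat_lit 266)) (l (nat_lit 5) (nat_lit 215) (nat_lit 216)))))) (n (nat_lit 316) (b (n (nat_lit 341) (b (l (nat_lit 4) (nat_lit 265) (nat_lit 366)) (l (nat_lit 4) (nat_lit 240) (nat_lit 240)))) (l (nat_lit 0) (nat_lit 287) (nat_lit 289))))) (n (nat_lit 266) (b (l (nat_lit 1) (nat_lit 262) (nat_lit 289)) (l (nat_lit 5) (nat_lit 240) (nat_lit 241))))))))) (n (nat_lit 290) (b (b (b (n (nat_lit 265) (b (b (n (nat_lit 240) (b (n (nat_lit 341) (b (l (nat_lit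 4) (nat_lit 240) (nat_lit 316)) (l (nat_lit 4) (nat_lit 265) (nat_lit 366)))) (n (nat_lit 241) (b (l (nat_lit 5) (nat_lit 240) (nat_lit 266)) (l (nat_lit 5) (nat_lit 215) (nat_lit 216)))))) (n (nat_lit 316) (b (n (nat_lit 341) (b (l (nat_lit 4) (nat_lit 265) (nat_lit 366)) (l (nat_lit 4) (nat_lit 240) (nat_lit 240)))) (l (nat_lit 0) (nat_lit 287) (nat_lit 289))))) (n (nat_lit 266) (b (l (nat_lit 1) (nat_lit 262) (nat_lit 289)) (l (nat_lit 5) (nat_lit 240) (nat_lit 241)))))) (n (nat_lit 265) (b (n (nat_lit 264) (b (l (nat_lit 7) (nat_lit 239) (nat_lit 239)) (l (nat_lit 1) (nat_lit 261) (nat_lit 289)))) (n (nat_lit 365) (b (n (nat_lit 266) (b (l (nat_lit 5) (nat_lit 265) (nat_lit 291)) (l (nat_lit 5) (nat_lit 240) (nat_lit 241)))) (n (nat_lit 366) (b (l (nat_lit 4) (nat_lit 265) (nat_lit 341)) (l (nat_lit 4) (nat_lit 290) (nat_lit 391))))))))) (b (n (nat_lit 265) (b (b (n (nat_lit 365) (b (n (nat_lit 266) (b (l (nat_lit 5) (nat_lit 265) (nat_lit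 291)) (l (nat_lit 5) (nat_lit 240) (nat_lit 241)))) (n (nat_lit 366) (b (l (nat_lit 4) (nat_lit 265) (nat_lit 341)) (l (nat_lit 4) (nat_lit 290) (nat_lit 391)))))) (n (nat_lit 240) (b (n (nat_lit 241) (b (l (nat_lit 5) (nat_lit 240) (nat_lit 266)) (l (nat_lit 5) (nat_lit 215) (nat_lit 216)))) (n (nat_lit 239) (b (l (nat_lit 7) (nat_lit 214) (nat_lit 214)) (l (nat_lit 7) (nat_lit 239) (nat_lit 264))))))) (n (nat_lit 240) (b (n (nat_lit 239) (b (l (nat_lit 7) (nat_lit 214) (nat_lit 214)) (l (nat_lit 7) (nat_lit 239) (nat_lit 264)))) (n (nat_lit 341) (b (l (nat_lit 4) (nat_lit 240) (nat_lit 316)) (l (nat_lit 4) (nat_lit 265) (nat_lit 366)))))))) (n (nat_lit 289) (b (n (nat_lit 265) (b (l (nat_lit 1) (nat_lit 261) (nat_lit 264)) (l (nat_lit 1) (nat_lit 262) (nat_lit 266)))) (l (nat_lit 0) (nat_lit 287) (nat_lit 316)))))) (n (nat_lit 365) (b (n (nat_lit 390) (b (n (nat_lit 391) (b (l (nat_lit 4) (nat_lit 315) (nat_lit 416)) (l (nat_lit 4) (nat_lit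 290) (nat_lit 366)))) (n (nat_lit 389) (b (l (nat_lit 6) (nat_lit 289) (nat_lit 364)) (l (nat_lit 6) (nat_lit 314) (nat_lit 414)))))) (n (nat_lit 289) (b (l (nat_lit 7) (nat_lit 264) (nat_lit 264)) (l (nat_lit 0) (nat_lit 287) (nat_lit 316))))))))))))) (l (nat_lit 5) (nat_lit 262) (nat_lit 263)))) (l (nat_lit 7) (nat_lit 261) (nat_lit 261)))) (l (nat_lit 6) (nat_lit 286) (nat_lit 386)))) (r (nat_lit 1)))) (b (b (n (nat_lit 386) (b (n (nat_lit 363) (b (b (n (nat_lit 364) (b (n (nat_lit 365) (b (n (nat_lit 340) (b (l (nat_lit 1) (nat_lit 336) (nat_lit 339)) (l (nat_lit 1) (nat_lit 337) (nat_lit 341)))) (n (nat_lit 390) (b (l (nat_lit 0) (nat_lit 362) (nat_lit 391)) (l (nat_lit 0) (nat_lit 361) (nat_lit 389)))))) (l (nat_lit 2) (nat_lit 360) (nat_lit 385)))) (n (nat_lit 385) (b (n (nat_lit 384) (b (l (nat_lit 1) (nat_lit 359) (nat_lit 387)) (l (nat_lit 1) (nat_lit 358) (nat_lit 383)))) (l (nat_lit 2) (nat_lit 360) (nat_lit 364))))) (b (n (nat_lit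 364) (b (b (n (nat_lit 360) (b (n (nat_lit 389) (b (l (nat_lit 0) (nat_lit 360) (nat_lit 388)) (l (nat_lit 0) (nat_lit 361) (nat_lit 390)))) (n (nat_lit 339) (b (l (nat_lit 1) (nat_lit 336) (nat_lit 340)) (l (nat_lit 1) (nat_lit 335) (nat_lit 338)))))) (n (nat_lit 365) (b (n (nat_lit 390) (b (l (nat_lit 0) (nat_lit 362) (nat_lit 391)) (l (nat_lit 0) (nat_lit 361) (nat_lit 389)))) (l (nat_lit 2) (nat_lit 361) (nat_lit 387))))) (n (nat_lit 365) (b (n (nat_lit 340) (b (l (nat_lit 1) (nat_lit 336) (nat_lit 339)) (l (nat_lit 1) (nat_lit 337) (nat_lit 341)))) (l (nat_lit 2) (nat_lit 361) (nat_lit 387)))))) (n (nat_lit 360) (b (b (n (nat_lit 359) (b (b (n (nat_lit 384) (b (l (nat_lit 2) (nat_lit 359) (nat_lit 385)) (l (nat_lit 2) (nat_lit 358) (nat_lit 383)))) (n (nat_lit 358) (b (n (nat_lit 357) (b (n (nat_lit 382) (b (l (nat_lit 2) (nat_lit 357) (nat_lit 383)) (l (nat_lit 2) (nat_lit 356) (nat_lit 381)))) (l (nat_lit 0) (nat_lit 357) (nat_lit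 385)))) (n (nat_lit 333) (b (l (nat_lit 3) (nat_lit 332) (nat_lit 332)) (l (nat_lit 3) (nat_lit 333) (nat_lit 334))))))) (b (n (nat_lit 358) (b (n (nat_lit 385) (b (l (nat_lit 2) (nat_lit 359) (nat_lit 384)) (l (nat_lit 0) (nat_lit 357) (nat_lit 357)))) (n (nat_lit 333) (b (l (nat_lit 3) (nat_lit 332) (nat_lit 332)) (l (nat_lit 3) (nat_lit 333) (nat_lit 334)))))) (n (nat_lit 358) (b (n (nat_lit 383) (b (l (nat_lit 2) (nat_lit 358) (nat_lit 384)) (l (nat_lit 2) (nat_lit 357) (nat_lit 382)))) (n (nat_lit 333) (b (l (nat_lit 3) (nat_lit 332) (nat_lit 332)) (l (nat_lit 3) (nat_lit 333) (nat_lit 334))))))))) (n (nat_lit 388) (b (n (nat_lit 387) (b (n (nat_lit 413) (b (b (n (nat_lit 414) (b (n (nat_lit 338) (b (l (nat_lit 4) (nat_lit 338) (nat_lit 439)) (l (nat_lit 1) (nat_lit 335) (nat_lit 339)))) (l (nat_lit 0) (nat_lit 385) (nat_lit 385)))) (n (nat_lit 412) (b (n (nat_lit 414) (b (l (nat_lit 3) (nat_lit 386) (nat_lit 415)) (l (nat_lit 0) (nat_lit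 385) (nat_lit 385)))) (n (nat_lit 437) (b (l (nat_lit 7) (nat_lit 336) (nat_lit 336)) (l (nat_lit 7) (nat_lit 361) (nat_lit 462))))))) (n (nat_lit 437) (b (n (nat_lit 438) (b (l (nat_lit 6) (nat_lit 362) (nat_lit 462)) (l (nat_lit 7) (nat_lit 362) (nat_lit 463)))) (n (nat_lit 338) (b (l (nat_lit 5) (nat_lit 337) (nat_lit 412)) (l (nat_lit 1) (nat_lit 335) (nat_lit 339)))))))) (l (nat_lit 0) (nat_lit 359) (nat_lit 359)))) (l (nat_lit 0) (nat_lit 360) (nat_lit 389))))) (b (n (nat_lit 359) (b (n (nat_lit 358) (b (n (nat_lit 383) (b (l (nat_lit 2) (nat_lit 358) (nat_lit 384)) (l (nat_lit 2) (nat_lit 357) (nat_lit 382)))) (n (nat_lit 333) (b (l (nat_lit 3) (nat_lit 332) (nat_lit 332)) (l (nat_lit 3) (nat_lit 333) (nat_lit 334)))))) (n (nat_lit 388) (b (l (nat_lit 0) (nat_lit 360) (nat_lit 389)) (l (nat_lit 0) (nat_lit 359) (nat_lit 387)))))) (n (nat_lit 385) (b (n (nat_lit 388) (b (n (nat_lit 413) (b (b (n (nat_lit 410) (b (n (nat_lit 435) (b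 (l (nat_lit 5) (nat_lit 335) (nat_lit 336)) (l (nat_lit 5) (nat_lit 360) (nat_lit 460)))) (n (nat_lit 387) (b (l (nat_lit 2) (nat_lit 384) (nat_lit 409)) (l (nat_lit 0) (nat_lit 385) (nat_lit 414)))))) (n (nat_lit 338) (b (n (nat_lit 438) (b (n (nat_lit 437) (b (l (nat_lit 6) (nat_lit 337) (nat_lit 412)) (l (nat_lit 6) (nat_lit 362) (nat_lit 462)))) (n (nat_lit 439) (b (l (nat_lit 4) (nat_lit 363) (nat_lit 464)) (l (nat_lit 4) (nat_lit 338) (nat_lit 414)))))) (l (nat_lit 1) (nat_lit 335) (nat_lit 339))))) (n (nat_lit 387) (b (n (nat_lit 410) (b (n (nat_lit 435) (b (l (nat_lit 5) (nat_lit 335) (nat_lit 336)) (l (nat_lit 5) (nat_lit 360) (nat_lit 460)))) (l (nat_lit 2) (nat_lit 384) (nat_lit 409)))) (n (nat_lit 437) (b (n (nat_lit 438) (b (l (nat_lit 6) (nat_lit 362) (nat_lit 462)) (l (nat_lit 7) (nat_lit 362) (nat_lit 463)))) (n (nat_lit 338) (b (l (nat_lit 5) (nat_lit 337) (nat_lit 412)) (l (nat_lit 1) (nat_lit 335) (nat_lit 339))))))))))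 (l (nat_lit 0) (nat_lit 360) (nat_lit 389)))) (l (nat_lit 2) (nat_lit 359) (nat_lit 384)))))))))) (l (nat_lit 6) (nat_lit 286) (nat_lit 337)))) (r (nat_lit 2))) (b (n (nat_lit 337) (b (r (nat_lit 3)) (l (nat_lit 6) (nat_lit 286) (nat_lit 386)))) (r (nat_lit 4))))))
    (envOK_cons p13103 (envOK_cons p13200 (envOK_cons p13239 (envOK_cons p7417 (envOK_cons p13317 envOK_nil))))) (by decide +kernel)

theorem p13323 : Fam (nat_lit 7) (nat_lit 8343699794223886867918865425684280076135049628354806830284884040961525585345187034493899243520) (nat_lit 98505019600935840370962763564212786938709276985964341307752319979530554274649018679730722133485941234586747794358272) (nat_lit 98505019600935840370962763564212786938709276985964341307752319979530554274649018679730722133485941234586747794358272) :=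
  chk_sound Env.nil
    (n (nat_lit 284) (b (b (n (nat_lit 283) (b (n (nat_lit 258) (b (l (nat_lit 3) (nat_lit 257) (nat_lit 257)) (l (nat_lit 3) (nat_lit 258) (nat_lit 259)))) (l (nat_lit 0) (nat_lit 283) (nat_lit 311)))) (n (nat_lit 283) (b (n (nat_lit 308) (b (l (nat_lit 2) (nat_lit 283) (nat_lit 309)) (l (nat_lit 2) (nat_lit 282) (nat_lit 307)))) (l (nat_lit 0) (nat_lit 283) (nat_lit 311))))) (n (nat_lit 259) (b (n (nat_lit 309) (b (n (nat_lit 334) (b (b (n (nat_lit 359) (b (n (nat_lit 358) (b (l (nat_lit 6) (nat_lit 258) (nat_lit 333)) (l (nat_lit 6) (nat_lit 283) (nat_lit 383)))) (n (nat_lit 360) (b (l (nat_lit 4) (nat_lit 284) (nat_lit 385)) (l (nat_lit 4) (nat_lit 259) (nat_lit 335)))))) (n (nat_lit 234) (b (n (nat_lit 235) (b (l (nat_lit 5) (nat_lit 209) (nat_lit 210)) (l (nat_lit 5) (nat_lit 234) (nat_lit 260)))) (n (nat_lit 310) (b (l (nat_lit 4) (nat_lit 209) (nat_lit 209)) (l (nat_lit 4) (nat_lit 234) (nat_lit 335))))))) (n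 (nat_lit 260) (b (l (nat_lit 5) (nat_lit 234) (nat_lit 235)) (l (nat_lit 5) (nat_lit 259) (nat_lit 359)))))) (l (nat_lit 2) (nat_lit 283) (nat_lit 308)))) (l (nat_lit 3) (nat_lit 258) (nat_lit 258))))))
    envOK_nil (by decide +kernel)

theorem p13337 : Fam (nat_lit 7) (nat_lit 435157831858563311885959467128468235087899131947679252760405979781514559885966703591424) (nat_lit 98505019600935840370950248016650616321510272383308342099743426244813102632132742069344428546719485341947473506074624) (nat_lit 98505019600935840370950248016650616321510272383308342099743426244813102632132742069344428546719485341947473506074624) :=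
  chk_sound Env.nil
    (n (nat_lit 309) (b (b (n (nat_lit 284) (b (n (nat_lit 259) (b (n (nat_lit 260) (b (n (nat_lit 235) (b (l (nat_lit 5) (nat_lit 234) (nat_lit 334)) (l (nat_lit 6) (nat_lit 209) (nat_lit 210)))) (l (nat_lit 3) (nat_lit 259) (nat_lit 288)))) (l (nat_lit 3) (nat_lit 258) (nat_lit 258)))) (l (nat_lit 2) (nat_lit 283) (nat_lit 308)))) (n (nat_lit 288) (b (n (nat_lit 289) (b (n (nat_lit 264) (b (l (nat_lit 1) (nat_lit 261) (nat_lit 265)) (l (nat_lit 1) (nat_lit 260) (nat_lit 263)))) (n (nat_lit 260) (b (l (nat_lit 3) (nat_lit 260) (nat_lit 261)) (l (nat_lit 3) (nat_lit 259) (nat_lit 259)))))) (l (nat_lit 2) (nat_lit 284) (nat_lit 310))))) (b (n (nat_lit 308) (b (n (nat_lit 310) (b (l (nat_lit 1) (nat_lit 282) (nat_lit 307)) (l (nat_lit 2) (nat_lit 284) (nat_lit 288)))) (l (nat_lit 2) (nat_lit 283) (nat_lit 284)))) (n (nat_lit 284) (b (n (nat_lit 259) (b (n (nat_lit 334) (b (b (n (nat_lit 359) (b (n (nat_lit 358) (b (l (nat_lit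 6) (nat_lit 258) (nat_lit 333)) (l (nat_lit 6) (nat_lit 283) (nat_lit 383)))) (n (nat_lit 360) (b (l (nat_lit 4) (nat_lit 284) (nat_lit 385)) (l (nat_lit 4) (nat_lit 259) (nat_lit 335)))))) (n (nat_lit 234) (b (n (nat_lit 235) (b (l (nat_lit 5) (nat_lit 209) (nat_lit 210)) (l (nat_lit 5) (nat_lit 234) (nat_lit 260)))) (n (nat_lit 310) (b (l (nat_lit 4) (nat_lit 209) (nat_lit 209)) (l (nat_lit 4) (nat_lit 234) (nat_lit 335))))))) (n (nat_lit 260) (b (l (nat_lit 5) (nat_lit 234) (nat_lit 235)) (l (nat_lit 5) (nat_lit 259) (nat_lit 359)))))) (l (nat_lit 3) (nat_lit 258) (nat_lit 258)))) (l (nat_lit 2) (nat_lit 283) (nat_lit 308)))))))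
    envOK_nil (by decide +kernel)

theorem p13403 : Fam (nat_lit 11) (nat_lit 9394170331095341255257530114830562358377347611570300560063754569879117379948434561389046403914729606011158528) (nat_lit 24459071928794405551615265861189462473472436451875098278927053127532586558003387248545188737410118228768524154599850364633088) (nat_lit 24459071928794405551615265861189462473472436451875098278927053127532586558003387248545188737410118228768524154599850364633088) :=
  chk_sound (Env.cons (nat_lit 7) (nat_lit 8343699794223886867918865425684280076135049628354806830284884040961525585345187034493899243520) (nat_lit 98505019600935840370962763564212786938709276985964341307752319979530554274649018679730722133485941234586747794358272) (Env.cons (nat_lit 7) (nat_lit 435157831858563311885959467128468235087899131947679252760405979781514559885966703591424) (nat_lit 98505019600935840370950248016650616321510272383308342099743426244813102632132742069344428546719485341947473506074624)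 Env.nil))
    (n (nat_lit 286) (b (b (n (nat_lit 285) (b (b (b (r (nat_lit 0)) (n (nat_lit 288) (b (b (n (nat_lit 289) (b (n (nat_lit 290) (b (n (nat_lit 265) (b (l (nat_lit 1) (nat_lit 261) (nat_lit 264)) (l (nat_lit 1) (nat_lit 262) (nat_lit 266)))) (n (nat_lit 315) (b (l (nat_lit 0) (nat_lit 287) (nat_lit 316)) (l (nat_lit 0) (nat_lit 286) (nat_lit 314)))))) (n (nat_lit 310) (b (l (nat_lit 2) (nat_lit 284) (nat_lit 309)) (l (nat_lit 2) (nat_lit 285) (nat_lit 311)))))) (n (nat_lit 263) (b (l (nat_lit 1) (nat_lit 260) (nat_lit 264)) (l (nat_lit 5) (nat_lit 262) (nat_lit 337))))) (n (nat_lit 311) (b (n (nat_lit 310) (b (l (nat_lit 1) (nat_lit 284) (nat_lit 309)) (l (nat_lit 2) (nat_lit 285) (nat_lit 289)))) (n (nat_lit 337) (b (l (nat_lit 5) (nat_lit 262) (nat_lit 263)) (l (nat_lit 7) (nat_lit 286) (nat_lit 387))))))))) (b (n (nat_lit 288) (b (n (nat_lit 263) (b (l (nat_lit 1) (nat_lit 260) (nat_lit 264)) (l (nat_lit 5) (nat_lit 262) (nat_lit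 337)))) (n (nat_lit 259) (b (n (nat_lit 311) (b (n (nat_lit 289) (b (l (nat_lit 2) (nat_lit 286) (nat_lit 290)) (l (nat_lit 2) (nat_lit 285) (nat_lit 310)))) (n (nat_lit 284) (b (l (nat_lit 3) (nat_lit 258) (nat_lit 258)) (l (nat_lit 0) (nat_lit 283) (nat_lit 283)))))) (l (nat_lit 3) (nat_lit 259) (nat_lit 260)))))) (n (nat_lit 284) (b (b (n (nat_lit 283) (b (n (nat_lit 258) (b (l (nat_lit 3) (nat_lit 257) (nat_lit 257)) (l (nat_lit 3) (nat_lit 258) (nat_lit 259)))) (l (nat_lit 0) (nat_lit 283) (nat_lit 311)))) (n (nat_lit 283) (b (n (nat_lit 308) (b (l (nat_lit 2) (nat_lit 283) (nat_lit 309)) (l (nat_lit 2) (nat_lit 282) (nat_lit 307)))) (l (nat_lit 0) (nat_lit 283) (nat_lit 311))))) (n (nat_lit 259) (b (n (nat_lit 260) (b (n (nat_lit 309) (b (n (nat_lit 235) (b (l (nat_lit 5) (nat_lit 234) (nat_lit 334)) (l (nat_lit 6) (nat_lit 209) (nat_lit 210)))) (l (nat_lit 2) (nat_lit 283) (nat_lit 308)))) (l (nat_lit 3) (nat_lit 259) (nat_lit 288))))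 (l (nat_lit 3) (nat_lit 258) (nat_lit 258)))))))) (n (nat_lit 288) (b (n (nat_lit 284) (b (n (nat_lit 259) (b (l (nat_lit 3) (nat_lit 258) (nat_lit 258)) (l (nat_lit 3) (nat_lit 259) (nat_lit 260)))) (n (nat_lit 309) (b (l (nat_lit 2) (nat_lit 283) (nat_lit 308)) (l (nat_lit 2) (nat_lit 284) (nat_lit 310)))))) (n (nat_lit 263) (b (l (nat_lit 1) (nat_lit 260) (nat_lit 264)) (l (nat_lit 5) (nat_lit 262) (nat_lit 337)))))))) (n (nat_lit 337) (b (n (nat_lit 387) (b (n (nat_lit 388) (b (l (nat_lit 4) (nat_lit 312) (nat_lit 413)) (l (nat_lit 4) (nat_lit 287) (nat_lit 363)))) (l (nat_lit 7) (nat_lit 286) (nat_lit 311)))) (l (nat_lit 7) (nat_lit 261) (nat_lit 261))))) (b (n (nat_lit 285) (b (b (b (r (nat_lit 0)) (r (nat_lit 1))) (b (n (nat_lit 288) (b (b (n (nat_lit 289) (b (n (nat_lit 264) (b (l (nat_lit 1) (nat_lit 261) (nat_lit 265)) (l (nat_lit 1) (nat_lit 260) (nat_lit 263)))) (n (nat_lit 260) (b (l (nat_lit 3) (nat_lit 260) (nat_lit 261))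 (l (nat_lit 3) (nat_lit 259) (nat_lit 259)))))) (n (nat_lit 289) (b (n (nat_lit 290) (b (n (nat_lit 315) (b (l (nat_lit 0) (nat_lit 287) (nat_lit 316)) (l (nat_lit 0) (nat_lit 286) (nat_lit 314)))) (l (nat_lit 2) (nat_lit 286) (nat_lit 311)))) (n (nat_lit 264) (b (l (nat_lit 1) (nat_lit 261) (nat_lit 265)) (l (nat_lit 1) (nat_lit 260) (nat_lit 263))))))) (n (nat_lit 310) (b (n (nat_lit 260) (b (n (nat_lit 235) (b (b (n (nat_lit 210) (b (n (nat_lit 211) (b (l (nat_lit 5) (nat_lit 210) (nat_lit 236)) (l (nat_lit 5) (nat_lit 185) (nat_lit 186)))) (n (nat_lit 209) (b (l (nat_lit 7) (nat_lit 184) (nat_lit 184)) (l (nat_lit 7) (nat_lit 209) (nat_lit 234)))))) (n (nat_lit 311) (b (l (nat_lit 4) (nat_lit 235) (nat_lit 336)) (l (nat_lit 4) (nat_lit 210) (nat_lit 210))))) (n (nat_lit 335) (b (n (nat_lit 236) (b (l (nat_lit 5) (nat_lit 210) (nat_lit 211)) (l (nat_lit 5) (nat_lit 235) (nat_lit 261)))) (n (nat_lit 336) (b (l (nat_lit 4) (nat_lit 235)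 (nat_lit 311)) (l (nat_lit 4) (nat_lit 260) (nat_lit 361)))))))) (l (nat_lit 3) (nat_lit 259) (nat_lit 259)))) (l (nat_lit 2) (nat_lit 284) (nat_lit 309)))))) (n (nat_lit 284) (b (b (n (nat_lit 288) (b (n (nat_lit 309) (b (l (nat_lit 2) (nat_lit 283) (nat_lit 308)) (l (nat_lit 2) (nat_lit 284) (nat_lit 310)))) (n (nat_lit 289) (b (n (nat_lit 311) (b (l (nat_lit 0) (nat_lit 283) (nat_lit 283)) (l (nat_lit 2) (nat_lit 286) (nat_lit 290)))) (n (nat_lit 264) (b (l (nat_lit 1) (nat_lit 261) (nat_lit 265)) (l (nat_lit 1) (nat_lit 260) (nat_lit 263)))))))) (n (nat_lit 283) (b (n (nat_lit 258) (b (l (nat_lit 3) (nat_lit 257) (nat_lit 257)) (l (nat_lit 3) (nat_lit 258) (nat_lit 259)))) (l (nat_lit 0) (nat_lit 283) (nat_lit 311))))) (n (nat_lit 309) (b (n (nat_lit 259) (b (n (nat_lit 310) (b (n (nat_lit 234) (b (l (nat_lit 4) (nat_lit 234) (nat_lit 335)) (l (nat_lit 4) (nat_lit 209) (nat_lit 209)))) (l (nat_lit 2) (nat_lit 284) (nat_lit 288)))) (l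 (nat_lit 3) (nat_lit 258) (nat_lit 258)))) (l (nat_lit 2) (nat_lit 283) (nat_lit 308)))))))) (b (b (n (nat_lit 284) (b (b (n (nat_lit 283) (b (n (nat_lit 258) (b (l (nat_lit 3) (nat_lit 257) (nat_lit 257)) (l (nat_lit 3) (nat_lit 258) (nat_lit 259)))) (l (nat_lit 0) (nat_lit 283) (nat_lit 311)))) (n (nat_lit 283) (b (n (nat_lit 308) (b (l (nat_lit 2) (nat_lit 283) (nat_lit 309)) (l (nat_lit 2) (nat_lit 282) (nat_lit 307)))) (l (nat_lit 0) (nat_lit 283) (nat_lit 311))))) (n (nat_lit 259) (b (n (nat_lit 260) (b (n (nat_lit 309) (b (n (nat_lit 235) (b (l (nat_lit 5) (nat_lit 234) (nat_lit 334)) (l (nat_lit 6) (nat_lit 209) (nat_lit 210)))) (l (nat_lit 2) (nat_lit 283) (nat_lit 308)))) (l (nat_lit 3) (nat_lit 259) (nat_lit 288)))) (l (nat_lit 3) (nat_lit 258) (nat_lit 258)))))) (n (nat_lit 288) (b (b (n (nat_lit 289) (b (n (nat_lit 311) (b (l (nat_lit 2) (nat_lit 285) (nat_lit 310)) (l (nat_lit 2) (nat_lit 286) (nat_lit 290)))) (n (nat_lit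 264) (b (l (nat_lit 1) (nat_lit 261) (nat_lit 265)) (l (nat_lit 1) (nat_lit 260) (nat_lit 263)))))) (n (nat_lit 289) (b (n (nat_lit 264) (b (l (nat_lit 1) (nat_lit 261) (nat_lit 265)) (l (nat_lit 1) (nat_lit 260) (nat_lit 263)))) (n (nat_lit 260) (b (l (nat_lit 3) (nat_lit 260) (nat_lit 261)) (l (nat_lit 3) (nat_lit 259) (nat_lit 259))))))) (n (nat_lit 284) (b (b (n (nat_lit 259) (b (l (nat_lit 3) (nat_lit 258) (nat_lit 258)) (l (nat_lit 3) (nat_lit 259) (nat_lit 260)))) (n (nat_lit 283) (b (n (nat_lit 282) (b (n (nat_lit 307) (b (l (nat_lit 2) (nat_lit 281) (nat_lit 306)) (l (nat_lit 2) (nat_lit 282) (nat_lit 308)))) (n (nat_lit 257) (b (l (nat_lit 3) (nat_lit 256) (nat_lit 256)) (l (nat_lit 3) (nat_lit 257) (nat_lit 258)))))) (l (nat_lit 0) (nat_lit 283) (nat_lit 311))))) (n (nat_lit 283) (b (n (nat_lit 282) (b (n (nat_lit 260) (b (l (nat_lit 3) (nat_lit 259) (nat_lit 259)) (l (nat_lit 1) (nat_lit 257) (nat_lit 261)))) (n (nat_lit 307)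 (b (l (nat_lit 2) (nat_lit 281) (nat_lit 306)) (l (nat_lit 2) (nat_lit 282) (nat_lit 308)))))) (l (nat_lit 0) (nat_lit 283) (nat_lit 311))))))))) (n (nat_lit 309) (b (b (n (nat_lit 288) (b (n (nat_lit 289) (b (n (nat_lit 290) (b (n (nat_lit 315) (b (l (nat_lit 0) (nat_lit 287) (nat_lit 316)) (l (nat_lit 0) (nat_lit 286) (nat_lit 314)))) (l (nat_lit 2) (nat_lit 286) (nat_lit 311)))) (n (nat_lit 264) (b (l (nat_lit 1) (nat_lit 261) (nat_lit 265)) (l (nat_lit 1) (nat_lit 260) (nat_lit 263)))))) (l (nat_lit 2) (nat_lit 284) (nat_lit 310)))) (n (nat_lit 308) (b (n (nat_lit 310) (b (l (nat_lit 1) (nat_lit 282) (nat_lit 307)) (l (nat_lit 2) (nat_lit 284) (nat_lit 288)))) (l (nat_lit 2) (nat_lit 283) (nat_lit 284))))) (n (nat_lit 284) (b (n (nat_lit 334) (b (b (n (nat_lit 359) (b (n (nat_lit 384) (b (n (nat_lit 383) (b (l (nat_lit 6) (nat_lit 283) (nat_lit 358)) (l (nat_lit 6) (nat_lit 308) (nat_lit 408)))) (n (nat_lit 385) (b (l (nat_lit 4) (nat_lit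 309) (nat_lit 410)) (l (nat_lit 4) (nat_lit 284) (nat_lit 360)))))) (l (nat_lit 5) (nat_lit 259) (nat_lit 260)))) (n (nat_lit 283) (b (n (nat_lit 258) (b (l (nat_lit 7) (nat_lit 258) (nat_lit 359)) (l (nat_lit 3) (nat_lit 257) (nat_lit 257)))) (l (nat_lit 0) (nat_lit 283) (nat_lit 311))))) (n (nat_lit 311) (b (n (nat_lit 336) (b (b (n (nat_lit 361) (b (l (nat_lit 4) (nat_lit 286) (nat_lit 387)) (l (nat_lit 7) (nat_lit 260) (nat_lit 260)))) (n (nat_lit 261) (b (n (nat_lit 236) (b (n (nat_lit 235) (b (l (nat_lit 7) (nat_lit 235) (nat_lit 260)) (l (nat_lit 7) (nat_lit 210) (nat_lit 210)))) (l (nat_lit 4) (nat_lit 211) (nat_lit 211)))) (n (nat_lit 335) (b (l (nat_lit 6) (nat_lit 260) (nat_lit 360)) (l (nat_lit 1) (nat_lit 308) (nat_lit 333))))))) (n (nat_lit 360) (b (n (nat_lit 335) (b (l (nat_lit 1) (nat_lit 308) (nat_lit 333)) (l (nat_lit 6) (nat_lit 260) (nat_lit 261)))) (n (nat_lit 361) (b (l (nat_lit 4) (nat_lit 286) (nat_lit 387)) (l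 (nat_lit 6) (nat_lit 285) (nat_lit 385)))))))) (l (nat_lit 0) (nat_lit 283) (nat_lit 283)))))) (l (nat_lit 2) (nat_lit 283) (nat_lit 308))))))))) (n (nat_lit 285) (b (b (b (n (nat_lit 337) (b (n (nat_lit 309) (b (n (nat_lit 288) (b (l (nat_lit 2) (nat_lit 284) (nat_lit 310)) (l (nat_lit 5) (nat_lit 262) (nat_lit 263)))) (n (nat_lit 284) (b (n (nat_lit 363) (b (n (nat_lit 334) (b (b (n (nat_lit 258) (b (n (nat_lit 283) (b (l (nat_lit 7) (nat_lit 258) (nat_lit 359)) (l (nat_lit 3) (nat_lit 257) (nat_lit 257)))) (l (nat_lit 3) (nat_lit 258) (nat_lit 259)))) (n (nat_lit 335) (b (n (nat_lit 360) (b (l (nat_lit 4) (nat_lit 259) (nat_lit 259)) (l (nat_lit 3) (nat_lit 334) (nat_lit 361)))) (l (nat_lit 0) (nat_lit 334) (nat_lit 336))))) (n (nat_lit 335) (b (n (nat_lit 360) (b (n (nat_lit 385) (b (l (nat_lit 4) (nat_lit 284) (nat_lit 359)) (l (nat_lit 7) (nat_lit 309) (nat_lit 410)))) (l (nat_lit 3) (nat_lit 334) (nat_lit 361)))) (l (nat_lit 0) (nat_lit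 334) (nat_lit 336)))))) (l (nat_lit 4) (nat_lit 287) (nat_lit 388)))) (l (nat_lit 2) (nat_lit 283) (nat_lit 308)))))) (l (nat_lit 7) (nat_lit 261) (nat_lit 261)))) (n (nat_lit 261) (b (n (nat_lit 310) (b (n (nat_lit 335) (b (n (nat_lit 236) (b (l (nat_lit 6) (nat_lit 210) (nat_lit 211)) (l (nat_lit 5) (nat_lit 235) (nat_lit 260)))) (l (nat_lit 5) (nat_lit 260) (nat_lit 360)))) (n (nat_lit 309) (b (n (nat_lit 308) (b (l (nat_lit 2) (nat_lit 283) (nat_lit 284)) (l (nat_lit 1) (nat_lit 282) (nat_lit 307)))) (l (nat_lit 2) (nat_lit 284) (nat_lit 288)))))) (l (nat_lit 7) (nat_lit 261) (nat_lit 337))))) (b (r (nat_lit 1)) (n (nat_lit 288) (b (n (nat_lit 284) (b (n (nat_lit 259) (b (l (nat_lit 3) (nat_lit 258) (nat_lit 258)) (l (nat_lit 3) (nat_lit 259) (nat_lit 260)))) (n (nat_lit 309) (b (l (nat_lit 2) (nat_lit 283) (nat_lit 308)) (l (nat_lit 2) (nat_lit 284) (nat_lit 310)))))) (n (nat_lit 263) (b (l (nat_lit 1) (nat_lit 260) (nat_lit 264))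 (l (nat_lit 5) (nat_lit 262) (nat_lit 337)))))))) (b (n (nat_lit 288) (b (b (n (nat_lit 289) (b (n (nat_lit 264) (b (l (nat_lit 1) (nat_lit 261) (nat_lit 265)) (l (nat_lit 1) (nat_lit 260) (nat_lit 263)))) (n (nat_lit 260) (b (l (nat_lit 3) (nat_lit 260) (nat_lit 261)) (l (nat_lit 3) (nat_lit 259) (nat_lit 259)))))) (n (nat_lit 261) (b (n (nat_lit 260) (b (l (nat_lit 3) (nat_lit 260) (nat_lit 289)) (l (nat_lit 3) (nat_lit 259) (nat_lit 259)))) (l (nat_lit 7) (nat_lit 261) (nat_lit 337))))) (n (nat_lit 263) (b (l (nat_lit 1) (nat_lit 260) (nat_lit 264)) (l (nat_lit 5) (nat_lit 262) (nat_lit 337)))))) (n (nat_lit 284) (b (b (b (n (nat_lit 283) (b (n (nat_lit 282) (b (n (nat_lit 261) (b (l (nat_lit 7) (nat_lit 261) (nat_lit 337)) (l (nat_lit 1) (nat_lit 257) (nat_lit 260)))) (n (nat_lit 307) (b (l (nat_lit 2) (nat_lit 281) (nat_lit 306)) (l (nat_lit 2) (nat_lit 282) (nat_lit 308)))))) (n (nat_lit 258) (b (l (nat_lit 3) (nat_lit 257) (nat_lit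 257)) (l (nat_lit 3) (nat_lit 258) (nat_lit 259)))))) (n (nat_lit 259) (b (n (nat_lit 309) (b (n (nat_lit 334) (b (b (n (nat_lit 359) (b (n (nat_lit 358) (b (l (nat_lit 6) (nat_lit 258) (nat_lit 333)) (l (nat_lit 6) (nat_lit 283) (nat_lit 383)))) (n (nat_lit 360) (b (l (nat_lit 4) (nat_lit 284) (nat_lit 385)) (l (nat_lit 4) (nat_lit 259) (nat_lit 335)))))) (n (nat_lit 234) (b (n (nat_lit 235) (b (l (nat_lit 5) (nat_lit 209) (nat_lit 210)) (l (nat_lit 5) (nat_lit 234) (nat_lit 260)))) (n (nat_lit 310) (b (l (nat_lit 4) (nat_lit 209) (nat_lit 209)) (l (nat_lit 4) (nat_lit 234) (nat_lit 335))))))) (n (nat_lit 260) (b (l (nat_lit 5) (nat_lit 234) (nat_lit 235)) (l (nat_lit 5) (nat_lit 259) (nat_lit 359)))))) (l (nat_lit 2) (nat_lit 283) (nat_lit 308)))) (l (nat_lit 3) (nat_lit 258) (nat_lit 258))))) (b (n (nat_lit 283) (b (n (nat_lit 308) (b (l (nat_lit 2) (nat_lit 283) (nat_lit 309)) (l (nat_lit 2) (nat_lit 282) (nat_lit 307)))) (n (nat_lit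 258) (b (l (nat_lit 3) (nat_lit 257) (nat_lit 257)) (l (nat_lit 3) (nat_lit 258) (nat_lit 259)))))) (n (nat_lit 261) (b (n (nat_lit 283) (b (b (n (nat_lit 308) (b (l (nat_lit 2) (nat_lit 283) (nat_lit 309)) (l (nat_lit 2) (nat_lit 282) (nat_lit 307)))) (n (nat_lit 282) (b (n (nat_lit 281) (b (n (nat_lit 309) (b (l (nat_lit 2) (nat_lit 283) (nat_lit 308)) (l (nat_lit 0) (nat_lit 281) (nat_lit 310)))) (n (nat_lit 256) (b (l (nat_lit 3) (nat_lit 256) (nat_lit 257)) (l (nat_lit 3) (nat_lit 255) (nat_lit 255)))))) (l (nat_lit 1) (nat_lit 257) (nat_lit 260))))) (n (nat_lit 282) (b (n (nat_lit 281) (b (n (nat_lit 306) (b (l (nat_lit 2) (nat_lit 281) (nat_lit 307)) (l (nat_lit 2) (nat_lit 280) (nat_lit 305)))) (n (nat_lit 256) (b (l (nat_lit 3) (nat_lit 256) (nat_lit 257)) (l (nat_lit 3) (nat_lit 255) (nat_lit 255)))))) (l (nat_lit 1) (nat_lit 257) (nat_lit 260)))))) (l (nat_lit 7) (nat_lit 261) (nat_lit 337)))))) (n (nat_lit 261) (b (n (nat_lit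 236) (b (n (nat_lit 310) (b (b (n (nat_lit 335) (b (l (nat_lit 5) (nat_lit 235) (nat_lit 260)) (l (nat_lit 5) (nat_lit 260) (nat_lit 360)))) (n (nat_lit 259) (b (n (nat_lit 234) (b (n (nat_lit 335) (b (l (nat_lit 4) (nat_lit 234) (nat_lit 309)) (l (nat_lit 7) (nat_lit 259) (nat_lit 360)))) (l (nat_lit 4) (nat_lit 209) (nat_lit 209)))) (l (nat_lit 3) (nat_lit 258) (nat_lit 258))))) (n (nat_lit 283) (b (n (nat_lit 258) (b (l (nat_lit 3) (nat_lit 257) (nat_lit 257)) (l (nat_lit 3) (nat_lit 258) (nat_lit 259)))) (n (nat_lit 282) (b (n (nat_lit 281) (b (n (nat_lit 306) (b (l (nat_lit 2) (nat_lit 281) (nat_lit 307)) (l (nat_lit 2) (nat_lit 280) (nat_lit 305)))) (l (nat_lit 0) (nat_lit 281) (nat_lit 309)))) (l (nat_lit 1) (nat_lit 257) (nat_lit 260)))))))) (l (nat_lit 4) (nat_lit 211) (nat_lit 211)))) (l (nat_lit 7) (nat_lit 261) (nat_lit 337))))))))))))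
    (envOK_cons p13323 (envOK_cons p13337 envOK_nil)) (by decide +kernel)

theorem p13476 : Fam (nat_lit 17) (nat_lit 8343699607727673214248874617415937021077234590683750281279490000787534250410375654793883418624) (nat_lit 70390994803895352058103564170646910108539735674779029378113089588721222037817200059082439114859425775222067844709467974684157857573616501691932298610475008) (nat_lit 70390994803895352058103564170646910108539735674779029378113089588721222037817200059082439114859425775222067844709467974684157857573616501691932298610475008) :=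
  chk_sound (Env.cons (nat_lit 16) (nat_lit 9394170331095341255257530114830562358377347611570300560063754569879117379948434561389046403914729606011158528) (nat_lit 67039042821409607515004787046970629839679138989517038463964883215505237028145831408405500546381636541469051735658530296734213625217559743755511070891966464) (Env.cons (nat_lit 10) (nat_lit 9394170611063434027483056434510847429432882376775987714394946432377755000422418458909164576524416264962048000) (nat_lit 7442829202227760979900296829744418443077537317065146634608076772250410148557968423997804291875326966805979813321431431583832611570053021696) (Env.cons (nat_lit 5) (nat_lit 8343701224028191546055461622408243498244964917166240372659571682295459153178740945527353901056) (nat_lit 16426660086912893543187980730359994683401830518468878293663160813370932200830653188722380505088) (Env.cons (nat_lit 14) (nat_lit 9394170331095341255257530114830562358377347611570300560063754569879117379948434561389046403914729606011158528)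 (nat_lit 29771315544573625720335919446842555915829220522702684835155463480889113567008395171687495433180548525638093584578297243798150325858079866880) (Env.cons (nat_lit 11) (nat_lit 9394170331095341255257530114830562358377347611570300560063754569879117379948434561389046403914729606011158528) (nat_lit 499479955609843540300674715967284539721055583019943266876411220959786793287966099005856480833547325397796639828711202053273763847807969494353051648) (Env.cons (nat_lit 11) (nat_lit 9394170331095341255257530114830562358377347611570300560063754569879117379948434561389046403914729606011158528) (nat_lit 24459071928794405551615265861189462473472436451875098278927053127532586558003387248545188737410118228768524154599850364633088) (Env.cons (nat_lit 11) (nat_lit 8343700105050909624035516772798185167898074691139901078627207441251511143569872667327258951680) (nat_lit 37576682444254219783761393582844723043559783323248687009563423519454472325187605948946869941590392757257502720)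 (Env.cons (nat_lit 5) (nat_lit 9394170611063434027483056434510847429432882376775987714394946432377755000422418458909164576524416264962048000) (nat_lit 5954264071585671632640473235457219250118317965616578190361538789207990921134141548614446717535182129384906055713252806661043994077926785024) (Env.cons (nat_lit 11) (nat_lit 9394170331095341255259022084539791718303813758314741022584055938331509423100755953319725882405767206137757696) (nat_lit 122124217943826644845154256928200935970746022488284197029887137047629732030195992088607034867976254939918761984) (Env.cons (nat_lit 6) (nat_lit 1740631327434253247543837868513872940351596527790717011041623919126058239543866814365696) (nat_lit 37576682444254203357099193046192732914224377091625720333796817713420967952189500402719447579595767326896553984) (Env.cons (nat_lit 5) (nat_lit 14091255776611100483262017628089521484184247474592627455809528375442173050651635345836562573293953671025917952) (nat_lit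 778189696945022438252205827644826465779541947062301697346472512651152089160107238398180989565057761858925853077929984) (Env.cons (nat_lit 9) (nat_lit 14091255496643007711036491308409236413128712709386940301478336512943535430177651448316444400684267012075028480) (nat_lit 499479860341638269426296051733220096650522096718162554013068903394409312275934661409303318786361761788756036392757036458596518647385030686601641984) (Env.cons (nat_lit 9) (nat_lit 14091255496642999367336883580736022164254095293449919224243745829193254150687650660782193990308612218191609856) (nat_lit 2977131547802960396282788628839048337428738126270476236398608259106470375135168259343810678240164605769860567514076001153986777642853990400) (Env.cons (nat_lit 10) (nat_lit 14091255496643007711036491308409236413128712709386940301478336512943535430177651448316444400684267012075028480) (nat_lit 178627890206414828477792799592556803856828120322166380770932825996815653078760044731606045993025131631312499103844316293072873822726115033088)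 (Env.cons (nat_lit 8) (nat_lit 14091255496643007711036491308409236413128712709386940301478336512943535430177651448316444400684267012075028480) (nat_lit 9751996833046830669178692562450754139789004903799827119800786062849989469809815656745961726172385900460302285253115904) Env.nil)))))))))))))))
    (n (nat_lit 362) (b (b (b (b (r (nat_lit 0)) (n (nat_lit 337) (b (b (r (nat_lit 1)) (n (nat_lit 288) (b (n (nat_lit 289) (b (b (n (nat_lit 290) (b (n (nat_lit 291) (b (n (nat_lit 316) (b (l (nat_lit 0) (nat_lit 288) (nat_lit 317)) (l (nat_lit 0) (nat_lit 287) (nat_lit 315)))) (n (nat_lit 266) (b (l (nat_lit 1) (nat_lit 263) (nat_lit 267)) (l (nat_lit 1) (nat_lit 262) (nat_lit 265)))))) (l (nat_lit 2) (nat_lit 286) (nat_lit 311)))) (n (nat_lit 286) (b (n (nat_lit 290) (b (n (nat_lit 265) (b (l (nat_lit 1) (nat_lit 261) (nat_lit 264)) (l (nat_lit 1) (nat_lit 262) (nat_lit 266)))) (n (nat_lit 315) (b (l (nat_lit 0) (nat_lit 287) (nat_lit 316)) (l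 (nat_lit 0) (nat_lit 286) (nat_lit 314)))))) (l (nat_lit 7) (nat_lit 261) (nat_lit 261))))) (n (nat_lit 286) (b (r (nat_lit 2)) (l (nat_lit 7) (nat_lit 261) (nat_lit 261)))))) (l (nat_lit 5) (nat_lit 262) (nat_lit 263))))) (b (n (nat_lit 387) (b (n (nat_lit 286) (b (l (nat_lit 7) (nat_lit 261) (nat_lit 261)) (l (nat_lit 7) (nat_lit 286) (nat_lit 311)))) (n (nat_lit 386) (b (l (nat_lit 6) (nat_lit 311) (nat_lit 411)) (l (nat_lit 6) (nat_lit 286) (nat_lit 361)))))) (n (nat_lit 288) (b (n (nat_lit 286) (b (n (nat_lit 285) (b (b (b (n (nat_lit 309) (b (n (nat_lit 359) (b (b (n (nat_lit 284) (b (n (nat_lit 334) (b (n (nat_lit 384) (b (n (nat_lit 383) (b (l (nat_lit 6) (nat_lit 283) (nat_lit 358)) (l (nat_lit 6) (nat_lit 308) (nat_lit 408)))) (n (nat_lit 385) (b (l (nat_lit 4) (nat_lit 309) (nat_lit 410)) (l (nat_lit 4) (nat_lit 284) (nat_lit 360)))))) (l (nat_lit 5) (nat_lit 259) (nat_lit 260)))) (l (nat_lit 2) (nat_lit 283) (nat_lit 308))))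 (n (nat_lit 361) (b (n (nat_lit 360) (b (n (nat_lit 358) (b (n (nat_lit 383) (b (l (nat_lit 2) (nat_lit 358) (nat_lit 384)) (l (nat_lit 2) (nat_lit 357) (nat_lit 382)))) (l (nat_lit 1) (nat_lit 333) (nat_lit 336)))) (l (nat_lit 1) (nat_lit 334) (nat_lit 338)))) (l (nat_lit 6) (nat_lit 286) (nat_lit 386))))) (b (n (nat_lit 284) (b (n (nat_lit 360) (b (n (nat_lit 334) (b (l (nat_lit 4) (nat_lit 284) (nat_lit 385)) (l (nat_lit 5) (nat_lit 259) (nat_lit 260)))) (n (nat_lit 361) (b (l (nat_lit 6) (nat_lit 286) (nat_lit 386)) (l (nat_lit 1) (nat_lit 334) (nat_lit 338)))))) (l (nat_lit 2) (nat_lit 283) (nat_lit 308)))) (n (nat_lit 284) (b (n (nat_lit 334) (b (n (nat_lit 386) (b (n (nat_lit 384) (b (n (nat_lit 383) (b (l (nat_lit 6) (nat_lit 283) (nat_lit 358)) (l (nat_lit 6) (nat_lit 308) (nat_lit 408)))) (n (nat_lit 387) (b (n (nat_lit 385) (b (l (nat_lit 4) (nat_lit 309) (nat_lit 410)) (l (nat_lit 1) (nat_lit 359) (nat_lit 363)))) (l (nat_lit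 6) (nat_lit 311) (nat_lit 411)))))) (l (nat_lit 6) (nat_lit 286) (nat_lit 361)))) (l (nat_lit 5) (nat_lit 259) (nat_lit 260)))) (l (nat_lit 2) (nat_lit 283) (nat_lit 308))))))) (l (nat_lit 2) (nat_lit 284) (nat_lit 310)))) (n (nat_lit 309) (b (n (nat_lit 284) (b (n (nat_lit 334) (b (b (n (nat_lit 361) (b (n (nat_lit 335) (b (n (nat_lit 259) (b (l (nat_lit 4) (nat_lit 259) (nat_lit 360)) (l (nat_lit 3) (nat_lit 258) (nat_lit 258)))) (n (nat_lit 336) (b (l (nat_lit 0) (nat_lit 333) (nat_lit 333)) (l (nat_lit 0) (nat_lit 334) (nat_lit 363)))))) (l (nat_lit 6) (nat_lit 286) (nat_lit 386)))) (n (nat_lit 258) (b (n (nat_lit 283) (b (l (nat_lit 7) (nat_lit 258) (nat_lit 359)) (l (nat_lit 3) (nat_lit 257) (nat_lit 257)))) (l (nat_lit 3) (nat_lit 258) (nat_lit 259))))) (n (nat_lit 361) (b (n (nat_lit 360) (b (n (nat_lit 335) (b (n (nat_lit 333) (b (l (nat_lit 0) (nat_lit 333) (nat_lit 336)) (l (nat_lit 0) (nat_lit 332) (nat_lit 332)))) (l (nat_lit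 3) (nat_lit 334) (nat_lit 363)))) (n (nat_lit 359) (b (l (nat_lit 1) (nat_lit 334) (nat_lit 338)) (l (nat_lit 4) (nat_lit 284) (nat_lit 385)))))) (l (nat_lit 6) (nat_lit 286) (nat_lit 386)))))) (l (nat_lit 2) (nat_lit 283) (nat_lit 308)))) (l (nat_lit 2) (nat_lit 284) (nat_lit 310))))) (b (n (nat_lit 310) (b (n (nat_lit 260) (b (n (nat_lit 361) (b (n (nat_lit 335) (b (n (nat_lit 359) (b (n (nat_lit 360) (b (l (nat_lit 6) (nat_lit 284) (nat_lit 384)) (l (nat_lit 1) (nat_lit 334) (nat_lit 338)))) (l (nat_lit 6) (nat_lit 259) (nat_lit 334)))) (l (nat_lit 4) (nat_lit 260) (nat_lit 336)))) (l (nat_lit 6) (nat_lit 286) (nat_lit 386)))) (l (nat_lit 3) (nat_lit 259) (nat_lit 259)))) (l (nat_lit 2) (nat_lit 284) (nat_lit 309)))) (n (nat_lit 361) (b (n (nat_lit 360) (b (b (n (nat_lit 338) (b (n (nat_lit 339) (b (l (nat_lit 2) (nat_lit 335) (nat_lit 336)) (l (nat_lit 2) (nat_lit 336) (nat_lit 340)))) (l (nat_lit 1) (nat_lit 334) (nat_lit 359)))) (n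 (nat_lit 335) (b (n (nat_lit 334) (b (n (nat_lit 333) (b (l (nat_lit 0) (nat_lit 333) (nat_lit 336)) (l (nat_lit 0) (nat_lit 332) (nat_lit 332)))) (l (nat_lit 3) (nat_lit 334) (nat_lit 363)))) (n (nat_lit 259) (b (n (nat_lit 284) (b (l (nat_lit 7) (nat_lit 259) (nat_lit 310)) (l (nat_lit 3) (nat_lit 258) (nat_lit 258)))) (l (nat_lit 3) (nat_lit 259) (nat_lit 260))))))) (n (nat_lit 338) (b (n (nat_lit 339) (b (l (nat_lit 1) (nat_lit 335) (nat_lit 363)) (l (nat_lit 2) (nat_lit 336) (nat_lit 340)))) (l (nat_lit 1) (nat_lit 334) (nat_lit 359)))))) (l (nat_lit 6) (nat_lit 286) (nat_lit 386)))))) (b (n (nat_lit 284) (b (n (nat_lit 259) (b (l (nat_lit 3) (nat_lit 258) (nat_lit 258)) (l (nat_lit 3) (nat_lit 259) (nat_lit 260)))) (n (nat_lit 309) (b (l (nat_lit 2) (nat_lit 283) (nat_lit 308)) (l (nat_lit 2) (nat_lit 284) (nat_lit 310)))))) (n (nat_lit 361) (b (n (nat_lit 359) (b (b (n (nat_lit 360) (b (n (nat_lit 358) (b (n (nat_lit 383) (b (l (nat_lit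 2) (nat_lit 358) (nat_lit 384)) (l (nat_lit 2) (nat_lit 357) (nat_lit 382)))) (l (nat_lit 1) (nat_lit 333) (nat_lit 336)))) (l (nat_lit 1) (nat_lit 334) (nat_lit 338)))) (n (nat_lit 360) (b (n (nat_lit 363) (b (n (nat_lit 334) (b (l (nat_lit 3) (nat_lit 333) (nat_lit 333)) (l (nat_lit 3) (nat_lit 334) (nat_lit 335)))) (n (nat_lit 384) (b (l (nat_lit 2) (nat_lit 359) (nat_lit 385)) (l (nat_lit 2) (nat_lit 358) (nat_lit 383)))))) (l (nat_lit 1) (nat_lit 334) (nat_lit 338))))) (b (n (nat_lit 360) (b (n (nat_lit 358) (b (n (nat_lit 333) (b (l (nat_lit 3) (nat_lit 332) (nat_lit 332)) (l (nat_lit 3) (nat_lit 333) (nat_lit 334)))) (l (nat_lit 1) (nat_lit 333) (nat_lit 336)))) (l (nat_lit 1) (nat_lit 334) (nat_lit 338)))) (n (nat_lit 284) (b (b (n (nat_lit 259) (b (l (nat_lit 3) (nat_lit 258) (nat_lit 258)) (l (nat_lit 3) (nat_lit 259) (nat_lit 260)))) (n (nat_lit 309) (b (n (nat_lit 260) (b (l (nat_lit 5) (nat_lit 259) (nat_lit 334)) (l (nat_lit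 3) (nat_lit 259) (nat_lit 259)))) (l (nat_lit 2) (nat_lit 283) (nat_lit 308))))) (n (nat_lit 308) (b (n (nat_lit 283) (b (n (nat_lit 258) (b (n (nat_lit 333) (b (n (nat_lit 358) (b (n (nat_lit 357) (b (l (nat_lit 6) (nat_lit 282) (nat_lit 382)) (l (nat_lit 6) (nat_lit 257) (nat_lit 332)))) (l (nat_lit 4) (nat_lit 283) (nat_lit 384)))) (l (nat_lit 4) (nat_lit 258) (nat_lit 334)))) (l (nat_lit 3) (nat_lit 257) (nat_lit 257)))) (l (nat_lit 2) (nat_lit 282) (nat_lit 307)))) (l (nat_lit 2) (nat_lit 283) (nat_lit 309))))))))) (l (nat_lit 6) (nat_lit 286) (nat_lit 386))))))) (l (nat_lit 7) (nat_lit 261) (nat_lit 261)))) (l (nat_lit 5) (nat_lit 262) (nat_lit 263)))))))) (b (r (nat_lit 3)) (r (nat_lit 4)))) (b (b (r (nat_lit 5)) (n (nat_lit 288) (b (b (r (nat_lit 6)) (n (nat_lit 286) (b (b (n (nat_lit 261) (b (n (nat_lit 260) (b (n (nat_lit 259) (b (l (nat_lit 3) (nat_lit 259) (nat_lit 285)) (l (nat_lit 0) (nat_lit 258) (nat_lit 258)))) (l (nat_lit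 3) (nat_lit 260) (nat_lit 289)))) (l (nat_lit 7) (nat_lit 261) (nat_lit 337)))) (n (nat_lit 289) (b (n (nat_lit 290) (b (n (nat_lit 265) (b (l (nat_lit 1) (nat_lit 261) (nat_lit 264)) (l (nat_lit 1) (nat_lit 262) (nat_lit 266)))) (n (nat_lit 315) (b (l (nat_lit 0) (nat_lit 287) (nat_lit 316)) (l (nat_lit 0) (nat_lit 286) (nat_lit 314)))))) (n (nat_lit 285) (b (n (nat_lit 260) (b (l (nat_lit 3) (nat_lit 260) (nat_lit 261)) (l (nat_lit 3) (nat_lit 259) (nat_lit 259)))) (n (nat_lit 310) (b (l (nat_lit 2) (nat_lit 284) (nat_lit 309)) (l (nat_lit 2) (nat_lit 285) (nat_lit 311))))))))) (b (n (nat_lit 311) (b (n (nat_lit 361) (b (b (n (nat_lit 386) (b (l (nat_lit 5) (nat_lit 286) (nat_lit 336)) (l (nat_lit 6) (nat_lit 286) (nat_lit 337)))) (n (nat_lit 336) (b (l (nat_lit 5) (nat_lit 286) (nat_lit 386)) (l (nat_lit 4) (nat_lit 286) (nat_lit 387))))) (b (n (nat_lit 387) (b (l (nat_lit 7) (nat_lit 286) (nat_lit 337)) (l (nat_lit 4) (nat_lit 286)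 (nat_lit 336)))) (n (nat_lit 337) (b (l (nat_lit 7) (nat_lit 286) (nat_lit 387)) (l (nat_lit 6) (nat_lit 286) (nat_lit 386))))))) (n (nat_lit 289) (b (l (nat_lit 2) (nat_lit 286) (nat_lit 290)) (l (nat_lit 2) (nat_lit 285) (nat_lit 310)))))) (n (nat_lit 337) (b (n (nat_lit 387) (b (n (nat_lit 386) (b (l (nat_lit 6) (nat_lit 311) (nat_lit 411)) (l (nat_lit 6) (nat_lit 286) (nat_lit 361)))) (l (nat_lit 7) (nat_lit 286) (nat_lit 311)))) (l (nat_lit 7) (nat_lit 261) (nat_lit 261)))))))) (b (n (nat_lit 337) (b (r (nat_lit 7)) (l (nat_lit 5) (nat_lit 262) (nat_lit 263)))) (n (nat_lit 289) (b (b (b (r (nat_lit 8)) (n (nat_lit 314) (b (n (nat_lit 263) (b (n (nat_lit 238) (b (n (nat_lit 339) (b (l (nat_lit 7) (nat_lit 263) (nat_lit 364)) (l (nat_lit 7) (nat_lit 238) (nat_lit 264)))) (l (nat_lit 6) (nat_lit 212) (nat_lit 213)))) (l (nat_lit 5) (nat_lit 262) (nat_lit 337)))) (n (nat_lit 315) (b (n (nat_lit 316) (b (l (nat_lit 0) (nat_lit 287) (nat_lit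 290)) (l (nat_lit 3) (nat_lit 288) (nat_lit 317)))) (l (nat_lit 0) (nat_lit 286) (nat_lit 286))))))) (b (r (nat_lit 9)) (n (nat_lit 286) (b (b (n (nat_lit 285) (b (n (nat_lit 260) (b (l (nat_lit 3) (nat_lit 260) (nat_lit 261)) (l (nat_lit 3) (nat_lit 259) (nat_lit 259)))) (n (nat_lit 264) (b (l (nat_lit 1) (nat_lit 261) (nat_lit 265)) (l (nat_lit 1) (nat_lit 260) (nat_lit 263)))))) (n (nat_lit 263) (b (n (nat_lit 264) (b (l (nat_lit 1) (nat_lit 261) (nat_lit 265)) (l (nat_lit 1) (nat_lit 260) (nat_lit 285)))) (l (nat_lit 5) (nat_lit 262) (nat_lit 337))))) (n (nat_lit 261) (b (l (nat_lit 3) (nat_lit 260) (nat_lit 260)) (l (nat_lit 7) (nat_lit 261) (nat_lit 337)))))))) (b (n (nat_lit 286) (b (n (nat_lit 290) (b (n (nat_lit 265) (b (l (nat_lit 1) (nat_lit 261) (nat_lit 264)) (l (nat_lit 1) (nat_lit 262) (nat_lit 266)))) (n (nat_lit 315) (b (l (nat_lit 0) (nat_lit 287) (nat_lit 316)) (l (nat_lit 0) (nat_lit 286) (nat_lit 314)))))) (n (nat_lit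 261) (b (l (nat_lit 3) (nat_lit 260) (nat_lit 260)) (l (nat_lit 7) (nat_lit 261) (nat_lit 337)))))) (n (nat_lit 337) (b (n (nat_lit 315) (b (n (nat_lit 286) (b (l (nat_lit 0) (nat_lit 286) (nat_lit 314)) (l (nat_lit 7) (nat_lit 261) (nat_lit 261)))) (n (nat_lit 290) (b (n (nat_lit 266) (b (n (nat_lit 386) (b (n (nat_lit 387) (b (n (nat_lit 291) (b (n (nat_lit 388) (b (n (nat_lit 365) (b (n (nat_lit 389) (b (n (nat_lit 390) (b (n (nat_lit 415) (b (l (nat_lit 0) (nat_lit 386) (nat_lit 414)) (l (nat_lit 0) (nat_lit 387) (nat_lit 416)))) (l (nat_lit 1) (nat_lit 362) (nat_lit 366)))) (l (nat_lit 1) (nat_lit 361) (nat_lit 364)))) (l (nat_lit 5) (nat_lit 265) (nat_lit 340)))) (l (nat_lit 4) (nat_lit 312) (nat_lit 413)))) (l (nat_lit 1) (nat_lit 263) (nat_lit 267)))) (l (nat_lit 6) (nat_lit 311) (nat_lit 411)))) (l (nat_lit 6) (nat_lit 286) (nat_lit 361)))) (l (nat_lit 1) (nat_lit 262) (nat_lit 265)))) (l (nat_lit 0) (nat_lit 287) (nat_lit 316))))))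 (l (nat_lit 5) (nat_lit 262) (nat_lit 263))))))))))) (b (n (nat_lit 337) (b (n (nat_lit 288) (b (n (nat_lit 289) (b (b (n (nat_lit 290) (b (n (nat_lit 291) (b (n (nat_lit 316) (b (l (nat_lit 0) (nat_lit 288) (nat_lit 317)) (l (nat_lit 0) (nat_lit 287) (nat_lit 315)))) (n (nat_lit 266) (b (l (nat_lit 1) (nat_lit 263) (nat_lit 267)) (l (nat_lit 1) (nat_lit 262) (nat_lit 265)))))) (l (nat_lit 2) (nat_lit 286) (nat_lit 311)))) (n (nat_lit 286) (b (n (nat_lit 290) (b (n (nat_lit 265) (b (l (nat_lit 1) (nat_lit 261) (nat_lit 264)) (l (nat_lit 1) (nat_lit 262) (nat_lit 266)))) (n (nat_lit 315) (b (l (nat_lit 0) (nat_lit 287) (nat_lit 316)) (l (nat_lit 0) (nat_lit 286) (nat_lit 314)))))) (l (nat_lit 7) (nat_lit 261) (nat_lit 261))))) (n (nat_lit 286) (b (r (nat_lit 2)) (l (nat_lit 7) (nat_lit 261) (nat_lit 261)))))) (l (nat_lit 5) (nat_lit 262) (nat_lit 263)))) (n (nat_lit 387) (b (n (nat_lit 388) (b (l (nat_lit 4) (nat_lit 312) (nat_lit 413))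 (l (nat_lit 4) (nat_lit 287) (nat_lit 363)))) (n (nat_lit 386) (b (l (nat_lit 6) (nat_lit 311) (nat_lit 411)) (l (nat_lit 6) (nat_lit 286) (nat_lit 361)))))))) (n (nat_lit 337) (b (n (nat_lit 361) (b (n (nat_lit 363) (b (n (nat_lit 364) (b (b (n (nat_lit 365) (b (n (nat_lit 340) (b (l (nat_lit 1) (nat_lit 336) (nat_lit 339)) (l (nat_lit 1) (nat_lit 337) (nat_lit 341)))) (n (nat_lit 390) (b (l (nat_lit 0) (nat_lit 362) (nat_lit 391)) (l (nat_lit 0) (nat_lit 361) (nat_lit 389)))))) (n (nat_lit 336) (b (l (nat_lit 3) (nat_lit 336) (nat_lit 365)) (l (nat_lit 3) (nat_lit 335) (nat_lit 335))))) (n (nat_lit 360) (b (n (nat_lit 339) (b (l (nat_lit 1) (nat_lit 336) (nat_lit 340)) (l (nat_lit 1) (nat_lit 335) (nat_lit 338)))) (n (nat_lit 335) (b (l (nat_lit 3) (nat_lit 334) (nat_lit 334)) (l (nat_lit 3) (nat_lit 335) (nat_lit 336)))))))) (l (nat_lit 4) (nat_lit 287) (nat_lit 388)))) (l (nat_lit 6) (nat_lit 286) (nat_lit 386)))) (n (nat_lit 288) (b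 (n (nat_lit 289) (b (b (n (nat_lit 290) (b (n (nat_lit 291) (b (n (nat_lit 316) (b (l (nat_lit 0) (nat_lit 288) (nat_lit 317)) (l (nat_lit 0) (nat_lit 287) (nat_lit 315)))) (n (nat_lit 266) (b (l (nat_lit 1) (nat_lit 263) (nat_lit 267)) (l (nat_lit 1) (nat_lit 262) (nat_lit 265)))))) (l (nat_lit 2) (nat_lit 286) (nat_lit 311)))) (n (nat_lit 286) (b (n (nat_lit 290) (b (n (nat_lit 265) (b (l (nat_lit 1) (nat_lit 261) (nat_lit 264)) (l (nat_lit 1) (nat_lit 262) (nat_lit 266)))) (n (nat_lit 315) (b (l (nat_lit 0) (nat_lit 287) (nat_lit 316)) (l (nat_lit 0) (nat_lit 286) (nat_lit 314)))))) (l (nat_lit 7) (nat_lit 261) (nat_lit 261))))) (n (nat_lit 286) (b (r (nat_lit 2)) (l (nat_lit 7) (nat_lit 261) (nat_lit 261)))))) (l (nat_lit 5) (nat_lit 262) (nat_lit 263))))))))) (b (n (nat_lit 337) (b (b (n (nat_lit 361) (b (r (nat_lit 10)) (l (nat_lit 6) (nat_lit 286) (nat_lit 386)))) (n (nat_lit 387) (b (n (nat_lit 286) (b (l (nat_lit 7) (nat_lit 261)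 (nat_lit 261)) (l (nat_lit 7) (nat_lit 286) (nat_lit 311)))) (n (nat_lit 386) (b (l (nat_lit 6) (nat_lit 311) (nat_lit 411)) (l (nat_lit 6) (nat_lit 286) (nat_lit 361))))))) (n (nat_lit 387) (b (n (nat_lit 286) (b (l (nat_lit 7) (nat_lit 261) (nat_lit 261)) (l (nat_lit 7) (nat_lit 286) (nat_lit 311)))) (n (nat_lit 388) (b (l (nat_lit 4) (nat_lit 312) (nat_lit 413)) (l (nat_lit 4) (nat_lit 287) (nat_lit 363)))))))) (n (nat_lit 361) (b (b (b (r (nat_lit 11)) (r (nat_lit 12))) (b (n (nat_lit 386) (b (n (nat_lit 336) (b (n (nat_lit 411) (b (n (nat_lit 436) (b (n (nat_lit 435) (b (l (nat_lit 6) (nat_lit 360) (nat_lit 460)) (l (nat_lit 6) (nat_lit 335) (nat_lit 410)))) (n (nat_lit 437) (b (l (nat_lit 4) (nat_lit 361) (nat_lit 462)) (l (nat_lit 4) (nat_lit 336) (nat_lit 412)))))) (n (nat_lit 335) (b (n (nat_lit 363) (b (n (nat_lit 334) (b (l (nat_lit 3) (nat_lit 334) (nat_lit 360)) (l (nat_lit 0) (nat_lit 333) (nat_lit 333)))) (l (nat_lit 3) (nat_lit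 335) (nat_lit 364)))) (l (nat_lit 7) (nat_lit 310) (nat_lit 310)))))) (l (nat_lit 5) (nat_lit 286) (nat_lit 311)))) (l (nat_lit 6) (nat_lit 286) (nat_lit 337)))) (r (nat_lit 13)))) (b (r (nat_lit 14)) (n (nat_lit 386) (b (n (nat_lit 336) (b (n (nat_lit 411) (b (b (b (n (nat_lit 412) (b (n (nat_lit 410) (b (n (nat_lit 413) (b (b (n (nat_lit 414) (b (n (nat_lit 439) (b (l (nat_lit 0) (nat_lit 410) (nat_lit 438)) (l (nat_lit 0) (nat_lit 411) (nat_lit 440)))) (n (nat_lit 389) (b (l (nat_lit 1) (nat_lit 386) (nat_lit 390)) (l (nat_lit 1) (nat_lit 385) (nat_lit 388)))))) (n (nat_lit 385) (b (l (nat_lit 3) (nat_lit 384) (nat_lit 384)) (l (nat_lit 3) (nat_lit 385) (nat_lit 414))))) (n (nat_lit 409) (b (n (nat_lit 387) (b (l (nat_lit 1) (nat_lit 384) (nat_lit 388)) (l (nat_lit 1) (nat_lit 383) (nat_lit 408)))) (n (nat_lit 384) (b (l (nat_lit 3) (nat_lit 383) (nat_lit 383)) (l (nat_lit 3) (nat_lit 384) (nat_lit 385)))))))) (l (nat_lit 6) (nat_lit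 335) (nat_lit 435)))) (l (nat_lit 4) (nat_lit 336) (nat_lit 437)))) (n (nat_lit 436) (b (b (n (nat_lit 435) (b (l (nat_lit 6) (nat_lit 360) (nat_lit 460)) (l (nat_lit 6) (nat_lit 335) (nat_lit 410)))) (n (nat_lit 461) (b (n (nat_lit 486) (b (n (nat_lit 487) (b (l (nat_lit 4) (nat_lit 386) (nat_lit 462)) (l (nat_lit 4) (nat_lit 411) (nat_lit 512)))) (n (nat_lit 410) (b (l (nat_lit 6) (nat_lit 335) (nat_lit 435)) (l (nat_lit 7) (nat_lit 385) (nat_lit 385)))))) (l (nat_lit 5) (nat_lit 361) (nat_lit 387))))) (n (nat_lit 461) (b (n (nat_lit 486) (b (n (nat_lit 487) (b (l (nat_lit 4) (nat_lit 386) (nat_lit 462)) (l (nat_lit 4) (nat_lit 411) (nat_lit 512)))) (n (nat_lit 485) (b (l (nat_lit 6) (nat_lit 410) (nat_lit 510)) (l (nat_lit 6) (nat_lit 385) (nat_lit 460)))))) (l (nat_lit 5) (nat_lit 361) (nat_lit 387))))))) (b (n (nat_lit 436) (b (n (nat_lit 461) (b (n (nat_lit 460) (b (l (nat_lit 6) (nat_lit 360) (nat_lit 435)) (l (nat_lit 6) (nat_lit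 385) (nat_lit 485)))) (l (nat_lit 5) (nat_lit 361) (nat_lit 387)))) (n (nat_lit 437) (b (l (nat_lit 4) (nat_lit 361) (nat_lit 462)) (l (nat_lit 4) (nat_lit 336) (nat_lit 412)))))) (n (nat_lit 436) (b (n (nat_lit 435) (b (l (nat_lit 6) (nat_lit 360) (nat_lit 460)) (l (nat_lit 6) (nat_lit 335) (nat_lit 410)))) (n (nat_lit 437) (b (l (nat_lit 4) (nat_lit 361) (nat_lit 462)) (l (nat_lit 4) (nat_lit 336) (nat_lit 412)))))))) (n (nat_lit 436) (b (b (n (nat_lit 437) (b (l (nat_lit 4) (nat_lit 361) (nat_lit 462)) (l (nat_lit 4) (nat_lit 336) (nat_lit 412)))) (n (nat_lit 461) (b (n (nat_lit 486) (b (n (nat_lit 487) (b (l (nat_lit 4) (nat_lit 386) (nat_lit 462)) (l (nat_lit 4) (nat_lit 411) (nat_lit 512)))) (n (nat_lit 485) (b (l (nat_lit 6) (nat_lit 410) (nat_lit 510)) (l (nat_lit 6) (nat_lit 385) (nat_lit 460)))))) (l (nat_lit 5) (nat_lit 361) (nat_lit 387))))) (n (nat_lit 412) (b (n (nat_lit 413) (b (b (n (nat_lit 414) (b (n (nat_lit 387) (b (l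 (nat_lit 3) (nat_lit 386) (nat_lit 415)) (l (nat_lit 5) (nat_lit 361) (nat_lit 461)))) (l (nat_lit 3) (nat_lit 385) (nat_lit 385)))) (n (nat_lit 385) (b (n (nat_lit 384) (b (l (nat_lit 1) (nat_lit 358) (nat_lit 383)) (l (nat_lit 3) (nat_lit 384) (nat_lit 410)))) (l (nat_lit 3) (nat_lit 385) (nat_lit 414))))) (b (n (nat_lit 410) (b (b (n (nat_lit 414) (b (n (nat_lit 439) (b (l (nat_lit 0) (nat_lit 410) (nat_lit 438)) (l (nat_lit 0) (nat_lit 411) (nat_lit 440)))) (n (nat_lit 389) (b (l (nat_lit 1) (nat_lit 386) (nat_lit 390)) (l (nat_lit 1) (nat_lit 385) (nat_lit 388)))))) (n (nat_lit 387) (b (n (nat_lit 409) (b (l (nat_lit 1) (nat_lit 383) (nat_lit 408)) (l (nat_lit 1) (nat_lit 384) (nat_lit 388)))) (l (nat_lit 5) (nat_lit 361) (nat_lit 461))))) (n (nat_lit 414) (b (n (nat_lit 387) (b (l (nat_lit 3) (nat_lit 386) (nat_lit 415)) (l (nat_lit 5) (nat_lit 361) (nat_lit 461)))) (n (nat_lit 439) (b (l (nat_lit 0) (nat_lit 410) (nat_lit 438)) (l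 (nat_lit 0) (nat_lit 411) (nat_lit 440)))))))) (n (nat_lit 387) (b (n (nat_lit 388) (b (n (nat_lit 364) (b (n (nat_lit 389) (b (l (nat_lit 1) (nat_lit 361) (nat_lit 365)) (l (nat_lit 2) (nat_lit 386) (nat_lit 390)))) (n (nat_lit 385) (b (l (nat_lit 0) (nat_lit 384) (nat_lit 384)) (l (nat_lit 1) (nat_lit 360) (nat_lit 363)))))) (n (nat_lit 410) (b (n (nat_lit 438) (b (l (nat_lit 0) (nat_lit 410) (nat_lit 439)) (l (nat_lit 7) (nat_lit 362) (nat_lit 463)))) (l (nat_lit 1) (nat_lit 384) (nat_lit 409)))))) (l (nat_lit 5) (nat_lit 361) (nat_lit 461))))))) (l (nat_lit 4) (nat_lit 336) (nat_lit 437)))))))) (l (nat_lit 5) (nat_lit 286) (nat_lit 311)))) (l (nat_lit 6) (nat_lit 286) (nat_lit 337))))))))))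
    (envOK_cons p12910 (envOK_cons p8682 (envOK_cons p6906 (envOK_cons p13102 (envOK_cons p13318 (envOK_cons p13403 (envOK_cons p13043 (envOK_cons p7667 (envOK_cons p13029 (envOK_cons p12990 (envOK_cons p7417 (envOK_cons p13317 (envOK_cons p13103 (envOK_cons p13200 (envOK_cons p13239 envOK_nil))))))))))))))) (by decide +kernel)

theorem p13477 : Fam (nat_lit 7) (nat_lit 435157831858563311885959467128468235087899131947679252760405979781514559885966703591424) (nat_lit 98505019600935840370950248015174187882132671644813581863210720399665962121457586797913375159618694111636498040225792) (nat_lit 98505019600935840370950248015174187882132671644813581863210720399665962121457586797913375159618694111636498040225792) :=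
  chk_sound Env.nil
    (n (nat_lit 284) (b (b (n (nat_lit 283) (b (n (nat_lit 262) (b (l (nat_lit 1) (nat_lit 259) (nat_lit 263)) (l (nat_lit 1) (nat_lit 258) (nat_lit 261)))) (n (nat_lit 258) (b (l (nat_lit 3) (nat_lit 257) (nat_lit 257)) (l (nat_lit 3) (nat_lit 258) (nat_lit 259)))))) (n (nat_lit 283) (b (n (nat_lit 308) (b (l (nat_lit 2) (nat_lit 283) (nat_lit 309)) (l (nat_lit 2) (nat_lit 282) (nat_lit 307)))) (n (nat_lit 262) (b (l (nat_lit 1) (nat_lit 259) (nat_lit 263)) (l (nat_lit 1) (nat_lit 258) (nat_lit 261))))))) (n (nat_lit 259) (b (n (nat_lit 309) (b (n (nat_lit 334) (b (b (n (nat_lit 359) (b (n (nat_lit 358) (b (l (nat_lit 6) (nat_lit 258) (nat_lit 333)) (l (nat_lit 6) (nat_lit 283) (nat_lit 383)))) (n (nat_lit 360) (b (l (nat_lit 4) (nat_lit 284) (nat_lit 385)) (l (nat_lit 4) (nat_lit 259) (nat_lit 335)))))) (n (nat_lit 234) (b (n (nat_lit 235) (b (l (nat_lit 5) (nat_lit 209) (nat_lit 210)) (l (nat_lit 5) (nat_lit 234)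 (nat_lit 260)))) (n (nat_lit 310) (b (l (nat_lit 4) (nat_lit 209) (nat_lit 209)) (l (nat_lit 4) (nat_lit 234) (nat_lit 335))))))) (n (nat_lit 260) (b (l (nat_lit 5) (nat_lit 234) (nat_lit 235)) (l (nat_lit 5) (nat_lit 259) (nat_lit 359)))))) (l (nat_lit 2) (nat_lit 283) (nat_lit 308)))) (l (nat_lit 3) (nat_lit 258) (nat_lit 258))))))
    envOK_nil (by decide +kernel)

theorem p13482 : Fam (nat_lit 5) (nat_lit 932481068268349954041341715275289075188355282745026970200869956674674056898500079124480) (nat_lit 233623589948856388846369103782006153257934719035157806310070371386173172041785983391687671545856) (nat_lit 233623589948856388846369103782006153257934719035157806310070371386173172041785983391687671545856) :=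
  chk_sound Env.nil
    (n (nat_lit 289) (b (b (n (nat_lit 290) (b (n (nat_lit 265) (b (l (nat_lit 1) (nat_lit 261) (nat_lit 264)) (l (nat_lit 1) (nat_lit 262) (nat_lit 266)))) (n (nat_lit 315) (b (l (nat_lit 0) (nat_lit 287) (nat_lit 316)) (l (nat_lit 0) (nat_lit 286) (nat_lit 314)))))) (n (nat_lit 264) (b (l (nat_lit 1) (nat_lit 261) (nat_lit 265)) (l (nat_lit 1) (nat_lit 260) (nat_lit 263))))) (b (n (nat_lit 290) (b (n (nat_lit 291) (b (n (nat_lit 266) (b (l (nat_lit 1) (nat_lit 263) (nat_lit 267)) (l (nat_lit 1) (nat_lit 262) (nat_lit 265)))) (n (nat_lit 262) (b (l (nat_lit 3) (nat_lit 262) (nat_lit 263)) (l (nat_lit 3) (nat_lit 261) (nat_lit 261)))))) (n (nat_lit 315) (b (l (nat_lit 0) (nat_lit 287) (nat_lit 316)) (l (nat_lit 0) (nat_lit 286) (nat_lit 314)))))) (n (nat_lit 263) (b (n (nat_lit 290) (b (n (nat_lit 262) (b (l (nat_lit 3) (nat_lit 261) (nat_lit 261)) (l (nat_lit 3) (nat_lit 262) (nat_lit 291)))) (n (nat_lit 315) (b (l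 (nat_lit 0) (nat_lit 287) (nat_lit 316)) (l (nat_lit 0) (nat_lit 286) (nat_lit 314)))))) (l (nat_lit 1) (nat_lit 260) (nat_lit 264)))))))
    envOK_nil (by decide +kernel)

theorem p13488 : Fam (nat_lit 6) (nat_lit 435157831858563311885959467128468235087899131947679252760405979781514559885966703591424) (nat_lit 233623589995480445733549278603559101728828723055212806045421259865433591059247206474006564700160) (nat_lit 233623589995480445733549278603559101728828723055212806045421259865433591059247206474006564700160) :=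
  chk_sound (Env.cons (nat_lit 5) (nat_lit 932481068268349954041341715275289075188355282745026970200869956674674056898500079124480) (nat_lit 233623589948856388846369103782006153257934719035157806310070371386173172041785983391687671545856) Env.nil)
    (n (nat_lit 288) (b (b (r (nat_lit 0)) (n (nat_lit 289) (b (n (nat_lit 290) (b (n (nat_lit 265) (b (l (nat_lit 1) (nat_lit 261) (nat_lit 264)) (l (nat_lit 1) (nat_lit 262) (nat_lit 266)))) (n (nat_lit 315) (b (l (nat_lit 0) (nat_lit 287) (nat_lit 316)) (l (nat_lit 0) (nat_lit 286) (nat_lit 314)))))) (n (nat_lit 260) (b (l (nat_lit 3) (nat_lit 260) (nat_lit 261)) (l (nat_lit 3) (nat_lit 259) (nat_lit 259))))))) (b (n (nat_lit 284) (b (n (nat_lit 263) (b (l (nat_lit 1) (nat_lit 259) (nat_lit 262)) (l (nat_lit 1) (nat_lit 260) (nat_lit 264)))) (n (nat_lit 259) (b (l (nat_lit 3) (nat_lit 258) (nat_lit 258)) (l (nat_lit 3) (nat_lit 259) (nat_lit 260)))))) (n (nat_lit 284) (b (b (n (nat_lit 262)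 (b (n (nat_lit 261) (b (n (nat_lit 289) (b (l (nat_lit 3) (nat_lit 260) (nat_lit 260)) (l (nat_lit 3) (nat_lit 261) (nat_lit 290)))) (l (nat_lit 1) (nat_lit 258) (nat_lit 283)))) (l (nat_lit 1) (nat_lit 259) (nat_lit 263)))) (n (nat_lit 259) (b (l (nat_lit 3) (nat_lit 258) (nat_lit 258)) (l (nat_lit 3) (nat_lit 259) (nat_lit 260))))) (n (nat_lit 283) (b (n (nat_lit 262) (b (l (nat_lit 1) (nat_lit 259) (nat_lit 263)) (l (nat_lit 1) (nat_lit 258) (nat_lit 261)))) (n (nat_lit 258) (b (l (nat_lit 3) (nat_lit 257) (nat_lit 257)) (l (nat_lit 3) (nat_lit 258) (nat_lit 259)))))))))))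
    (envOK_cons p13482 envOK_nil) (by decide +kernel)

theorem p13501 : Fam (nat_lit 6) (nat_lit 435157831858563311885959467128468235087899131947679252760405979781514559885966703591424) (nat_lit 157608031831205875146689334348199111339552549095778896739047770565140865759860647874923381268547178552665913415434240) (nat_lit 157608031831205875146689334348199111339552549095778896739047770565140865759860647874923381268547178552665913415434240) :=
  chk_sound Env.nil
    (n (nat_lit 259) (b (b (n (nat_lit 260) (b (n (nat_lit 258) (b (l (nat_lit 0) (nat_lit 258) (nat_lit 261)) (l (nat_lit 0) (nat_lit 257) (nat_lit 257)))) (l (nat_lit 3) (nat_lit 259) (nat_lit 288)))) (n (nat_lit 284) (b (n (nat_lit 309) (b (n (nat_lit 310) (b (n (nat_lit 234) (b (l (nat_lit 4) (nat_lit 234) (nat_lit 335)) (l (nat_lit 4) (nat_lit 209) (nat_lit 209)))) (l (nat_lit 2) (nat_lit 284) (nat_lit 288)))) (l (nat_lit 2) (nat_lit 283) (nat_lit 308)))) (l (nat_lit 3) (nat_lit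 258) (nat_lit 258))))) (b (n (nat_lit 258) (b (n (nat_lit 260) (b (l (nat_lit 0) (nat_lit 258) (nat_lit 261)) (l (nat_lit 0) (nat_lit 257) (nat_lit 257)))) (l (nat_lit 3) (nat_lit 258) (nat_lit 284)))) (n (nat_lit 310) (b (b (n (nat_lit 309) (b (n (nat_lit 308) (b (l (nat_lit 2) (nat_lit 283) (nat_lit 284)) (l (nat_lit 1) (nat_lit 282) (nat_lit 307)))) (l (nat_lit 2) (nat_lit 284) (nat_lit 288)))) (n (nat_lit 335) (b (n (nat_lit 360) (b (l (nat_lit 7) (nat_lit 259) (nat_lit 284)) (l (nat_lit 5) (nat_lit 260) (nat_lit 261)))) (n (nat_lit 260) (b (l (nat_lit 3) (nat_lit 259) (nat_lit 288)) (l (nat_lit 7) (nat_lit 234) (nat_lit 234))))))) (b (n (nat_lit 288) (b (l (nat_lit 2) (nat_lit 284) (nat_lit 309)) (l (nat_lit 3) (nat_lit 259) (nat_lit 260)))) (n (nat_lit 335) (b (b (n (nat_lit 234) (b (n (nat_lit 284) (b (l (nat_lit 4) (nat_lit 234) (nat_lit 309)) (l (nat_lit 4) (nat_lit 209) (nat_lit 209)))) (l (nat_lit 7) (nat_lit 234) (nat_lit 260))))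 (n (nat_lit 360) (b (l (nat_lit 7) (nat_lit 259) (nat_lit 284)) (l (nat_lit 5) (nat_lit 260) (nat_lit 261))))) (n (nat_lit 361) (b (n (nat_lit 360) (b (l (nat_lit 5) (nat_lit 260) (nat_lit 261)) (l (nat_lit 4) (nat_lit 285) (nat_lit 386)))) (n (nat_lit 260) (b (l (nat_lit 4) (nat_lit 260) (nat_lit 336)) (l (nat_lit 7) (nat_lit 234) (nat_lit 234))))))))))))))
    envOK_nil (by decide +kernel)

theorem p13514 : Fam (nat_lit 9) (nat_lit 8343699794223886867918865425684280076135049628354806830284884040961525585345187034493899243520) (nat_lit 245878394450522465415863147530403903615215521822780014141018621243540401375354641435060948959232) (nat_lit 245878394450522465415863147530403903615215521822780014141018621243540401375354641435060948959232) :=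
  chk_sound Env.nil
    (n (nat_lit 309) (b (b (n (nat_lit 308) (b (n (nat_lit 310) (b (l (nat_lit 1) (nat_lit 282) (nat_lit 307)) (l (nat_lit 2) (nat_lit 284) (nat_lit 288)))) (l (nat_lit 2) (nat_lit 283) (nat_lit 284)))) (n (nat_lit 288) (b (n (nat_lit 289) (b (n (nat_lit 290) (b (n (nat_lit 315) (b (l (nat_lit 0) (nat_lit 287) (nat_lit 316)) (l (nat_lit 0) (nat_lit 286) (nat_lit 314)))) (n (nat_lit 261) (b (l (nat_lit 3) (nat_lit 261) (nat_lit 262)) (l (nat_lit 3) (nat_lit 260) (nat_lit 260)))))) (n (nat_lit 264) (b (l (nat_lit 1) (nat_lit 261) (nat_lit 265)) (l (nat_lit 1) (nat_lit 260) (nat_lit 263)))))) (l (nat_lit 2) (nat_lit 284) (nat_lit 310))))) (n (nat_lit 284) (b (n (nat_lit 262) (b (n (nat_lit 237) (b (b (n (nat_lit 212) (b (n (nat_lit 213) (b (l (nat_lit 5) (nat_lit 187) (nat_lit 188)) (l (nat_lit 5) (nat_lit 212) (nat_lit 238)))) (n (nat_lit 261) (b (l (nat_lit 1) (nat_lit 258) (nat_lit 283)) (l (nat_lit 6) (nat_lit 186)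 (nat_lit 187)))))) (n (nat_lit 212) (b (n (nat_lit 213) (b (l (nat_lit 5) (nat_lit 187) (nat_lit 188)) (l (nat_lit 5) (nat_lit 212) (nat_lit 238)))) (n (nat_lit 211) (b (l (nat_lit 7) (nat_lit 211) (nat_lit 236)) (l (nat_lit 7) (nat_lit 186) (nat_lit 186))))))) (b (n (nat_lit 212) (b (n (nat_lit 211) (b (l (nat_lit 7) (nat_lit 211) (nat_lit 236)) (l (nat_lit 7) (nat_lit 186) (nat_lit 186)))) (n (nat_lit 261) (b (l (nat_lit 1) (nat_lit 258) (nat_lit 283)) (l (nat_lit 6) (nat_lit 186) (nat_lit 187)))))) (n (nat_lit 261) (b (n (nat_lit 238) (b (n (nat_lit 239) (b (n (nat_lit 236) (b (l (nat_lit 2) (nat_lit 235) (nat_lit 260)) (l (nat_lit 7) (nat_lit 211) (nat_lit 211)))) (l (nat_lit 2) (nat_lit 236) (nat_lit 240)))) (l (nat_lit 5) (nat_lit 212) (nat_lit 213)))) (l (nat_lit 1) (nat_lit 258) (nat_lit 283))))))) (l (nat_lit 1) (nat_lit 259) (nat_lit 263)))) (l (nat_lit 2) (nat_lit 283) (nat_lit 308))))))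
    envOK_nil (by decide +kernel)

theorem p13534 : Fam (nat_lit 7) (nat_lit 8343699669893079618145687897868619141075899220294192999471328939966333356469098208164419993600) (nat_lit 1174271396374962876116242211133359100600536684085560171216518232465723492165195479136533671411367773000957952) (nat_lit 1174271396374962876116242211133359100600536684085560171216518232465723492165195479136533671411367773000957952) :=
  chk_sound Env.nil
    (n (nat_lit 211) (b (b (n (nat_lit 310) (b (n (nat_lit 335) (b (n (nat_lit 334) (b (l (nat_lit 6) (nat_lit 259) (nat_lit 359)) (l (nat_lit 6) (nat_lit 234) (nat_lit 309)))) (n (nat_lit 234) (b (l (nat_lit 7) (nat_lit 234) (nat_lit 259)) (l (nat_lit 7) (nat_lit 209) (nat_lit 209)))))) (l (nat_lit 5) (nat_lit 210) (nat_lit 236)))) (n (nat_lit 210) (b (n (nat_lit 209) (b (n (nat_lit 234) (b (n (nat_lit 233) (b (l (nat_lit 2) (nat_lit 208) (nat_lit 212)) (l (nat_lit 1) (nat_lit 207) (nat_lit 232)))) (l (nat_lit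 7) (nat_lit 209) (nat_lit 310)))) (l (nat_lit 7) (nat_lit 184) (nat_lit 184)))) (l (nat_lit 5) (nat_lit 185) (nat_lit 186))))) (b (n (nat_lit 186) (b (n (nat_lit 236) (b (l (nat_lit 5) (nat_lit 210) (nat_lit 310)) (l (nat_lit 6) (nat_lit 160) (nat_lit 161)))) (l (nat_lit 5) (nat_lit 185) (nat_lit 210)))) (n (nat_lit 210) (b (n (nat_lit 209) (b (n (nat_lit 237) (b (n (nat_lit 212) (b (n (nat_lit 234) (b (l (nat_lit 2) (nat_lit 208) (nat_lit 233)) (l (nat_lit 2) (nat_lit 209) (nat_lit 213)))) (l (nat_lit 0) (nat_lit 209) (nat_lit 238)))) (n (nat_lit 236) (b (l (nat_lit 7) (nat_lit 211) (nat_lit 262)) (l (nat_lit 0) (nat_lit 208) (nat_lit 208)))))) (l (nat_lit 7) (nat_lit 184) (nat_lit 184)))) (l (nat_lit 5) (nat_lit 185) (nat_lit 186)))))))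
    envOK_nil (by decide +kernel)

theorem p13588 : Fam (nat_lit 11) (nat_lit 8343699794223888720592293222743406853270809767361332482604638691210550216666531161103973482496) (nat_lit 1174271396374962876116863865224146040798472417685443371393715263552485944713157704286282404423272984765005824) (nat_lit 1174271396374962876116863865224146040798472417685443371393715263552485944713157704286282404423272984765005824) :=
  chk_sound (Env.cons (nat_lit 7) (nat_lit 8343699669893079618145687897868619141075899220294192999471328939966333356469098208164419993600) (nat_lit 1174271396374962876116242211133359100600536684085560171216518232465723492165195479136533671411367773000957952) Env.nil)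
    (n (nat_lit 235) (b (b (b (r (nat_lit 0)) (n (nat_lit 259) (b (n (nat_lit 236) (b (n (nat_lit 258) (b (n (nat_lit 237) (b (l (nat_lit 2) (nat_lit 234) (nat_lit 238)) (l (nat_lit 2) (nat_lit 233) (nat_lit 234)))) (l (nat_lit 1) (nat_lit 232) (nat_lit 257)))) (n (nat_lit 211) (b (n (nat_lit 186) (b (l (nat_lit 6) (nat_lit 160) (nat_lit 161)) (l (nat_lit 5) (nat_lit 185) (nat_lit 210)))) (l (nat_lit 5) (nat_lit 210) (nat_lit 310)))))) (l (nat_lit 3) (nat_lit 259) (nat_lit 288))))) (b (n (nat_lit 288) (b (n (nat_lit 211) (b (n (nat_lit 310) (b (l (nat_lit 5) (nat_lit 210) (nat_lit 236)) (l (nat_lit 2) (nat_lit 284) (nat_lit 309)))) (n (nat_lit 210) (b (n (nat_lit 184) (b (n (nat_lit 213) (b (n (nat_lit 185) (b (l (nat_lit 7) (nat_lit 159) (nat_lit 159)) (l (nat_lit 3) (nat_lit 184) (nat_lit 212)))) (n (nat_lit 263) (b (l (nat_lit 1) (nat_lit 260) (nat_lit 264)) (l (nat_lit 6) (nat_lit 212) (nat_lit 238)))))) (l (nat_lit 7) (nat_lit 184)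 (nat_lit 209)))) (l (nat_lit 5) (nat_lit 185) (nat_lit 186)))))) (l (nat_lit 3) (nat_lit 259) (nat_lit 259)))) (n (nat_lit 310) (b (n (nat_lit 210) (b (n (nat_lit 211) (b (l (nat_lit 5) (nat_lit 210) (nat_lit 236)) (l (nat_lit 5) (nat_lit 185) (nat_lit 186)))) (n (nat_lit 209) (b (l (nat_lit 7) (nat_lit 184) (nat_lit 184)) (l (nat_lit 7) (nat_lit 209) (nat_lit 234)))))) (n (nat_lit 309) (b (l (nat_lit 2) (nat_lit 284) (nat_lit 288)) (l (nat_lit 6) (nat_lit 234) (nat_lit 334)))))))) (b (n (nat_lit 310) (b (b (n (nat_lit 335) (b (n (nat_lit 334) (b (l (nat_lit 6) (nat_lit 259) (nat_lit 359)) (l (nat_lit 6) (nat_lit 234) (nat_lit 309)))) (n (nat_lit 234) (b (l (nat_lit 7) (nat_lit 234) (nat_lit 259)) (l (nat_lit 7) (nat_lit 209) (nat_lit 209)))))) (n (nat_lit 259) (b (n (nat_lit 234) (b (l (nat_lit 7) (nat_lit 234) (nat_lit 335)) (l (nat_lit 7) (nat_lit 209) (nat_lit 209)))) (l (nat_lit 3) (nat_lit 259) (nat_lit 288))))) (n (nat_lit 309) (b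 (l (nat_lit 2) (nat_lit 284) (nat_lit 288)) (l (nat_lit 6) (nat_lit 234) (nat_lit 334)))))) (n (nat_lit 210) (b (b (b (n (nat_lit 259) (b (n (nat_lit 185) (b (b (n (nat_lit 186) (b (l (nat_lit 5) (nat_lit 185) (nat_lit 211)) (l (nat_lit 5) (nat_lit 160) (nat_lit 161)))) (n (nat_lit 160) (b (n (nat_lit 135) (b (n (nat_lit 211) (b (l (nat_lit 5) (nat_lit 185) (nat_lit 186)) (l (nat_lit 4) (nat_lit 135) (nat_lit 236)))) (n (nat_lit 134) (b (l (nat_lit 7) (nat_lit 134) (nat_lit 159)) (l (nat_lit 7) (nat_lit 109) (nat_lit 109)))))) (l (nat_lit 6) (nat_lit 159) (nat_lit 234))))) (n (nat_lit 160) (b (n (nat_lit 135) (b (n (nat_lit 136) (b (l (nat_lit 5) (nat_lit 135) (nat_lit 161)) (l (nat_lit 5) (nat_lit 110) (nat_lit 111)))) (n (nat_lit 134) (b (l (nat_lit 7) (nat_lit 134) (nat_lit 159)) (l (nat_lit 7) (nat_lit 109) (nat_lit 109)))))) (l (nat_lit 6) (nat_lit 159) (nat_lit 234)))))) (l (nat_lit 3) (nat_lit 259) (nat_lit 288)))) (n (nat_lit 259)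 (b (n (nat_lit 184) (b (n (nat_lit 185) (b (n (nat_lit 234) (b (n (nat_lit 233) (b (b (n (nat_lit 232) (b (l (nat_lit 0) (nat_lit 231) (nat_lit 231)) (l (nat_lit 1) (nat_lit 207) (nat_lit 211)))) (n (nat_lit 236) (b (n (nat_lit 183) (b (n (nat_lit 211) (b (l (nat_lit 1) (nat_lit 208) (nat_lit 212)) (l (nat_lit 0) (nat_lit 182) (nat_lit 182)))) (n (nat_lit 208) (b (l (nat_lit 4) (nat_lit 158) (nat_lit 158)) (l (nat_lit 3) (nat_lit 207) (nat_lit 207)))))) (n (nat_lit 237) (b (l (nat_lit 2) (nat_lit 234) (nat_lit 238)) (l (nat_lit 2) (nat_lit 233) (nat_lit 258))))))) (n (nat_lit 257) (b (n (nat_lit 232) (b (l (nat_lit 0) (nat_lit 231) (nat_lit 231)) (l (nat_lit 2) (nat_lit 231) (nat_lit 256)))) (l (nat_lit 0) (nat_lit 257) (nat_lit 258)))))) (l (nat_lit 6) (nat_lit 159) (nat_lit 160)))) (l (nat_lit 7) (nat_lit 159) (nat_lit 159)))) (l (nat_lit 7) (nat_lit 184) (nat_lit 209)))) (l (nat_lit 3) (nat_lit 259) (nat_lit 288))))) (b (n (nat_lit 185)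 (b (n (nat_lit 160) (b (n (nat_lit 259) (b (l (nat_lit 3) (nat_lit 259) (nat_lit 288)) (l (nat_lit 6) (nat_lit 159) (nat_lit 234)))) (n (nat_lit 161) (b (l (nat_lit 5) (nat_lit 160) (nat_lit 186)) (l (nat_lit 5) (nat_lit 135) (nat_lit 136)))))) (n (nat_lit 184) (b (l (nat_lit 7) (nat_lit 159) (nat_lit 159)) (l (nat_lit 7) (nat_lit 184) (nat_lit 209)))))) (n (nat_lit 185) (b (n (nat_lit 186) (b (l (nat_lit 5) (nat_lit 185) (nat_lit 211)) (l (nat_lit 5) (nat_lit 160) (nat_lit 161)))) (n (nat_lit 184) (b (l (nat_lit 7) (nat_lit 159) (nat_lit 159)) (l (nat_lit 7) (nat_lit 184) (nat_lit 209)))))))) (n (nat_lit 211) (b (n (nat_lit 209) (b (n (nat_lit 237) (b (n (nat_lit 212) (b (n (nat_lit 234) (b (l (nat_lit 2) (nat_lit 208) (nat_lit 233)) (l (nat_lit 2) (nat_lit 209) (nat_lit 213)))) (l (nat_lit 0) (nat_lit 209) (nat_lit 238)))) (n (nat_lit 236) (b (l (nat_lit 7) (nat_lit 211) (nat_lit 262)) (l (nat_lit 0) (nat_lit 208) (nat_lit 208)))))) (l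 (nat_lit 7) (nat_lit 184) (nat_lit 184)))) (l (nat_lit 5) (nat_lit 185) (nat_lit 186)))))))))
    (envOK_cons p13534 envOK_nil) (by decide +kernel)

theorem p13653 : Fam (nat_lit 13) (nat_lit 8343699732058482316695535156261499057782444615797787980616419360903528473700249907927227301888) (nat_lit 295515055279993541964300257696489374912523487169209879520915746298935783513220560591597688509526384068188892049702912) (nat_lit 295515055279993541964300257696489374912523487169209879520915746298935783513220560591597688509526384068188892049702912) :=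
  chk_sound (Env.cons (nat_lit 7) (nat_lit 435157831858563311885959467128468235087899131947679252760405979781514559885966703591424) (nat_lit 98505019600935840370950248015174187882132671644813581863210720399665962121457586797913375159618694111636498040225792) (Env.cons (nat_lit 6) (nat_lit 435157831858563311885959467128468235087899131947679252760405979781514559885966703591424) (nat_lit 233623589995480445733549278603559101728828723055212806045421259865433591059247206474006564700160) (Env.cons (nat_lit 6) (nat_lit 435157831858563311885959467128468235087899131947679252760405979781514559885966703591424) (nat_lit 157608031831205875146689334348199111339552549095778896739047770565140865759860647874923381268547178552665913415434240) (Env.cons (nat_lit 9) (nat_lit 8343699794223886867918865425684280076135049628354806830284884040961525585345187034493899243520) (nat_lit 245878394450522465415863147530403903615215521822780014141018621243540401375354641435060948959232)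 (Env.cons (nat_lit 11) (nat_lit 8343699794223888720592293222743406853270809767361332482604638691210550216666531161103973482496) (nat_lit 1174271396374962876116863865224146040798472417685443371393715263552485944713157704286282404423272984765005824) (Env.cons (nat_lit 7) (nat_lit 8343699669893079618145687897868619141075899220294192999471328939966333356469098208164419993600) (nat_lit 1174271396374962876116242211133359100600536684085560171216518232465723492165195479136533671411367773000957952) Env.nil))))))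
    (n (nat_lit 285) (b (b (b (r (nat_lit 0)) (r (nat_lit 1))) (b (r (nat_lit 2)) (r (nat_lit 3)))) (b (b (n (nat_lit 284) (b (b (n (nat_lit 288) (b (n (nat_lit 309) (b (l (nat_lit 2) (nat_lit 283) (nat_lit 308)) (l (nat_lit 2) (nat_lit 284) (nat_lit 310)))) (n (nat_lit 263) (b (l (nat_lit 1) (nat_lit 259) (nat_lit 262)) (l (nat_lit 1) (nat_lit 260) (nat_lit 264)))))) (n (nat_lit 283) (b (n (nat_lit 308) (b (l (nat_lit 2) (nat_lit 283) (nat_lit 309)) (l (nat_lit 2) (nat_lit 282) (nat_lit 307)))) (n (nat_lit 258) (b (l (nat_lit 3) (nat_lit 257) (nat_lit 257)) (l (nat_lit 3) (nat_lit 258) (nat_lit 259))))))) (n (nat_lit 283) (b (n (nat_lit 262) (b (l (nat_lit 1) (nat_lit 259) (nat_lit 263)) (l (nat_lit 1) (nat_lit 258) (nat_lit 261)))) (n (nat_lit 258) (b (l (nat_lit 3) (nat_lit 257) (nat_lit 257)) (l (nat_lit 3) (nat_lit 258) (nat_lit 259)))))))) (n (nat_lit 284) (b (b (n (nat_lit 288) (b (n (nat_lit 309) (b (l (nat_lit 2) (nat_lit 283)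 (nat_lit 308)) (l (nat_lit 2) (nat_lit 284) (nat_lit 310)))) (n (nat_lit 263) (b (l (nat_lit 1) (nat_lit 259) (nat_lit 262)) (l (nat_lit 1) (nat_lit 260) (nat_lit 264)))))) (n (nat_lit 283) (b (n (nat_lit 308) (b (l (nat_lit 2) (nat_lit 283) (nat_lit 309)) (l (nat_lit 2) (nat_lit 282) (nat_lit 307)))) (n (nat_lit 258) (b (l (nat_lit 3) (nat_lit 257) (nat_lit 257)) (l (nat_lit 3) (nat_lit 258) (nat_lit 259))))))) (n (nat_lit 288) (b (n (nat_lit 259) (b (l (nat_lit 3) (nat_lit 258) (nat_lit 258)) (l (nat_lit 3) (nat_lit 259) (nat_lit 260)))) (n (nat_lit 263) (b (l (nat_lit 1) (nat_lit 259) (nat_lit 262)) (l (nat_lit 1) (nat_lit 260) (nat_lit 264))))))))) (n (nat_lit 260) (b (b (r (nat_lit 4)) (n (nat_lit 310) (b (b (n (nat_lit 288) (b (n (nat_lit 289) (b (n (nat_lit 264) (b (l (nat_lit 1) (nat_lit 261) (nat_lit 265)) (l (nat_lit 1) (nat_lit 260) (nat_lit 263)))) (l (nat_lit 3) (nat_lit 260) (nat_lit 261)))) (l (nat_lit 2) (nat_lit 284) (nat_lit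 309)))) (n (nat_lit 309) (b (n (nat_lit 334) (b (n (nat_lit 359) (b (l (nat_lit 5) (nat_lit 284) (nat_lit 384)) (l (nat_lit 6) (nat_lit 259) (nat_lit 335)))) (l (nat_lit 6) (nat_lit 234) (nat_lit 235)))) (l (nat_lit 2) (nat_lit 284) (nat_lit 288))))) (n (nat_lit 335) (b (n (nat_lit 360) (b (n (nat_lit 359) (b (l (nat_lit 6) (nat_lit 259) (nat_lit 334)) (l (nat_lit 6) (nat_lit 284) (nat_lit 384)))) (n (nat_lit 361) (b (l (nat_lit 4) (nat_lit 285) (nat_lit 386)) (l (nat_lit 4) (nat_lit 260) (nat_lit 336)))))) (n (nat_lit 235) (b (b (n (nat_lit 236) (b (l (nat_lit 5) (nat_lit 210) (nat_lit 211)) (l (nat_lit 5) (nat_lit 235) (nat_lit 261)))) (n (nat_lit 210) (b (n (nat_lit 185) (b (n (nat_lit 186) (b (l (nat_lit 5) (nat_lit 185) (nat_lit 211)) (l (nat_lit 5) (nat_lit 160) (nat_lit 161)))) (l (nat_lit 4) (nat_lit 185) (nat_lit 261)))) (n (nat_lit 209) (b (l (nat_lit 7) (nat_lit 184) (nat_lit 184)) (l (nat_lit 7) (nat_lit 209) (nat_lit 234)))))))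 (b (n (nat_lit 210) (b (n (nat_lit 261) (b (l (nat_lit 5) (nat_lit 235) (nat_lit 236)) (l (nat_lit 4) (nat_lit 185) (nat_lit 185)))) (n (nat_lit 209) (b (l (nat_lit 7) (nat_lit 184) (nat_lit 184)) (l (nat_lit 7) (nat_lit 209) (nat_lit 234)))))) (n (nat_lit 210) (b (n (nat_lit 211) (b (l (nat_lit 5) (nat_lit 210) (nat_lit 236)) (l (nat_lit 5) (nat_lit 185) (nat_lit 186)))) (n (nat_lit 209) (b (l (nat_lit 7) (nat_lit 184) (nat_lit 184)) (l (nat_lit 7) (nat_lit 209) (nat_lit 234)))))))))))))) (b (n (nat_lit 259) (b (n (nat_lit 258) (b (l (nat_lit 0) (nat_lit 258) (nat_lit 261)) (l (nat_lit 0) (nat_lit 257) (nat_lit 257)))) (l (nat_lit 3) (nat_lit 259) (nat_lit 288)))) (n (nat_lit 235) (b (b (b (n (nat_lit 261) (b (n (nat_lit 211) (b (n (nat_lit 210) (b (l (nat_lit 4) (nat_lit 185) (nat_lit 185)) (l (nat_lit 5) (nat_lit 185) (nat_lit 186)))) (l (nat_lit 4) (nat_lit 211) (nat_lit 236)))) (n (nat_lit 259) (b (n (nat_lit 234) (b (n (nat_lit 310)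 (b (l (nat_lit 7) (nat_lit 209) (nat_lit 209)) (l (nat_lit 7) (nat_lit 234) (nat_lit 335)))) (n (nat_lit 233) (b (l (nat_lit 0) (nat_lit 232) (nat_lit 232)) (l (nat_lit 3) (nat_lit 233) (nat_lit 262)))))) (l (nat_lit 0) (nat_lit 258) (nat_lit 258)))))) (n (nat_lit 259) (b (b (n (nat_lit 236) (b (b (n (nat_lit 310) (b (n (nat_lit 234) (b (l (nat_lit 7) (nat_lit 234) (nat_lit 335)) (l (nat_lit 7) (nat_lit 209) (nat_lit 209)))) (l (nat_lit 5) (nat_lit 210) (nat_lit 211)))) (n (nat_lit 258) (b (n (nat_lit 237) (b (l (nat_lit 2) (nat_lit 234) (nat_lit 238)) (l (nat_lit 2) (nat_lit 233) (nat_lit 234)))) (l (nat_lit 1) (nat_lit 232) (nat_lit 257))))) (n (nat_lit 237) (b (n (nat_lit 211) (b (l (nat_lit 7) (nat_lit 211) (nat_lit 262)) (l (nat_lit 5) (nat_lit 210) (nat_lit 310)))) (l (nat_lit 2) (nat_lit 234) (nat_lit 238)))))) (n (nat_lit 258) (b (l (nat_lit 0) (nat_lit 258) (nat_lit 261)) (l (nat_lit 0) (nat_lit 257) (nat_lit 257))))) (n (nat_lit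 234) (b (b (n (nat_lit 236) (b (n (nat_lit 261) (b (n (nat_lit 262) (b (l (nat_lit 3) (nat_lit 234) (nat_lit 263)) (l (nat_lit 0) (nat_lit 233) (nat_lit 233)))) (l (nat_lit 4) (nat_lit 211) (nat_lit 211)))) (n (nat_lit 237) (b (n (nat_lit 209) (b (l (nat_lit 3) (nat_lit 208) (nat_lit 208)) (l (nat_lit 4) (nat_lit 184) (nat_lit 184)))) (l (nat_lit 2) (nat_lit 234) (nat_lit 238)))))) (n (nat_lit 310) (b (l (nat_lit 7) (nat_lit 209) (nat_lit 209)) (l (nat_lit 7) (nat_lit 234) (nat_lit 335))))) (n (nat_lit 310) (b (n (nat_lit 236) (b (n (nat_lit 233) (b (n (nat_lit 232) (b (n (nat_lit 207) (b (l (nat_lit 3) (nat_lit 206) (nat_lit 206)) (l (nat_lit 3) (nat_lit 207) (nat_lit 208)))) (l (nat_lit 0) (nat_lit 231) (nat_lit 231)))) (n (nat_lit 262) (b (n (nat_lit 237) (b (l (nat_lit 0) (nat_lit 234) (nat_lit 263)) (l (nat_lit 2) (nat_lit 234) (nat_lit 238)))) (l (nat_lit 3) (nat_lit 233) (nat_lit 261)))))) (l (nat_lit 5) (nat_lit 210) (nat_lit 211))))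 (l (nat_lit 7) (nat_lit 234) (nat_lit 335))))))))) (b (n (nat_lit 259) (b (b (n (nat_lit 258) (b (l (nat_lit 0) (nat_lit 258) (nat_lit 261)) (l (nat_lit 0) (nat_lit 257) (nat_lit 257)))) (n (nat_lit 236) (b (n (nat_lit 258) (b (n (nat_lit 237) (b (l (nat_lit 2) (nat_lit 234) (nat_lit 238)) (l (nat_lit 2) (nat_lit 233) (nat_lit 234)))) (l (nat_lit 1) (nat_lit 232) (nat_lit 257)))) (n (nat_lit 211) (b (n (nat_lit 186) (b (l (nat_lit 6) (nat_lit 160) (nat_lit 161)) (l (nat_lit 5) (nat_lit 185) (nat_lit 210)))) (l (nat_lit 5) (nat_lit 210) (nat_lit 310))))))) (n (nat_lit 210) (b (n (nat_lit 211) (b (n (nat_lit 236) (b (n (nat_lit 237) (b (l (nat_lit 2) (nat_lit 234) (nat_lit 238)) (l (nat_lit 7) (nat_lit 211) (nat_lit 262)))) (l (nat_lit 5) (nat_lit 210) (nat_lit 310)))) (l (nat_lit 5) (nat_lit 185) (nat_lit 186)))) (n (nat_lit 185) (b (n (nat_lit 160) (b (n (nat_lit 159) (b (l (nat_lit 7) (nat_lit 134) (nat_lit 134)) (l (nat_lit 7) (nat_lit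 159) (nat_lit 184)))) (l (nat_lit 6) (nat_lit 159) (nat_lit 234)))) (l (nat_lit 4) (nat_lit 185) (nat_lit 261)))))))) (r (nat_lit 5)))) (b (b (n (nat_lit 210) (b (b (n (nat_lit 261) (b (n (nat_lit 259) (b (n (nat_lit 234) (b (n (nat_lit 310) (b (l (nat_lit 7) (nat_lit 209) (nat_lit 209)) (l (nat_lit 7) (nat_lit 234) (nat_lit 335)))) (n (nat_lit 262) (b (l (nat_lit 3) (nat_lit 234) (nat_lit 263)) (l (nat_lit 3) (nat_lit 233) (nat_lit 233)))))) (l (nat_lit 0) (nat_lit 258) (nat_lit 258)))) (l (nat_lit 4) (nat_lit 185) (nat_lit 185)))) (n (nat_lit 185) (b (n (nat_lit 160) (b (n (nat_lit 161) (b (l (nat_lit 5) (nat_lit 160) (nat_lit 186)) (l (nat_lit 5) (nat_lit 135) (nat_lit 136)))) (n (nat_lit 159) (b (l (nat_lit 7) (nat_lit 134) (nat_lit 134)) (l (nat_lit 7) (nat_lit 159) (nat_lit 184)))))) (l (nat_lit 4) (nat_lit 185) (nat_lit 261))))) (n (nat_lit 209) (b (n (nat_lit 211) (b (n (nat_lit 234) (b (n (nat_lit 233) (b (l (nat_lit 2) (nat_lit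 208) (nat_lit 212)) (l (nat_lit 1) (nat_lit 207) (nat_lit 232)))) (l (nat_lit 7) (nat_lit 209) (nat_lit 310)))) (l (nat_lit 5) (nat_lit 185) (nat_lit 186)))) (l (nat_lit 7) (nat_lit 184) (nat_lit 184)))))) (n (nat_lit 210) (b (b (n (nat_lit 261) (b (n (nat_lit 259) (b (n (nat_lit 234) (b (n (nat_lit 310) (b (l (nat_lit 7) (nat_lit 209) (nat_lit 209)) (l (nat_lit 7) (nat_lit 234) (nat_lit 335)))) (n (nat_lit 262) (b (l (nat_lit 3) (nat_lit 234) (nat_lit 263)) (l (nat_lit 3) (nat_lit 233) (nat_lit 233)))))) (l (nat_lit 0) (nat_lit 258) (nat_lit 258)))) (l (nat_lit 4) (nat_lit 185) (nat_lit 185)))) (n (nat_lit 310) (b (n (nat_lit 335) (b (n (nat_lit 261) (b (l (nat_lit 5) (nat_lit 260) (nat_lit 360)) (l (nat_lit 5) (nat_lit 235) (nat_lit 236)))) (n (nat_lit 334) (b (l (nat_lit 6) (nat_lit 259) (nat_lit 359)) (l (nat_lit 6) (nat_lit 234) (nat_lit 309)))))) (n (nat_lit 209) (b (l (nat_lit 7) (nat_lit 184) (nat_lit 184)) (l (nat_lit 7) (nat_lit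 209) (nat_lit 234))))))) (b (n (nat_lit 185) (b (n (nat_lit 160) (b (n (nat_lit 161) (b (l (nat_lit 5) (nat_lit 160) (nat_lit 186)) (l (nat_lit 5) (nat_lit 135) (nat_lit 136)))) (n (nat_lit 159) (b (l (nat_lit 7) (nat_lit 134) (nat_lit 134)) (l (nat_lit 7) (nat_lit 159) (nat_lit 184)))))) (l (nat_lit 4) (nat_lit 185) (nat_lit 261)))) (n (nat_lit 185) (b (b (n (nat_lit 184) (b (l (nat_lit 7) (nat_lit 159) (nat_lit 159)) (l (nat_lit 7) (nat_lit 184) (nat_lit 209)))) (n (nat_lit 160) (b (n (nat_lit 161) (b (l (nat_lit 5) (nat_lit 160) (nat_lit 186)) (l (nat_lit 5) (nat_lit 135) (nat_lit 136)))) (n (nat_lit 234) (b (n (nat_lit 209) (b (l (nat_lit 7) (nat_lit 209) (nat_lit 310)) (l (nat_lit 6) (nat_lit 134) (nat_lit 135)))) (l (nat_lit 6) (nat_lit 159) (nat_lit 259))))))) (n (nat_lit 160) (b (n (nat_lit 161) (b (l (nat_lit 5) (nat_lit 160) (nat_lit 186)) (l (nat_lit 5) (nat_lit 135) (nat_lit 136)))) (n (nat_lit 159) (b (l (nat_lit 7) (nat_lit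 134) (nat_lit 134)) (l (nat_lit 7) (nat_lit 159) (nat_lit 184)))))))))))) (b (n (nat_lit 210) (b (b (n (nat_lit 211) (b (n (nat_lit 236) (b (l (nat_lit 4) (nat_lit 211) (nat_lit 261)) (l (nat_lit 5) (nat_lit 210) (nat_lit 310)))) (l (nat_lit 5) (nat_lit 185) (nat_lit 186)))) (n (nat_lit 185) (b (n (nat_lit 184) (b (l (nat_lit 7) (nat_lit 159) (nat_lit 159)) (l (nat_lit 7) (nat_lit 184) (nat_lit 209)))) (l (nat_lit 4) (nat_lit 185) (nat_lit 261))))) (n (nat_lit 185) (b (n (nat_lit 186) (b (l (nat_lit 5) (nat_lit 185) (nat_lit 211)) (l (nat_lit 5) (nat_lit 160) (nat_lit 161)))) (n (nat_lit 184) (b (l (nat_lit 7) (nat_lit 159) (nat_lit 159)) (l (nat_lit 7) (nat_lit 184) (nat_lit 209)))))))) (n (nat_lit 210) (b (b (n (nat_lit 211) (b (n (nat_lit 209) (b (n (nat_lit 237) (b (n (nat_lit 212) (b (n (nat_lit 234) (b (l (nat_lit 2) (nat_lit 208) (nat_lit 233)) (l (nat_lit 2) (nat_lit 209) (nat_lit 213)))) (l (nat_lit 0) (nat_lit 209) (nat_lit 238))))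 (n (nat_lit 236) (b (l (nat_lit 7) (nat_lit 211) (nat_lit 262)) (l (nat_lit 0) (nat_lit 208) (nat_lit 208)))))) (l (nat_lit 7) (nat_lit 184) (nat_lit 184)))) (l (nat_lit 5) (nat_lit 185) (nat_lit 186)))) (n (nat_lit 185) (b (n (nat_lit 184) (b (l (nat_lit 7) (nat_lit 159) (nat_lit 159)) (l (nat_lit 7) (nat_lit 184) (nat_lit 209)))) (l (nat_lit 4) (nat_lit 185) (nat_lit 261))))) (n (nat_lit 211) (b (n (nat_lit 261) (b (l (nat_lit 4) (nat_lit 211) (nat_lit 236)) (l (nat_lit 4) (nat_lit 185) (nat_lit 185)))) (l (nat_lit 5) (nat_lit 185) (nat_lit 186))))))))))))))))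
    (envOK_cons p13477 (envOK_cons p13488 (envOK_cons p13501 (envOK_cons p13514 (envOK_cons p13588 (envOK_cons p13534 envOK_nil)))))) (by decide +kernel)

theorem p13658 : Fam (nat_lit 7) (nat_lit 8343699794223886867918865425684280076135049628354806830284884040961525585345187034493899243520) (nat_lit 39402007957801538778710975524516769441752640649369649977680941545186911032008791471041502527360611313728045637959680) (nat_lit 39402007957801538778710975524516769441752640649369649977680941545186911032008791471041502527360611313728045637959680) :=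
  chk_sound Env.nil
    (n (nat_lit 284) (b (b (n (nat_lit 309) (b (n (nat_lit 259) (b (n (nat_lit 310) (b (n (nat_lit 334) (b (n (nat_lit 359) (b (l (nat_lit 5) (nat_lit 284) (nat_lit 384)) (l (nat_lit 5) (nat_lit 259) (nat_lit 260)))) (n (nat_lit 333) (b (l (nat_lit 2) (nat_lit 308) (nat_lit 311)) (l (nat_lit 6) (nat_lit 258) (nat_lit 358)))))) (n (nat_lit 234) (b (l (nat_lit 4) (nat_lit 234) (nat_lit 335)) (l (nat_lit 4) (nat_lit 209) (nat_lit 209)))))) (l (nat_lit 3) (nat_lit 258) (nat_lit 258)))) (l (nat_lit 2) (nat_lit 283) (nat_lit 308)))) (n (nat_lit 283) (b (n (nat_lit 308) (b (l (nat_lit 2) (nat_lit 283) (nat_lit 309)) (l (nat_lit 2) (nat_lit 282) (nat_lit 307)))) (n (nat_lit 258) (b (l (nat_lit 3) (nat_lit 257) (nat_lit 257)) (l (nat_lit 3) (nat_lit 258) (nat_lit 259))))))) (b (n (nat_lit 283) (b (n (nat_lit 258) (b (l (nat_lit 3) (nat_lit 257) (nat_lit 257)) (l (nat_lit 3) (nat_lit 258) (nat_lit 259)))) (l (nat_lit 0) (nat_lit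 283) (nat_lit 311)))) (n (nat_lit 283) (b (n (nat_lit 308) (b (l (nat_lit 2) (nat_lit 283) (nat_lit 309)) (l (nat_lit 2) (nat_lit 282) (nat_lit 307)))) (l (nat_lit 0) (nat_lit 283) (nat_lit 311)))))))
    envOK_nil (by decide +kernel)

theorem p13679 : Fam (nat_lit 7) (nat_lit 435157833711236739683018593905603995226905657599999007410655004412835904012576777830400) (nat_lit 5288448026136040386275961630720223069016462923275240604762485791006290965071538461430130877905950260752410024229032574320640) (nat_lit 5288448026136040386275961630720223069016462923275240604762485791006290965071538461430130877905950260752410024229032574320640) :=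
  chk_sound Env.nil
    (n (nat_lit 235) (b (b (n (nat_lit 210) (b (n (nat_lit 185) (b (n (nat_lit 186) (b (l (nat_lit 5) (nat_lit 185) (nat_lit 211)) (l (nat_lit 5) (nat_lit 160) (nat_lit 161)))) (n (nat_lit 184) (b (l (nat_lit 7) (nat_lit 159) (nat_lit 159)) (l (nat_lit 7) (nat_lit 184) (nat_lit 209)))))) (l (nat_lit 4) (nat_lit 210) (nat_lit 311)))) (n (nat_lit 310) (b (n (nat_lit 210) (b (n (nat_lit 211) (b (l (nat_lit 5) (nat_lit 210) (nat_lit 236)) (l (nat_lit 5) (nat_lit 185) (nat_lit 186)))) (n (nat_lit 209) (b (l (nat_lit 7) (nat_lit 184) (nat_lit 184)) (l (nat_lit 7) (nat_lit 209) (nat_lit 234)))))) (n (nat_lit 309) (b (l (nat_lit 2) (nat_lit 284) (nat_lit 288)) (l (nat_lit 6) (nat_lit 234) (nat_lit 334))))))) (n (nat_lit 310) (b (b (n (nat_lit 288) (b (n (nat_lit 311) (b (l (nat_lit 2) (nat_lit 285) (nat_lit 289)) (l (nat_lit 4) (nat_lit 235) (nat_lit 336)))) (l (nat_lit 2) (nat_lit 284) (nat_lit 309)))) (n (nat_lit 309) (b (l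 (nat_lit 2) (nat_lit 284) (nat_lit 288)) (l (nat_lit 6) (nat_lit 234) (nat_lit 334))))) (n (nat_lit 335) (b (b (n (nat_lit 336) (b (l (nat_lit 4) (nat_lit 235) (nat_lit 311)) (l (nat_lit 4) (nat_lit 260) (nat_lit 361)))) (n (nat_lit 360) (b (n (nat_lit 385) (b (n (nat_lit 386) (b (l (nat_lit 4) (nat_lit 310) (nat_lit 411)) (l (nat_lit 4) (nat_lit 285) (nat_lit 361)))) (l (nat_lit 5) (nat_lit 285) (nat_lit 311)))) (n (nat_lit 359) (b (l (nat_lit 6) (nat_lit 259) (nat_lit 334)) (l (nat_lit 6) (nat_lit 284) (nat_lit 384))))))) (b (n (nat_lit 360) (b (n (nat_lit 311) (b (l (nat_lit 4) (nat_lit 235) (nat_lit 336)) (l (nat_lit 5) (nat_lit 285) (nat_lit 385)))) (n (nat_lit 359) (b (l (nat_lit 6) (nat_lit 259) (nat_lit 334)) (l (nat_lit 6) (nat_lit 284) (nat_lit 384)))))) (n (nat_lit 360) (b (n (nat_lit 359) (b (l (nat_lit 6) (nat_lit 259) (nat_lit 334)) (l (nat_lit 6) (nat_lit 284) (nat_lit 384)))) (n (nat_lit 361) (b (l (nat_lit 4) (nat_lit 285)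 (nat_lit 386)) (l (nat_lit 4) (nat_lit 260) (nat_lit 336)))))))))))))
    envOK_nil (by decide +kernel)

theorem p13682 : Fam (nat_lit 13) (nat_lit 8343699732058482316695535156261499057782444615797787980616419360903528473700249907927227301888) (nat_lit 5288448026136040973411624822427077810745752250505604284881083105250657460393404798201000387057855246569016140566445210730496) (nat_lit 5288448026136040973411624822427077810745752250505604284881083105250657460393404798201000387057855246569016140566445210730496) :=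
  chk_sound (Env.cons (nat_lit 7) (nat_lit 8343699794223886867918865425684280076135049628354806830284884040961525585345187034493899243520) (nat_lit 39402007957801538778710975524516769441752640649369649977680941545186911032008791471041502527360611313728045637959680) (Env.cons (nat_lit 7) (nat_lit 8343699669893079618145687897868619141075899220294192999471328939966333356469098208164419993600) (nat_lit 1174271396374962876116242211133359100600536684085560171216518232465723492165195479136533671411367773000957952) (Env.cons (nat_lit 7) (nat_lit 435157833711236739683018593905603995226905657599999007410655004412835904012576777830400) (nat_lit 5288448026136040386275961630720223069016462923275240604762485791006290965071538461430130877905950260752410024229032574320640) (Env.cons (nat_lit 11) (nat_lit 8343699794223888720592293222743406853270809767361332482604638691210550216666531161103973482496) (nat_lit 1174271396374962876116863865224146040798472417685443371393715263552485944713157704286282404423272984765005824)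 Env.nil))))
    (n (nat_lit 285) (b (b (b (n (nat_lit 284) (b (b (n (nat_lit 283) (b (n (nat_lit 258) (b (l (nat_lit 3) (nat_lit 257) (nat_lit 257)) (l (nat_lit 3) (nat_lit 258) (nat_lit 259)))) (l (nat_lit 0) (nat_lit 283) (nat_lit 311)))) (n (nat_lit 283) (b (n (nat_lit 308) (b (l (nat_lit 2) (nat_lit 283) (nat_lit 309)) (l (nat_lit 2) (nat_lit 282) (nat_lit 307)))) (l (nat_lit 0) (nat_lit 283) (nat_lit 311))))) (n (nat_lit 259) (b (n (nat_lit 260) (b (n (nat_lit 309) (b (n (nat_lit 235) (b (l (nat_lit 5) (nat_lit 234) (nat_lit 334)) (l (nat_lit 6) (nat_lit 209) (nat_lit 210)))) (l (nat_lit 2) (nat_lit 283) (nat_lit 308)))) (l (nat_lit 3) (nat_lit 259) (nat_lit 288)))) (l (nat_lit 3) (nat_lit 258) (nat_lit 258)))))) (r (nat_lit 0))) (b (n (nat_lit 288) (b (b (n (nat_lit 284) (b (b (n (nat_lit 309) (b (l (nat_lit 2) (nat_lit 283) (nat_lit 308)) (l (nat_lit 2) (nat_lit 284) (nat_lit 310)))) (n (nat_lit 311) (b (n (nat_lit 289) (b (l (nat_lit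 2) (nat_lit 286) (nat_lit 290)) (l (nat_lit 2) (nat_lit 285) (nat_lit 310)))) (l (nat_lit 0) (nat_lit 283) (nat_lit 283))))) (n (nat_lit 283) (b (n (nat_lit 308) (b (l (nat_lit 2) (nat_lit 283) (nat_lit 309)) (l (nat_lit 2) (nat_lit 282) (nat_lit 307)))) (l (nat_lit 0) (nat_lit 283) (nat_lit 311)))))) (n (nat_lit 289) (b (n (nat_lit 290) (b (n (nat_lit 315) (b (l (nat_lit 0) (nat_lit 287) (nat_lit 316)) (l (nat_lit 0) (nat_lit 286) (nat_lit 314)))) (l (nat_lit 2) (nat_lit 286) (nat_lit 311)))) (n (nat_lit 264) (b (l (nat_lit 1) (nat_lit 261) (nat_lit 265)) (l (nat_lit 1) (nat_lit 260) (nat_lit 263))))))) (n (nat_lit 284) (b (n (nat_lit 263) (b (l (nat_lit 1) (nat_lit 259) (nat_lit 262)) (l (nat_lit 1) (nat_lit 260) (nat_lit 264)))) (n (nat_lit 309) (b (l (nat_lit 2) (nat_lit 283) (nat_lit 308)) (l (nat_lit 2) (nat_lit 284) (nat_lit 310)))))))) (n (nat_lit 288) (b (b (n (nat_lit 259) (b (n (nat_lit 311) (b (n (nat_lit 289) (b (l (nat_lit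 2) (nat_lit 286) (nat_lit 290)) (l (nat_lit 2) (nat_lit 285) (nat_lit 310)))) (n (nat_lit 284) (b (l (nat_lit 3) (nat_lit 258) (nat_lit 258)) (l (nat_lit 0) (nat_lit 283) (nat_lit 283)))))) (l (nat_lit 3) (nat_lit 259) (nat_lit 260)))) (n (nat_lit 289) (b (n (nat_lit 290) (b (n (nat_lit 315) (b (l (nat_lit 0) (nat_lit 287) (nat_lit 316)) (l (nat_lit 0) (nat_lit 286) (nat_lit 314)))) (l (nat_lit 2) (nat_lit 286) (nat_lit 311)))) (n (nat_lit 264) (b (l (nat_lit 1) (nat_lit 261) (nat_lit 265)) (l (nat_lit 1) (nat_lit 260) (nat_lit 263))))))) (n (nat_lit 284) (b (n (nat_lit 263) (b (l (nat_lit 1) (nat_lit 259) (nat_lit 262)) (l (nat_lit 1) (nat_lit 260) (nat_lit 264)))) (n (nat_lit 259) (b (l (nat_lit 3) (nat_lit 258) (nat_lit 258)) (l (nat_lit 3) (nat_lit 259) (nat_lit 260)))))))))) (b (n (nat_lit 284) (b (b (n (nat_lit 288) (b (n (nat_lit 309) (b (l (nat_lit 2) (nat_lit 283) (nat_lit 308)) (l (nat_lit 2) (nat_lit 284) (nat_lit 310)))) (n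 (nat_lit 263) (b (l (nat_lit 1) (nat_lit 259) (nat_lit 262)) (l (nat_lit 1) (nat_lit 260) (nat_lit 264)))))) (n (nat_lit 283) (b (n (nat_lit 308) (b (l (nat_lit 2) (nat_lit 283) (nat_lit 309)) (l (nat_lit 2) (nat_lit 282) (nat_lit 307)))) (n (nat_lit 258) (b (l (nat_lit 3) (nat_lit 257) (nat_lit 257)) (l (nat_lit 3) (nat_lit 258) (nat_lit 259))))))) (n (nat_lit 288) (b (n (nat_lit 259) (b (l (nat_lit 3) (nat_lit 258) (nat_lit 258)) (l (nat_lit 3) (nat_lit 259) (nat_lit 260)))) (n (nat_lit 263) (b (l (nat_lit 1) (nat_lit 259) (nat_lit 262)) (l (nat_lit 1) (nat_lit 260) (nat_lit 264)))))))) (n (nat_lit 260) (b (b (n (nat_lit 235) (b (b (n (nat_lit 210) (b (n (nat_lit 185) (b (n (nat_lit 186) (b (l (nat_lit 5) (nat_lit 185) (nat_lit 211)) (l (nat_lit 5) (nat_lit 160) (nat_lit 161)))) (n (nat_lit 184) (b (l (nat_lit 7) (nat_lit 159) (nat_lit 159)) (l (nat_lit 7) (nat_lit 184) (nat_lit 209)))))) (l (nat_lit 4) (nat_lit 210) (nat_lit 311))))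 (n (nat_lit 310) (b (b (n (nat_lit 309) (b (n (nat_lit 308) (b (l (nat_lit 1) (nat_lit 283) (nat_lit 311)) (l (nat_lit 1) (nat_lit 282) (nat_lit 307)))) (l (nat_lit 6) (nat_lit 234) (nat_lit 334)))) (n (nat_lit 335) (b (n (nat_lit 334) (b (l (nat_lit 6) (nat_lit 259) (nat_lit 359)) (l (nat_lit 6) (nat_lit 234) (nat_lit 309)))) (n (nat_lit 234) (b (l (nat_lit 7) (nat_lit 234) (nat_lit 259)) (l (nat_lit 7) (nat_lit 209) (nat_lit 209))))))) (n (nat_lit 335) (b (n (nat_lit 336) (b (l (nat_lit 4) (nat_lit 235) (nat_lit 311)) (l (nat_lit 4) (nat_lit 260) (nat_lit 361)))) (n (nat_lit 234) (b (l (nat_lit 7) (nat_lit 234) (nat_lit 259)) (l (nat_lit 7) (nat_lit 209) (nat_lit 209))))))))) (b (n (nat_lit 311) (b (n (nat_lit 336) (b (l (nat_lit 4) (nat_lit 235) (nat_lit 310)) (l (nat_lit 7) (nat_lit 260) (nat_lit 361)))) (l (nat_lit 4) (nat_lit 210) (nat_lit 210)))) (r (nat_lit 1))))) (r (nat_lit 2))) (b (n (nat_lit 288) (b (n (nat_lit 289) (b (n (nat_lit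 290) (b (n (nat_lit 315) (b (l (nat_lit 0) (nat_lit 287) (nat_lit 316)) (l (nat_lit 0) (nat_lit 286) (nat_lit 314)))) (l (nat_lit 2) (nat_lit 286) (nat_lit 311)))) (n (nat_lit 264) (b (l (nat_lit 1) (nat_lit 261) (nat_lit 265)) (l (nat_lit 1) (nat_lit 260) (nat_lit 263)))))) (l (nat_lit 3) (nat_lit 259) (nat_lit 259)))) (r (nat_lit 3))))))))
    (envOK_cons p13658 (envOK_cons p13534 (envOK_cons p13679 (envOK_cons p13588 envOK_nil)))) (by decide +kernel)

theorem p13684 : Fam (nat_lit 7) (nat_lit 8343699794223886867918865425684280076135049628354806830284884040961525585345187034493899243520) (nat_lit 250050244130055481572912755777068113394964775715787104780138181525759605082315296376997703319552) (nat_lit 250050244130055481572912755777068113394964775715787104780138181525759605082315296376997703319552) :=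
  chk_sound Env.nil
    (n (nat_lit 284) (b (b (n (nat_lit 283) (b (n (nat_lit 308) (b (l (nat_lit 2) (nat_lit 283) (nat_lit 309)) (l (nat_lit 2) (nat_lit 282) (nat_lit 307)))) (n (nat_lit 258) (b (l (nat_lit 3) (nat_lit 257) (nat_lit 257)) (l (nat_lit 3) (nat_lit 258) (nat_lit 259)))))) (n (nat_lit 283) (b (n (nat_lit 258) (b (l (nat_lit 3) (nat_lit 257) (nat_lit 257)) (l (nat_lit 3) (nat_lit 258) (nat_lit 259)))) (l (nat_lit 0) (nat_lit 283) (nat_lit 311))))) (n (nat_lit 309) (b (n (nat_lit 288) (b (n (nat_lit 289) (b (n (nat_lit 290) (b (n (nat_lit 315) (b (l (nat_lit 0) (nat_lit 287) (nat_lit 316)) (l (nat_lit 0) (nat_lit 286) (nat_lit 314)))) (l (nat_lit 2) (nat_lit 286) (nat_lit 311)))) (n (nat_lit 264) (b (l (nat_lit 1) (nat_lit 261) (nat_lit 265)) (l (nat_lit 1) (nat_lit 260) (nat_lit 263)))))) (l (nat_lit 2) (nat_lit 284) (nat_lit 310)))) (l (nat_lit 2) (nat_lit 283) (nat_lit 308))))))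
    envOK_nil (by decide +kernel)

theorem p13706 : Fam (nat_lit 8) (nat_lit 1864962136536699908082683430550578150376710565490053940401739913349348113797000158248960) (nat_lit 3152160627229946891870382905373944755033642351052122332977269108067614677269334621034114432880201315495807725248446464) (nat_lit 3152160627229946891870382905373944755033642351052122332977269108067614677269334621034114432880201315495807725248446464) :=
  chk_sound Env.nil
    (n (nat_lit 264) (b (n (nat_lit 314) (b (n (nat_lit 339) (b (n (nat_lit 364) (b (n (nat_lit 363) (b (l (nat_lit 6) (nat_lit 263) (nat_lit 338)) (l (nat_lit 6) (nat_lit 288) (nat_lit 388)))) (n (nat_lit 365) (b (l (nat_lit 4) (nat_lit 289) (nat_lit 390)) (l (nat_lit 4) (nat_lit 264) (nat_lit 340)))))) (n (nat_lit 239) (b (b (n (nat_lit 238) (b (l (nat_lit 7) (nat_lit 238) (nat_lit 263)) (l (nat_lit 7) (nat_lit 213) (nat_lit 213)))) (n (nat_lit 214) (b (n (nat_lit 215) (b (l (nat_lit 5) (nat_lit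 214) (nat_lit 240)) (l (nat_lit 5) (nat_lit 189) (nat_lit 190)))) (n (nat_lit 263) (b (l (nat_lit 7) (nat_lit 238) (nat_lit 238)) (l (nat_lit 6) (nat_lit 188) (nat_lit 189))))))) (b (n (nat_lit 214) (b (n (nat_lit 189) (b (n (nat_lit 188) (b (l (nat_lit 7) (nat_lit 188) (nat_lit 213)) (l (nat_lit 7) (nat_lit 163) (nat_lit 163)))) (l (nat_lit 6) (nat_lit 188) (nat_lit 263)))) (n (nat_lit 215) (b (l (nat_lit 5) (nat_lit 214) (nat_lit 240)) (l (nat_lit 5) (nat_lit 189) (nat_lit 190)))))) (n (nat_lit 214) (b (n (nat_lit 215) (b (l (nat_lit 5) (nat_lit 214) (nat_lit 240)) (l (nat_lit 5) (nat_lit 189) (nat_lit 190)))) (n (nat_lit 213) (b (l (nat_lit 7) (nat_lit 188) (nat_lit 188)) (l (nat_lit 7) (nat_lit 213) (nat_lit 238))))))))))) (l (nat_lit 0) (nat_lit 286) (nat_lit 315)))) (l (nat_lit 1) (nat_lit 261) (nat_lit 265))))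
    envOK_nil (by decide +kernel)

theorem p13708 : Fam (nat_lit 9) (nat_lit 870315663717126623771918934256936470175798263895358505520811959563029119771933407182848) (nat_lit 3152160627229946891870516404569750939224365653313844358235594036596509569484458297861658283208449613037093205592506368) (nat_lit 3152160627229946891870516404569750939224365653313844358235594036596509569484458297861658283208449613037093205592506368) :=
  chk_sound (Env.cons (nat_lit 8) (nat_lit 1864962136536699908082683430550578150376710565490053940401739913349348113797000158248960) (nat_lit 3152160627229946891870382905373944755033642351052122332977269108067614677269334621034114432880201315495807725248446464) Env.nil)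
    (n (nat_lit 289) (b (b (b (n (nat_lit 315) (b (n (nat_lit 290) (b (n (nat_lit 262) (b (n (nat_lit 263) (b (n (nat_lit 285) (b (l (nat_lit 1) (nat_lit 260) (nat_lit 264)) (l (nat_lit 1) (nat_lit 259) (nat_lit 284)))) (l (nat_lit 3) (nat_lit 262) (nat_lit 291)))) (l (nat_lit 3) (nat_lit 261) (nat_lit 261)))) (l (nat_lit 0) (nat_lit 287) (nat_lit 316)))) (l (nat_lit 0) (nat_lit 286) (nat_lit 314)))) (n (nat_lit 290) (b (n (nat_lit 291) (b (n (nat_lit 266) (b (l (nat_lit 1) (nat_lit 263) (nat_lit 267)) (l (nat_lit 1) (nat_lit 262) (nat_lit 265)))) (n (nat_lit 262) (b (l (nat_lit 3) (nat_lit 262) (nat_lit 263)) (l (nat_lit 3) (nat_lit 261) (nat_lit 261)))))) (n (nat_lit 315) (b (l (nat_lit 0) (nat_lit 287) (nat_lit 316)) (l (nat_lit 0) (nat_lit 286) (nat_lit 314))))))) (b (r (nat_lit 0)) (n (nat_lit 290) (b (n (nat_lit 265) (b (l (nat_lit 1) (nat_lit 261) (nat_lit 264)) (l (nat_lit 1) (nat_lit 262) (nat_lit 266)))) (n (nat_lit 315) (b (l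 (nat_lit 0) (nat_lit 287) (nat_lit 316)) (l (nat_lit 0) (nat_lit 286) (nat_lit 314)))))))) (n (nat_lit 290) (b (b (n (nat_lit 265) (b (l (nat_lit 1) (nat_lit 261) (nat_lit 264)) (l (nat_lit 1) (nat_lit 262) (nat_lit 266)))) (n (nat_lit 262) (b (n (nat_lit 263) (b (n (nat_lit 285) (b (l (nat_lit 1) (nat_lit 260) (nat_lit 264)) (l (nat_lit 1) (nat_lit 259) (nat_lit 284)))) (l (nat_lit 3) (nat_lit 262) (nat_lit 291)))) (l (nat_lit 3) (nat_lit 261) (nat_lit 261))))) (n (nat_lit 291) (b (n (nat_lit 266) (b (l (nat_lit 1) (nat_lit 263) (nat_lit 267)) (l (nat_lit 1) (nat_lit 262) (nat_lit 265)))) (n (nat_lit 262) (b (l (nat_lit 3) (nat_lit 262) (nat_lit 263)) (l (nat_lit 3) (nat_lit 261) (nat_lit 261))))))))))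
    (envOK_cons p13706 envOK_nil) (by decide +kernel)

theorem p13712 : Fam (nat_lit 7) (nat_lit 8343700229381718726482177311643747204603284716253938777964136801367505366859746920460602834944) (nat_lit 236412044223994833571491728502213269511474737948026450049130106657228976752421036871248463631705891387567106563244032) (nat_lit 236412044223994833571491728502213269511474737948026450049130106657228976752421036871248463631705891387567106563244032) :=
  chk_sound Env.nil
    (n (nat_lit 289) (b (b (n (nat_lit 261) (b (n (nat_lit 311) (b (n (nat_lit 336) (b (n (nat_lit 361) (b (n (nat_lit 360) (b (l (nat_lit 6) (nat_lit 285) (nat_lit 385)) (l (nat_lit 6) (nat_lit 260) (nat_lit 335)))) (l (nat_lit 5) (nat_lit 286) (nat_lit 386)))) (n (nat_lit 237) (b (n (nat_lit 236) (b (l (nat_lit 4) (nat_lit 211) (nat_lit 211)) (l (nat_lit 5) (nat_lit 211) (nat_lit 212)))) (l (nat_lit 6) (nat_lit 236) (nat_lit 262)))))) (l (nat_lit 2) (nat_lit 285) (nat_lit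 310)))) (l (nat_lit 3) (nat_lit 260) (nat_lit 260)))) (n (nat_lit 290) (b (n (nat_lit 291) (b (n (nat_lit 266) (b (l (nat_lit 1) (nat_lit 263) (nat_lit 267)) (l (nat_lit 1) (nat_lit 262) (nat_lit 265)))) (n (nat_lit 262) (b (l (nat_lit 3) (nat_lit 262) (nat_lit 263)) (l (nat_lit 3) (nat_lit 261) (nat_lit 261)))))) (n (nat_lit 315) (b (l (nat_lit 0) (nat_lit 287) (nat_lit 316)) (l (nat_lit 0) (nat_lit 286) (nat_lit 314))))))) (n (nat_lit 290) (b (n (nat_lit 315) (b (l (nat_lit 0) (nat_lit 287) (nat_lit 316)) (l (nat_lit 0) (nat_lit 286) (nat_lit 314)))) (l (nat_lit 2) (nat_lit 286) (nat_lit 311))))))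
    envOK_nil (by decide +kernel)

theorem p13727 : Fam (nat_lit 8) (nat_lit 8343700291547123277705507581066528222955889728810957627632601481425502478504684047027274776576) (nat_lit 139984058901662765322750633408478201960754684052719950274046188845542482114735636129256219720789524480) (nat_lit 139984058901662765322750633408478201960754684052719950274046188845542482114735636129256219720789524480) :=
  chk_sound Env.nil
    (n (nat_lit 263) (b (n (nat_lit 262) (b (n (nat_lit 237) (b (b (n (nat_lit 311) (b (l (nat_lit 6) (nat_lit 236) (nat_lit 336)) (l (nat_lit 6) (nat_lit 211) (nat_lit 212)))) (n (nat_lit 238) (b (n (nat_lit 235) (b (b (n (nat_lit 260) (b (n (nat_lit 261) (b (l (nat_lit 3) (nat_lit 234) (nat_lit 234)) (l (nat_lit 1) (nat_lit 235) (nat_lit 239)))) (n (nat_lit 311) (b (l (nat_lit 6) (nat_lit 236) (nat_lit 336)) (l (nat_lit 4) (nat_lit 210) (nat_lit 210)))))) (n (nat_lit 236) (b (l (nat_lit 7) (nat_lit 211) (nat_lit 211)) (l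 (nat_lit 0) (nat_lit 234) (nat_lit 234))))) (n (nat_lit 210) (b (n (nat_lit 311) (b (l (nat_lit 6) (nat_lit 236) (nat_lit 336)) (l (nat_lit 4) (nat_lit 210) (nat_lit 260)))) (n (nat_lit 236) (b (l (nat_lit 7) (nat_lit 211) (nat_lit 211)) (l (nat_lit 3) (nat_lit 209) (nat_lit 209)))))))) (l (nat_lit 6) (nat_lit 212) (nat_lit 213))))) (n (nat_lit 213) (b (n (nat_lit 212) (b (l (nat_lit 4) (nat_lit 187) (nat_lit 187)) (l (nat_lit 5) (nat_lit 187) (nat_lit 188)))) (l (nat_lit 6) (nat_lit 212) (nat_lit 238)))))) (l (nat_lit 1) (nat_lit 259) (nat_lit 284)))) (l (nat_lit 1) (nat_lit 260) (nat_lit 264))))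
    envOK_nil (by decide +kernel)

theorem p13760 : Fam (nat_lit 12) (nat_lit 8343699732058482316695535156261499057782444615797787980616419360903528473700249907927227301888) (nat_lit 6610563115877164814126701615317224272092254884792607471371227035462647531346653023598293408196663962523772255821929667100672) (nat_lit 6610563115877164814126701615317224272092254884792607471371227035462647531346653023598293408196663962523772255821929667100672) :=
  chk_sound (Env.cons (nat_lit 9) (nat_lit 870315663717126623771918934256936470175798263895358505520811959563029119771933407182848) (nat_lit 3152160627229946891870516404569750939224365653313844358235594036596509569484458297861658283208449613037093205592506368) (Env.cons (nat_lit 7) (nat_lit 8343700229381718726482177311643747204603284716253938777964136801367505366859746920460602834944) (nat_lit 236412044223994833571491728502213269511474737948026450049130106657228976752421036871248463631705891387567106563244032)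 (Env.cons (nat_lit 8) (nat_lit 1864962136536699908082683430550578150376710565490053940401739913349348113797000158248960) (nat_lit 3152160627229946891870382905373944755033642351052122332977269108067614677269334621034114432880201315495807725248446464) (Env.cons (nat_lit 8) (nat_lit 8343700291547123277705507581066528222955889728810957627632601481425502478504684047027274776576) (nat_lit 139984058901662765322750633408478201960754684052719950274046188845542482114735636129256219720789524480) Env.nil))))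
    (n (nat_lit 288) (b (b (b (r (nat_lit 0)) (r (nat_lit 1))) (b (n (nat_lit 289) (b (n (nat_lit 290) (b (n (nat_lit 265) (b (l (nat_lit 1) (nat_lit 261) (nat_lit 264)) (l (nat_lit 1) (nat_lit 262) (nat_lit 266)))) (n (nat_lit 315) (b (l (nat_lit 0) (nat_lit 287) (nat_lit 316)) (l (nat_lit 0) (nat_lit 286) (nat_lit 314)))))) (n (nat_lit 261) (b (n (nat_lit 311) (b (n (nat_lit 336) (b (n (nat_lit 361) (b (n (nat_lit 360) (b (l (nat_lit 6) (nat_lit 285) (nat_lit 385)) (l (nat_lit 6) (nat_lit 260) (nat_lit 335)))) (l (nat_lit 5) (nat_lit 286) (nat_lit 386)))) (n (nat_lit 237) (b (n (nat_lit 236) (b (l (nat_lit 4) (nat_lit 211) (nat_lit 211)) (l (nat_lit 5) (nat_lit 211) (nat_lit 212)))) (l (nat_lit 6) (nat_lit 236) (nat_lit 262)))))) (l (nat_lit 2) (nat_lit 285) (nat_lit 310)))) (l (nat_lit 3) (nat_lit 260) (nat_lit 260)))))) (n (nat_lit 289) (b (r (nat_lit 2)) (n (nat_lit 311) (b (l (nat_lit 2) (nat_lit 285) (nat_lit 310)) (l (nat_lit 2)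 (nat_lit 286) (nat_lit 290)))))))) (n (nat_lit 285) (b (b (r (nat_lit 3)) (n (nat_lit 284) (b (b (n (nat_lit 283) (b (n (nat_lit 282) (b (n (nat_lit 307) (b (l (nat_lit 2) (nat_lit 281) (nat_lit 306)) (l (nat_lit 2) (nat_lit 282) (nat_lit 308)))) (n (nat_lit 257) (b (l (nat_lit 3) (nat_lit 256) (nat_lit 256)) (l (nat_lit 3) (nat_lit 257) (nat_lit 258)))))) (l (nat_lit 0) (nat_lit 283) (nat_lit 311)))) (n (nat_lit 309) (b (l (nat_lit 2) (nat_lit 283) (nat_lit 308)) (l (nat_lit 2) (nat_lit 284) (nat_lit 310))))) (n (nat_lit 310) (b (n (nat_lit 311) (b (n (nat_lit 335) (b (b (n (nat_lit 260) (b (n (nat_lit 236) (b (n (nat_lit 235) (b (l (nat_lit 4) (nat_lit 210) (nat_lit 210)) (l (nat_lit 5) (nat_lit 210) (nat_lit 211)))) (l (nat_lit 6) (nat_lit 235) (nat_lit 261)))) (n (nat_lit 336) (b (n (nat_lit 334) (b (l (nat_lit 6) (nat_lit 259) (nat_lit 359)) (l (nat_lit 1) (nat_lit 308) (nat_lit 333)))) (l (nat_lit 7) (nat_lit 260) (nat_lit 361))))))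 (n (nat_lit 261) (b (l (nat_lit 5) (nat_lit 260) (nat_lit 360)) (l (nat_lit 6) (nat_lit 235) (nat_lit 236))))) (n (nat_lit 361) (b (b (n (nat_lit 360) (b (l (nat_lit 4) (nat_lit 285) (nat_lit 386)) (l (nat_lit 5) (nat_lit 285) (nat_lit 385)))) (n (nat_lit 336) (b (l (nat_lit 5) (nat_lit 286) (nat_lit 386)) (l (nat_lit 4) (nat_lit 260) (nat_lit 260))))) (n (nat_lit 359) (b (n (nat_lit 360) (b (l (nat_lit 5) (nat_lit 285) (nat_lit 385)) (l (nat_lit 6) (nat_lit 284) (nat_lit 384)))) (n (nat_lit 260) (b (l (nat_lit 6) (nat_lit 259) (nat_lit 334)) (l (nat_lit 4) (nat_lit 260) (nat_lit 336)))))))))) (l (nat_lit 0) (nat_lit 283) (nat_lit 283)))) (l (nat_lit 2) (nat_lit 284) (nat_lit 309))))))) (b (n (nat_lit 284) (b (n (nat_lit 263) (b (l (nat_lit 1) (nat_lit 259) (nat_lit 262)) (l (nat_lit 1) (nat_lit 260) (nat_lit 264)))) (n (nat_lit 309) (b (l (nat_lit 2) (nat_lit 283) (nat_lit 308)) (l (nat_lit 2) (nat_lit 284) (nat_lit 310)))))) (n (nat_lit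 310) (b (n (nat_lit 335) (b (b (n (nat_lit 360) (b (b (n (nat_lit 260) (b (n (nat_lit 361) (b (l (nat_lit 4) (nat_lit 285) (nat_lit 386)) (l (nat_lit 4) (nat_lit 260) (nat_lit 336)))) (n (nat_lit 359) (b (l (nat_lit 6) (nat_lit 259) (nat_lit 334)) (l (nat_lit 6) (nat_lit 284) (nat_lit 384)))))) (n (nat_lit 385) (b (n (nat_lit 386) (b (l (nat_lit 4) (nat_lit 310) (nat_lit 411)) (l (nat_lit 4) (nat_lit 285) (nat_lit 361)))) (l (nat_lit 5) (nat_lit 285) (nat_lit 311))))) (n (nat_lit 385) (b (n (nat_lit 384) (b (l (nat_lit 6) (nat_lit 284) (nat_lit 359)) (l (nat_lit 6) (nat_lit 309) (nat_lit 409)))) (l (nat_lit 5) (nat_lit 285) (nat_lit 311)))))) (n (nat_lit 360) (b (n (nat_lit 385) (b (n (nat_lit 384) (b (l (nat_lit 6) (nat_lit 284) (nat_lit 359)) (l (nat_lit 6) (nat_lit 309) (nat_lit 409)))) (n (nat_lit 386) (b (l (nat_lit 4) (nat_lit 310) (nat_lit 411)) (l (nat_lit 4) (nat_lit 285) (nat_lit 361)))))) (l (nat_lit 5) (nat_lit 260) (nat_lit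 261))))) (b (n (nat_lit 261) (b (n (nat_lit 236) (b (l (nat_lit 6) (nat_lit 210) (nat_lit 211)) (l (nat_lit 6) (nat_lit 235) (nat_lit 311)))) (l (nat_lit 5) (nat_lit 260) (nat_lit 360)))) (n (nat_lit 263) (b (n (nat_lit 260) (b (b (n (nat_lit 336) (b (n (nat_lit 334) (b (n (nat_lit 311) (b (l (nat_lit 1) (nat_lit 308) (nat_lit 333)) (l (nat_lit 4) (nat_lit 235) (nat_lit 235)))) (l (nat_lit 6) (nat_lit 259) (nat_lit 359)))) (l (nat_lit 4) (nat_lit 260) (nat_lit 361)))) (n (nat_lit 236) (b (n (nat_lit 235) (b (n (nat_lit 234) (b (n (nat_lit 237) (b (n (nat_lit 213) (b (l (nat_lit 6) (nat_lit 212) (nat_lit 238)) (l (nat_lit 1) (nat_lit 209) (nat_lit 212)))) (l (nat_lit 0) (nat_lit 234) (nat_lit 262)))) (l (nat_lit 7) (nat_lit 209) (nat_lit 209)))) (l (nat_lit 5) (nat_lit 210) (nat_lit 211)))) (l (nat_lit 5) (nat_lit 235) (nat_lit 261))))) (n (nat_lit 261) (b (n (nat_lit 336) (b (n (nat_lit 238) (b (n (nat_lit 311) (b (n (nat_lit 334) (b (l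 (nat_lit 6) (nat_lit 259) (nat_lit 359)) (l (nat_lit 1) (nat_lit 308) (nat_lit 333)))) (n (nat_lit 262) (b (l (nat_lit 1) (nat_lit 235) (nat_lit 239)) (l (nat_lit 6) (nat_lit 236) (nat_lit 237)))))) (l (nat_lit 6) (nat_lit 212) (nat_lit 213)))) (l (nat_lit 4) (nat_lit 260) (nat_lit 361)))) (l (nat_lit 5) (nat_lit 235) (nat_lit 236)))))) (l (nat_lit 1) (nat_lit 260) (nat_lit 264))))))) (l (nat_lit 2) (nat_lit 284) (nat_lit 309)))))))))
    (envOK_cons p13708 (envOK_cons p13712 (envOK_cons p13706 (envOK_cons p13727 envOK_nil)))) (by decide +kernel)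

theorem p13777 : Fam (nat_lit 9) (nat_lit 8343700291547123277705507581066528222955889728810957627632601481425502478504684047027274776576) (nat_lit 7045627958297583864312397376851118822306282048157181173227531800438275693452350228188246953827411729619877888) (nat_lit 7045627958297583864312397376851118822306282048157181173227531800438275693452350228188246953827411729619877888) :=
  chk_sound Env.nil
    (n (nat_lit 260) (b (n (nat_lit 311) (b (b (n (nat_lit 336) (b (n (nat_lit 235) (b (l (nat_lit 7) (nat_lit 235) (nat_lit 261)) (l (nat_lit 4) (nat_lit 210) (nat_lit 210)))) (l (nat_lit 7) (nat_lit 260) (nat_lit 361)))) (n (nat_lit 235) (b (n (nat_lit 336) (b (l (nat_lit 4) (nat_lit 235) (nat_lit 310)) (l (nat_lit 7) (nat_lit 260) (nat_lit 361)))) (l (nat_lit 4) (nat_lit 210) (nat_lit 210))))) (b (n (nat_lit 336) (b (n (nat_lit 262) (b (n (nat_lit 261) (b (n (nat_lit 335) (b (n (nat_lit 236) (b (l (nat_lit 4) (nat_lit 211) (nat_lit 211)) (l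 (nat_lit 6) (nat_lit 235) (nat_lit 310)))) (l (nat_lit 6) (nat_lit 260) (nat_lit 360)))) (n (nat_lit 263) (b (n (nat_lit 238) (b (l (nat_lit 6) (nat_lit 212) (nat_lit 213)) (l (nat_lit 1) (nat_lit 235) (nat_lit 239)))) (l (nat_lit 2) (nat_lit 260) (nat_lit 264)))))) (l (nat_lit 6) (nat_lit 236) (nat_lit 237)))) (l (nat_lit 7) (nat_lit 260) (nat_lit 361)))) (n (nat_lit 263) (b (n (nat_lit 238) (b (n (nat_lit 261) (b (b (n (nat_lit 262) (b (n (nat_lit 235) (b (l (nat_lit 4) (nat_lit 210) (nat_lit 210)) (l (nat_lit 3) (nat_lit 234) (nat_lit 234)))) (l (nat_lit 1) (nat_lit 235) (nat_lit 239)))) (n (nat_lit 236) (b (n (nat_lit 237) (b (l (nat_lit 2) (nat_lit 235) (nat_lit 239)) (l (nat_lit 5) (nat_lit 211) (nat_lit 212)))) (l (nat_lit 4) (nat_lit 211) (nat_lit 211))))) (n (nat_lit 235) (b (n (nat_lit 310) (b (n (nat_lit 234) (b (l (nat_lit 7) (nat_lit 209) (nat_lit 209)) (l (nat_lit 3) (nat_lit 234) (nat_lit 262)))) (n (nat_lit 335) (b (l (nat_lit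 5) (nat_lit 235) (nat_lit 236)) (l (nat_lit 5) (nat_lit 260) (nat_lit 360)))))) (l (nat_lit 4) (nat_lit 210) (nat_lit 210)))))) (l (nat_lit 6) (nat_lit 212) (nat_lit 213)))) (l (nat_lit 1) (nat_lit 260) (nat_lit 264))))))) (l (nat_lit 3) (nat_lit 259) (nat_lit 259))))
    envOK_nil (by decide +kernel)

theorem p14019 : Fam (nat_lit 11) (nat_lit 8343699794223916510693710178630308510307211852459217267400958444945919686486693060255087067136) (nat_lit 3703788730419267942729358179591845214965875709298022534892963704231263117686768881338545802511922774644371085863157760) (nat_lit 3703788730419267942729358179591845214965875709298022534892963704231263117686768881338545802511922774644371085863157760) :=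
  chk_sound Env.nil
    (n (nat_lit 289) (b (b (n (nat_lit 288) (b (n (nat_lit 310) (b (l (nat_lit 2) (nat_lit 284) (nat_lit 309)) (l (nat_lit 2) (nat_lit 285) (nat_lit 311)))) (l (nat_lit 1) (nat_lit 261) (nat_lit 265)))) (n (nat_lit 314) (b (b (n (nat_lit 265) (b (n (nat_lit 240) (b (n (nat_lit 215) (b (l (nat_lit 6) (nat_lit 189) (nat_lit 190)) (l (nat_lit 5) (nat_lit 214) (nat_lit 239)))) (l (nat_lit 5) (nat_lit 239) (nat_lit 339)))) (l (nat_lit 1) (nat_lit 261) (nat_lit 288)))) (n (nat_lit 315) (b (n (nat_lit 340) (b (n (nat_lit 365) (b (l (nat_lit 7) (nat_lit 264) (nat_lit 290)) (l (nat_lit 7) (nat_lit 289) (nat_lit 390)))) (l (nat_lit 4) (nat_lit 239) (nat_lit 239)))) (l (nat_lit 0) (nat_lit 286) (nat_lit 288))))) (b (n (nat_lit 339) (b (b (n (nat_lit 239) (b (n (nat_lit 240) (b (l (nat_lit 5) (nat_lit 239) (nat_lit 265)) (l (nat_lit 5) (nat_lit 214) (nat_lit 215)))) (n (nat_lit 340) (b (l (nat_lit 4) (nat_lit 239) (nat_lit 315))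 (l (nat_lit 4) (nat_lit 264) (nat_lit 365)))))) (n (nat_lit 364) (b (n (nat_lit 363) (b (l (nat_lit 6) (nat_lit 263) (nat_lit 338)) (l (nat_lit 6) (nat_lit 288) (nat_lit 388)))) (n (nat_lit 365) (b (l (nat_lit 4) (nat_lit 289) (nat_lit 390)) (l (nat_lit 4) (nat_lit 264) (nat_lit 340))))))) (n (nat_lit 364) (b (n (nat_lit 265) (b (l (nat_lit 5) (nat_lit 264) (nat_lit 290)) (l (nat_lit 5) (nat_lit 239) (nat_lit 240)))) (n (nat_lit 363) (b (l (nat_lit 6) (nat_lit 263) (nat_lit 338)) (l (nat_lit 6) (nat_lit 288) (nat_lit 388)))))))) (n (nat_lit 288) (b (l (nat_lit 0) (nat_lit 286) (nat_lit 315)) (l (nat_lit 1) (nat_lit 261) (nat_lit 265)))))))) (b (n (nat_lit 239) (b (b (b (n (nat_lit 314) (b (n (nat_lit 214) (b (n (nat_lit 215) (b (l (nat_lit 5) (nat_lit 214) (nat_lit 240)) (l (nat_lit 5) (nat_lit 189) (nat_lit 190)))) (n (nat_lit 213) (b (l (nat_lit 7) (nat_lit 188) (nat_lit 188)) (l (nat_lit 7) (nat_lit 213) (nat_lit 238)))))) (n (nat_lit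 315) (b (l (nat_lit 0) (nat_lit 286) (nat_lit 288)) (l (nat_lit 4) (nat_lit 239) (nat_lit 340)))))) (n (nat_lit 288) (b (n (nat_lit 310) (b (l (nat_lit 2) (nat_lit 284) (nat_lit 309)) (l (nat_lit 2) (nat_lit 285) (nat_lit 311)))) (n (nat_lit 315) (b (n (nat_lit 290) (b (l (nat_lit 4) (nat_lit 214) (nat_lit 214)) (l (nat_lit 0) (nat_lit 287) (nat_lit 316)))) (l (nat_lit 0) (nat_lit 286) (nat_lit 314))))))) (b (n (nat_lit 214) (b (b (n (nat_lit 314) (b (n (nat_lit 215) (b (l (nat_lit 5) (nat_lit 214) (nat_lit 240)) (l (nat_lit 5) (nat_lit 189) (nat_lit 190)))) (n (nat_lit 315) (b (l (nat_lit 4) (nat_lit 239) (nat_lit 340)) (l (nat_lit 4) (nat_lit 214) (nat_lit 290)))))) (n (nat_lit 189) (b (n (nat_lit 188) (b (l (nat_lit 7) (nat_lit 188) (nat_lit 213)) (l (nat_lit 7) (nat_lit 163) (nat_lit 163)))) (n (nat_lit 190) (b (l (nat_lit 5) (nat_lit 164) (nat_lit 165)) (l (nat_lit 5) (nat_lit 189) (nat_lit 215))))))) (n (nat_lit 314) (b (n (nat_lit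 315) (b (l (nat_lit 4) (nat_lit 239) (nat_lit 340)) (l (nat_lit 4) (nat_lit 214) (nat_lit 290)))) (n (nat_lit 213) (b (l (nat_lit 7) (nat_lit 188) (nat_lit 188)) (l (nat_lit 7) (nat_lit 213) (nat_lit 238)))))))) (n (nat_lit 311) (b (n (nat_lit 288) (b (l (nat_lit 2) (nat_lit 286) (nat_lit 290)) (l (nat_lit 2) (nat_lit 285) (nat_lit 310)))) (n (nat_lit 214) (b (b (n (nat_lit 237) (b (b (n (nat_lit 236) (b (n (nat_lit 261) (b (l (nat_lit 5) (nat_lit 211) (nat_lit 212)) (l (nat_lit 4) (nat_lit 211) (nat_lit 211)))) (n (nat_lit 215) (b (l (nat_lit 1) (nat_lit 211) (nat_lit 238)) (l (nat_lit 5) (nat_lit 189) (nat_lit 190)))))) (n (nat_lit 262) (b (l (nat_lit 6) (nat_lit 236) (nat_lit 336)) (l (nat_lit 6) (nat_lit 211) (nat_lit 212))))) (n (nat_lit 236) (b (n (nat_lit 262) (b (l (nat_lit 6) (nat_lit 236) (nat_lit 336)) (l (nat_lit 7) (nat_lit 211) (nat_lit 211)))) (n (nat_lit 215) (b (l (nat_lit 1) (nat_lit 211) (nat_lit 238)) (l (nat_lit 5)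 (nat_lit 189) (nat_lit 190)))))))) (n (nat_lit 189) (b (n (nat_lit 188) (b (l (nat_lit 7) (nat_lit 188) (nat_lit 213)) (l (nat_lit 7) (nat_lit 163) (nat_lit 163)))) (n (nat_lit 190) (b (l (nat_lit 5) (nat_lit 164) (nat_lit 165)) (l (nat_lit 5) (nat_lit 189) (nat_lit 215))))))) (n (nat_lit 336) (b (b (n (nat_lit 213) (b (n (nat_lit 237) (b (n (nat_lit 236) (b (b (n (nat_lit 235) (b (n (nat_lit 212) (b (l (nat_lit 2) (nat_lit 210) (nat_lit 211)) (l (nat_lit 1) (nat_lit 209) (nat_lit 234)))) (l (nat_lit 1) (nat_lit 210) (nat_lit 238)))) (n (nat_lit 261) (b (l (nat_lit 5) (nat_lit 211) (nat_lit 212)) (l (nat_lit 4) (nat_lit 211) (nat_lit 211))))) (b (n (nat_lit 261) (b (n (nat_lit 235) (b (l (nat_lit 1) (nat_lit 210) (nat_lit 238)) (l (nat_lit 7) (nat_lit 210) (nat_lit 210)))) (l (nat_lit 4) (nat_lit 211) (nat_lit 211)))) (n (nat_lit 235) (b (n (nat_lit 212) (b (l (nat_lit 5) (nat_lit 211) (nat_lit 261)) (l (nat_lit 1) (nat_lit 209) (nat_lit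 234)))) (l (nat_lit 1) (nat_lit 210) (nat_lit 238))))))) (l (nat_lit 6) (nat_lit 236) (nat_lit 262)))) (l (nat_lit 7) (nat_lit 188) (nat_lit 188)))) (n (nat_lit 361) (b (l (nat_lit 5) (nat_lit 261) (nat_lit 262)) (l (nat_lit 5) (nat_lit 286) (nat_lit 386))))) (n (nat_lit 361) (b (n (nat_lit 360) (b (n (nat_lit 362) (b (n (nat_lit 335) (b (n (nat_lit 334) (b (l (nat_lit 3) (nat_lit 334) (nat_lit 363)) (l (nat_lit 0) (nat_lit 333) (nat_lit 333)))) (l (nat_lit 6) (nat_lit 260) (nat_lit 261)))) (l (nat_lit 4) (nat_lit 286) (nat_lit 387)))) (l (nat_lit 6) (nat_lit 285) (nat_lit 385)))) (l (nat_lit 5) (nat_lit 286) (nat_lit 386)))))))))))) (n (nat_lit 262) (b (b (n (nat_lit 311) (b (n (nat_lit 336) (b (l (nat_lit 5) (nat_lit 261) (nat_lit 361)) (l (nat_lit 6) (nat_lit 236) (nat_lit 237)))) (n (nat_lit 288) (b (l (nat_lit 2) (nat_lit 286) (nat_lit 290)) (l (nat_lit 2) (nat_lit 285) (nat_lit 310)))))) (n (nat_lit 288) (b (n (nat_lit 290) (b (n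 (nat_lit 315) (b (l (nat_lit 0) (nat_lit 287) (nat_lit 316)) (l (nat_lit 0) (nat_lit 286) (nat_lit 314)))) (l (nat_lit 3) (nat_lit 261) (nat_lit 261)))) (n (nat_lit 310) (b (l (nat_lit 2) (nat_lit 284) (nat_lit 309)) (l (nat_lit 2) (nat_lit 285) (nat_lit 311))))))) (b (n (nat_lit 238) (b (b (n (nat_lit 240) (b (n (nat_lit 314) (b (n (nat_lit 315) (b (l (nat_lit 0) (nat_lit 286) (nat_lit 288)) (l (nat_lit 4) (nat_lit 239) (nat_lit 340)))) (l (nat_lit 5) (nat_lit 214) (nat_lit 215)))) (n (nat_lit 237) (b (n (nat_lit 211) (b (l (nat_lit 7) (nat_lit 211) (nat_lit 236)) (l (nat_lit 3) (nat_lit 211) (nat_lit 212)))) (l (nat_lit 2) (nat_lit 236) (nat_lit 261)))))) (n (nat_lit 314) (b (n (nat_lit 315) (b (l (nat_lit 0) (nat_lit 286) (nat_lit 288)) (l (nat_lit 4) (nat_lit 239) (nat_lit 340)))) (l (nat_lit 7) (nat_lit 213) (nat_lit 213))))) (n (nat_lit 237) (b (n (nat_lit 240) (b (n (nat_lit 211) (b (l (nat_lit 7) (nat_lit 211) (nat_lit 236)) (l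 (nat_lit 3) (nat_lit 211) (nat_lit 212)))) (l (nat_lit 2) (nat_lit 236) (nat_lit 261)))) (l (nat_lit 5) (nat_lit 212) (nat_lit 213)))))) (n (nat_lit 237) (b (n (nat_lit 238) (b (n (nat_lit 240) (b (n (nat_lit 215) (b (l (nat_lit 5) (nat_lit 214) (nat_lit 314)) (l (nat_lit 1) (nat_lit 212) (nat_lit 216)))) (l (nat_lit 2) (nat_lit 236) (nat_lit 261)))) (l (nat_lit 5) (nat_lit 212) (nat_lit 213)))) (n (nat_lit 311) (b (l (nat_lit 6) (nat_lit 236) (nat_lit 336)) (l (nat_lit 6) (nat_lit 211) (nat_lit 212))))))))))) (n (nat_lit 239) (b (b (b (n (nat_lit 214) (b (b (n (nat_lit 314) (b (b (n (nat_lit 315) (b (l (nat_lit 4) (nat_lit 239) (nat_lit 340)) (l (nat_lit 4) (nat_lit 214) (nat_lit 290)))) (n (nat_lit 339) (b (n (nat_lit 364) (b (n (nat_lit 363) (b (l (nat_lit 6) (nat_lit 263) (nat_lit 338)) (l (nat_lit 6) (nat_lit 288) (nat_lit 388)))) (n (nat_lit 365) (b (l (nat_lit 4) (nat_lit 289) (nat_lit 390)) (l (nat_lit 4) (nat_lit 264) (nat_lit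 340)))))) (n (nat_lit 240) (b (l (nat_lit 5) (nat_lit 239) (nat_lit 265)) (l (nat_lit 5) (nat_lit 214) (nat_lit 215))))))) (n (nat_lit 265) (b (n (nat_lit 240) (b (l (nat_lit 5) (nat_lit 214) (nat_lit 215)) (l (nat_lit 5) (nat_lit 239) (nat_lit 339)))) (n (nat_lit 290) (b (l (nat_lit 4) (nat_lit 214) (nat_lit 315)) (l (nat_lit 4) (nat_lit 189) (nat_lit 189)))))))) (n (nat_lit 314) (b (n (nat_lit 215) (b (l (nat_lit 5) (nat_lit 214) (nat_lit 240)) (l (nat_lit 5) (nat_lit 189) (nat_lit 190)))) (n (nat_lit 315) (b (l (nat_lit 4) (nat_lit 239) (nat_lit 340)) (l (nat_lit 4) (nat_lit 214) (nat_lit 290))))))) (b (n (nat_lit 189) (b (n (nat_lit 164) (b (n (nat_lit 165) (b (l (nat_lit 5) (nat_lit 164) (nat_lit 190)) (l (nat_lit 5) (nat_lit 139) (nat_lit 140)))) (n (nat_lit 163) (b (l (nat_lit 7) (nat_lit 138) (nat_lit 138)) (l (nat_lit 7) (nat_lit 163) (nat_lit 188)))))) (n (nat_lit 290) (b (l (nat_lit 4) (nat_lit 189) (nat_lit 265)) (l (nat_lit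 4) (nat_lit 214) (nat_lit 315)))))) (n (nat_lit 189) (b (b (n (nat_lit 164) (b (n (nat_lit 163) (b (l (nat_lit 7) (nat_lit 138) (nat_lit 138)) (l (nat_lit 7) (nat_lit 163) (nat_lit 188)))) (n (nat_lit 240) (b (n (nat_lit 215) (b (l (nat_lit 5) (nat_lit 214) (nat_lit 314)) (l (nat_lit 4) (nat_lit 139) (nat_lit 139)))) (l (nat_lit 4) (nat_lit 164) (nat_lit 265)))))) (n (nat_lit 190) (b (l (nat_lit 5) (nat_lit 164) (nat_lit 165)) (l (nat_lit 5) (nat_lit 189) (nat_lit 215))))) (n (nat_lit 164) (b (n (nat_lit 165) (b (l (nat_lit 5) (nat_lit 164) (nat_lit 190)) (l (nat_lit 5) (nat_lit 139) (nat_lit 140)))) (n (nat_lit 163) (b (l (nat_lit 7) (nat_lit 138) (nat_lit 138)) (l (nat_lit 7) (nat_lit 163) (nat_lit 188))))))))))) (n (nat_lit 214) (b (b (n (nat_lit 314) (b (b (n (nat_lit 315) (b (l (nat_lit 4) (nat_lit 239) (nat_lit 340)) (l (nat_lit 4) (nat_lit 214) (nat_lit 290)))) (n (nat_lit 339) (b (n (nat_lit 364) (b (n (nat_lit 363) (b (l (nat_lit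 6) (nat_lit 263) (nat_lit 338)) (l (nat_lit 6) (nat_lit 288) (nat_lit 388)))) (n (nat_lit 365) (b (l (nat_lit 4) (nat_lit 289) (nat_lit 390)) (l (nat_lit 4) (nat_lit 264) (nat_lit 340)))))) (n (nat_lit 240) (b (l (nat_lit 5) (nat_lit 239) (nat_lit 265)) (l (nat_lit 5) (nat_lit 214) (nat_lit 215))))))) (n (nat_lit 265) (b (n (nat_lit 240) (b (l (nat_lit 5) (nat_lit 214) (nat_lit 215)) (l (nat_lit 5) (nat_lit 239) (nat_lit 339)))) (n (nat_lit 290) (b (l (nat_lit 4) (nat_lit 214) (nat_lit 315)) (l (nat_lit 4) (nat_lit 189) (nat_lit 189)))))))) (n (nat_lit 213) (b (n (nat_lit 238) (b (n (nat_lit 237) (b (n (nat_lit 236) (b (l (nat_lit 1) (nat_lit 210) (nat_lit 235)) (l (nat_lit 0) (nat_lit 236) (nat_lit 265)))) (l (nat_lit 5) (nat_lit 212) (nat_lit 262)))) (l (nat_lit 7) (nat_lit 213) (nat_lit 314)))) (l (nat_lit 7) (nat_lit 188) (nat_lit 188))))) (b (n (nat_lit 314) (b (n (nat_lit 315) (b (l (nat_lit 4) (nat_lit 239) (nat_lit 340)) (l (nat_lit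 4) (nat_lit 214) (nat_lit 290)))) (n (nat_lit 213) (b (l (nat_lit 7) (nat_lit 188) (nat_lit 188)) (l (nat_lit 7) (nat_lit 213) (nat_lit 238)))))) (n (nat_lit 189) (b (n (nat_lit 290) (b (l (nat_lit 4) (nat_lit 189) (nat_lit 265)) (l (nat_lit 4) (nat_lit 214) (nat_lit 315)))) (n (nat_lit 188) (b (l (nat_lit 7) (nat_lit 188) (nat_lit 213)) (l (nat_lit 7) (nat_lit 163) (nat_lit 163)))))))))) (b (n (nat_lit 238) (b (b (b (n (nat_lit 240) (b (b (n (nat_lit 215) (b (n (nat_lit 190) (b (l (nat_lit 6) (nat_lit 164) (nat_lit 165)) (l (nat_lit 6) (nat_lit 189) (nat_lit 265)))) (l (nat_lit 5) (nat_lit 214) (nat_lit 314)))) (n (nat_lit 237) (b (n (nat_lit 212) (b (n (nat_lit 262) (b (l (nat_lit 6) (nat_lit 211) (nat_lit 311)) (l (nat_lit 2) (nat_lit 236) (nat_lit 261)))) (l (nat_lit 3) (nat_lit 211) (nat_lit 211)))) (n (nat_lit 265) (b (l (nat_lit 0) (nat_lit 236) (nat_lit 236)) (l (nat_lit 0) (nat_lit 237) (nat_lit 266))))))) (n (nat_lit 237) (b (n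 (nat_lit 262) (b (n (nat_lit 211) (b (l (nat_lit 7) (nat_lit 211) (nat_lit 236)) (l (nat_lit 3) (nat_lit 211) (nat_lit 212)))) (l (nat_lit 2) (nat_lit 236) (nat_lit 261)))) (n (nat_lit 215) (b (l (nat_lit 5) (nat_lit 214) (nat_lit 314)) (l (nat_lit 1) (nat_lit 212) (nat_lit 216)))))))) (n (nat_lit 237) (b (n (nat_lit 213) (b (l (nat_lit 5) (nat_lit 212) (nat_lit 262)) (l (nat_lit 7) (nat_lit 213) (nat_lit 314)))) (n (nat_lit 236) (b (n (nat_lit 211) (b (l (nat_lit 4) (nat_lit 211) (nat_lit 261)) (l (nat_lit 3) (nat_lit 210) (nat_lit 210)))) (l (nat_lit 0) (nat_lit 236) (nat_lit 265))))))) (b (n (nat_lit 314) (b (n (nat_lit 339) (b (n (nat_lit 340) (b (l (nat_lit 4) (nat_lit 239) (nat_lit 315)) (l (nat_lit 4) (nat_lit 264) (nat_lit 365)))) (n (nat_lit 240) (b (l (nat_lit 5) (nat_lit 239) (nat_lit 265)) (l (nat_lit 5) (nat_lit 214) (nat_lit 215)))))) (l (nat_lit 7) (nat_lit 213) (nat_lit 213)))) (n (nat_lit 237) (b (n (nat_lit 262) (b (n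 (nat_lit 311) (b (l (nat_lit 6) (nat_lit 236) (nat_lit 336)) (l (nat_lit 6) (nat_lit 211) (nat_lit 212)))) (l (nat_lit 5) (nat_lit 212) (nat_lit 213)))) (n (nat_lit 265) (b (n (nat_lit 266) (b (l (nat_lit 0) (nat_lit 237) (nat_lit 240)) (l (nat_lit 3) (nat_lit 238) (nat_lit 267)))) (l (nat_lit 0) (nat_lit 236) (nat_lit 236)))))))) (n (nat_lit 237) (b (b (n (nat_lit 262) (b (n (nat_lit 240) (b (n (nat_lit 215) (b (l (nat_lit 5) (nat_lit 214) (nat_lit 314)) (l (nat_lit 1) (nat_lit 212) (nat_lit 216)))) (l (nat_lit 2) (nat_lit 236) (nat_lit 261)))) (n (nat_lit 311) (b (l (nat_lit 6) (nat_lit 236) (nat_lit 336)) (l (nat_lit 6) (nat_lit 211) (nat_lit 212)))))) (n (nat_lit 213) (b (l (nat_lit 5) (nat_lit 212) (nat_lit 262)) (l (nat_lit 7) (nat_lit 213) (nat_lit 314))))) (b (n (nat_lit 211) (b (n (nat_lit 314) (b (n (nat_lit 240) (b (l (nat_lit 5) (nat_lit 214) (nat_lit 215)) (l (nat_lit 3) (nat_lit 211) (nat_lit 212)))) (l (nat_lit 7) (nat_lit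 213) (nat_lit 213)))) (n (nat_lit 236) (b (l (nat_lit 3) (nat_lit 210) (nat_lit 210)) (l (nat_lit 4) (nat_lit 211) (nat_lit 261)))))) (n (nat_lit 262) (b (n (nat_lit 311) (b (l (nat_lit 6) (nat_lit 236) (nat_lit 336)) (l (nat_lit 6) (nat_lit 211) (nat_lit 212)))) (l (nat_lit 5) (nat_lit 212) (nat_lit 213))))))))) (n (nat_lit 214) (b (b (n (nat_lit 290) (b (n (nat_lit 265) (b (n (nat_lit 238) (b (b (n (nat_lit 237) (b (n (nat_lit 266) (b (l (nat_lit 0) (nat_lit 237) (nat_lit 240)) (l (nat_lit 3) (nat_lit 238) (nat_lit 267)))) (l (nat_lit 0) (nat_lit 236) (nat_lit 236)))) (n (nat_lit 314) (b (n (nat_lit 339) (b (l (nat_lit 5) (nat_lit 264) (nat_lit 364)) (l (nat_lit 5) (nat_lit 239) (nat_lit 240)))) (l (nat_lit 7) (nat_lit 213) (nat_lit 213))))) (n (nat_lit 237) (b (n (nat_lit 213) (b (l (nat_lit 5) (nat_lit 212) (nat_lit 262)) (l (nat_lit 7) (nat_lit 213) (nat_lit 314)))) (l (nat_lit 0) (nat_lit 236) (nat_lit 236)))))) (l (nat_lit 4) (nat_lit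 189) (nat_lit 189)))) (l (nat_lit 4) (nat_lit 214) (nat_lit 315)))) (n (nat_lit 314) (b (n (nat_lit 315) (b (l (nat_lit 4) (nat_lit 239) (nat_lit 340)) (l (nat_lit 4) (nat_lit 214) (nat_lit 290)))) (n (nat_lit 213) (b (l (nat_lit 7) (nat_lit 188) (nat_lit 188)) (l (nat_lit 7) (nat_lit 213) (nat_lit 238))))))) (b (n (nat_lit 189) (b (n (nat_lit 164) (b (n (nat_lit 165) (b (l (nat_lit 5) (nat_lit 164) (nat_lit 190)) (l (nat_lit 5) (nat_lit 139) (nat_lit 140)))) (n (nat_lit 163) (b (l (nat_lit 7) (nat_lit 138) (nat_lit 138)) (l (nat_lit 7) (nat_lit 163) (nat_lit 188)))))) (n (nat_lit 290) (b (l (nat_lit 4) (nat_lit 189) (nat_lit 265)) (l (nat_lit 4) (nat_lit 214) (nat_lit 315)))))) (n (nat_lit 213) (b (n (nat_lit 238) (b (n (nat_lit 237) (b (n (nat_lit 236) (b (l (nat_lit 1) (nat_lit 210) (nat_lit 235)) (l (nat_lit 0) (nat_lit 236) (nat_lit 265)))) (l (nat_lit 5) (nat_lit 212) (nat_lit 262)))) (l (nat_lit 7) (nat_lit 213) (nat_lit 314))))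 (l (nat_lit 7) (nat_lit 188) (nat_lit 188))))))))) (b (b (n (nat_lit 214) (b (b (n (nat_lit 314) (b (n (nat_lit 215) (b (l (nat_lit 5) (nat_lit 214) (nat_lit 240)) (l (nat_lit 5) (nat_lit 189) (nat_lit 190)))) (n (nat_lit 315) (b (l (nat_lit 4) (nat_lit 239) (nat_lit 340)) (l (nat_lit 4) (nat_lit 214) (nat_lit 290)))))) (n (nat_lit 189) (b (n (nat_lit 188) (b (l (nat_lit 7) (nat_lit 188) (nat_lit 213)) (l (nat_lit 7) (nat_lit 163) (nat_lit 163)))) (n (nat_lit 190) (b (l (nat_lit 5) (nat_lit 164) (nat_lit 165)) (l (nat_lit 5) (nat_lit 189) (nat_lit 215))))))) (n (nat_lit 314) (b (n (nat_lit 315) (b (l (nat_lit 4) (nat_lit 239) (nat_lit 340)) (l (nat_lit 4) (nat_lit 214) (nat_lit 290)))) (n (nat_lit 213) (b (l (nat_lit 7) (nat_lit 188) (nat_lit 188)) (l (nat_lit 7) (nat_lit 213) (nat_lit 238)))))))) (n (nat_lit 214) (b (b (n (nat_lit 314) (b (n (nat_lit 315) (b (l (nat_lit 4) (nat_lit 239) (nat_lit 340)) (l (nat_lit 4) (nat_lit 214) (nat_lit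 290)))) (n (nat_lit 213) (b (l (nat_lit 7) (nat_lit 188) (nat_lit 188)) (l (nat_lit 7) (nat_lit 213) (nat_lit 238)))))) (n (nat_lit 189) (b (n (nat_lit 190) (b (l (nat_lit 5) (nat_lit 164) (nat_lit 165)) (l (nat_lit 5) (nat_lit 189) (nat_lit 215)))) (n (nat_lit 290) (b (l (nat_lit 4) (nat_lit 189) (nat_lit 265)) (l (nat_lit 4) (nat_lit 214) (nat_lit 315))))))) (n (nat_lit 189) (b (n (nat_lit 188) (b (l (nat_lit 7) (nat_lit 188) (nat_lit 213)) (l (nat_lit 7) (nat_lit 163) (nat_lit 163)))) (n (nat_lit 190) (b (l (nat_lit 5) (nat_lit 164) (nat_lit 165)) (l (nat_lit 5) (nat_lit 189) (nat_lit 215))))))))) (b (n (nat_lit 213) (b (b (n (nat_lit 238) (b (n (nat_lit 237) (b (n (nat_lit 240) (b (n (nat_lit 212) (b (l (nat_lit 3) (nat_lit 211) (nat_lit 211)) (l (nat_lit 3) (nat_lit 212) (nat_lit 241)))) (n (nat_lit 265) (b (l (nat_lit 0) (nat_lit 236) (nat_lit 236)) (l (nat_lit 0) (nat_lit 237) (nat_lit 266)))))) (l (nat_lit 5) (nat_lit 212) (nat_lit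 262)))) (l (nat_lit 7) (nat_lit 213) (nat_lit 314)))) (n (nat_lit 188) (b (n (nat_lit 238) (b (l (nat_lit 4) (nat_lit 163) (nat_lit 163)) (l (nat_lit 7) (nat_lit 213) (nat_lit 314)))) (l (nat_lit 7) (nat_lit 188) (nat_lit 214))))) (b (n (nat_lit 214) (b (n (nat_lit 215) (b (n (nat_lit 240) (b (n (nat_lit 241) (b (l (nat_lit 3) (nat_lit 213) (nat_lit 242)) (l (nat_lit 0) (nat_lit 212) (nat_lit 212)))) (l (nat_lit 5) (nat_lit 214) (nat_lit 314)))) (l (nat_lit 5) (nat_lit 189) (nat_lit 190)))) (l (nat_lit 7) (nat_lit 188) (nat_lit 188)))) (n (nat_lit 214) (b (n (nat_lit 236) (b (b (n (nat_lit 211) (b (n (nat_lit 212) (b (l (nat_lit 2) (nat_lit 210) (nat_lit 235)) (l (nat_lit 0) (nat_lit 211) (nat_lit 240)))) (l (nat_lit 4) (nat_lit 211) (nat_lit 261)))) (n (nat_lit 237) (b (n (nat_lit 238) (b (l (nat_lit 5) (nat_lit 212) (nat_lit 262)) (l (nat_lit 1) (nat_lit 210) (nat_lit 235)))) (n (nat_lit 215) (b (l (nat_lit 2) (nat_lit 211) (nat_lit 212))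 (l (nat_lit 5) (nat_lit 189) (nat_lit 190))))))) (n (nat_lit 237) (b (n (nat_lit 211) (b (l (nat_lit 7) (nat_lit 211) (nat_lit 262)) (l (nat_lit 4) (nat_lit 211) (nat_lit 261)))) (n (nat_lit 215) (b (l (nat_lit 1) (nat_lit 211) (nat_lit 238)) (l (nat_lit 5) (nat_lit 189) (nat_lit 190)))))))) (l (nat_lit 7) (nat_lit 188) (nat_lit 188))))))) (n (nat_lit 214) (b (b (n (nat_lit 189) (b (n (nat_lit 190) (b (l (nat_lit 5) (nat_lit 164) (nat_lit 165)) (l (nat_lit 5) (nat_lit 189) (nat_lit 215)))) (n (nat_lit 290) (b (l (nat_lit 4) (nat_lit 189) (nat_lit 265)) (l (nat_lit 4) (nat_lit 214) (nat_lit 315)))))) (n (nat_lit 189) (b (n (nat_lit 290) (b (l (nat_lit 4) (nat_lit 189) (nat_lit 265)) (l (nat_lit 4) (nat_lit 214) (nat_lit 315)))) (n (nat_lit 188) (b (l (nat_lit 7) (nat_lit 188) (nat_lit 213)) (l (nat_lit 7) (nat_lit 163) (nat_lit 163))))))) (n (nat_lit 215) (b (n (nat_lit 237) (b (b (n (nat_lit 236) (b (n (nat_lit 211) (b (l (nat_lit 7) (nat_lit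 211) (nat_lit 262)) (l (nat_lit 4) (nat_lit 211) (nat_lit 261)))) (n (nat_lit 213) (b (l (nat_lit 2) (nat_lit 211) (nat_lit 212)) (l (nat_lit 7) (nat_lit 188) (nat_lit 188)))))) (n (nat_lit 238) (b (n (nat_lit 216) (b (l (nat_lit 1) (nat_lit 212) (nat_lit 240)) (l (nat_lit 2) (nat_lit 213) (nat_lit 217)))) (l (nat_lit 1) (nat_lit 211) (nat_lit 236))))) (n (nat_lit 238) (b (n (nat_lit 216) (b (l (nat_lit 1) (nat_lit 212) (nat_lit 240)) (l (nat_lit 2) (nat_lit 213) (nat_lit 217)))) (n (nat_lit 213) (b (l (nat_lit 7) (nat_lit 188) (nat_lit 188)) (l (nat_lit 5) (nat_lit 212) (nat_lit 262)))))))) (l (nat_lit 5) (nat_lit 189) (nat_lit 190)))))))))))))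
    envOK_nil (by decide +kernel)

theorem p14021 : Fam (nat_lit 13) (nat_lit 8343699732058482316695535156261499057782444615797787980616419360903528473700249907927227301888) (nat_lit 3772742243317933050026954385894611551400751297904840367029897008581841790082769642420686735360304743039575636020559872) (nat_lit 3772742243317933050026954385894611551400751297904840367029897008581841790082769642420686735360304743039575636020559872) :=
  chk_sound (Env.cons (nat_lit 11) (nat_lit 8343699794223916510693710178630308510307211852459217267400958444945919686486693060255087067136) (nat_lit 3703788730419267942729358179591845214965875709298022534892963704231263117686768881338545802511922774644371085863157760) Env.nil)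
    (n (nat_lit 285) (b (b (b (n (nat_lit 262) (b (b (n (nat_lit 258) (b (b (n (nat_lit 237) (b (b (n (nat_lit 212) (b (n (nat_lit 213) (b (l (nat_lit 5) (nat_lit 187) (nat_lit 188)) (l (nat_lit 5) (nat_lit 212) (nat_lit 238)))) (n (nat_lit 211) (b (l (nat_lit 7) (nat_lit 211) (nat_lit 236)) (l (nat_lit 7) (nat_lit 186) (nat_lit 186)))))) (n (nat_lit 311) (b (l (nat_lit 6) (nat_lit 236) (nat_lit 336)) (l (nat_lit 6) (nat_lit 211) (nat_lit 212))))) (n (nat_lit 236) (b (n (nat_lit 235) (b (b (n (nat_lit 210) (b (n (nat_lit 311) (b (l (nat_lit 6) (nat_lit 236) (nat_lit 336)) (l (nat_lit 7) (nat_lit 210) (nat_lit 261)))) (n (nat_lit 238) (b (l (nat_lit 3) (nat_lit 209) (nat_lit 209)) (l (nat_lit 5) (nat_lit 212) (nat_lit 213)))))) (n (nat_lit 234) (b (n (nat_lit 233) (b (l (nat_lit 0) (nat_lit 233) (nat_lit 261)) (l (nat_lit 2) (nat_lit 232) (nat_lit 257)))) (l (nat_lit 2) (nat_lit 233) (nat_lit 259))))) (n (nat_lit 209) (b (n (nat_lit 238)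 (b (l (nat_lit 5) (nat_lit 212) (nat_lit 213)) (l (nat_lit 3) (nat_lit 209) (nat_lit 210)))) (n (nat_lit 234) (b (l (nat_lit 3) (nat_lit 208) (nat_lit 208)) (l (nat_lit 2) (nat_lit 233) (nat_lit 259)))))))) (l (nat_lit 7) (nat_lit 211) (nat_lit 211)))))) (n (nat_lit 311) (b (n (nat_lit 336) (b (l (nat_lit 5) (nat_lit 261) (nat_lit 361)) (l (nat_lit 6) (nat_lit 236) (nat_lit 237)))) (n (nat_lit 284) (b (l (nat_lit 0) (nat_lit 283) (nat_lit 283)) (l (nat_lit 3) (nat_lit 258) (nat_lit 259))))))) (b (n (nat_lit 284) (b (n (nat_lit 283) (b (l (nat_lit 1) (nat_lit 258) (nat_lit 261)) (l (nat_lit 3) (nat_lit 257) (nat_lit 257)))) (l (nat_lit 3) (nat_lit 258) (nat_lit 259)))) (n (nat_lit 237) (b (b (n (nat_lit 212) (b (n (nat_lit 213) (b (l (nat_lit 5) (nat_lit 187) (nat_lit 188)) (l (nat_lit 5) (nat_lit 212) (nat_lit 238)))) (n (nat_lit 211) (b (l (nat_lit 7) (nat_lit 211) (nat_lit 236)) (l (nat_lit 7) (nat_lit 186) (nat_lit 186)))))) (n (nat_lit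 311) (b (l (nat_lit 6) (nat_lit 236) (nat_lit 336)) (l (nat_lit 6) (nat_lit 211) (nat_lit 212))))) (n (nat_lit 283) (b (b (n (nat_lit 311) (b (l (nat_lit 0) (nat_lit 283) (nat_lit 284)) (l (nat_lit 6) (nat_lit 236) (nat_lit 336)))) (n (nat_lit 284) (b (l (nat_lit 1) (nat_lit 258) (nat_lit 261)) (l (nat_lit 3) (nat_lit 257) (nat_lit 257))))) (n (nat_lit 233) (b (b (n (nat_lit 236) (b (n (nat_lit 235) (b (b (n (nat_lit 210) (b (n (nat_lit 311) (b (l (nat_lit 6) (nat_lit 236) (nat_lit 336)) (l (nat_lit 7) (nat_lit 210) (nat_lit 261)))) (n (nat_lit 238) (b (l (nat_lit 3) (nat_lit 209) (nat_lit 209)) (l (nat_lit 5) (nat_lit 212) (nat_lit 213)))))) (n (nat_lit 234) (b (l (nat_lit 2) (nat_lit 232) (nat_lit 257)) (l (nat_lit 0) (nat_lit 233) (nat_lit 261))))) (n (nat_lit 234) (b (n (nat_lit 208) (b (l (nat_lit 3) (nat_lit 207) (nat_lit 207)) (l (nat_lit 3) (nat_lit 208) (nat_lit 209)))) (l (nat_lit 2) (nat_lit 232) (nat_lit 257)))))) (l (nat_lit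 7) (nat_lit 211) (nat_lit 211)))) (n (nat_lit 236) (b (n (nat_lit 235) (b (b (n (nat_lit 210) (b (n (nat_lit 311) (b (l (nat_lit 6) (nat_lit 236) (nat_lit 336)) (l (nat_lit 7) (nat_lit 210) (nat_lit 261)))) (n (nat_lit 238) (b (l (nat_lit 3) (nat_lit 209) (nat_lit 209)) (l (nat_lit 5) (nat_lit 212) (nat_lit 213)))))) (n (nat_lit 234) (b (l (nat_lit 2) (nat_lit 232) (nat_lit 257)) (l (nat_lit 0) (nat_lit 233) (nat_lit 261))))) (n (nat_lit 209) (b (n (nat_lit 238) (b (l (nat_lit 5) (nat_lit 212) (nat_lit 213)) (l (nat_lit 3) (nat_lit 209) (nat_lit 210)))) (n (nat_lit 234) (b (l (nat_lit 2) (nat_lit 232) (nat_lit 257)) (l (nat_lit 5) (nat_lit 208) (nat_lit 308)))))))) (l (nat_lit 7) (nat_lit 211) (nat_lit 211))))) (b (n (nat_lit 208) (b (b (n (nat_lit 308) (b (n (nat_lit 209) (b (l (nat_lit 5) (nat_lit 183) (nat_lit 184)) (l (nat_lit 5) (nat_lit 208) (nat_lit 234)))) (n (nat_lit 307) (b (l (nat_lit 6) (nat_lit 232) (nat_lit 332)) (l (nat_lit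 6) (nat_lit 207) (nat_lit 282)))))) (n (nat_lit 183) (b (n (nat_lit 182) (b (l (nat_lit 7) (nat_lit 182) (nat_lit 207)) (l (nat_lit 7) (nat_lit 157) (nat_lit 157)))) (n (nat_lit 184) (b (l (nat_lit 5) (nat_lit 158) (nat_lit 159)) (l (nat_lit 5) (nat_lit 183) (nat_lit 209))))))) (n (nat_lit 308) (b (n (nat_lit 307) (b (l (nat_lit 6) (nat_lit 232) (nat_lit 332)) (l (nat_lit 6) (nat_lit 207) (nat_lit 282)))) (n (nat_lit 207) (b (l (nat_lit 7) (nat_lit 182) (nat_lit 182)) (l (nat_lit 7) (nat_lit 207) (nat_lit 232)))))))) (n (nat_lit 308) (b (b (n (nat_lit 333) (b (n (nat_lit 358) (b (n (nat_lit 359) (b (l (nat_lit 4) (nat_lit 258) (nat_lit 334)) (l (nat_lit 4) (nat_lit 283) (nat_lit 384)))) (n (nat_lit 357) (b (l (nat_lit 6) (nat_lit 282) (nat_lit 382)) (l (nat_lit 6) (nat_lit 257) (nat_lit 332)))))) (n (nat_lit 232) (b (l (nat_lit 7) (nat_lit 207) (nat_lit 207)) (l (nat_lit 7) (nat_lit 232) (nat_lit 257)))))) (n (nat_lit 208) (b (n (nat_lit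 307) (b (l (nat_lit 6) (nat_lit 232) (nat_lit 332)) (l (nat_lit 6) (nat_lit 207) (nat_lit 282)))) (n (nat_lit 207) (b (l (nat_lit 7) (nat_lit 182) (nat_lit 182)) (l (nat_lit 7) (nat_lit 207) (nat_lit 232))))))) (b (n (nat_lit 333) (b (b (n (nat_lit 332) (b (l (nat_lit 6) (nat_lit 257) (nat_lit 357)) (l (nat_lit 6) (nat_lit 232) (nat_lit 307)))) (n (nat_lit 358) (b (n (nat_lit 359) (b (l (nat_lit 4) (nat_lit 258) (nat_lit 334)) (l (nat_lit 4) (nat_lit 283) (nat_lit 384)))) (n (nat_lit 282) (b (n (nat_lit 307) (b (l (nat_lit 6) (nat_lit 207) (nat_lit 208)) (l (nat_lit 7) (nat_lit 282) (nat_lit 383)))) (l (nat_lit 7) (nat_lit 257) (nat_lit 257))))))) (n (nat_lit 358) (b (n (nat_lit 359) (b (l (nat_lit 4) (nat_lit 258) (nat_lit 334)) (l (nat_lit 4) (nat_lit 283) (nat_lit 384)))) (n (nat_lit 357) (b (l (nat_lit 6) (nat_lit 282) (nat_lit 382)) (l (nat_lit 6) (nat_lit 257) (nat_lit 332)))))))) (n (nat_lit 208) (b (b (n (nat_lit 207) (b (l (nat_lit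 7) (nat_lit 182) (nat_lit 182)) (l (nat_lit 7) (nat_lit 207) (nat_lit 232)))) (n (nat_lit 183) (b (n (nat_lit 158) (b (n (nat_lit 157) (b (l (nat_lit 7) (nat_lit 157) (nat_lit 182)) (l (nat_lit 7) (nat_lit 132) (nat_lit 132)))) (n (nat_lit 159) (b (l (nat_lit 5) (nat_lit 133) (nat_lit 134)) (l (nat_lit 5) (nat_lit 158) (nat_lit 184)))))) (n (nat_lit 282) (b (l (nat_lit 6) (nat_lit 182) (nat_lit 257)) (l (nat_lit 6) (nat_lit 207) (nat_lit 307))))))) (n (nat_lit 257) (b (n (nat_lit 232) (b (l (nat_lit 7) (nat_lit 207) (nat_lit 207)) (l (nat_lit 7) (nat_lit 232) (nat_lit 333)))) (n (nat_lit 282) (b (l (nat_lit 6) (nat_lit 207) (nat_lit 307)) (l (nat_lit 6) (nat_lit 182) (nat_lit 183))))))))))))))))))))) (n (nat_lit 263) (b (n (nat_lit 264) (b (l (nat_lit 1) (nat_lit 260) (nat_lit 288)) (l (nat_lit 2) (nat_lit 261) (nat_lit 265)))) (l (nat_lit 1) (nat_lit 259) (nat_lit 284))))) (n (nat_lit 237) (b (b (n (nat_lit 212) (b (n (nat_lit 213) (b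 (l (nat_lit 5) (nat_lit 187) (nat_lit 188)) (l (nat_lit 5) (nat_lit 212) (nat_lit 238)))) (n (nat_lit 211) (b (l (nat_lit 7) (nat_lit 211) (nat_lit 236)) (l (nat_lit 7) (nat_lit 186) (nat_lit 186)))))) (n (nat_lit 311) (b (l (nat_lit 6) (nat_lit 236) (nat_lit 336)) (l (nat_lit 6) (nat_lit 211) (nat_lit 212))))) (n (nat_lit 236) (b (n (nat_lit 235) (b (n (nat_lit 210) (b (n (nat_lit 311) (b (l (nat_lit 6) (nat_lit 236) (nat_lit 336)) (l (nat_lit 7) (nat_lit 210) (nat_lit 261)))) (n (nat_lit 238) (b (l (nat_lit 3) (nat_lit 209) (nat_lit 209)) (l (nat_lit 5) (nat_lit 212) (nat_lit 213)))))) (n (nat_lit 263) (b (n (nat_lit 264) (b (l (nat_lit 3) (nat_lit 236) (nat_lit 265)) (l (nat_lit 1) (nat_lit 260) (nat_lit 288)))) (l (nat_lit 0) (nat_lit 234) (nat_lit 234)))))) (l (nat_lit 7) (nat_lit 211) (nat_lit 211)))))))) (n (nat_lit 284) (b (b (n (nat_lit 283) (b (n (nat_lit 282) (b (n (nat_lit 307) (b (l (nat_lit 2) (nat_lit 281) (nat_lit 306))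 (l (nat_lit 2) (nat_lit 282) (nat_lit 308)))) (n (nat_lit 257) (b (l (nat_lit 3) (nat_lit 256) (nat_lit 256)) (l (nat_lit 3) (nat_lit 257) (nat_lit 258)))))) (l (nat_lit 0) (nat_lit 283) (nat_lit 311)))) (n (nat_lit 283) (b (n (nat_lit 262) (b (l (nat_lit 1) (nat_lit 259) (nat_lit 263)) (l (nat_lit 1) (nat_lit 258) (nat_lit 261)))) (n (nat_lit 258) (b (l (nat_lit 3) (nat_lit 257) (nat_lit 257)) (l (nat_lit 3) (nat_lit 258) (nat_lit 259))))))) (b (n (nat_lit 283) (b (n (nat_lit 262) (b (l (nat_lit 1) (nat_lit 259) (nat_lit 263)) (l (nat_lit 1) (nat_lit 258) (nat_lit 261)))) (l (nat_lit 0) (nat_lit 283) (nat_lit 311)))) (n (nat_lit 262) (b (n (nat_lit 237) (b (n (nat_lit 311) (b (l (nat_lit 6) (nat_lit 236) (nat_lit 336)) (l (nat_lit 6) (nat_lit 211) (nat_lit 212)))) (n (nat_lit 309) (b (n (nat_lit 236) (b (n (nat_lit 259) (b (n (nat_lit 234) (b (n (nat_lit 233) (b (n (nat_lit 235) (b (l (nat_lit 5) (nat_lit 209) (nat_lit 210)) (l (nat_lit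 0) (nat_lit 233) (nat_lit 261)))) (l (nat_lit 7) (nat_lit 208) (nat_lit 208)))) (n (nat_lit 310) (b (l (nat_lit 4) (nat_lit 209) (nat_lit 209)) (l (nat_lit 4) (nat_lit 234) (nat_lit 335)))))) (l (nat_lit 3) (nat_lit 258) (nat_lit 258)))) (l (nat_lit 7) (nat_lit 211) (nat_lit 211)))) (l (nat_lit 2) (nat_lit 283) (nat_lit 308)))))) (l (nat_lit 1) (nat_lit 259) (nat_lit 263)))))))) (b (n (nat_lit 284) (b (b (n (nat_lit 283) (b (n (nat_lit 258) (b (l (nat_lit 3) (nat_lit 257) (nat_lit 257)) (l (nat_lit 3) (nat_lit 258) (nat_lit 259)))) (l (nat_lit 0) (nat_lit 283) (nat_lit 311)))) (n (nat_lit 283) (b (n (nat_lit 308) (b (l (nat_lit 2) (nat_lit 283) (nat_lit 309)) (l (nat_lit 2) (nat_lit 282) (nat_lit 307)))) (l (nat_lit 0) (nat_lit 283) (nat_lit 311))))) (n (nat_lit 309) (b (n (nat_lit 259) (b (n (nat_lit 310) (b (n (nat_lit 234) (b (l (nat_lit 4) (nat_lit 234) (nat_lit 335)) (l (nat_lit 4) (nat_lit 209) (nat_lit 209)))) (l (nat_lit 2) (nat_lit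 284) (nat_lit 288)))) (l (nat_lit 3) (nat_lit 258) (nat_lit 258)))) (l (nat_lit 2) (nat_lit 283) (nat_lit 308)))))) (n (nat_lit 284) (b (b (n (nat_lit 288) (b (n (nat_lit 309) (b (l (nat_lit 2) (nat_lit 283) (nat_lit 308)) (l (nat_lit 2) (nat_lit 284) (nat_lit 310)))) (n (nat_lit 263) (b (l (nat_lit 1) (nat_lit 259) (nat_lit 262)) (l (nat_lit 1) (nat_lit 260) (nat_lit 264)))))) (n (nat_lit 283) (b (n (nat_lit 308) (b (l (nat_lit 2) (nat_lit 283) (nat_lit 309)) (l (nat_lit 2) (nat_lit 282) (nat_lit 307)))) (n (nat_lit 258) (b (l (nat_lit 3) (nat_lit 257) (nat_lit 257)) (l (nat_lit 3) (nat_lit 258) (nat_lit 259))))))) (n (nat_lit 283) (b (n (nat_lit 262) (b (l (nat_lit 1) (nat_lit 259) (nat_lit 263)) (l (nat_lit 1) (nat_lit 258) (nat_lit 261)))) (n (nat_lit 258) (b (l (nat_lit 3) (nat_lit 257) (nat_lit 257)) (l (nat_lit 3) (nat_lit 258) (nat_lit 259)))))))))) (n (nat_lit 264) (b (b (b (n (nat_lit 262) (b (b (n (nat_lit 237) (b (n (nat_lit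 311) (b (l (nat_lit 6) (nat_lit 236) (nat_lit 336)) (l (nat_lit 6) (nat_lit 211) (nat_lit 212)))) (n (nat_lit 236) (b (n (nat_lit 263) (b (n (nat_lit 238) (b (l (nat_lit 0) (nat_lit 235) (nat_lit 235)) (l (nat_lit 5) (nat_lit 212) (nat_lit 213)))) (l (nat_lit 3) (nat_lit 236) (nat_lit 265)))) (l (nat_lit 7) (nat_lit 211) (nat_lit 211)))))) (n (nat_lit 237) (b (n (nat_lit 311) (b (l (nat_lit 6) (nat_lit 236) (nat_lit 336)) (l (nat_lit 6) (nat_lit 211) (nat_lit 212)))) (n (nat_lit 236) (b (n (nat_lit 238) (b (n (nat_lit 239) (b (n (nat_lit 240) (b (n (nat_lit 215) (b (l (nat_lit 1) (nat_lit 211) (nat_lit 214)) (l (nat_lit 1) (nat_lit 212) (nat_lit 216)))) (l (nat_lit 2) (nat_lit 236) (nat_lit 261)))) (l (nat_lit 0) (nat_lit 236) (nat_lit 265)))) (l (nat_lit 5) (nat_lit 212) (nat_lit 213)))) (l (nat_lit 7) (nat_lit 211) (nat_lit 211))))))) (b (n (nat_lit 263) (b (l (nat_lit 2) (nat_lit 261) (nat_lit 265)) (l (nat_lit 2) (nat_lit 260) (nat_lit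 261)))) (n (nat_lit 237) (b (n (nat_lit 311) (b (l (nat_lit 6) (nat_lit 236) (nat_lit 336)) (l (nat_lit 6) (nat_lit 211) (nat_lit 212)))) (n (nat_lit 236) (b (n (nat_lit 263) (b (n (nat_lit 238) (b (l (nat_lit 0) (nat_lit 235) (nat_lit 235)) (l (nat_lit 5) (nat_lit 212) (nat_lit 213)))) (l (nat_lit 2) (nat_lit 260) (nat_lit 261)))) (l (nat_lit 7) (nat_lit 211) (nat_lit 211))))))))) (n (nat_lit 263) (b (n (nat_lit 262) (b (n (nat_lit 237) (b (n (nat_lit 236) (b (n (nat_lit 238) (b (l (nat_lit 0) (nat_lit 235) (nat_lit 235)) (l (nat_lit 5) (nat_lit 212) (nat_lit 213)))) (l (nat_lit 7) (nat_lit 211) (nat_lit 211)))) (n (nat_lit 311) (b (l (nat_lit 6) (nat_lit 236) (nat_lit 336)) (l (nat_lit 6) (nat_lit 211) (nat_lit 212)))))) (l (nat_lit 2) (nat_lit 260) (nat_lit 261)))) (l (nat_lit 1) (nat_lit 260) (nat_lit 288))))) (b (n (nat_lit 288) (b (n (nat_lit 289) (b (n (nat_lit 311) (b (l (nat_lit 2) (nat_lit 285) (nat_lit 310)) (l (nat_lit 2) (nat_lit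 286) (nat_lit 290)))) (l (nat_lit 1) (nat_lit 261) (nat_lit 265)))) (l (nat_lit 1) (nat_lit 260) (nat_lit 263)))) (n (nat_lit 263) (b (n (nat_lit 262) (b (l (nat_lit 2) (nat_lit 260) (nat_lit 261)) (l (nat_lit 2) (nat_lit 261) (nat_lit 265)))) (l (nat_lit 1) (nat_lit 260) (nat_lit 288)))))) (r (nat_lit 0))))))
    (envOK_cons p14019 envOK_nil) (by decide +kernel)

theorem p14031 : Fam (nat_lit 6) (nat_lit 7410694484183827347651687233248682677636129693125200981608579554709153362477056) (nat_lit 470115889343285214322216657605911180534586615141251783400196793157611470517698560) (nat_lit 470115889343285214322216657605911180534586615141251783400196793157611470517698560) :=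
  chk_sound Env.nil
    (n (nat_lit 235) (b (n (nat_lit 234) (b (n (nat_lit 209) (b (l (nat_lit 3) (nat_lit 209) (nat_lit 210)) (l (nat_lit 3) (nat_lit 208) (nat_lit 208)))) (n (nat_lit 259) (b (l (nat_lit 2) (nat_lit 233) (nat_lit 258)) (l (nat_lit 2) (nat_lit 234) (nat_lit 260)))))) (n (nat_lit 239) (b (b (n (nat_lit 240) (b (n (nat_lit 241) (b (n (nat_lit 266) (b (l (nat_lit 0) (nat_lit 238) (nat_lit 267)) (l (nat_lit 0) (nat_lit 237) (nat_lit 265)))) (l (nat_lit 2) (nat_lit 237) (nat_lit 263)))) (n (nat_lit 215) (b (l (nat_lit 1) (nat_lit 211) (nat_lit 214)) (l (nat_lit 1) (nat_lit 212) (nat_lit 216)))))) (n (nat_lit 264) (b (l (nat_lit 0) (nat_lit 236) (nat_lit 265)) (l (nat_lit 0) (nat_lit 235) (nat_lit 263))))) (b (n (nat_lit 240) (b (n (nat_lit 215) (b (l (nat_lit 1) (nat_lit 211) (nat_lit 214)) (l (nat_lit 1) (nat_lit 212) (nat_lit 216)))) (n (nat_lit 263) (b (l (nat_lit 0) (nat_lit 235) (nat_lit 264)) (l (nat_lit 2) (nat_lit 237)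 (nat_lit 241)))))) (n (nat_lit 240) (b (n (nat_lit 215) (b (l (nat_lit 1) (nat_lit 211) (nat_lit 214)) (l (nat_lit 1) (nat_lit 212) (nat_lit 216)))) (n (nat_lit 265) (b (l (nat_lit 0) (nat_lit 237) (nat_lit 266)) (l (nat_lit 0) (nat_lit 236) (nat_lit 264)))))))))))
    envOK_nil (by decide +kernel)

theorem p14095 : Fam (nat_lit 7) (nat_lit 8343699732058486022042722034204398559115761762092228582477646314632241914897585962310118146048) (nat_lit 41718498660292640851817871754725525764391057514056391109826273624216855963589510324599411179520) (nat_lit 41718498660292640851817871754725525764391057514056391109826273624216855963589510324599411179520) :=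
  chk_sound Env.nil
    (n (nat_lit 238) (b (b (n (nat_lit 239) (b (n (nat_lit 240) (b (n (nat_lit 215) (b (l (nat_lit 1) (nat_lit 211) (nat_lit 214)) (l (nat_lit 1) (nat_lit 212) (nat_lit 216)))) (n (nat_lit 265) (b (l (nat_lit 0) (nat_lit 237) (nat_lit 266)) (l (nat_lit 0) (nat_lit 236) (nat_lit 264)))))) (l (nat_lit 2) (nat_lit 235) (nat_lit 260)))) (n (nat_lit 235) (b (n (nat_lit 213) (b (n (nat_lit 263) (b (l (nat_lit 6) (nat_lit 212) (nat_lit 288)) (l (nat_lit 0) (nat_lit 235) (nat_lit 264)))) (l (nat_lit 1) (nat_lit 210) (nat_lit 214)))) (n (nat_lit 210) (b (n (nat_lit 185) (b (l (nat_lit 4) (nat_lit 185) (nat_lit 260)) (l (nat_lit 4) (nat_lit 160) (nat_lit 160)))) (l (nat_lit 3) (nat_lit 209) (nat_lit 209))))))) (b (n (nat_lit 260) (b (n (nat_lit 259) (b (l (nat_lit 1) (nat_lit 233) (nat_lit 258)) (l (nat_lit 2) (nat_lit 234) (nat_lit 235)))) (l (nat_lit 2) (nat_lit 235) (nat_lit 239)))) (n (nat_lit 264) (b (b (n (nat_lit 265) (b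 (n (nat_lit 263) (b (n (nat_lit 288) (b (l (nat_lit 6) (nat_lit 212) (nat_lit 213)) (l (nat_lit 1) (nat_lit 261) (nat_lit 289)))) (l (nat_lit 3) (nat_lit 237) (nat_lit 266)))) (l (nat_lit 0) (nat_lit 236) (nat_lit 239)))) (n (nat_lit 235) (b (n (nat_lit 234) (b (n (nat_lit 213) (b (l (nat_lit 1) (nat_lit 210) (nat_lit 214)) (l (nat_lit 1) (nat_lit 209) (nat_lit 212)))) (n (nat_lit 209) (b (l (nat_lit 3) (nat_lit 209) (nat_lit 210)) (l (nat_lit 3) (nat_lit 208) (nat_lit 208)))))) (l (nat_lit 0) (nat_lit 235) (nat_lit 263))))) (b (n (nat_lit 265) (b (n (nat_lit 263) (b (l (nat_lit 3) (nat_lit 237) (nat_lit 266)) (l (nat_lit 0) (nat_lit 235) (nat_lit 235)))) (l (nat_lit 0) (nat_lit 236) (nat_lit 239)))) (n (nat_lit 239) (b (n (nat_lit 214) (b (n (nat_lit 213) (b (n (nat_lit 289) (b (l (nat_lit 7) (nat_lit 213) (nat_lit 314)) (l (nat_lit 7) (nat_lit 188) (nat_lit 188)))) (l (nat_lit 1) (nat_lit 210) (nat_lit 235)))) (l (nat_lit 1) (nat_lit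 211) (nat_lit 215)))) (l (nat_lit 0) (nat_lit 236) (nat_lit 265))))))))))
    envOK_nil (by decide +kernel)

theorem p14158 : Fam (nat_lit 11) (nat_lit 8343699732058482316695535156261499057782444615797787980616419360903528473700249907927227301888) (nat_lit 551628121977663952794350421823532265951409558697443637142187765975639838681680471170175527229165359430856135749402624) (nat_lit 551628121977663952794350421823532265951409558697443637142187765975639838681680471170175527229165359430856135749402624) :=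
  chk_sound (Env.cons (nat_lit 6) (nat_lit 7410694484183827347651687233248682677636129693125200981608579554709153362477056) (nat_lit 470115889343285214322216657605911180534586615141251783400196793157611470517698560) (Env.cons (nat_lit 7) (nat_lit 8343699732058486022042722034204398559115761762092228582477646314632241914897585962310118146048) (nat_lit 41718498660292640851817871754725525764391057514056391109826273624216855963589510324599411179520) Env.nil))
    (n (nat_lit 236) (b (b (b (n (nat_lit 237) (b (b (n (nat_lit 262) (b (n (nat_lit 238) (b (r (nat_lit 0)) (l (nat_lit 5) (nat_lit 212) (nat_lit 213)))) (l (nat_lit 7) (nat_lit 211) (nat_lit 211)))) (n (nat_lit 262) (b (n (nat_lit 311) (b (l (nat_lit 6) (nat_lit 236) (nat_lit 336)) (l (nat_lit 6) (nat_lit 211) (nat_lit 212)))) (n (nat_lit 238) (b (r (nat_lit 0)) (l (nat_lit 5) (nat_lit 212) (nat_lit 213))))))) (b (n (nat_lit 262) (b (n (nat_lit 311) (b (l (nat_lit 6) (nat_lit 236) (nat_lit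 336)) (l (nat_lit 6) (nat_lit 211) (nat_lit 212)))) (l (nat_lit 7) (nat_lit 211) (nat_lit 211)))) (n (nat_lit 238) (b (b (b (n (nat_lit 239) (b (b (n (nat_lit 240) (b (n (nat_lit 211) (b (l (nat_lit 3) (nat_lit 211) (nat_lit 212)) (l (nat_lit 3) (nat_lit 210) (nat_lit 210)))) (n (nat_lit 215) (b (l (nat_lit 1) (nat_lit 211) (nat_lit 214)) (l (nat_lit 1) (nat_lit 212) (nat_lit 216)))))) (n (nat_lit 240) (b (n (nat_lit 211) (b (l (nat_lit 3) (nat_lit 211) (nat_lit 212)) (l (nat_lit 3) (nat_lit 210) (nat_lit 210)))) (n (nat_lit 265) (b (l (nat_lit 0) (nat_lit 237) (nat_lit 266)) (l (nat_lit 0) (nat_lit 236) (nat_lit 264))))))) (n (nat_lit 214) (b (n (nat_lit 264) (b (n (nat_lit 289) (b (b (n (nat_lit 315) (b (n (nat_lit 314) (b (l (nat_lit 4) (nat_lit 239) (nat_lit 340)) (l (nat_lit 0) (nat_lit 286) (nat_lit 288)))) (l (nat_lit 4) (nat_lit 214) (nat_lit 290)))) (n (nat_lit 288) (b (n (nat_lit 213) (b (l (nat_lit 7) (nat_lit 188) (nat_lit 188))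 (l (nat_lit 6) (nat_lit 212) (nat_lit 263)))) (n (nat_lit 290) (b (l (nat_lit 4) (nat_lit 214) (nat_lit 315)) (l (nat_lit 2) (nat_lit 286) (nat_lit 311))))))) (n (nat_lit 213) (b (l (nat_lit 7) (nat_lit 213) (nat_lit 314)) (l (nat_lit 7) (nat_lit 188) (nat_lit 188)))))) (l (nat_lit 0) (nat_lit 236) (nat_lit 265)))) (l (nat_lit 1) (nat_lit 211) (nat_lit 215)))))) (n (nat_lit 235) (b (b (n (nat_lit 239) (b (n (nat_lit 210) (b (l (nat_lit 3) (nat_lit 210) (nat_lit 211)) (l (nat_lit 3) (nat_lit 209) (nat_lit 209)))) (n (nat_lit 264) (b (l (nat_lit 0) (nat_lit 236) (nat_lit 265)) (l (nat_lit 0) (nat_lit 235) (nat_lit 263)))))) (n (nat_lit 234) (b (n (nat_lit 233) (b (n (nat_lit 208) (b (l (nat_lit 3) (nat_lit 207) (nat_lit 207)) (l (nat_lit 3) (nat_lit 208) (nat_lit 209)))) (n (nat_lit 212) (b (l (nat_lit 1) (nat_lit 208) (nat_lit 211)) (l (nat_lit 1) (nat_lit 209) (nat_lit 213)))))) (n (nat_lit 259) (b (l (nat_lit 2) (nat_lit 233) (nat_lit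 258)) (l (nat_lit 2) (nat_lit 234) (nat_lit 260))))))) (n (nat_lit 263) (b (n (nat_lit 234) (b (n (nat_lit 213) (b (l (nat_lit 6) (nat_lit 212) (nat_lit 288)) (l (nat_lit 1) (nat_lit 209) (nat_lit 212)))) (n (nat_lit 259) (b (l (nat_lit 2) (nat_lit 233) (nat_lit 258)) (l (nat_lit 2) (nat_lit 234) (nat_lit 260)))))) (l (nat_lit 0) (nat_lit 235) (nat_lit 264))))))) (b (n (nat_lit 235) (b (b (n (nat_lit 239) (b (n (nat_lit 210) (b (l (nat_lit 3) (nat_lit 210) (nat_lit 211)) (l (nat_lit 3) (nat_lit 209) (nat_lit 209)))) (n (nat_lit 214) (b (l (nat_lit 1) (nat_lit 211) (nat_lit 215)) (l (nat_lit 1) (nat_lit 210) (nat_lit 213)))))) (n (nat_lit 234) (b (n (nat_lit 259) (b (l (nat_lit 2) (nat_lit 233) (nat_lit 258)) (l (nat_lit 2) (nat_lit 234) (nat_lit 260)))) (n (nat_lit 213) (b (l (nat_lit 1) (nat_lit 210) (nat_lit 214)) (l (nat_lit 1) (nat_lit 209) (nat_lit 212))))))) (n (nat_lit 234) (b (n (nat_lit 209) (b (l (nat_lit 3) (nat_lit 209) (nat_lit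 210)) (l (nat_lit 3) (nat_lit 208) (nat_lit 208)))) (n (nat_lit 259) (b (l (nat_lit 2) (nat_lit 233) (nat_lit 258)) (l (nat_lit 2) (nat_lit 234) (nat_lit 260)))))))) (n (nat_lit 239) (b (b (n (nat_lit 240) (b (n (nat_lit 215) (b (l (nat_lit 1) (nat_lit 211) (nat_lit 214)) (l (nat_lit 1) (nat_lit 212) (nat_lit 216)))) (n (nat_lit 265) (b (l (nat_lit 0) (nat_lit 237) (nat_lit 266)) (l (nat_lit 0) (nat_lit 236) (nat_lit 264)))))) (n (nat_lit 235) (b (n (nat_lit 210) (b (l (nat_lit 3) (nat_lit 210) (nat_lit 211)) (l (nat_lit 3) (nat_lit 209) (nat_lit 209)))) (n (nat_lit 264) (b (l (nat_lit 0) (nat_lit 236) (nat_lit 265)) (l (nat_lit 0) (nat_lit 235) (nat_lit 263))))))) (n (nat_lit 240) (b (n (nat_lit 211) (b (l (nat_lit 3) (nat_lit 211) (nat_lit 212)) (l (nat_lit 3) (nat_lit 210) (nat_lit 210)))) (n (nat_lit 215) (b (l (nat_lit 1) (nat_lit 211) (nat_lit 214)) (l (nat_lit 1) (nat_lit 212) (nat_lit 216)))))))))) (b (n (nat_lit 235) (b (n (nat_lit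 213) (b (n (nat_lit 263) (b (l (nat_lit 6) (nat_lit 212) (nat_lit 288)) (l (nat_lit 0) (nat_lit 235) (nat_lit 264)))) (l (nat_lit 1) (nat_lit 210) (nat_lit 214)))) (n (nat_lit 234) (b (n (nat_lit 209) (b (l (nat_lit 3) (nat_lit 209) (nat_lit 210)) (l (nat_lit 3) (nat_lit 208) (nat_lit 208)))) (n (nat_lit 259) (b (l (nat_lit 2) (nat_lit 233) (nat_lit 258)) (l (nat_lit 2) (nat_lit 234) (nat_lit 260)))))))) (n (nat_lit 239) (b (b (b (n (nat_lit 235) (b (n (nat_lit 234) (b (n (nat_lit 259) (b (l (nat_lit 2) (nat_lit 233) (nat_lit 258)) (l (nat_lit 2) (nat_lit 234) (nat_lit 260)))) (n (nat_lit 213) (b (l (nat_lit 1) (nat_lit 210) (nat_lit 214)) (l (nat_lit 1) (nat_lit 209) (nat_lit 212)))))) (n (nat_lit 264) (b (l (nat_lit 0) (nat_lit 236) (nat_lit 265)) (l (nat_lit 0) (nat_lit 235) (nat_lit 263)))))) (n (nat_lit 240) (b (n (nat_lit 241) (b (n (nat_lit 216) (b (l (nat_lit 1) (nat_lit 212) (nat_lit 215)) (l (nat_lit 1) (nat_lit 213) (nat_lit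 217)))) (n (nat_lit 212) (b (l (nat_lit 3) (nat_lit 212) (nat_lit 213)) (l (nat_lit 3) (nat_lit 211) (nat_lit 211)))))) (n (nat_lit 265) (b (l (nat_lit 0) (nat_lit 237) (nat_lit 266)) (l (nat_lit 0) (nat_lit 236) (nat_lit 264))))))) (b (n (nat_lit 240) (b (n (nat_lit 241) (b (n (nat_lit 266) (b (l (nat_lit 0) (nat_lit 238) (nat_lit 267)) (l (nat_lit 0) (nat_lit 237) (nat_lit 265)))) (n (nat_lit 212) (b (l (nat_lit 3) (nat_lit 212) (nat_lit 213)) (l (nat_lit 3) (nat_lit 211) (nat_lit 211)))))) (n (nat_lit 215) (b (l (nat_lit 1) (nat_lit 211) (nat_lit 214)) (l (nat_lit 1) (nat_lit 212) (nat_lit 216)))))) (n (nat_lit 240) (b (n (nat_lit 215) (b (l (nat_lit 1) (nat_lit 211) (nat_lit 214)) (l (nat_lit 1) (nat_lit 212) (nat_lit 216)))) (n (nat_lit 265) (b (l (nat_lit 0) (nat_lit 237) (nat_lit 266)) (l (nat_lit 0) (nat_lit 236) (nat_lit 264)))))))) (n (nat_lit 214) (b (n (nat_lit 263) (b (b (n (nat_lit 189) (b (n (nat_lit 264) (b (l (nat_lit 6)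 (nat_lit 188) (nat_lit 288)) (l (nat_lit 0) (nat_lit 235) (nat_lit 235)))) (l (nat_lit 6) (nat_lit 163) (nat_lit 164)))) (n (nat_lit 235) (b (l (nat_lit 1) (nat_lit 210) (nat_lit 213)) (l (nat_lit 0) (nat_lit 235) (nat_lit 264))))) (b (n (nat_lit 189) (b (n (nat_lit 288) (b (l (nat_lit 6) (nat_lit 188) (nat_lit 264)) (l (nat_lit 6) (nat_lit 212) (nat_lit 213)))) (l (nat_lit 6) (nat_lit 163) (nat_lit 164)))) (n (nat_lit 213) (b (l (nat_lit 1) (nat_lit 210) (nat_lit 235)) (l (nat_lit 6) (nat_lit 212) (nat_lit 288))))))) (l (nat_lit 1) (nat_lit 211) (nat_lit 215)))))))))))) (n (nat_lit 261) (b (n (nat_lit 237) (b (b (r (nat_lit 1)) (n (nat_lit 238) (b (b (n (nat_lit 239) (b (n (nat_lit 240) (b (n (nat_lit 215) (b (l (nat_lit 1) (nat_lit 211) (nat_lit 214)) (l (nat_lit 1) (nat_lit 212) (nat_lit 216)))) (n (nat_lit 265) (b (l (nat_lit 0) (nat_lit 237) (nat_lit 266)) (l (nat_lit 0) (nat_lit 236) (nat_lit 264)))))) (l (nat_lit 2) (nat_lit 235)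 (nat_lit 260)))) (n (nat_lit 260) (b (n (nat_lit 259) (b (l (nat_lit 1) (nat_lit 233) (nat_lit 258)) (l (nat_lit 2) (nat_lit 234) (nat_lit 235)))) (l (nat_lit 2) (nat_lit 235) (nat_lit 239))))) (n (nat_lit 235) (b (n (nat_lit 213) (b (n (nat_lit 263) (b (l (nat_lit 6) (nat_lit 212) (nat_lit 288)) (l (nat_lit 0) (nat_lit 235) (nat_lit 264)))) (l (nat_lit 1) (nat_lit 210) (nat_lit 214)))) (n (nat_lit 210) (b (l (nat_lit 3) (nat_lit 209) (nat_lit 209)) (l (nat_lit 7) (nat_lit 210) (nat_lit 311))))))))) (b (n (nat_lit 311) (b (n (nat_lit 336) (b (n (nat_lit 335) (b (l (nat_lit 6) (nat_lit 260) (nat_lit 360)) (l (nat_lit 6) (nat_lit 235) (nat_lit 310)))) (n (nat_lit 235) (b (l (nat_lit 7) (nat_lit 235) (nat_lit 260)) (l (nat_lit 7) (nat_lit 210) (nat_lit 210)))))) (l (nat_lit 5) (nat_lit 211) (nat_lit 212)))) (n (nat_lit 311) (b (n (nat_lit 310) (b (n (nat_lit 288) (b (l (nat_lit 2) (nat_lit 285) (nat_lit 289)) (l (nat_lit 1) (nat_lit 284) (nat_lit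 309)))) (l (nat_lit 6) (nat_lit 235) (nat_lit 335)))) (l (nat_lit 5) (nat_lit 211) (nat_lit 212))))))) (l (nat_lit 4) (nat_lit 211) (nat_lit 211))))) (b (n (nat_lit 237) (b (b (n (nat_lit 262) (b (n (nat_lit 212) (b (n (nat_lit 213) (b (l (nat_lit 5) (nat_lit 187) (nat_lit 188)) (l (nat_lit 5) (nat_lit 212) (nat_lit 238)))) (l (nat_lit 6) (nat_lit 211) (nat_lit 311)))) (l (nat_lit 7) (nat_lit 211) (nat_lit 211)))) (n (nat_lit 211) (b (l (nat_lit 7) (nat_lit 211) (nat_lit 262)) (l (nat_lit 4) (nat_lit 211) (nat_lit 261))))) (b (n (nat_lit 261) (b (n (nat_lit 311) (b (n (nat_lit 310) (b (n (nat_lit 288) (b (l (nat_lit 2) (nat_lit 285) (nat_lit 289)) (l (nat_lit 1) (nat_lit 284) (nat_lit 309)))) (l (nat_lit 6) (nat_lit 235) (nat_lit 335)))) (l (nat_lit 5) (nat_lit 211) (nat_lit 212)))) (l (nat_lit 4) (nat_lit 211) (nat_lit 211)))) (n (nat_lit 311) (b (b (n (nat_lit 310) (b (n (nat_lit 288) (b (l (nat_lit 2) (nat_lit 285) (nat_lit 289)) (l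 (nat_lit 1) (nat_lit 284) (nat_lit 309)))) (n (nat_lit 261) (b (l (nat_lit 6) (nat_lit 235) (nat_lit 335)) (l (nat_lit 5) (nat_lit 211) (nat_lit 212)))))) (n (nat_lit 262) (b (l (nat_lit 6) (nat_lit 236) (nat_lit 336)) (l (nat_lit 6) (nat_lit 211) (nat_lit 212))))) (n (nat_lit 336) (b (n (nat_lit 361) (b (n (nat_lit 360) (b (n (nat_lit 362) (b (n (nat_lit 335) (b (n (nat_lit 334) (b (l (nat_lit 3) (nat_lit 334) (nat_lit 363)) (l (nat_lit 0) (nat_lit 333) (nat_lit 333)))) (l (nat_lit 6) (nat_lit 260) (nat_lit 261)))) (l (nat_lit 4) (nat_lit 286) (nat_lit 387)))) (l (nat_lit 6) (nat_lit 285) (nat_lit 385)))) (l (nat_lit 5) (nat_lit 286) (nat_lit 386)))) (l (nat_lit 6) (nat_lit 236) (nat_lit 262))))))))) (n (nat_lit 237) (b (b (n (nat_lit 262) (b (n (nat_lit 311) (b (l (nat_lit 6) (nat_lit 236) (nat_lit 336)) (l (nat_lit 6) (nat_lit 211) (nat_lit 212)))) (n (nat_lit 238) (b (r (nat_lit 0)) (l (nat_lit 5) (nat_lit 212) (nat_lit 213)))))) (n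 (nat_lit 211) (b (l (nat_lit 7) (nat_lit 211) (nat_lit 262)) (l (nat_lit 4) (nat_lit 211) (nat_lit 261))))) (n (nat_lit 261) (b (n (nat_lit 311) (b (n (nat_lit 336) (b (n (nat_lit 335) (b (l (nat_lit 6) (nat_lit 260) (nat_lit 360)) (l (nat_lit 6) (nat_lit 235) (nat_lit 310)))) (n (nat_lit 235) (b (l (nat_lit 7) (nat_lit 235) (nat_lit 260)) (l (nat_lit 7) (nat_lit 210) (nat_lit 210)))))) (l (nat_lit 5) (nat_lit 211) (nat_lit 212)))) (l (nat_lit 4) (nat_lit 211) (nat_lit 211)))))))) (b (b (n (nat_lit 211) (b (n (nat_lit 237) (b (n (nat_lit 238) (b (b (n (nat_lit 235) (b (n (nat_lit 213) (b (n (nat_lit 263) (b (l (nat_lit 6) (nat_lit 212) (nat_lit 288)) (l (nat_lit 0) (nat_lit 235) (nat_lit 264)))) (l (nat_lit 1) (nat_lit 210) (nat_lit 214)))) (n (nat_lit 234) (b (n (nat_lit 209) (b (l (nat_lit 3) (nat_lit 209) (nat_lit 210)) (l (nat_lit 3) (nat_lit 208) (nat_lit 208)))) (n (nat_lit 259) (b (l (nat_lit 2) (nat_lit 233) (nat_lit 258)) (l (nat_lit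 2) (nat_lit 234) (nat_lit 260)))))))) (n (nat_lit 239) (b (b (n (nat_lit 235) (b (n (nat_lit 264) (b (l (nat_lit 0) (nat_lit 236) (nat_lit 265)) (l (nat_lit 0) (nat_lit 235) (nat_lit 263)))) (n (nat_lit 214) (b (l (nat_lit 1) (nat_lit 211) (nat_lit 215)) (l (nat_lit 1) (nat_lit 210) (nat_lit 213)))))) (n (nat_lit 240) (b (n (nat_lit 265) (b (l (nat_lit 0) (nat_lit 237) (nat_lit 266)) (l (nat_lit 0) (nat_lit 236) (nat_lit 264)))) (l (nat_lit 3) (nat_lit 211) (nat_lit 212))))) (n (nat_lit 240) (b (n (nat_lit 215) (b (l (nat_lit 1) (nat_lit 211) (nat_lit 214)) (l (nat_lit 1) (nat_lit 212) (nat_lit 216)))) (l (nat_lit 3) (nat_lit 211) (nat_lit 212))))))) (n (nat_lit 210) (b (n (nat_lit 209) (b (l (nat_lit 0) (nat_lit 209) (nat_lit 212)) (l (nat_lit 0) (nat_lit 208) (nat_lit 208)))) (l (nat_lit 3) (nat_lit 210) (nat_lit 239)))))) (l (nat_lit 7) (nat_lit 211) (nat_lit 262)))) (l (nat_lit 4) (nat_lit 211) (nat_lit 261)))) (n (nat_lit 261) (b (n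 (nat_lit 311) (b (n (nat_lit 336) (b (n (nat_lit 361) (b (l (nat_lit 5) (nat_lit 261) (nat_lit 262)) (l (nat_lit 5) (nat_lit 286) (nat_lit 386)))) (n (nat_lit 235) (b (l (nat_lit 7) (nat_lit 235) (nat_lit 260)) (l (nat_lit 7) (nat_lit 210) (nat_lit 210)))))) (n (nat_lit 310) (b (n (nat_lit 288) (b (l (nat_lit 2) (nat_lit 285) (nat_lit 289)) (l (nat_lit 1) (nat_lit 284) (nat_lit 309)))) (l (nat_lit 6) (nat_lit 235) (nat_lit 335)))))) (l (nat_lit 4) (nat_lit 211) (nat_lit 211))))) (n (nat_lit 237) (b (b (b (n (nat_lit 311) (b (b (n (nat_lit 262) (b (n (nat_lit 238) (b (r (nat_lit 0)) (l (nat_lit 5) (nat_lit 212) (nat_lit 213)))) (l (nat_lit 6) (nat_lit 236) (nat_lit 336)))) (n (nat_lit 336) (b (n (nat_lit 361) (b (n (nat_lit 360) (b (n (nat_lit 362) (b (n (nat_lit 335) (b (n (nat_lit 334) (b (l (nat_lit 3) (nat_lit 334) (nat_lit 363)) (l (nat_lit 0) (nat_lit 333) (nat_lit 333)))) (l (nat_lit 6) (nat_lit 260) (nat_lit 261)))) (l (nat_lit 4)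 (nat_lit 286) (nat_lit 387)))) (l (nat_lit 6) (nat_lit 285) (nat_lit 385)))) (l (nat_lit 5) (nat_lit 286) (nat_lit 386)))) (l (nat_lit 6) (nat_lit 236) (nat_lit 262))))) (b (n (nat_lit 261) (b (n (nat_lit 310) (b (n (nat_lit 288) (b (l (nat_lit 2) (nat_lit 285) (nat_lit 289)) (l (nat_lit 1) (nat_lit 284) (nat_lit 309)))) (l (nat_lit 6) (nat_lit 235) (nat_lit 335)))) (n (nat_lit 235) (b (n (nat_lit 260) (b (n (nat_lit 259) (b (l (nat_lit 2) (nat_lit 234) (nat_lit 238)) (l (nat_lit 0) (nat_lit 258) (nat_lit 258)))) (l (nat_lit 7) (nat_lit 235) (nat_lit 336)))) (l (nat_lit 7) (nat_lit 210) (nat_lit 210)))))) (n (nat_lit 310) (b (n (nat_lit 309) (b (l (nat_lit 1) (nat_lit 284) (nat_lit 288)) (l (nat_lit 1) (nat_lit 283) (nat_lit 308)))) (n (nat_lit 261) (b (n (nat_lit 238) (b (b (n (nat_lit 260) (b (n (nat_lit 262) (b (l (nat_lit 1) (nat_lit 234) (nat_lit 259)) (l (nat_lit 5) (nat_lit 212) (nat_lit 213)))) (l (nat_lit 2) (nat_lit 235) (nat_lit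 239)))) (n (nat_lit 235) (b (n (nat_lit 213) (b (l (nat_lit 1) (nat_lit 210) (nat_lit 214)) (l (nat_lit 5) (nat_lit 212) (nat_lit 262)))) (l (nat_lit 7) (nat_lit 210) (nat_lit 210))))) (n (nat_lit 235) (b (n (nat_lit 260) (b (l (nat_lit 2) (nat_lit 235) (nat_lit 239)) (l (nat_lit 2) (nat_lit 234) (nat_lit 259)))) (l (nat_lit 7) (nat_lit 210) (nat_lit 210)))))) (l (nat_lit 6) (nat_lit 235) (nat_lit 335))))))))) (n (nat_lit 311) (b (b (n (nat_lit 310) (b (n (nat_lit 288) (b (l (nat_lit 2) (nat_lit 285) (nat_lit 289)) (l (nat_lit 1) (nat_lit 284) (nat_lit 309)))) (n (nat_lit 261) (b (l (nat_lit 6) (nat_lit 235) (nat_lit 335)) (l (nat_lit 5) (nat_lit 211) (nat_lit 212)))))) (n (nat_lit 262) (b (l (nat_lit 6) (nat_lit 236) (nat_lit 336)) (l (nat_lit 6) (nat_lit 211) (nat_lit 212))))) (n (nat_lit 336) (b (n (nat_lit 361) (b (n (nat_lit 360) (b (n (nat_lit 362) (b (n (nat_lit 335) (b (n (nat_lit 334) (b (l (nat_lit 3) (nat_lit 334) (nat_lit 363))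 (l (nat_lit 0) (nat_lit 333) (nat_lit 333)))) (l (nat_lit 6) (nat_lit 260) (nat_lit 261)))) (l (nat_lit 4) (nat_lit 286) (nat_lit 387)))) (l (nat_lit 6) (nat_lit 285) (nat_lit 385)))) (l (nat_lit 5) (nat_lit 286) (nat_lit 386)))) (l (nat_lit 6) (nat_lit 236) (nat_lit 262))))))) (b (n (nat_lit 261) (b (b (n (nat_lit 238) (b (b (n (nat_lit 239) (b (n (nat_lit 240) (b (n (nat_lit 215) (b (l (nat_lit 1) (nat_lit 211) (nat_lit 214)) (l (nat_lit 1) (nat_lit 212) (nat_lit 216)))) (n (nat_lit 265) (b (l (nat_lit 0) (nat_lit 237) (nat_lit 266)) (l (nat_lit 0) (nat_lit 236) (nat_lit 264)))))) (l (nat_lit 2) (nat_lit 235) (nat_lit 260)))) (n (nat_lit 260) (b (n (nat_lit 259) (b (l (nat_lit 1) (nat_lit 233) (nat_lit 258)) (l (nat_lit 2) (nat_lit 234) (nat_lit 235)))) (l (nat_lit 2) (nat_lit 235) (nat_lit 239))))) (n (nat_lit 235) (b (n (nat_lit 213) (b (n (nat_lit 263) (b (l (nat_lit 6) (nat_lit 212) (nat_lit 288)) (l (nat_lit 0) (nat_lit 235) (nat_lit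 264)))) (l (nat_lit 1) (nat_lit 210) (nat_lit 214)))) (n (nat_lit 210) (b (l (nat_lit 3) (nat_lit 209) (nat_lit 209)) (l (nat_lit 7) (nat_lit 210) (nat_lit 311)))))))) (n (nat_lit 311) (b (n (nat_lit 336) (b (n (nat_lit 335) (b (l (nat_lit 6) (nat_lit 260) (nat_lit 360)) (l (nat_lit 6) (nat_lit 235) (nat_lit 310)))) (n (nat_lit 235) (b (l (nat_lit 7) (nat_lit 235) (nat_lit 260)) (l (nat_lit 7) (nat_lit 210) (nat_lit 210)))))) (l (nat_lit 5) (nat_lit 211) (nat_lit 212))))) (b (n (nat_lit 311) (b (n (nat_lit 310) (b (n (nat_lit 288) (b (l (nat_lit 2) (nat_lit 285) (nat_lit 289)) (l (nat_lit 1) (nat_lit 284) (nat_lit 309)))) (l (nat_lit 6) (nat_lit 235) (nat_lit 335)))) (l (nat_lit 5) (nat_lit 211) (nat_lit 212)))) (r (nat_lit 1))))) (n (nat_lit 262) (b (n (nat_lit 311) (b (l (nat_lit 6) (nat_lit 236) (nat_lit 336)) (l (nat_lit 6) (nat_lit 211) (nat_lit 212)))) (n (nat_lit 238) (b (r (nat_lit 0)) (l (nat_lit 5) (nat_lit 212) (nat_lit 213))))))))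 (n (nat_lit 238) (b (b (n (nat_lit 213) (b (n (nat_lit 214) (b (n (nat_lit 215) (b (l (nat_lit 2) (nat_lit 211) (nat_lit 212)) (l (nat_lit 2) (nat_lit 212) (nat_lit 216)))) (l (nat_lit 1) (nat_lit 210) (nat_lit 235)))) (l (nat_lit 5) (nat_lit 212) (nat_lit 262)))) (n (nat_lit 239) (b (b (n (nat_lit 235) (b (n (nat_lit 264) (b (l (nat_lit 0) (nat_lit 236) (nat_lit 265)) (l (nat_lit 0) (nat_lit 235) (nat_lit 263)))) (n (nat_lit 260) (b (l (nat_lit 2) (nat_lit 234) (nat_lit 259)) (l (nat_lit 2) (nat_lit 235) (nat_lit 261)))))) (n (nat_lit 240) (b (n (nat_lit 261) (b (l (nat_lit 2) (nat_lit 236) (nat_lit 262)) (l (nat_lit 2) (nat_lit 235) (nat_lit 260)))) (n (nat_lit 215) (b (l (nat_lit 1) (nat_lit 211) (nat_lit 214)) (l (nat_lit 1) (nat_lit 212) (nat_lit 216))))))) (n (nat_lit 240) (b (n (nat_lit 215) (b (l (nat_lit 1) (nat_lit 211) (nat_lit 214)) (l (nat_lit 1) (nat_lit 212) (nat_lit 216)))) (n (nat_lit 265) (b (l (nat_lit 0) (nat_lit 237)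 (nat_lit 266)) (l (nat_lit 0) (nat_lit 236) (nat_lit 264))))))))) (b (n (nat_lit 235) (b (n (nat_lit 234) (b (n (nat_lit 209) (b (l (nat_lit 3) (nat_lit 209) (nat_lit 210)) (l (nat_lit 3) (nat_lit 208) (nat_lit 208)))) (n (nat_lit 259) (b (l (nat_lit 2) (nat_lit 233) (nat_lit 258)) (l (nat_lit 2) (nat_lit 234) (nat_lit 260)))))) (n (nat_lit 239) (b (n (nat_lit 214) (b (l (nat_lit 1) (nat_lit 211) (nat_lit 215)) (l (nat_lit 1) (nat_lit 210) (nat_lit 213)))) (n (nat_lit 264) (b (l (nat_lit 0) (nat_lit 236) (nat_lit 265)) (l (nat_lit 0) (nat_lit 235) (nat_lit 263)))))))) (n (nat_lit 213) (b (n (nat_lit 263) (b (n (nat_lit 188) (b (n (nat_lit 163) (b (n (nat_lit 162) (b (l (nat_lit 7) (nat_lit 162) (nat_lit 187)) (l (nat_lit 7) (nat_lit 137) (nat_lit 137)))) (n (nat_lit 164) (b (l (nat_lit 5) (nat_lit 138) (nat_lit 139)) (l (nat_lit 5) (nat_lit 163) (nat_lit 189)))))) (n (nat_lit 264) (b (n (nat_lit 265) (b (l (nat_lit 3) (nat_lit 237) (nat_lit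 266)) (l (nat_lit 0) (nat_lit 236) (nat_lit 239)))) (l (nat_lit 4) (nat_lit 188) (nat_lit 289)))))) (l (nat_lit 6) (nat_lit 212) (nat_lit 288)))) (l (nat_lit 5) (nat_lit 212) (nat_lit 262))))))))))))
    (envOK_cons p14031 (envOK_cons p14095 envOK_nil)) (by decide +kernel)

theorem p14160 : Fam (nat_lit 9) (nat_lit 870315663717126623771918934256936470175798263895358505520811959563029119771933407182848) (nat_lit 3152160627229946891870516404569750939226218326741641417362371172356648576010110617616308532233080934381219815666745344) (nat_lit 3152160627229946891870516404569750939226218326741641417362371172356648576010110617616308532233080934381219815666745344) :=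
  chk_sound (Env.cons (nat_lit 8) (nat_lit 1864962136536699908082683430550578150376710565490053940401739913349348113797000158248960) (nat_lit 3152160627229946891870382905373944755033642351052122332977269108067614677269334621034114432880201315495807725248446464) Env.nil)
    (n (nat_lit 289) (b (b (n (nat_lit 315) (b (n (nat_lit 290) (b (n (nat_lit 262) (b (n (nat_lit 263) (b (n (nat_lit 285) (b (l (nat_lit 1) (nat_lit 260) (nat_lit 264)) (l (nat_lit 1) (nat_lit 259) (nat_lit 284)))) (l (nat_lit 3) (nat_lit 262) (nat_lit 291)))) (l (nat_lit 3) (nat_lit 261) (nat_lit 261)))) (l (nat_lit 0) (nat_lit 287) (nat_lit 316)))) (l (nat_lit 0) (nat_lit 286) (nat_lit 314)))) (n (nat_lit 290) (b (n (nat_lit 291) (b (n (nat_lit 266) (b (l (nat_lit 1) (nat_lit 263) (nat_lit 267)) (l (nat_lit 1) (nat_lit 262) (nat_lit 265)))) (n (nat_lit 262) (b (l (nat_lit 3) (nat_lit 262) (nat_lit 263)) (l (nat_lit 3) (nat_lit 261) (nat_lit 261)))))) (n (nat_lit 315)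 (b (l (nat_lit 0) (nat_lit 287) (nat_lit 316)) (l (nat_lit 0) (nat_lit 286) (nat_lit 314))))))) (b (r (nat_lit 0)) (n (nat_lit 290) (b (n (nat_lit 265) (b (l (nat_lit 1) (nat_lit 261) (nat_lit 264)) (l (nat_lit 1) (nat_lit 262) (nat_lit 266)))) (n (nat_lit 261) (b (l (nat_lit 3) (nat_lit 261) (nat_lit 262)) (l (nat_lit 3) (nat_lit 260) (nat_lit 260)))))))))
    (envOK_cons p13706 envOK_nil) (by decide +kernel)

theorem p14164 : Fam (nat_lit 7) (nat_lit 932481068268349954041341715275289075188355282745026970200869956674674056898500079124480) (nat_lit 39402014416293763892783814148532896160894665402446557193121461330896496531130384786970479663311627825370320653516800) (nat_lit 39402014416293763892783814148532896160894665402446557193121461330896496531130384786970479663311627825370320653516800) :=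
  chk_sound Env.nil
    (n (nat_lit 310) (b (n (nat_lit 260) (b (n (nat_lit 235) (b (b (n (nat_lit 311) (b (l (nat_lit 4) (nat_lit 235) (nat_lit 336)) (l (nat_lit 4) (nat_lit 210) (nat_lit 210)))) (n (nat_lit 335) (b (n (nat_lit 360) (b (n (nat_lit 359) (b (l (nat_lit 6) (nat_lit 259) (nat_lit 334)) (l (nat_lit 6) (nat_lit 284) (nat_lit 384)))) (l (nat_lit 5) (nat_lit 260) (nat_lit 261)))) (n (nat_lit 336) (b (l (nat_lit 4) (nat_lit 235) (nat_lit 311)) (l (nat_lit 4) (nat_lit 260) (nat_lit 361))))))) (n (nat_lit 210) (b (n (nat_lit 185) (b (n (nat_lit 186) (b (l (nat_lit 5) (nat_lit 185) (nat_lit 211)) (l (nat_lit 5) (nat_lit 160) (nat_lit 161)))) (l (nat_lit 4) (nat_lit 185) (nat_lit 261)))) (n (nat_lit 209) (b (l (nat_lit 7) (nat_lit 184) (nat_lit 184)) (l (nat_lit 7) (nat_lit 209) (nat_lit 234)))))))) (l (nat_lit 3) (nat_lit 259) (nat_lit 259)))) (l (nat_lit 2) (nat_lit 284) (nat_lit 309))))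
    envOK_nil (by decide +kernel)

theorem p14240 : Fam (nat_lit 13) (nat_lit 8343699732058482316695535156261499057782444615797787980616419360903528473700249907927227301888) (nat_lit 3427974678824607531036982803013562434368541481744513748243794674598603154946302274310903013816520285056402772054769664) (nat_lit 3427974678824607531036982803013562434368541481744513748243794674598603154946302274310903013816520285056402772054769664) :=
  chk_sound (Env.cons (nat_lit 8) (nat_lit 1864962136536699908082683430550578150376710565490053940401739913349348113797000158248960) (nat_lit 3152160627229946891870382905373944755033642351052122332977269108067614677269334621034114432880201315495807725248446464) Env.nil)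
    (n (nat_lit 288) (b (b (n (nat_lit 289) (b (r (nat_lit 0)) (n (nat_lit 311) (b (l (nat_lit 2) (nat_lit 285) (nat_lit 310)) (l (nat_lit 2) (nat_lit 286) (nat_lit 290)))))) (n (nat_lit 289) (b (b (n (nat_lit 290) (b (n (nat_lit 265) (b (l (nat_lit 1) (nat_lit 261) (nat_lit 264)) (l (nat_lit 1) (nat_lit 262) (nat_lit 266)))) (n (nat_lit 315) (b (l (nat_lit 0) (nat_lit 287) (nat_lit 316)) (l (nat_lit 0) (nat_lit 286) (nat_lit 314)))))) (n (nat_lit 290) (b (n (nat_lit 315) (b (l (nat_lit 0) (nat_lit 287) (nat_lit 316)) (l (nat_lit 0) (nat_lit 286) (nat_lit 314)))) (n (nat_lit 261) (b (l (nat_lit 3) (nat_lit 261) (nat_lit 262)) (l (nat_lit 3) (nat_lit 260) (nat_lit 260))))))) (n (nat_lit 285) (b (n (nat_lit 260) (b (l (nat_lit 3) (nat_lit 260) (nat_lit 261)) (l (nat_lit 3) (nat_lit 259) (nat_lit 259)))) (n (nat_lit 264) (b (l (nat_lit 1) (nat_lit 261) (nat_lit 265)) (l (nat_lit 1) (nat_lit 260) (nat_lit 263))))))))) (b (n (nat_lit 289) (b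 (b (n (nat_lit 290) (b (n (nat_lit 315) (b (l (nat_lit 0) (nat_lit 287) (nat_lit 316)) (l (nat_lit 0) (nat_lit 286) (nat_lit 314)))) (n (nat_lit 261) (b (l (nat_lit 3) (nat_lit 261) (nat_lit 262)) (l (nat_lit 3) (nat_lit 260) (nat_lit 260)))))) (n (nat_lit 285) (b (n (nat_lit 260) (b (l (nat_lit 3) (nat_lit 260) (nat_lit 261)) (l (nat_lit 3) (nat_lit 259) (nat_lit 259)))) (n (nat_lit 310) (b (l (nat_lit 2) (nat_lit 284) (nat_lit 309)) (l (nat_lit 2) (nat_lit 285) (nat_lit 311))))))) (n (nat_lit 311) (b (l (nat_lit 2) (nat_lit 285) (nat_lit 310)) (l (nat_lit 2) (nat_lit 286) (nat_lit 290)))))) (n (nat_lit 310) (b (b (n (nat_lit 311) (b (n (nat_lit 261) (b (b (n (nat_lit 236) (b (l (nat_lit 4) (nat_lit 211) (nat_lit 211)) (l (nat_lit 6) (nat_lit 235) (nat_lit 335)))) (n (nat_lit 336) (b (n (nat_lit 361) (b (n (nat_lit 360) (b (l (nat_lit 6) (nat_lit 285) (nat_lit 385)) (l (nat_lit 6) (nat_lit 260) (nat_lit 335)))) (l (nat_lit 5) (nat_lit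 286) (nat_lit 386)))) (n (nat_lit 262) (b (n (nat_lit 260) (b (l (nat_lit 0) (nat_lit 259) (nat_lit 259)) (l (nat_lit 7) (nat_lit 235) (nat_lit 235)))) (l (nat_lit 6) (nat_lit 236) (nat_lit 237))))))) (n (nat_lit 336) (b (n (nat_lit 236) (b (n (nat_lit 235) (b (l (nat_lit 7) (nat_lit 235) (nat_lit 260)) (l (nat_lit 7) (nat_lit 210) (nat_lit 210)))) (l (nat_lit 4) (nat_lit 211) (nat_lit 211)))) (n (nat_lit 262) (b (l (nat_lit 5) (nat_lit 261) (nat_lit 361)) (l (nat_lit 6) (nat_lit 236) (nat_lit 237)))))))) (l (nat_lit 1) (nat_lit 284) (nat_lit 309)))) (n (nat_lit 309) (b (l (nat_lit 1) (nat_lit 284) (nat_lit 311)) (l (nat_lit 2) (nat_lit 284) (nat_lit 285))))) (b (n (nat_lit 285) (b (n (nat_lit 260) (b (n (nat_lit 235) (b (b (n (nat_lit 210) (b (n (nat_lit 185) (b (n (nat_lit 186) (b (l (nat_lit 5) (nat_lit 185) (nat_lit 211)) (l (nat_lit 5) (nat_lit 160) (nat_lit 161)))) (l (nat_lit 4) (nat_lit 185) (nat_lit 261)))) (n (nat_lit 209) (b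 (l (nat_lit 7) (nat_lit 184) (nat_lit 184)) (l (nat_lit 7) (nat_lit 209) (nat_lit 234)))))) (n (nat_lit 210) (b (n (nat_lit 211) (b (l (nat_lit 5) (nat_lit 210) (nat_lit 236)) (l (nat_lit 5) (nat_lit 185) (nat_lit 186)))) (n (nat_lit 209) (b (l (nat_lit 7) (nat_lit 184) (nat_lit 184)) (l (nat_lit 7) (nat_lit 209) (nat_lit 234))))))) (b (n (nat_lit 335) (b (n (nat_lit 360) (b (n (nat_lit 359) (b (l (nat_lit 6) (nat_lit 259) (nat_lit 334)) (l (nat_lit 6) (nat_lit 284) (nat_lit 384)))) (n (nat_lit 361) (b (l (nat_lit 4) (nat_lit 285) (nat_lit 386)) (l (nat_lit 4) (nat_lit 260) (nat_lit 336)))))) (n (nat_lit 210) (b (n (nat_lit 261) (b (l (nat_lit 5) (nat_lit 235) (nat_lit 236)) (l (nat_lit 4) (nat_lit 185) (nat_lit 185)))) (n (nat_lit 209) (b (l (nat_lit 7) (nat_lit 184) (nat_lit 184)) (l (nat_lit 7) (nat_lit 209) (nat_lit 234)))))))) (n (nat_lit 335) (b (n (nat_lit 360) (b (n (nat_lit 359) (b (l (nat_lit 6) (nat_lit 259) (nat_lit 334)) (l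 (nat_lit 6) (nat_lit 284) (nat_lit 384)))) (n (nat_lit 361) (b (l (nat_lit 4) (nat_lit 285) (nat_lit 386)) (l (nat_lit 4) (nat_lit 260) (nat_lit 336)))))) (n (nat_lit 236) (b (l (nat_lit 5) (nat_lit 210) (nat_lit 211)) (l (nat_lit 5) (nat_lit 235) (nat_lit 261))))))))) (l (nat_lit 3) (nat_lit 259) (nat_lit 259)))) (l (nat_lit 2) (nat_lit 284) (nat_lit 309)))) (n (nat_lit 260) (b (b (b (n (nat_lit 285) (b (n (nat_lit 235) (b (n (nat_lit 311) (b (l (nat_lit 4) (nat_lit 235) (nat_lit 336)) (l (nat_lit 4) (nat_lit 210) (nat_lit 210)))) (n (nat_lit 263) (b (n (nat_lit 236) (b (n (nat_lit 234) (b (n (nat_lit 237) (b (n (nat_lit 213) (b (l (nat_lit 6) (nat_lit 212) (nat_lit 238)) (l (nat_lit 1) (nat_lit 209) (nat_lit 212)))) (l (nat_lit 0) (nat_lit 234) (nat_lit 262)))) (l (nat_lit 7) (nat_lit 209) (nat_lit 209)))) (l (nat_lit 5) (nat_lit 210) (nat_lit 211)))) (l (nat_lit 1) (nat_lit 260) (nat_lit 264)))))) (l (nat_lit 3) (nat_lit 259) (nat_lit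 259)))) (n (nat_lit 285) (b (n (nat_lit 235) (b (b (n (nat_lit 210) (b (n (nat_lit 211) (b (l (nat_lit 5) (nat_lit 210) (nat_lit 236)) (l (nat_lit 5) (nat_lit 185) (nat_lit 186)))) (n (nat_lit 209) (b (l (nat_lit 7) (nat_lit 184) (nat_lit 184)) (l (nat_lit 7) (nat_lit 209) (nat_lit 234)))))) (n (nat_lit 311) (b (l (nat_lit 4) (nat_lit 235) (nat_lit 336)) (l (nat_lit 4) (nat_lit 210) (nat_lit 210))))) (n (nat_lit 335) (b (n (nat_lit 236) (b (l (nat_lit 5) (nat_lit 210) (nat_lit 211)) (l (nat_lit 5) (nat_lit 235) (nat_lit 261)))) (n (nat_lit 336) (b (l (nat_lit 4) (nat_lit 235) (nat_lit 311)) (l (nat_lit 4) (nat_lit 260) (nat_lit 361)))))))) (l (nat_lit 3) (nat_lit 259) (nat_lit 259))))) (b (n (nat_lit 261) (b (n (nat_lit 259) (b (l (nat_lit 0) (nat_lit 258) (nat_lit 258)) (l (nat_lit 0) (nat_lit 259) (nat_lit 262)))) (n (nat_lit 236) (b (n (nat_lit 311) (b (n (nat_lit 235) (b (l (nat_lit 7) (nat_lit 210) (nat_lit 210)) (l (nat_lit 7) (nat_lit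 235) (nat_lit 336)))) (l (nat_lit 6) (nat_lit 235) (nat_lit 335)))) (l (nat_lit 4) (nat_lit 211) (nat_lit 211)))))) (n (nat_lit 259) (b (n (nat_lit 261) (b (l (nat_lit 0) (nat_lit 259) (nat_lit 262)) (l (nat_lit 0) (nat_lit 258) (nat_lit 258)))) (l (nat_lit 3) (nat_lit 259) (nat_lit 285)))))) (n (nat_lit 262) (b (b (b (n (nat_lit 237) (b (b (n (nat_lit 212) (b (n (nat_lit 213) (b (l (nat_lit 5) (nat_lit 187) (nat_lit 188)) (l (nat_lit 5) (nat_lit 212) (nat_lit 238)))) (n (nat_lit 211) (b (l (nat_lit 7) (nat_lit 211) (nat_lit 236)) (l (nat_lit 7) (nat_lit 186) (nat_lit 186)))))) (n (nat_lit 311) (b (l (nat_lit 6) (nat_lit 236) (nat_lit 336)) (l (nat_lit 6) (nat_lit 211) (nat_lit 212))))) (n (nat_lit 236) (b (n (nat_lit 261) (b (n (nat_lit 238) (b (l (nat_lit 2) (nat_lit 235) (nat_lit 239)) (l (nat_lit 5) (nat_lit 212) (nat_lit 213)))) (n (nat_lit 311) (b (l (nat_lit 6) (nat_lit 235) (nat_lit 335)) (l (nat_lit 6) (nat_lit 236) (nat_lit 336))))))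 (l (nat_lit 7) (nat_lit 211) (nat_lit 211)))))) (n (nat_lit 311) (b (b (n (nat_lit 336) (b (n (nat_lit 235) (b (l (nat_lit 7) (nat_lit 235) (nat_lit 261)) (l (nat_lit 4) (nat_lit 235) (nat_lit 285)))) (l (nat_lit 5) (nat_lit 261) (nat_lit 361)))) (n (nat_lit 237) (b (l (nat_lit 6) (nat_lit 236) (nat_lit 336)) (l (nat_lit 6) (nat_lit 211) (nat_lit 212))))) (n (nat_lit 237) (b (n (nat_lit 236) (b (n (nat_lit 261) (b (n (nat_lit 235) (b (n (nat_lit 263) (b (l (nat_lit 3) (nat_lit 235) (nat_lit 264)) (l (nat_lit 0) (nat_lit 234) (nat_lit 234)))) (l (nat_lit 7) (nat_lit 210) (nat_lit 210)))) (l (nat_lit 6) (nat_lit 235) (nat_lit 335)))) (l (nat_lit 7) (nat_lit 211) (nat_lit 211)))) (l (nat_lit 6) (nat_lit 211) (nat_lit 212))))))) (b (n (nat_lit 263) (b (b (n (nat_lit 238) (b (n (nat_lit 261) (b (n (nat_lit 235) (b (n (nat_lit 311) (b (n (nat_lit 210) (b (l (nat_lit 4) (nat_lit 210) (nat_lit 285)) (l (nat_lit 4) (nat_lit 185) (nat_lit 185))))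 (l (nat_lit 7) (nat_lit 235) (nat_lit 336)))) (l (nat_lit 3) (nat_lit 234) (nat_lit 234)))) (l (nat_lit 1) (nat_lit 235) (nat_lit 239)))) (l (nat_lit 6) (nat_lit 212) (nat_lit 213)))) (n (nat_lit 264) (b (l (nat_lit 2) (nat_lit 261) (nat_lit 265)) (l (nat_lit 1) (nat_lit 260) (nat_lit 285))))) (n (nat_lit 238) (b (n (nat_lit 239) (b (n (nat_lit 265) (b (n (nat_lit 237) (b (n (nat_lit 212) (b (l (nat_lit 4) (nat_lit 187) (nat_lit 187)) (l (nat_lit 6) (nat_lit 211) (nat_lit 311)))) (n (nat_lit 240) (b (l (nat_lit 0) (nat_lit 237) (nat_lit 266)) (l (nat_lit 2) (nat_lit 237) (nat_lit 241)))))) (l (nat_lit 2) (nat_lit 261) (nat_lit 264)))) (l (nat_lit 1) (nat_lit 235) (nat_lit 261)))) (l (nat_lit 6) (nat_lit 212) (nat_lit 213)))))) (n (nat_lit 237) (b (b (n (nat_lit 212) (b (n (nat_lit 213) (b (l (nat_lit 5) (nat_lit 187) (nat_lit 188)) (l (nat_lit 5) (nat_lit 212) (nat_lit 238)))) (n (nat_lit 211) (b (l (nat_lit 7) (nat_lit 211) (nat_lit 236))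 (l (nat_lit 7) (nat_lit 186) (nat_lit 186)))))) (n (nat_lit 311) (b (l (nat_lit 6) (nat_lit 236) (nat_lit 336)) (l (nat_lit 6) (nat_lit 211) (nat_lit 212))))) (n (nat_lit 236) (b (n (nat_lit 235) (b (b (n (nat_lit 210) (b (n (nat_lit 311) (b (l (nat_lit 6) (nat_lit 236) (nat_lit 336)) (l (nat_lit 4) (nat_lit 210) (nat_lit 285)))) (n (nat_lit 238) (b (l (nat_lit 3) (nat_lit 209) (nat_lit 209)) (l (nat_lit 5) (nat_lit 212) (nat_lit 213)))))) (n (nat_lit 263) (b (n (nat_lit 264) (b (l (nat_lit 3) (nat_lit 236) (nat_lit 265)) (l (nat_lit 1) (nat_lit 260) (nat_lit 285)))) (l (nat_lit 0) (nat_lit 234) (nat_lit 234))))) (n (nat_lit 263) (b (n (nat_lit 238) (b (l (nat_lit 0) (nat_lit 235) (nat_lit 264)) (l (nat_lit 5) (nat_lit 212) (nat_lit 213)))) (l (nat_lit 0) (nat_lit 234) (nat_lit 234)))))) (l (nat_lit 7) (nat_lit 211) (nat_lit 211)))))))) (b (n (nat_lit 261) (b (n (nat_lit 263) (b (n (nat_lit 238) (b (l (nat_lit 6) (nat_lit 212) (nat_lit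 213)) (l (nat_lit 1) (nat_lit 235) (nat_lit 239)))) (n (nat_lit 264) (b (l (nat_lit 2) (nat_lit 261) (nat_lit 265)) (l (nat_lit 1) (nat_lit 260) (nat_lit 285)))))) (n (nat_lit 311) (b (n (nat_lit 336) (b (l (nat_lit 5) (nat_lit 261) (nat_lit 361)) (l (nat_lit 7) (nat_lit 235) (nat_lit 235)))) (n (nat_lit 236) (b (l (nat_lit 4) (nat_lit 211) (nat_lit 211)) (l (nat_lit 6) (nat_lit 235) (nat_lit 335)))))))) (n (nat_lit 263) (b (b (n (nat_lit 264) (b (n (nat_lit 261) (b (n (nat_lit 235) (b (l (nat_lit 3) (nat_lit 234) (nat_lit 234)) (l (nat_lit 3) (nat_lit 235) (nat_lit 236)))) (n (nat_lit 238) (b (l (nat_lit 6) (nat_lit 212) (nat_lit 213)) (l (nat_lit 1) (nat_lit 235) (nat_lit 239)))))) (l (nat_lit 2) (nat_lit 261) (nat_lit 265)))) (n (nat_lit 264) (b (l (nat_lit 2) (nat_lit 261) (nat_lit 265)) (l (nat_lit 1) (nat_lit 260) (nat_lit 285))))) (n (nat_lit 238) (b (n (nat_lit 261) (b (n (nat_lit 235) (b (n (nat_lit 236) (b (n (nat_lit 210) (b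 (n (nat_lit 285) (b (n (nat_lit 209) (b (l (nat_lit 3) (nat_lit 209) (nat_lit 237)) (l (nat_lit 7) (nat_lit 184) (nat_lit 184)))) (l (nat_lit 5) (nat_lit 235) (nat_lit 335)))) (l (nat_lit 4) (nat_lit 185) (nat_lit 185)))) (l (nat_lit 4) (nat_lit 211) (nat_lit 211)))) (l (nat_lit 3) (nat_lit 234) (nat_lit 234)))) (l (nat_lit 1) (nat_lit 235) (nat_lit 239)))) (l (nat_lit 6) (nat_lit 212) (nat_lit 213)))))))))))))))))
    (envOK_cons p13706 envOK_nil) (by decide +kernel)

theorem p14241 : Fam (nat_lit 7) (nat_lit 435157831858563311885959467128468235087899131947679252760405979781514559885966703591424) (nat_lit 4697085375523976959271015386377993850562258593511086240116715424408261068411998258300604524632523261633101824) (nat_lit 4697085375523976959271015386377993850562258593511086240116715424408261068411998258300604524632523261633101824) :=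
  chk_sound Env.nil
    (n (nat_lit 288) (b (b (n (nat_lit 289) (b (n (nat_lit 290) (b (n (nat_lit 265) (b (l (nat_lit 1) (nat_lit 261) (nat_lit 264)) (l (nat_lit 1) (nat_lit 262) (nat_lit 266)))) (n (nat_lit 315) (b (l (nat_lit 0) (nat_lit 287) (nat_lit 316)) (l (nat_lit 0) (nat_lit 286) (nat_lit 314)))))) (n (nat_lit 260) (b (l (nat_lit 3) (nat_lit 260) (nat_lit 261)) (l (nat_lit 3) (nat_lit 259) (nat_lit 259)))))) (n (nat_lit 289) (b (n (nat_lit 290) (b (n (nat_lit 265) (b (l (nat_lit 1) (nat_lit 261) (nat_lit 264)) (l (nat_lit 1) (nat_lit 262) (nat_lit 266)))) (n (nat_lit 315) (b (l (nat_lit 0) (nat_lit 287) (nat_lit 316)) (l (nat_lit 0) (nat_lit 286) (nat_lit 314)))))) (n (nat_lit 310) (b (l (nat_lit 2) (nat_lit 284) (nat_lit 309)) (l (nat_lit 2) (nat_lit 285) (nat_lit 311))))))) (n (nat_lit 310) (b (n (nat_lit 260) (b (n (nat_lit 235) (b (b (n (nat_lit 210) (b (n (nat_lit 211) (b (l (nat_lit 5) (nat_lit 210) (nat_lit 236)) (l (nat_lit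 5) (nat_lit 185) (nat_lit 186)))) (n (nat_lit 209) (b (l (nat_lit 7) (nat_lit 184) (nat_lit 184)) (l (nat_lit 7) (nat_lit 209) (nat_lit 234)))))) (n (nat_lit 311) (b (l (nat_lit 4) (nat_lit 235) (nat_lit 336)) (l (nat_lit 4) (nat_lit 210) (nat_lit 210))))) (n (nat_lit 335) (b (n (nat_lit 236) (b (l (nat_lit 5) (nat_lit 210) (nat_lit 211)) (l (nat_lit 5) (nat_lit 235) (nat_lit 261)))) (n (nat_lit 336) (b (l (nat_lit 4) (nat_lit 235) (nat_lit 311)) (l (nat_lit 4) (nat_lit 260) (nat_lit 361)))))))) (l (nat_lit 3) (nat_lit 259) (nat_lit 259)))) (l (nat_lit 2) (nat_lit 284) (nat_lit 309))))))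
    envOK_nil (by decide +kernel)

theorem p14258 : Fam (nat_lit 5) (nat_lit 435157833711236739683018593905603995226905657599999007410655004412835904012576777830400) (nat_lit 5871356701906672328380226274772725239307715470118569340742079339343398118312116703447396206448187846227394560) (nat_lit 5871356701906672328380226274772725239307715470118569340742079339343398118312116703447396206448187846227394560) :=
  chk_sound Env.nil
    (n (nat_lit 235) (b (b (n (nat_lit 210) (b (n (nat_lit 185) (b (n (nat_lit 186) (b (l (nat_lit 5) (nat_lit 185) (nat_lit 211)) (l (nat_lit 5) (nat_lit 160) (nat_lit 161)))) (n (nat_lit 184) (b (l (nat_lit 7) (nat_lit 159) (nat_lit 159)) (l (nat_lit 7) (nat_lit 184) (nat_lit 209)))))) (l (nat_lit 4) (nat_lit 210) (nat_lit 311)))) (n (nat_lit 310) (b (b (n (nat_lit 335) (b (n (nat_lit 334) (b (l (nat_lit 6) (nat_lit 259) (nat_lit 359)) (l (nat_lit 6) (nat_lit 234) (nat_lit 309)))) (n (nat_lit 236) (b (l (nat_lit 5)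 (nat_lit 210) (nat_lit 211)) (l (nat_lit 5) (nat_lit 235) (nat_lit 261)))))) (n (nat_lit 335) (b (n (nat_lit 334) (b (l (nat_lit 6) (nat_lit 259) (nat_lit 359)) (l (nat_lit 6) (nat_lit 234) (nat_lit 309)))) (n (nat_lit 234) (b (l (nat_lit 7) (nat_lit 234) (nat_lit 259)) (l (nat_lit 7) (nat_lit 209) (nat_lit 209))))))) (n (nat_lit 210) (b (n (nat_lit 211) (b (l (nat_lit 5) (nat_lit 210) (nat_lit 236)) (l (nat_lit 5) (nat_lit 185) (nat_lit 186)))) (n (nat_lit 209) (b (l (nat_lit 7) (nat_lit 184) (nat_lit 184)) (l (nat_lit 7) (nat_lit 209) (nat_lit 234))))))))) (b (n (nat_lit 310) (b (b (n (nat_lit 309) (b (n (nat_lit 308) (b (l (nat_lit 1) (nat_lit 283) (nat_lit 311)) (l (nat_lit 1) (nat_lit 282) (nat_lit 307)))) (l (nat_lit 6) (nat_lit 234) (nat_lit 334)))) (n (nat_lit 335) (b (n (nat_lit 334) (b (l (nat_lit 6) (nat_lit 259) (nat_lit 359)) (l (nat_lit 6) (nat_lit 234) (nat_lit 309)))) (n (nat_lit 234) (b (l (nat_lit 7) (nat_lit 234) (nat_lit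 259)) (l (nat_lit 7) (nat_lit 209) (nat_lit 209))))))) (n (nat_lit 335) (b (n (nat_lit 336) (b (l (nat_lit 4) (nat_lit 235) (nat_lit 311)) (l (nat_lit 4) (nat_lit 260) (nat_lit 361)))) (n (nat_lit 234) (b (l (nat_lit 7) (nat_lit 234) (nat_lit 259)) (l (nat_lit 7) (nat_lit 209) (nat_lit 209)))))))) (n (nat_lit 311) (b (n (nat_lit 336) (b (l (nat_lit 4) (nat_lit 235) (nat_lit 310)) (l (nat_lit 7) (nat_lit 260) (nat_lit 361)))) (l (nat_lit 4) (nat_lit 210) (nat_lit 210)))))))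
    envOK_nil (by decide +kernel)

theorem p14279 : Fam (nat_lit 8) (nat_lit 8343699794223886867918865425684280076135049628354806830284884040961525585345187034493899243520) (nat_lit 78804014741331751174476531697184564634912709618682541858508725270806397586171858504070199151949444342042157104758784) (nat_lit 78804014741331751174476531697184564634912709618682541858508725270806397586171858504070199151949444342042157104758784) :=
  chk_sound Env.nil
    (n (nat_lit 284) (b (b (n (nat_lit 283) (b (n (nat_lit 262) (b (l (nat_lit 1) (nat_lit 259) (nat_lit 263)) (l (nat_lit 1) (nat_lit 258) (nat_lit 261)))) (n (nat_lit 258) (b (l (nat_lit 3) (nat_lit 257) (nat_lit 257)) (l (nat_lit 3) (nat_lit 258) (nat_lit 259)))))) (n (nat_lit 283) (b (n (nat_lit 262) (b (l (nat_lit 1) (nat_lit 259) (nat_lit 263)) (l (nat_lit 1) (nat_lit 258) (nat_lit 261)))) (l (nat_lit 0) (nat_lit 283) (nat_lit 311))))) (b (n (nat_lit 283) (b (n (nat_lit 258) (b (l (nat_lit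 3) (nat_lit 257) (nat_lit 257)) (l (nat_lit 3) (nat_lit 258) (nat_lit 259)))) (l (nat_lit 0) (nat_lit 283) (nat_lit 311)))) (n (nat_lit 262) (b (n (nat_lit 237) (b (b (n (nat_lit 212) (b (n (nat_lit 213) (b (l (nat_lit 5) (nat_lit 187) (nat_lit 188)) (l (nat_lit 5) (nat_lit 212) (nat_lit 238)))) (n (nat_lit 211) (b (l (nat_lit 7) (nat_lit 211) (nat_lit 236)) (l (nat_lit 7) (nat_lit 186) (nat_lit 186)))))) (n (nat_lit 311) (b (l (nat_lit 6) (nat_lit 236) (nat_lit 336)) (l (nat_lit 6) (nat_lit 211) (nat_lit 212))))) (n (nat_lit 311) (b (n (nat_lit 310) (b (n (nat_lit 335) (b (n (nat_lit 236) (b (l (nat_lit 6) (nat_lit 235) (nat_lit 261)) (l (nat_lit 7) (nat_lit 211) (nat_lit 211)))) (n (nat_lit 360) (b (l (nat_lit 7) (nat_lit 259) (nat_lit 259)) (l (nat_lit 5) (nat_lit 285) (nat_lit 385)))))) (n (nat_lit 288) (b (l (nat_lit 2) (nat_lit 285) (nat_lit 289)) (l (nat_lit 1) (nat_lit 284) (nat_lit 309)))))) (l (nat_lit 6) (nat_lit 236) (nat_lit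 336)))))) (l (nat_lit 1) (nat_lit 259) (nat_lit 263)))))))
    envOK_nil (by decide +kernel)

theorem p14316 : Fam (nat_lit 9) (nat_lit 8343699732058482316695535156261499057782444615797787980616419360903528473700249907927227301888) (nat_lit 5288448026136040973411624822427208181056008247961050678867986490501205541039101939069837706035949373632120752381365346893824) (nat_lit 5288448026136040973411624822427208181056008247961050678867986490501205541039101939069837706035949373632120752381365346893824) :=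
  chk_sound (Env.cons (nat_lit 7) (nat_lit 435157833711236739683018593905603995226905657599999007410655004412835904012576777830400) (nat_lit 5288448026136040386275961630720223069016462923275240604762485791006290965071538461430130877905950260752410024229032574320640) (Env.cons (nat_lit 5) (nat_lit 435157833711236739683018593905603995226905657599999007410655004412835904012576777830400) (nat_lit 5871356701906672328380226274772725239307715470118569340742079339343398118312116703447396206448187846227394560) (Env.cons (nat_lit 6) (nat_lit 435157831858563311885959467128468235087899131947679252760405979781514559885966703591424) (nat_lit 157608031831205875146689334348199111339552549095778896739047770565140865759860647874923381268547178552665913415434240) (Env.cons (nat_lit 7) (nat_lit 8343699794223886867918865425684280076135049628354806830284884040961525585345187034493899243520) (nat_lit 39402007957801538778710975524516769441752640649369649977680941545186911032008791471041502527360611313728045637959680)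 (Env.cons (nat_lit 8) (nat_lit 8343699794223886867918865425684280076135049628354806830284884040961525585345187034493899243520) (nat_lit 78804014741331751174476531697184564634912709618682541858508725270806397586171858504070199151949444342042157104758784) Env.nil)))))
    (n (nat_lit 285) (b (b (b (n (nat_lit 284) (b (b (n (nat_lit 283) (b (n (nat_lit 282) (b (n (nat_lit 261) (b (l (nat_lit 1) (nat_lit 258) (nat_lit 262)) (l (nat_lit 1) (nat_lit 257) (nat_lit 260)))) (n (nat_lit 307) (b (l (nat_lit 2) (nat_lit 281) (nat_lit 306)) (l (nat_lit 2) (nat_lit 282) (nat_lit 308)))))) (l (nat_lit 0) (nat_lit 283) (nat_lit 311)))) (n (nat_lit 283) (b (n (nat_lit 282) (b (n (nat_lit 307) (b (l (nat_lit 2) (nat_lit 281) (nat_lit 306)) (l (nat_lit 2) (nat_lit 282) (nat_lit 308)))) (n (nat_lit 257) (b (l (nat_lit 3) (nat_lit 256) (nat_lit 256)) (l (nat_lit 3) (nat_lit 257) (nat_lit 258)))))) (l (nat_lit 0) (nat_lit 283) (nat_lit 311))))) (b (n (nat_lit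 283) (b (n (nat_lit 262) (b (l (nat_lit 1) (nat_lit 259) (nat_lit 263)) (l (nat_lit 1) (nat_lit 258) (nat_lit 261)))) (n (nat_lit 258) (b (l (nat_lit 3) (nat_lit 257) (nat_lit 257)) (l (nat_lit 3) (nat_lit 258) (nat_lit 259)))))) (n (nat_lit 311) (b (n (nat_lit 288) (b (n (nat_lit 289) (b (l (nat_lit 2) (nat_lit 286) (nat_lit 290)) (l (nat_lit 2) (nat_lit 285) (nat_lit 310)))) (n (nat_lit 259) (b (l (nat_lit 3) (nat_lit 258) (nat_lit 258)) (l (nat_lit 3) (nat_lit 259) (nat_lit 260)))))) (n (nat_lit 262) (b (n (nat_lit 237) (b (l (nat_lit 6) (nat_lit 236) (nat_lit 336)) (l (nat_lit 6) (nat_lit 211) (nat_lit 212)))) (l (nat_lit 1) (nat_lit 259) (nat_lit 263))))))))) (n (nat_lit 284) (b (b (n (nat_lit 283) (b (n (nat_lit 282) (b (n (nat_lit 261) (b (l (nat_lit 1) (nat_lit 258) (nat_lit 262)) (l (nat_lit 1) (nat_lit 257) (nat_lit 260)))) (n (nat_lit 307) (b (l (nat_lit 2) (nat_lit 281) (nat_lit 306)) (l (nat_lit 2) (nat_lit 282) (nat_lit 308))))))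 (l (nat_lit 0) (nat_lit 283) (nat_lit 311)))) (n (nat_lit 283) (b (n (nat_lit 282) (b (n (nat_lit 261) (b (l (nat_lit 1) (nat_lit 258) (nat_lit 262)) (l (nat_lit 1) (nat_lit 257) (nat_lit 260)))) (n (nat_lit 257) (b (l (nat_lit 3) (nat_lit 256) (nat_lit 256)) (l (nat_lit 3) (nat_lit 257) (nat_lit 258)))))) (l (nat_lit 0) (nat_lit 283) (nat_lit 311))))) (b (n (nat_lit 283) (b (n (nat_lit 308) (b (l (nat_lit 2) (nat_lit 283) (nat_lit 309)) (l (nat_lit 2) (nat_lit 282) (nat_lit 307)))) (n (nat_lit 258) (b (l (nat_lit 3) (nat_lit 257) (nat_lit 257)) (l (nat_lit 3) (nat_lit 258) (nat_lit 259)))))) (n (nat_lit 259) (b (n (nat_lit 260) (b (n (nat_lit 309) (b (n (nat_lit 235) (b (l (nat_lit 5) (nat_lit 234) (nat_lit 334)) (l (nat_lit 6) (nat_lit 209) (nat_lit 210)))) (l (nat_lit 2) (nat_lit 283) (nat_lit 308)))) (l (nat_lit 3) (nat_lit 259) (nat_lit 288)))) (l (nat_lit 3) (nat_lit 258) (nat_lit 258)))))))) (b (n (nat_lit 260) (b (b (r (nat_lit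 0)) (n (nat_lit 259) (b (n (nat_lit 258) (b (l (nat_lit 0) (nat_lit 258) (nat_lit 261)) (l (nat_lit 0) (nat_lit 257) (nat_lit 257)))) (l (nat_lit 3) (nat_lit 259) (nat_lit 288))))) (r (nat_lit 1)))) (n (nat_lit 288) (b (b (n (nat_lit 260) (b (n (nat_lit 261) (b (n (nat_lit 310) (b (n (nat_lit 236) (b (l (nat_lit 5) (nat_lit 235) (nat_lit 335)) (l (nat_lit 6) (nat_lit 210) (nat_lit 211)))) (l (nat_lit 2) (nat_lit 284) (nat_lit 309)))) (l (nat_lit 3) (nat_lit 260) (nat_lit 289)))) (l (nat_lit 3) (nat_lit 259) (nat_lit 259)))) (n (nat_lit 289) (b (n (nat_lit 290) (b (n (nat_lit 315) (b (l (nat_lit 0) (nat_lit 287) (nat_lit 316)) (l (nat_lit 0) (nat_lit 286) (nat_lit 314)))) (l (nat_lit 2) (nat_lit 286) (nat_lit 311)))) (n (nat_lit 260) (b (l (nat_lit 3) (nat_lit 260) (nat_lit 261)) (l (nat_lit 3) (nat_lit 259) (nat_lit 259))))))) (b (n (nat_lit 284) (b (b (n (nat_lit 309) (b (l (nat_lit 2) (nat_lit 283) (nat_lit 308)) (l (nat_lit 2) (nat_lit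 284) (nat_lit 310)))) (n (nat_lit 311) (b (n (nat_lit 289) (b (l (nat_lit 2) (nat_lit 286) (nat_lit 290)) (l (nat_lit 2) (nat_lit 285) (nat_lit 310)))) (l (nat_lit 0) (nat_lit 283) (nat_lit 283))))) (n (nat_lit 283) (b (n (nat_lit 308) (b (l (nat_lit 2) (nat_lit 283) (nat_lit 309)) (l (nat_lit 2) (nat_lit 282) (nat_lit 307)))) (l (nat_lit 0) (nat_lit 283) (nat_lit 311)))))) (n (nat_lit 284) (b (b (n (nat_lit 283) (b (n (nat_lit 282) (b (n (nat_lit 260) (b (l (nat_lit 3) (nat_lit 259) (nat_lit 259)) (l (nat_lit 1) (nat_lit 257) (nat_lit 261)))) (n (nat_lit 307) (b (l (nat_lit 2) (nat_lit 281) (nat_lit 306)) (l (nat_lit 2) (nat_lit 282) (nat_lit 308)))))) (l (nat_lit 0) (nat_lit 283) (nat_lit 311)))) (n (nat_lit 309) (b (l (nat_lit 2) (nat_lit 283) (nat_lit 308)) (l (nat_lit 2) (nat_lit 284) (nat_lit 310))))) (n (nat_lit 310) (b (n (nat_lit 261) (b (b (n (nat_lit 283) (b (n (nat_lit 260) (b (l (nat_lit 3) (nat_lit 259) (nat_lit 259)) (l (nat_lit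 1) (nat_lit 257) (nat_lit 282)))) (l (nat_lit 0) (nat_lit 283) (nat_lit 311)))) (n (nat_lit 335) (b (n (nat_lit 236) (b (l (nat_lit 6) (nat_lit 210) (nat_lit 211)) (l (nat_lit 5) (nat_lit 235) (nat_lit 260)))) (l (nat_lit 5) (nat_lit 260) (nat_lit 360))))) (n (nat_lit 236) (b (n (nat_lit 311) (b (l (nat_lit 6) (nat_lit 235) (nat_lit 335)) (l (nat_lit 0) (nat_lit 283) (nat_lit 283)))) (l (nat_lit 6) (nat_lit 210) (nat_lit 211)))))) (l (nat_lit 2) (nat_lit 284) (nat_lit 309))))))))))) (b (b (r (nat_lit 2)) (r (nat_lit 3))) (b (r (nat_lit 4)) (n (nat_lit 284) (b (b (n (nat_lit 283) (b (n (nat_lit 282) (b (n (nat_lit 307) (b (l (nat_lit 2) (nat_lit 281) (nat_lit 306)) (l (nat_lit 2) (nat_lit 282) (nat_lit 308)))) (n (nat_lit 257) (b (l (nat_lit 3) (nat_lit 256) (nat_lit 256)) (l (nat_lit 3) (nat_lit 257) (nat_lit 258)))))) (l (nat_lit 0) (nat_lit 283) (nat_lit 311)))) (n (nat_lit 283) (b (n (nat_lit 262) (b (l (nat_lit 1) (nat_lit 259) (nat_lit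 263)) (l (nat_lit 1) (nat_lit 258) (nat_lit 261)))) (l (nat_lit 0) (nat_lit 283) (nat_lit 311))))) (b (n (nat_lit 283) (b (n (nat_lit 282) (b (n (nat_lit 261) (b (l (nat_lit 1) (nat_lit 258) (nat_lit 262)) (l (nat_lit 1) (nat_lit 257) (nat_lit 260)))) (n (nat_lit 257) (b (l (nat_lit 3) (nat_lit 256) (nat_lit 256)) (l (nat_lit 3) (nat_lit 257) (nat_lit 258)))))) (n (nat_lit 308) (b (l (nat_lit 2) (nat_lit 283) (nat_lit 309)) (l (nat_lit 2) (nat_lit 282) (nat_lit 307)))))) (n (nat_lit 309) (b (n (nat_lit 310) (b (n (nat_lit 311) (b (n (nat_lit 262) (b (n (nat_lit 237) (b (l (nat_lit 6) (nat_lit 236) (nat_lit 336)) (l (nat_lit 6) (nat_lit 211) (nat_lit 212)))) (l (nat_lit 1) (nat_lit 259) (nat_lit 263)))) (n (nat_lit 334) (b (n (nat_lit 260) (b (l (nat_lit 5) (nat_lit 259) (nat_lit 359)) (l (nat_lit 6) (nat_lit 234) (nat_lit 235)))) (l (nat_lit 2) (nat_lit 308) (nat_lit 333)))))) (l (nat_lit 2) (nat_lit 284) (nat_lit 288)))) (l (nat_lit 2)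 (nat_lit 283) (nat_lit 308)))))))))))
    (envOK_cons p13679 (envOK_cons p14258 (envOK_cons p13501 (envOK_cons p13658 (envOK_cons p14279 envOK_nil))))) (by decide +kernel)

theorem p14326 : Fam (nat_lit 10) (nat_lit 8343699732058482316695535156261499057782444615797787980616419360903528473700249907927227301888) (nat_lit 3427974678824607531036983585239402556993264098837800305722079250707763781751542445131511566934913689095204123816493056) (nat_lit 3427974678824607531036983585239402556993264098837800305722079250707763781751542445131511566934913689095204123816493056) :=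
  chk_sound (Env.cons (nat_lit 9) (nat_lit 870315663717126623771918934256936470175798263895358505520811959563029119771933407182848) (nat_lit 3152160627229946891870516404569750939226218326741641417362371172356648576010110617616308532233080934381219815666745344) (Env.cons (nat_lit 7) (nat_lit 8343700229381718726482177311643747204603284716253938777964136801367505366859746920460602834944) (nat_lit 236412044223994833571491728502213269511474737948026450049130106657228976752421036871248463631705891387567106563244032) Env.nil))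
    (n (nat_lit 288) (b (b (b (r (nat_lit 0)) (r (nat_lit 1))) (b (n (nat_lit 289) (b (n (nat_lit 290) (b (n (nat_lit 265) (b (l (nat_lit 1) (nat_lit 261) (nat_lit 264)) (l (nat_lit 1) (nat_lit 262) (nat_lit 266)))) (n (nat_lit 315) (b (l (nat_lit 0) (nat_lit 287) (nat_lit 316)) (l (nat_lit 0) (nat_lit 286) (nat_lit 314)))))) (n (nat_lit 261) (b (n (nat_lit 311) (b (n (nat_lit 336) (b (n (nat_lit 361) (b (n (nat_lit 360) (b (l (nat_lit 6) (nat_lit 285) (nat_lit 385)) (l (nat_lit 6) (nat_lit 260) (nat_lit 335)))) (l (nat_lit 5) (nat_lit 286) (nat_lit 386)))) (n (nat_lit 237) (b (n (nat_lit 236) (b (l (nat_lit 4) (nat_lit 211) (nat_lit 211)) (l (nat_lit 5) (nat_lit 211) (nat_lit 212)))) (l (nat_lit 6) (nat_lit 236) (nat_lit 262)))))) (l (nat_lit 2) (nat_lit 285) (nat_lit 310)))) (l (nat_lit 3) (nat_lit 260) (nat_lit 260)))))) (n (nat_lit 289) (b (b (n (nat_lit 315) (b (n (nat_lit 290) (b (n (nat_lit 262) (b (n (nat_lit 263) (b (n (nat_lit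 285) (b (l (nat_lit 1) (nat_lit 260) (nat_lit 264)) (l (nat_lit 1) (nat_lit 259) (nat_lit 284)))) (l (nat_lit 3) (nat_lit 262) (nat_lit 291)))) (l (nat_lit 3) (nat_lit 261) (nat_lit 261)))) (l (nat_lit 0) (nat_lit 287) (nat_lit 316)))) (l (nat_lit 0) (nat_lit 286) (nat_lit 314)))) (n (nat_lit 290) (b (n (nat_lit 315) (b (l (nat_lit 0) (nat_lit 287) (nat_lit 316)) (l (nat_lit 0) (nat_lit 286) (nat_lit 314)))) (l (nat_lit 2) (nat_lit 286) (nat_lit 311))))) (n (nat_lit 285) (b (b (n (nat_lit 310) (b (l (nat_lit 2) (nat_lit 284) (nat_lit 309)) (l (nat_lit 2) (nat_lit 285) (nat_lit 311)))) (n (nat_lit 284) (b (n (nat_lit 283) (b (n (nat_lit 258) (b (l (nat_lit 3) (nat_lit 257) (nat_lit 257)) (l (nat_lit 3) (nat_lit 258) (nat_lit 259)))) (l (nat_lit 0) (nat_lit 283) (nat_lit 311)))) (n (nat_lit 263) (b (l (nat_lit 1) (nat_lit 259) (nat_lit 262)) (l (nat_lit 1) (nat_lit 260) (nat_lit 264))))))) (n (nat_lit 284) (b (n (nat_lit 263) (b (l (nat_lit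 1) (nat_lit 259) (nat_lit 262)) (l (nat_lit 1) (nat_lit 260) (nat_lit 264)))) (n (nat_lit 309) (b (l (nat_lit 2) (nat_lit 283) (nat_lit 308)) (l (nat_lit 2) (nat_lit 284) (nat_lit 310)))))))))))) (b (n (nat_lit 285) (b (b (n (nat_lit 284) (b (n (nat_lit 289) (b (n (nat_lit 264) (b (l (nat_lit 1) (nat_lit 261) (nat_lit 265)) (l (nat_lit 1) (nat_lit 260) (nat_lit 263)))) (n (nat_lit 311) (b (l (nat_lit 2) (nat_lit 285) (nat_lit 310)) (l (nat_lit 0) (nat_lit 283) (nat_lit 283)))))) (n (nat_lit 259) (b (l (nat_lit 3) (nat_lit 258) (nat_lit 258)) (l (nat_lit 3) (nat_lit 259) (nat_lit 260)))))) (n (nat_lit 284) (b (n (nat_lit 283) (b (n (nat_lit 308) (b (l (nat_lit 2) (nat_lit 283) (nat_lit 309)) (l (nat_lit 2) (nat_lit 282) (nat_lit 307)))) (l (nat_lit 0) (nat_lit 283) (nat_lit 311)))) (n (nat_lit 259) (b (l (nat_lit 3) (nat_lit 258) (nat_lit 258)) (l (nat_lit 3) (nat_lit 259) (nat_lit 260))))))) (b (n (nat_lit 289) (b (n (nat_lit 310) (b (l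 (nat_lit 2) (nat_lit 284) (nat_lit 309)) (l (nat_lit 2) (nat_lit 285) (nat_lit 311)))) (n (nat_lit 264) (b (l (nat_lit 1) (nat_lit 261) (nat_lit 265)) (l (nat_lit 1) (nat_lit 260) (nat_lit 263)))))) (n (nat_lit 284) (b (n (nat_lit 259) (b (l (nat_lit 3) (nat_lit 258) (nat_lit 258)) (l (nat_lit 3) (nat_lit 259) (nat_lit 260)))) (n (nat_lit 309) (b (l (nat_lit 2) (nat_lit 283) (nat_lit 308)) (l (nat_lit 2) (nat_lit 284) (nat_lit 310))))))))) (n (nat_lit 285) (b (b (n (nat_lit 284) (b (n (nat_lit 283) (b (n (nat_lit 258) (b (l (nat_lit 3) (nat_lit 257) (nat_lit 257)) (l (nat_lit 3) (nat_lit 258) (nat_lit 259)))) (l (nat_lit 0) (nat_lit 283) (nat_lit 311)))) (n (nat_lit 263) (b (l (nat_lit 1) (nat_lit 259) (nat_lit 262)) (l (nat_lit 1) (nat_lit 260) (nat_lit 264)))))) (n (nat_lit 284) (b (n (nat_lit 263) (b (l (nat_lit 1) (nat_lit 259) (nat_lit 262)) (l (nat_lit 1) (nat_lit 260) (nat_lit 264)))) (n (nat_lit 309) (b (l (nat_lit 2) (nat_lit 283)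 (nat_lit 308)) (l (nat_lit 2) (nat_lit 284) (nat_lit 310))))))) (n (nat_lit 310) (b (n (nat_lit 260) (b (n (nat_lit 335) (b (b (n (nat_lit 360) (b (n (nat_lit 359) (b (l (nat_lit 6) (nat_lit 259) (nat_lit 334)) (l (nat_lit 6) (nat_lit 284) (nat_lit 384)))) (n (nat_lit 361) (b (l (nat_lit 4) (nat_lit 285) (nat_lit 386)) (l (nat_lit 4) (nat_lit 260) (nat_lit 336)))))) (n (nat_lit 261) (b (l (nat_lit 5) (nat_lit 260) (nat_lit 360)) (l (nat_lit 5) (nat_lit 235) (nat_lit 236))))) (n (nat_lit 235) (b (n (nat_lit 336) (b (l (nat_lit 4) (nat_lit 235) (nat_lit 311)) (l (nat_lit 4) (nat_lit 260) (nat_lit 361)))) (n (nat_lit 236) (b (l (nat_lit 5) (nat_lit 210) (nat_lit 211)) (l (nat_lit 5) (nat_lit 235) (nat_lit 261)))))))) (l (nat_lit 3) (nat_lit 259) (nat_lit 259)))) (l (nat_lit 2) (nat_lit 284) (nat_lit 309)))))))))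
    (envOK_cons p14160 (envOK_cons p13712 envOK_nil)) (by decide +kernel)

theorem p14334 : Fam (nat_lit 10) (nat_lit 8343699732058482316695535156261499057782444615797787980616419360903528473700249907927227301888) (nat_lit 3152160629578489684620435768652836648378701445720923482040629560160832931532345480250118103184501983206156647794737152) (nat_lit 3152160629578489684620435768652836648378701445720923482040629560160832931532345480250118103184501983206156647794737152) :=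
  chk_sound (Env.cons (nat_lit 8) (nat_lit 1864962136536699908082683430550578150376710565490053940401739913349348113797000158248960) (nat_lit 3152160627229946891870382905373944755033642351052122332977269108067614677269334621034114432880201315495807725248446464) Env.nil)
    (n (nat_lit 288) (b (b (n (nat_lit 289) (b (r (nat_lit 0)) (n (nat_lit 311) (b (l (nat_lit 2) (nat_lit 285) (nat_lit 310)) (l (nat_lit 2) (nat_lit 286) (nat_lit 290)))))) (n (nat_lit 285) (b (b (b (n (nat_lit 310) (b (n (nat_lit 260) (b (n (nat_lit 311) (b (n (nat_lit 235) (b (l (nat_lit 4) (nat_lit 235) (nat_lit 336)) (l (nat_lit 4) (nat_lit 210) (nat_lit 210)))) (l (nat_lit 2) (nat_lit 285) (nat_lit 289)))) (l (nat_lit 3) (nat_lit 259) (nat_lit 259)))) (l (nat_lit 2) (nat_lit 284) (nat_lit 309)))) (n (nat_lit 284) (b (b (n (nat_lit 309) (b (l (nat_lit 2) (nat_lit 283) (nat_lit 308)) (l (nat_lit 2) (nat_lit 284) (nat_lit 310)))) (n (nat_lit 311) (b (n (nat_lit 289)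 (b (l (nat_lit 2) (nat_lit 286) (nat_lit 290)) (l (nat_lit 2) (nat_lit 285) (nat_lit 310)))) (l (nat_lit 0) (nat_lit 283) (nat_lit 283))))) (n (nat_lit 283) (b (n (nat_lit 308) (b (l (nat_lit 2) (nat_lit 283) (nat_lit 309)) (l (nat_lit 2) (nat_lit 282) (nat_lit 307)))) (l (nat_lit 0) (nat_lit 283) (nat_lit 311))))))) (b (n (nat_lit 284) (b (n (nat_lit 283) (b (n (nat_lit 308) (b (l (nat_lit 2) (nat_lit 283) (nat_lit 309)) (l (nat_lit 2) (nat_lit 282) (nat_lit 307)))) (l (nat_lit 0) (nat_lit 283) (nat_lit 311)))) (n (nat_lit 259) (b (l (nat_lit 3) (nat_lit 258) (nat_lit 258)) (l (nat_lit 3) (nat_lit 259) (nat_lit 260)))))) (n (nat_lit 259) (b (n (nat_lit 311) (b (n (nat_lit 289) (b (l (nat_lit 2) (nat_lit 286) (nat_lit 290)) (l (nat_lit 2) (nat_lit 285) (nat_lit 310)))) (n (nat_lit 284) (b (l (nat_lit 3) (nat_lit 258) (nat_lit 258)) (l (nat_lit 0) (nat_lit 283) (nat_lit 283)))))) (l (nat_lit 3) (nat_lit 259) (nat_lit 260)))))) (n (nat_lit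 284) (b (n (nat_lit 259) (b (l (nat_lit 3) (nat_lit 258) (nat_lit 258)) (l (nat_lit 3) (nat_lit 259) (nat_lit 260)))) (n (nat_lit 309) (b (l (nat_lit 2) (nat_lit 283) (nat_lit 308)) (l (nat_lit 2) (nat_lit 284) (nat_lit 310))))))))) (b (n (nat_lit 289) (b (b (n (nat_lit 290) (b (n (nat_lit 265) (b (l (nat_lit 1) (nat_lit 261) (nat_lit 264)) (l (nat_lit 1) (nat_lit 262) (nat_lit 266)))) (n (nat_lit 315) (b (l (nat_lit 0) (nat_lit 287) (nat_lit 316)) (l (nat_lit 0) (nat_lit 286) (nat_lit 314)))))) (n (nat_lit 290) (b (n (nat_lit 315) (b (l (nat_lit 0) (nat_lit 287) (nat_lit 316)) (l (nat_lit 0) (nat_lit 286) (nat_lit 314)))) (n (nat_lit 261) (b (l (nat_lit 3) (nat_lit 261) (nat_lit 262)) (l (nat_lit 3) (nat_lit 260) (nat_lit 260))))))) (n (nat_lit 285) (b (n (nat_lit 260) (b (l (nat_lit 3) (nat_lit 260) (nat_lit 261)) (l (nat_lit 3) (nat_lit 259) (nat_lit 259)))) (n (nat_lit 264) (b (l (nat_lit 1) (nat_lit 261) (nat_lit 265)) (l (nat_lit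 1) (nat_lit 260) (nat_lit 263)))))))) (n (nat_lit 285) (b (b (n (nat_lit 284) (b (n (nat_lit 263) (b (l (nat_lit 1) (nat_lit 259) (nat_lit 262)) (l (nat_lit 1) (nat_lit 260) (nat_lit 264)))) (n (nat_lit 309) (b (l (nat_lit 2) (nat_lit 283) (nat_lit 308)) (l (nat_lit 2) (nat_lit 284) (nat_lit 310)))))) (n (nat_lit 284) (b (b (n (nat_lit 259) (b (l (nat_lit 3) (nat_lit 258) (nat_lit 258)) (l (nat_lit 3) (nat_lit 259) (nat_lit 260)))) (n (nat_lit 283) (b (n (nat_lit 282) (b (n (nat_lit 307) (b (l (nat_lit 2) (nat_lit 281) (nat_lit 306)) (l (nat_lit 2) (nat_lit 282) (nat_lit 308)))) (n (nat_lit 257) (b (l (nat_lit 3) (nat_lit 256) (nat_lit 256)) (l (nat_lit 3) (nat_lit 257) (nat_lit 258)))))) (l (nat_lit 0) (nat_lit 283) (nat_lit 311))))) (n (nat_lit 283) (b (n (nat_lit 282) (b (n (nat_lit 260) (b (l (nat_lit 3) (nat_lit 259) (nat_lit 259)) (l (nat_lit 1) (nat_lit 257) (nat_lit 261)))) (n (nat_lit 307) (b (l (nat_lit 2) (nat_lit 281) (nat_lit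 306)) (l (nat_lit 2) (nat_lit 282) (nat_lit 308)))))) (l (nat_lit 0) (nat_lit 283) (nat_lit 311))))))) (n (nat_lit 260) (b (n (nat_lit 310) (b (n (nat_lit 263) (b (n (nat_lit 235) (b (n (nat_lit 261) (b (n (nat_lit 335) (b (l (nat_lit 5) (nat_lit 235) (nat_lit 236)) (l (nat_lit 5) (nat_lit 260) (nat_lit 360)))) (n (nat_lit 234) (b (l (nat_lit 7) (nat_lit 209) (nat_lit 209)) (l (nat_lit 3) (nat_lit 234) (nat_lit 262)))))) (n (nat_lit 311) (b (l (nat_lit 4) (nat_lit 235) (nat_lit 336)) (l (nat_lit 4) (nat_lit 210) (nat_lit 210)))))) (l (nat_lit 1) (nat_lit 260) (nat_lit 264)))) (l (nat_lit 2) (nat_lit 284) (nat_lit 309)))) (l (nat_lit 3) (nat_lit 259) (nat_lit 259)))))))))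
    (envOK_cons p13706 envOK_nil) (by decide +kernel)

theorem p14367 : Fam (nat_lit 11) (nat_lit 8343699732058482316695535156261499057782444615797787980616419360903528473700249907927227301888) (nat_lit 275814052622148049751763118789777929109938892767957108046035374638504361860135393085618962255315888389132449772208128) (nat_lit 275814052622148049751763118789777929109938892767957108046035374638504361860135393085618962255315888389132449772208128) :=
  chk_sound (Env.cons (nat_lit 6) (nat_lit 435157831858563311885959467128468235087899131947679252760405979781514559885966703591424) (nat_lit 157608031831205875146689334348199111339552549095778896739047770565140865759860647874923381268547178552665913415434240) (Env.cons (nat_lit 7) (nat_lit 8343699794223886867918865425684280076135049628354806830284884040961525585345187034493899243520) (nat_lit 39402007957801538778710975524516769441752640649369649977680941545186911032008791471041502527360611313728045637959680)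 (Env.cons (nat_lit 7) (nat_lit 435157831858563311885959467128468235087899131947679252760405979781514559885966703591424) (nat_lit 4697085375523976959271015386377993850562258593511086240116715424408261068411998258300604524632523261633101824) Env.nil)))
    (n (nat_lit 285) (b (b (b (n (nat_lit 284) (b (b (n (nat_lit 283) (b (n (nat_lit 282) (b (n (nat_lit 261) (b (l (nat_lit 1) (nat_lit 258) (nat_lit 262)) (l (nat_lit 1) (nat_lit 257) (nat_lit 260)))) (n (nat_lit 257) (b (l (nat_lit 3) (nat_lit 256) (nat_lit 256)) (l (nat_lit 3) (nat_lit 257) (nat_lit 258)))))) (l (nat_lit 0) (nat_lit 283) (nat_lit 311)))) (n (nat_lit 283) (b (n (nat_lit 282) (b (n (nat_lit 261) (b (l (nat_lit 1) (nat_lit 258) (nat_lit 262)) (l (nat_lit 1) (nat_lit 257) (nat_lit 260)))) (n (nat_lit 257) (b (l (nat_lit 3) (nat_lit 256) (nat_lit 256)) (l (nat_lit 3) (nat_lit 257) (nat_lit 258)))))) (n (nat_lit 308) (b (l (nat_lit 2) (nat_lit 283) (nat_lit 309)) (l (nat_lit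 2) (nat_lit 282) (nat_lit 307))))))) (b (n (nat_lit 283) (b (n (nat_lit 308) (b (l (nat_lit 2) (nat_lit 283) (nat_lit 309)) (l (nat_lit 2) (nat_lit 282) (nat_lit 307)))) (l (nat_lit 0) (nat_lit 283) (nat_lit 311)))) (n (nat_lit 309) (b (n (nat_lit 310) (b (n (nat_lit 260) (b (b (n (nat_lit 334) (b (l (nat_lit 5) (nat_lit 259) (nat_lit 359)) (l (nat_lit 6) (nat_lit 234) (nat_lit 235)))) (n (nat_lit 335) (b (n (nat_lit 360) (b (n (nat_lit 361) (b (l (nat_lit 4) (nat_lit 285) (nat_lit 386)) (l (nat_lit 4) (nat_lit 260) (nat_lit 336)))) (l (nat_lit 7) (nat_lit 284) (nat_lit 385)))) (n (nat_lit 235) (b (n (nat_lit 236) (b (l (nat_lit 5) (nat_lit 210) (nat_lit 211)) (l (nat_lit 5) (nat_lit 235) (nat_lit 261)))) (l (nat_lit 6) (nat_lit 209) (nat_lit 210))))))) (n (nat_lit 335) (b (n (nat_lit 261) (b (l (nat_lit 5) (nat_lit 260) (nat_lit 360)) (l (nat_lit 5) (nat_lit 235) (nat_lit 236)))) (n (nat_lit 334) (b (n (nat_lit 333) (b (n (nat_lit 357)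 (b (n (nat_lit 336) (b (l (nat_lit 4) (nat_lit 260) (nat_lit 361)) (l (nat_lit 2) (nat_lit 332) (nat_lit 358)))) (n (nat_lit 332) (b (l (nat_lit 2) (nat_lit 331) (nat_lit 356)) (l (nat_lit 1) (nat_lit 306) (nat_lit 331)))))) (l (nat_lit 2) (nat_lit 308) (nat_lit 311)))) (l (nat_lit 6) (nat_lit 259) (nat_lit 359)))))))) (l (nat_lit 2) (nat_lit 284) (nat_lit 288)))) (l (nat_lit 2) (nat_lit 283) (nat_lit 308))))))) (n (nat_lit 284) (b (b (n (nat_lit 283) (b (n (nat_lit 258) (b (l (nat_lit 3) (nat_lit 257) (nat_lit 257)) (l (nat_lit 3) (nat_lit 258) (nat_lit 259)))) (l (nat_lit 0) (nat_lit 283) (nat_lit 311)))) (n (nat_lit 283) (b (n (nat_lit 308) (b (l (nat_lit 2) (nat_lit 283) (nat_lit 309)) (l (nat_lit 2) (nat_lit 282) (nat_lit 307)))) (l (nat_lit 0) (nat_lit 283) (nat_lit 311))))) (n (nat_lit 259) (b (n (nat_lit 260) (b (n (nat_lit 309) (b (n (nat_lit 235) (b (l (nat_lit 5) (nat_lit 234) (nat_lit 334)) (l (nat_lit 6) (nat_lit 209) (nat_lit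 210)))) (l (nat_lit 2) (nat_lit 283) (nat_lit 308)))) (l (nat_lit 3) (nat_lit 259) (nat_lit 288)))) (l (nat_lit 3) (nat_lit 258) (nat_lit 258))))))) (b (r (nat_lit 0)) (r (nat_lit 1)))) (b (b (r (nat_lit 2)) (n (nat_lit 284) (b (b (n (nat_lit 283) (b (n (nat_lit 258) (b (l (nat_lit 3) (nat_lit 257) (nat_lit 257)) (l (nat_lit 3) (nat_lit 258) (nat_lit 259)))) (l (nat_lit 0) (nat_lit 283) (nat_lit 311)))) (n (nat_lit 283) (b (n (nat_lit 308) (b (l (nat_lit 2) (nat_lit 283) (nat_lit 309)) (l (nat_lit 2) (nat_lit 282) (nat_lit 307)))) (l (nat_lit 0) (nat_lit 283) (nat_lit 311))))) (n (nat_lit 309) (b (n (nat_lit 259) (b (n (nat_lit 310) (b (n (nat_lit 234) (b (l (nat_lit 4) (nat_lit 234) (nat_lit 335)) (l (nat_lit 4) (nat_lit 209) (nat_lit 209)))) (l (nat_lit 2) (nat_lit 284) (nat_lit 288)))) (l (nat_lit 3) (nat_lit 258) (nat_lit 258)))) (l (nat_lit 2) (nat_lit 283) (nat_lit 308))))))) (n (nat_lit 284) (b (b (n (nat_lit 283) (b (n (nat_lit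 282) (b (n (nat_lit 261) (b (l (nat_lit 1) (nat_lit 258) (nat_lit 262)) (l (nat_lit 1) (nat_lit 257) (nat_lit 260)))) (n (nat_lit 307) (b (l (nat_lit 2) (nat_lit 281) (nat_lit 306)) (l (nat_lit 2) (nat_lit 282) (nat_lit 308)))))) (n (nat_lit 258) (b (l (nat_lit 3) (nat_lit 257) (nat_lit 257)) (l (nat_lit 3) (nat_lit 258) (nat_lit 259)))))) (n (nat_lit 283) (b (n (nat_lit 282) (b (n (nat_lit 261) (b (l (nat_lit 1) (nat_lit 258) (nat_lit 262)) (l (nat_lit 1) (nat_lit 257) (nat_lit 260)))) (n (nat_lit 307) (b (l (nat_lit 2) (nat_lit 281) (nat_lit 306)) (l (nat_lit 2) (nat_lit 282) (nat_lit 308)))))) (l (nat_lit 0) (nat_lit 283) (nat_lit 311))))) (b (n (nat_lit 283) (b (n (nat_lit 258) (b (l (nat_lit 3) (nat_lit 257) (nat_lit 257)) (l (nat_lit 3) (nat_lit 258) (nat_lit 259)))) (l (nat_lit 0) (nat_lit 283) (nat_lit 311)))) (n (nat_lit 259) (b (n (nat_lit 260) (b (n (nat_lit 310) (b (b (n (nat_lit 234) (b (l (nat_lit 4) (nat_lit 209) (nat_lit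 209)) (l (nat_lit 7) (nat_lit 234) (nat_lit 335)))) (n (nat_lit 335) (b (n (nat_lit 235) (b (n (nat_lit 210) (b (l (nat_lit 6) (nat_lit 184) (nat_lit 185)) (l (nat_lit 4) (nat_lit 210) (nat_lit 311)))) (n (nat_lit 236) (b (l (nat_lit 5) (nat_lit 210) (nat_lit 211)) (l (nat_lit 5) (nat_lit 235) (nat_lit 261)))))) (l (nat_lit 7) (nat_lit 259) (nat_lit 360))))) (n (nat_lit 234) (b (n (nat_lit 235) (b (b (n (nat_lit 210) (b (l (nat_lit 6) (nat_lit 184) (nat_lit 185)) (l (nat_lit 4) (nat_lit 210) (nat_lit 311)))) (n (nat_lit 210) (b (n (nat_lit 211) (b (l (nat_lit 5) (nat_lit 210) (nat_lit 236)) (l (nat_lit 5) (nat_lit 185) (nat_lit 186)))) (l (nat_lit 6) (nat_lit 184) (nat_lit 185))))) (n (nat_lit 237) (b (b (n (nat_lit 262) (b (n (nat_lit 261) (b (l (nat_lit 3) (nat_lit 233) (nat_lit 233)) (l (nat_lit 1) (nat_lit 234) (nat_lit 238)))) (n (nat_lit 311) (b (l (nat_lit 4) (nat_lit 235) (nat_lit 336)) (l (nat_lit 6) (nat_lit 211) (nat_lit 212))))))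 (n (nat_lit 236) (b (l (nat_lit 5) (nat_lit 210) (nat_lit 211)) (l (nat_lit 2) (nat_lit 234) (nat_lit 238))))) (n (nat_lit 212) (b (n (nat_lit 311) (b (l (nat_lit 4) (nat_lit 235) (nat_lit 336)) (l (nat_lit 6) (nat_lit 211) (nat_lit 262)))) (n (nat_lit 236) (b (l (nat_lit 1) (nat_lit 209) (nat_lit 213)) (l (nat_lit 5) (nat_lit 210) (nat_lit 211)))))))))) (l (nat_lit 4) (nat_lit 209) (nat_lit 209)))))) (l (nat_lit 3) (nat_lit 259) (nat_lit 288)))) (l (nat_lit 3) (nat_lit 258) (nat_lit 258))))))))))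
    (envOK_cons p13501 (envOK_cons p13658 (envOK_cons p14241 envOK_nil))) (by decide +kernel)

theorem p14444 : Fam (nat_lit 6) (nat_lit 12515549411591509821373698423919325803187948232353912935344572263283742917262652583547357888512) (nat_lit 5871356631914657218282645414143615523956236481061259275505680979586050210787705428300047294466544864491208704) (nat_lit 5871356631914657218282645414143615523956236481061259275505680979586050210787705428300047294466544864491208704) :=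
  chk_sound Env.nil
    (n (nat_lit 285) (b (b (n (nat_lit 284) (b (n (nat_lit 309) (b (n (nat_lit 260) (b (n (nat_lit 259) (b (l (nat_lit 5) (nat_lit 234) (nat_lit 334)) (l (nat_lit 3) (nat_lit 258) (nat_lit 258)))) (l (nat_lit 6) (nat_lit 209) (nat_lit 210)))) (l (nat_lit 2) (nat_lit 283) (nat_lit 308)))) (l (nat_lit 0) (nat_lit 283) (nat_lit 283)))) (n (nat_lit 284) (b (n (nat_lit 259) (b (n (nat_lit 234) (b (n (nat_lit 209) (b (l (nat_lit 3) (nat_lit 208) (nat_lit 208)) (l (nat_lit 4) (nat_lit 209) (nat_lit 310)))) (n (nat_lit 309) (b (l (nat_lit 5) (nat_lit 209) (nat_lit 210)) (l (nat_lit 2) (nat_lit 283) (nat_lit 308)))))) (l (nat_lit 3) (nat_lit 258) (nat_lit 258)))) (l (nat_lit 0) (nat_lit 283) (nat_lit 283))))) (b (n (nat_lit 260) (b (n (nat_lit 336) (b (l (nat_lit 4) (nat_lit 235) (nat_lit 310)) (l (nat_lit 7) (nat_lit 260) (nat_lit 361)))) (l (nat_lit 4) (nat_lit 210) (nat_lit 210)))) (n (nat_lit 284) (b (n (nat_lit 309) (b (n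 (nat_lit 260) (b (n (nat_lit 336) (b (l (nat_lit 4) (nat_lit 235) (nat_lit 310)) (l (nat_lit 7) (nat_lit 260) (nat_lit 361)))) (n (nat_lit 334) (b (l (nat_lit 5) (nat_lit 234) (nat_lit 259)) (l (nat_lit 5) (nat_lit 259) (nat_lit 359)))))) (l (nat_lit 2) (nat_lit 283) (nat_lit 308)))) (l (nat_lit 0) (nat_lit 283) (nat_lit 283)))))))
    envOK_nil (by decide +kernel)

theorem p14446 : Fam (nat_lit 11) (nat_lit 8343699732058482316695866440086145004844241484079177277838137014134192652254897709089969668096) (nat_lit 8219899284680513639228507590960710463432347419575043447380999117968082589618544004855417280689447516109799424) (nat_lit 8219899284680513639228507590960710463432347419575043447380999117968082589618544004855417280689447516109799424) :=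
  chk_sound (Env.cons (nat_lit 6) (nat_lit 12515549411591509821373698423919325803187948232353912935344572263283742917262652583547357888512) (nat_lit 5871356631914657218282645414143615523956236481061259275505680979586050210787705428300047294466544864491208704) Env.nil)
    (n (nat_lit 235) (b (b (b (n (nat_lit 234) (b (b (n (nat_lit 311) (b (n (nat_lit 212) (b (l (nat_lit 1) (nat_lit 209) (nat_lit 213)) (l (nat_lit 5) (nat_lit 211) (nat_lit 261)))) (n (nat_lit 309) (b (b (b (n (nat_lit 284) (b (n (nat_lit 259) (b (l (nat_lit 2) (nat_lit 233) (nat_lit 258)) (l (nat_lit 5) (nat_lit 209) (nat_lit 210)))) (n (nat_lit 308) (b (l (nat_lit 1) (nat_lit 283) (nat_lit 310)) (l (nat_lit 2) (nat_lit 283) (nat_lit 285)))))) (n (nat_lit 284) (b (n (nat_lit 283) (b (l (nat_lit 3) (nat_lit 283) (nat_lit 310)) (l (nat_lit 0) (nat_lit 283) (nat_lit 285)))) (n (nat_lit 259) (b (l (nat_lit 2) (nat_lit 233) (nat_lit 258)) (l (nat_lit 5) (nat_lit 209) (nat_lit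 210))))))) (b (n (nat_lit 284) (b (n (nat_lit 285) (b (l (nat_lit 2) (nat_lit 283) (nat_lit 308)) (l (nat_lit 0) (nat_lit 283) (nat_lit 283)))) (n (nat_lit 259) (b (l (nat_lit 2) (nat_lit 233) (nat_lit 258)) (l (nat_lit 5) (nat_lit 209) (nat_lit 210)))))) (n (nat_lit 284) (b (b (n (nat_lit 283) (b (l (nat_lit 3) (nat_lit 283) (nat_lit 310)) (l (nat_lit 0) (nat_lit 283) (nat_lit 285)))) (n (nat_lit 285) (b (l (nat_lit 2) (nat_lit 283) (nat_lit 308)) (l (nat_lit 0) (nat_lit 283) (nat_lit 283))))) (b (n (nat_lit 308) (b (l (nat_lit 1) (nat_lit 283) (nat_lit 310)) (l (nat_lit 2) (nat_lit 283) (nat_lit 285)))) (n (nat_lit 310) (b (l (nat_lit 1) (nat_lit 283) (nat_lit 308)) (l (nat_lit 3) (nat_lit 283) (nat_lit 283))))))))) (n (nat_lit 258) (b (n (nat_lit 233) (b (n (nat_lit 308) (b (n (nat_lit 283) (b (n (nat_lit 207) (b (l (nat_lit 7) (nat_lit 207) (nat_lit 232)) (l (nat_lit 3) (nat_lit 207) (nat_lit 208)))) (l (nat_lit 4) (nat_lit 233) (nat_lit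 334)))) (l (nat_lit 1) (nat_lit 283) (nat_lit 310)))) (l (nat_lit 2) (nat_lit 232) (nat_lit 257)))) (l (nat_lit 2) (nat_lit 233) (nat_lit 259)))))))) (n (nat_lit 238) (b (n (nat_lit 209) (b (l (nat_lit 3) (nat_lit 209) (nat_lit 210)) (l (nat_lit 3) (nat_lit 208) (nat_lit 208)))) (n (nat_lit 213) (b (l (nat_lit 1) (nat_lit 210) (nat_lit 214)) (l (nat_lit 1) (nat_lit 209) (nat_lit 212))))))) (b (n (nat_lit 233) (b (n (nat_lit 258) (b (l (nat_lit 2) (nat_lit 233) (nat_lit 259)) (l (nat_lit 2) (nat_lit 232) (nat_lit 257)))) (n (nat_lit 208) (b (l (nat_lit 3) (nat_lit 207) (nat_lit 207)) (l (nat_lit 3) (nat_lit 208) (nat_lit 209)))))) (n (nat_lit 311) (b (b (n (nat_lit 212) (b (l (nat_lit 1) (nat_lit 209) (nat_lit 213)) (l (nat_lit 5) (nat_lit 211) (nat_lit 261)))) (n (nat_lit 309) (b (b (n (nat_lit 261) (b (n (nat_lit 310) (b (l (nat_lit 6) (nat_lit 235) (nat_lit 335)) (l (nat_lit 1) (nat_lit 283) (nat_lit 308)))) (l (nat_lit 7) (nat_lit 210)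 (nat_lit 210)))) (n (nat_lit 284) (b (n (nat_lit 285) (b (l (nat_lit 2) (nat_lit 283) (nat_lit 308)) (l (nat_lit 0) (nat_lit 283) (nat_lit 283)))) (n (nat_lit 259) (b (l (nat_lit 2) (nat_lit 233) (nat_lit 258)) (l (nat_lit 5) (nat_lit 209) (nat_lit 210))))))) (b (n (nat_lit 284) (b (n (nat_lit 283) (b (l (nat_lit 3) (nat_lit 283) (nat_lit 310)) (l (nat_lit 0) (nat_lit 283) (nat_lit 285)))) (n (nat_lit 259) (b (l (nat_lit 2) (nat_lit 233) (nat_lit 258)) (l (nat_lit 5) (nat_lit 209) (nat_lit 210)))))) (n (nat_lit 284) (b (b (n (nat_lit 283) (b (l (nat_lit 3) (nat_lit 283) (nat_lit 310)) (l (nat_lit 0) (nat_lit 283) (nat_lit 285)))) (n (nat_lit 285) (b (l (nat_lit 2) (nat_lit 283) (nat_lit 308)) (l (nat_lit 0) (nat_lit 283) (nat_lit 283))))) (b (n (nat_lit 308) (b (l (nat_lit 1) (nat_lit 283) (nat_lit 310)) (l (nat_lit 2) (nat_lit 283) (nat_lit 285)))) (n (nat_lit 310) (b (l (nat_lit 1) (nat_lit 283) (nat_lit 308)) (l (nat_lit 3) (nat_lit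 283) (nat_lit 283))))))))))) (n (nat_lit 213) (b (n (nat_lit 238) (b (n (nat_lit 309) (b (b (n (nat_lit 284) (b (b (n (nat_lit 283) (b (l (nat_lit 3) (nat_lit 283) (nat_lit 310)) (l (nat_lit 0) (nat_lit 283) (nat_lit 285)))) (n (nat_lit 285) (b (l (nat_lit 2) (nat_lit 283) (nat_lit 308)) (l (nat_lit 0) (nat_lit 283) (nat_lit 283))))) (b (n (nat_lit 308) (b (l (nat_lit 1) (nat_lit 283) (nat_lit 310)) (l (nat_lit 2) (nat_lit 283) (nat_lit 285)))) (n (nat_lit 310) (b (l (nat_lit 1) (nat_lit 283) (nat_lit 308)) (l (nat_lit 3) (nat_lit 283) (nat_lit 283))))))) (n (nat_lit 259) (b (n (nat_lit 210) (b (l (nat_lit 5) (nat_lit 209) (nat_lit 284)) (l (nat_lit 3) (nat_lit 209) (nat_lit 209)))) (l (nat_lit 2) (nat_lit 233) (nat_lit 258))))) (n (nat_lit 308) (b (n (nat_lit 258) (b (n (nat_lit 233) (b (n (nat_lit 209) (b (l (nat_lit 5) (nat_lit 208) (nat_lit 283)) (l (nat_lit 3) (nat_lit 209) (nat_lit 210)))) (l (nat_lit 2) (nat_lit 232) (nat_lit 257))))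 (l (nat_lit 2) (nat_lit 233) (nat_lit 259)))) (l (nat_lit 1) (nat_lit 283) (nat_lit 310)))))) (l (nat_lit 1) (nat_lit 210) (nat_lit 214)))) (l (nat_lit 1) (nat_lit 209) (nat_lit 212))))))))) (n (nat_lit 238) (b (n (nat_lit 239) (b (n (nat_lit 214) (b (l (nat_lit 1) (nat_lit 211) (nat_lit 215)) (l (nat_lit 1) (nat_lit 210) (nat_lit 213)))) (n (nat_lit 264) (b (l (nat_lit 0) (nat_lit 236) (nat_lit 265)) (l (nat_lit 0) (nat_lit 235) (nat_lit 263)))))) (n (nat_lit 210) (b (n (nat_lit 261) (b (n (nat_lit 260) (b (l (nat_lit 4) (nat_lit 185) (nat_lit 185)) (l (nat_lit 2) (nat_lit 234) (nat_lit 259)))) (l (nat_lit 7) (nat_lit 210) (nat_lit 311)))) (l (nat_lit 3) (nat_lit 209) (nat_lit 209))))))) (b (n (nat_lit 238) (b (b (n (nat_lit 234) (b (n (nat_lit 259) (b (l (nat_lit 2) (nat_lit 233) (nat_lit 258)) (l (nat_lit 2) (nat_lit 234) (nat_lit 260)))) (n (nat_lit 213) (b (l (nat_lit 1) (nat_lit 210) (nat_lit 214)) (l (nat_lit 1) (nat_lit 209) (nat_lit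 212)))))) (n (nat_lit 239) (b (n (nat_lit 260) (b (l (nat_lit 2) (nat_lit 234) (nat_lit 259)) (l (nat_lit 2) (nat_lit 235) (nat_lit 261)))) (n (nat_lit 264) (b (l (nat_lit 0) (nat_lit 236) (nat_lit 265)) (l (nat_lit 0) (nat_lit 235) (nat_lit 263))))))) (n (nat_lit 239) (b (n (nat_lit 214) (b (l (nat_lit 1) (nat_lit 211) (nat_lit 215)) (l (nat_lit 1) (nat_lit 210) (nat_lit 213)))) (n (nat_lit 264) (b (l (nat_lit 0) (nat_lit 236) (nat_lit 265)) (l (nat_lit 0) (nat_lit 235) (nat_lit 263)))))))) (n (nat_lit 210) (b (n (nat_lit 261) (b (n (nat_lit 185) (b (l (nat_lit 4) (nat_lit 185) (nat_lit 260)) (l (nat_lit 4) (nat_lit 160) (nat_lit 160)))) (l (nat_lit 7) (nat_lit 210) (nat_lit 311)))) (n (nat_lit 209) (b (n (nat_lit 208) (b (l (nat_lit 0) (nat_lit 207) (nat_lit 207)) (l (nat_lit 3) (nat_lit 208) (nat_lit 234)))) (l (nat_lit 3) (nat_lit 209) (nat_lit 238)))))))) (b (n (nat_lit 238) (b (n (nat_lit 239) (b (n (nat_lit 214) (b (l (nat_lit 1)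 (nat_lit 211) (nat_lit 215)) (l (nat_lit 1) (nat_lit 210) (nat_lit 213)))) (n (nat_lit 264) (b (l (nat_lit 0) (nat_lit 236) (nat_lit 265)) (l (nat_lit 0) (nat_lit 235) (nat_lit 263)))))) (n (nat_lit 234) (b (n (nat_lit 209) (b (l (nat_lit 3) (nat_lit 209) (nat_lit 210)) (l (nat_lit 3) (nat_lit 208) (nat_lit 208)))) (n (nat_lit 259) (b (l (nat_lit 2) (nat_lit 233) (nat_lit 258)) (l (nat_lit 2) (nat_lit 234) (nat_lit 260)))))))) (n (nat_lit 311) (b (b (n (nat_lit 261) (b (n (nat_lit 336) (b (n (nat_lit 335) (b (l (nat_lit 6) (nat_lit 260) (nat_lit 360)) (l (nat_lit 6) (nat_lit 235) (nat_lit 310)))) (l (nat_lit 7) (nat_lit 235) (nat_lit 260)))) (l (nat_lit 5) (nat_lit 211) (nat_lit 212)))) (n (nat_lit 261) (b (l (nat_lit 5) (nat_lit 211) (nat_lit 212)) (l (nat_lit 7) (nat_lit 210) (nat_lit 210))))) (r (nat_lit 0)))))))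
    (envOK_cons p14444 envOK_nil) (by decide +kernel)

theorem p14493 : Fam (nat_lit 8) (nat_lit 8343699732058482316695866440086145004844241484079177277838137014134192652254897709089969668096) (nat_lit 12515549411591739437089796316726477328061707530172177267261788381778116986765498581287446773760) (nat_lit 12515549411591739437089796316726477328061707530172177267261788381778116986765498581287446773760) :=
  chk_sound Env.nil
    (n (nat_lit 261) (b (n (nat_lit 238) (b (b (n (nat_lit 235) (b (n (nat_lit 239) (b (n (nat_lit 214) (b (l (nat_lit 1) (nat_lit 211) (nat_lit 215)) (l (nat_lit 1) (nat_lit 210) (nat_lit 213)))) (n (nat_lit 264) (b (l (nat_lit 0) (nat_lit 236) (nat_lit 265)) (l (nat_lit 0) (nat_lit 235) (nat_lit 263)))))) (n (nat_lit 210) (b (l (nat_lit 3) (nat_lit 209) (nat_lit 209)) (l (nat_lit 7) (nat_lit 210) (nat_lit 311)))))) (n (nat_lit 239) (b (n (nat_lit 240) (b (n (nat_lit 215) (b (l (nat_lit 1) (nat_lit 211) (nat_lit 214))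 (l (nat_lit 1) (nat_lit 212) (nat_lit 216)))) (n (nat_lit 265) (b (l (nat_lit 0) (nat_lit 237) (nat_lit 266)) (l (nat_lit 0) (nat_lit 236) (nat_lit 264)))))) (l (nat_lit 2) (nat_lit 235) (nat_lit 260))))) (n (nat_lit 235) (b (b (n (nat_lit 210) (b (n (nat_lit 260) (b (l (nat_lit 4) (nat_lit 185) (nat_lit 185)) (l (nat_lit 2) (nat_lit 234) (nat_lit 259)))) (l (nat_lit 7) (nat_lit 210) (nat_lit 311)))) (n (nat_lit 210) (b (l (nat_lit 3) (nat_lit 209) (nat_lit 209)) (l (nat_lit 7) (nat_lit 210) (nat_lit 311))))) (n (nat_lit 234) (b (b (n (nat_lit 233) (b (n (nat_lit 260) (b (l (nat_lit 2) (nat_lit 234) (nat_lit 259)) (l (nat_lit 0) (nat_lit 232) (nat_lit 232)))) (n (nat_lit 208) (b (l (nat_lit 3) (nat_lit 207) (nat_lit 207)) (l (nat_lit 3) (nat_lit 208) (nat_lit 209)))))) (n (nat_lit 233) (b (n (nat_lit 232) (b (n (nat_lit 257) (b (l (nat_lit 2) (nat_lit 232) (nat_lit 258)) (l (nat_lit 2) (nat_lit 231) (nat_lit 256)))) (l (nat_lit 0) (nat_lit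 232) (nat_lit 260)))) (n (nat_lit 208) (b (l (nat_lit 3) (nat_lit 207) (nat_lit 207)) (l (nat_lit 3) (nat_lit 208) (nat_lit 209))))))) (b (n (nat_lit 259) (b (l (nat_lit 2) (nat_lit 233) (nat_lit 258)) (l (nat_lit 2) (nat_lit 234) (nat_lit 260)))) (n (nat_lit 233) (b (n (nat_lit 258) (b (l (nat_lit 2) (nat_lit 233) (nat_lit 259)) (l (nat_lit 2) (nat_lit 232) (nat_lit 257)))) (n (nat_lit 208) (b (l (nat_lit 3) (nat_lit 207) (nat_lit 207)) (l (nat_lit 3) (nat_lit 208) (nat_lit 209))))))))))))) (l (nat_lit 4) (nat_lit 211) (nat_lit 211))))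
    envOK_nil (by decide +kernel)

theorem p14587 : Fam (nat_lit 13) (nat_lit 8343699732058482316695756012144596355823642527985380845430897796390637926070015108702388879360) (nat_lit 330528250358675225741471804643338818133155765267395681020305973425350965761372468507961899598560738042458288272135562461184) (nat_lit 330528250358675225741471804643338818133155765267395681020305973425350965761372468507961899598560738042458288272135562461184) :=
  chk_sound (Env.cons (nat_lit 11) (nat_lit 8343699732058482316695866440086145004844241484079177277838137014134192652254897709089969668096) (nat_lit 8219899284680513639228507590960710463432347419575043447380999117968082589618544004855417280689447516109799424) (Env.cons (nat_lit 8) (nat_lit 8343699732058482316695866440086145004844241484079177277838137014134192652254897709089969668096) (nat_lit 12515549411591739437089796316726477328061707530172177267261788381778116986765498581287446773760) Env.nil))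
    (n (nat_lit 236) (b (b (b (r (nat_lit 0)) (n (nat_lit 261) (b (n (nat_lit 311) (b (n (nat_lit 235) (b (n (nat_lit 258) (b (b (n (nat_lit 310) (b (n (nat_lit 284) (b (n (nat_lit 309) (b (l (nat_lit 1) (nat_lit 283) (nat_lit 308)) (l (nat_lit 3) (nat_lit 283) (nat_lit 283)))) (n (nat_lit 259) (b (l (nat_lit 3) (nat_lit 258) (nat_lit 285)) (l (nat_lit 2) (nat_lit 233) (nat_lit 234)))))) (l (nat_lit 6) (nat_lit 235) (nat_lit 335)))) (n (nat_lit 310) (b (n (nat_lit 309) (b (n (nat_lit 284) (b (n (nat_lit 334) (b (n (nat_lit 259) (b (l (nat_lit 7) (nat_lit 233) (nat_lit 233)) (l (nat_lit 3) (nat_lit 258) (nat_lit 285)))) (l (nat_lit 2) (nat_lit 308) (nat_lit 333)))) (l (nat_lit 3) (nat_lit 283) (nat_lit 283)))) (l (nat_lit 1) (nat_lit 283) (nat_lit 308)))) (l (nat_lit 6) (nat_lit 235) (nat_lit 335))))) (b (n (nat_lit 234) (b (n (nat_lit 233) (b (n (nat_lit 208) (b (l (nat_lit 3) (nat_lit 207) (nat_lit 207)) (l (nat_lit 3) (nat_lit 208) (nat_lit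 209)))) (l (nat_lit 2) (nat_lit 232) (nat_lit 257)))) (l (nat_lit 2) (nat_lit 233) (nat_lit 259)))) (n (nat_lit 283) (b (b (n (nat_lit 233) (b (b (n (nat_lit 333) (b (n (nat_lit 335) (b (n (nat_lit 336) (b (l (nat_lit 6) (nat_lit 260) (nat_lit 360)) (l (nat_lit 1) (nat_lit 308) (nat_lit 334)))) (l (nat_lit 6) (nat_lit 235) (nat_lit 310)))) (n (nat_lit 308) (b (n (nat_lit 332) (b (l (nat_lit 6) (nat_lit 257) (nat_lit 357)) (l (nat_lit 6) (nat_lit 232) (nat_lit 307)))) (n (nat_lit 232) (b (l (nat_lit 7) (nat_lit 207) (nat_lit 207)) (l (nat_lit 7) (nat_lit 232) (nat_lit 257)))))))) (n (nat_lit 208) (b (b (n (nat_lit 183) (b (n (nat_lit 182) (b (l (nat_lit 7) (nat_lit 182) (nat_lit 207)) (l (nat_lit 7) (nat_lit 157) (nat_lit 157)))) (n (nat_lit 184) (b (l (nat_lit 5) (nat_lit 158) (nat_lit 159)) (l (nat_lit 5) (nat_lit 183) (nat_lit 209)))))) (n (nat_lit 209) (b (l (nat_lit 3) (nat_lit 208) (nat_lit 234)) (l (nat_lit 5) (nat_lit 183) (nat_lit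 184))))) (n (nat_lit 207) (b (l (nat_lit 7) (nat_lit 182) (nat_lit 182)) (l (nat_lit 3) (nat_lit 207) (nat_lit 234))))))) (n (nat_lit 234) (b (n (nat_lit 209) (b (l (nat_lit 5) (nat_lit 208) (nat_lit 308)) (l (nat_lit 3) (nat_lit 208) (nat_lit 208)))) (l (nat_lit 2) (nat_lit 232) (nat_lit 257)))))) (n (nat_lit 310) (b (n (nat_lit 284) (b (l (nat_lit 3) (nat_lit 283) (nat_lit 309)) (l (nat_lit 0) (nat_lit 283) (nat_lit 285)))) (l (nat_lit 6) (nat_lit 235) (nat_lit 335))))) (n (nat_lit 233) (b (b (n (nat_lit 234) (b (n (nat_lit 208) (b (l (nat_lit 3) (nat_lit 207) (nat_lit 207)) (l (nat_lit 3) (nat_lit 208) (nat_lit 209)))) (l (nat_lit 2) (nat_lit 232) (nat_lit 257)))) (n (nat_lit 308) (b (n (nat_lit 333) (b (n (nat_lit 334) (b (l (nat_lit 4) (nat_lit 233) (nat_lit 309)) (l (nat_lit 4) (nat_lit 258) (nat_lit 359)))) (n (nat_lit 332) (b (l (nat_lit 6) (nat_lit 257) (nat_lit 357)) (l (nat_lit 6) (nat_lit 232) (nat_lit 307)))))) (n (nat_lit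 234) (b (l (nat_lit 2) (nat_lit 232) (nat_lit 257)) (l (nat_lit 5) (nat_lit 208) (nat_lit 209))))))) (n (nat_lit 284) (b (n (nat_lit 309) (b (n (nat_lit 334) (b (l (nat_lit 4) (nat_lit 233) (nat_lit 308)) (l (nat_lit 7) (nat_lit 258) (nat_lit 359)))) (l (nat_lit 4) (nat_lit 208) (nat_lit 208)))) (l (nat_lit 0) (nat_lit 283) (nat_lit 285))))))))))) (l (nat_lit 7) (nat_lit 210) (nat_lit 210)))) (l (nat_lit 5) (nat_lit 211) (nat_lit 212)))) (l (nat_lit 4) (nat_lit 211) (nat_lit 211))))) (b (r (nat_lit 1)) (n (nat_lit 238) (b (b (b (n (nat_lit 239) (b (b (n (nat_lit 235) (b (n (nat_lit 234) (b (n (nat_lit 259) (b (l (nat_lit 2) (nat_lit 233) (nat_lit 258)) (l (nat_lit 2) (nat_lit 234) (nat_lit 260)))) (n (nat_lit 213) (b (l (nat_lit 1) (nat_lit 210) (nat_lit 214)) (l (nat_lit 1) (nat_lit 209) (nat_lit 212)))))) (n (nat_lit 264) (b (l (nat_lit 0) (nat_lit 236) (nat_lit 265)) (l (nat_lit 0) (nat_lit 235) (nat_lit 263)))))) (n (nat_lit 240) (b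 (n (nat_lit 241) (b (n (nat_lit 216) (b (l (nat_lit 1) (nat_lit 212) (nat_lit 215)) (l (nat_lit 1) (nat_lit 213) (nat_lit 217)))) (n (nat_lit 212) (b (l (nat_lit 3) (nat_lit 212) (nat_lit 213)) (l (nat_lit 3) (nat_lit 211) (nat_lit 211)))))) (n (nat_lit 265) (b (l (nat_lit 0) (nat_lit 237) (nat_lit 266)) (l (nat_lit 0) (nat_lit 236) (nat_lit 264))))))) (b (n (nat_lit 240) (b (n (nat_lit 215) (b (l (nat_lit 1) (nat_lit 211) (nat_lit 214)) (l (nat_lit 1) (nat_lit 212) (nat_lit 216)))) (n (nat_lit 265) (b (l (nat_lit 0) (nat_lit 237) (nat_lit 266)) (l (nat_lit 0) (nat_lit 236) (nat_lit 264)))))) (n (nat_lit 240) (b (b (n (nat_lit 215) (b (l (nat_lit 1) (nat_lit 211) (nat_lit 214)) (l (nat_lit 1) (nat_lit 212) (nat_lit 216)))) (n (nat_lit 241) (b (n (nat_lit 242) (b (n (nat_lit 267) (b (l (nat_lit 0) (nat_lit 239) (nat_lit 268)) (l (nat_lit 0) (nat_lit 238) (nat_lit 266)))) (n (nat_lit 217) (b (l (nat_lit 1) (nat_lit 214) (nat_lit 218)) (l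 (nat_lit 1) (nat_lit 213) (nat_lit 216)))))) (n (nat_lit 212) (b (l (nat_lit 3) (nat_lit 212) (nat_lit 213)) (l (nat_lit 3) (nat_lit 211) (nat_lit 211))))))) (n (nat_lit 213) (b (n (nat_lit 214) (b (l (nat_lit 1) (nat_lit 211) (nat_lit 215)) (l (nat_lit 1) (nat_lit 210) (nat_lit 235)))) (n (nat_lit 212) (b (l (nat_lit 3) (nat_lit 211) (nat_lit 211)) (l (nat_lit 3) (nat_lit 212) (nat_lit 241))))))))))) (n (nat_lit 235) (b (b (n (nat_lit 234) (b (n (nat_lit 259) (b (l (nat_lit 2) (nat_lit 233) (nat_lit 258)) (l (nat_lit 2) (nat_lit 234) (nat_lit 260)))) (n (nat_lit 213) (b (l (nat_lit 1) (nat_lit 210) (nat_lit 214)) (l (nat_lit 1) (nat_lit 209) (nat_lit 212)))))) (n (nat_lit 234) (b (n (nat_lit 213) (b (l (nat_lit 1) (nat_lit 210) (nat_lit 214)) (l (nat_lit 1) (nat_lit 209) (nat_lit 212)))) (n (nat_lit 209) (b (l (nat_lit 3) (nat_lit 209) (nat_lit 210)) (l (nat_lit 3) (nat_lit 208) (nat_lit 208))))))) (n (nat_lit 210) (b (n (nat_lit 260)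 (b (n (nat_lit 285) (b (n (nat_lit 211) (b (l (nat_lit 5) (nat_lit 185) (nat_lit 186)) (l (nat_lit 5) (nat_lit 210) (nat_lit 310)))) (l (nat_lit 4) (nat_lit 210) (nat_lit 311)))) (l (nat_lit 2) (nat_lit 234) (nat_lit 259)))) (l (nat_lit 3) (nat_lit 209) (nat_lit 209))))))) (b (n (nat_lit 235) (b (b (n (nat_lit 234) (b (n (nat_lit 209) (b (l (nat_lit 3) (nat_lit 209) (nat_lit 210)) (l (nat_lit 3) (nat_lit 208) (nat_lit 208)))) (n (nat_lit 259) (b (l (nat_lit 2) (nat_lit 233) (nat_lit 258)) (l (nat_lit 2) (nat_lit 234) (nat_lit 260)))))) (n (nat_lit 234) (b (n (nat_lit 233) (b (n (nat_lit 208) (b (l (nat_lit 3) (nat_lit 207) (nat_lit 207)) (l (nat_lit 3) (nat_lit 208) (nat_lit 209)))) (n (nat_lit 212) (b (l (nat_lit 1) (nat_lit 208) (nat_lit 211)) (l (nat_lit 1) (nat_lit 209) (nat_lit 213)))))) (n (nat_lit 259) (b (l (nat_lit 2) (nat_lit 233) (nat_lit 258)) (l (nat_lit 2) (nat_lit 234) (nat_lit 260))))))) (b (n (nat_lit 239) (b (n (nat_lit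 210) (b (l (nat_lit 3) (nat_lit 210) (nat_lit 211)) (l (nat_lit 3) (nat_lit 209) (nat_lit 209)))) (n (nat_lit 264) (b (l (nat_lit 0) (nat_lit 236) (nat_lit 265)) (l (nat_lit 0) (nat_lit 235) (nat_lit 263)))))) (n (nat_lit 211) (b (n (nat_lit 239) (b (n (nat_lit 264) (b (l (nat_lit 0) (nat_lit 236) (nat_lit 265)) (l (nat_lit 0) (nat_lit 235) (nat_lit 263)))) (l (nat_lit 3) (nat_lit 210) (nat_lit 210)))) (n (nat_lit 234) (b (n (nat_lit 212) (b (l (nat_lit 1) (nat_lit 209) (nat_lit 213)) (l (nat_lit 1) (nat_lit 208) (nat_lit 233)))) (n (nat_lit 259) (b (l (nat_lit 2) (nat_lit 233) (nat_lit 258)) (l (nat_lit 2) (nat_lit 234) (nat_lit 260))))))))))) (n (nat_lit 235) (b (n (nat_lit 234) (b (n (nat_lit 209) (b (l (nat_lit 3) (nat_lit 209) (nat_lit 210)) (l (nat_lit 3) (nat_lit 208) (nat_lit 208)))) (n (nat_lit 259) (b (l (nat_lit 2) (nat_lit 233) (nat_lit 258)) (l (nat_lit 2) (nat_lit 234) (nat_lit 260)))))) (n (nat_lit 239) (b (n (nat_lit 214)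 (b (l (nat_lit 1) (nat_lit 211) (nat_lit 215)) (l (nat_lit 1) (nat_lit 210) (nat_lit 213)))) (n (nat_lit 264) (b (l (nat_lit 0) (nat_lit 236) (nat_lit 265)) (l (nat_lit 0) (nat_lit 235) (nat_lit 263)))))))))) (b (n (nat_lit 239) (b (b (n (nat_lit 240) (b (n (nat_lit 215) (b (l (nat_lit 1) (nat_lit 211) (nat_lit 214)) (l (nat_lit 1) (nat_lit 212) (nat_lit 216)))) (n (nat_lit 265) (b (l (nat_lit 0) (nat_lit 237) (nat_lit 266)) (l (nat_lit 0) (nat_lit 236) (nat_lit 264)))))) (n (nat_lit 235) (b (n (nat_lit 210) (b (l (nat_lit 3) (nat_lit 210) (nat_lit 211)) (l (nat_lit 3) (nat_lit 209) (nat_lit 209)))) (n (nat_lit 264) (b (l (nat_lit 0) (nat_lit 236) (nat_lit 265)) (l (nat_lit 0) (nat_lit 235) (nat_lit 263))))))) (n (nat_lit 240) (b (n (nat_lit 211) (b (l (nat_lit 3) (nat_lit 211) (nat_lit 212)) (l (nat_lit 3) (nat_lit 210) (nat_lit 210)))) (n (nat_lit 215) (b (l (nat_lit 1) (nat_lit 211) (nat_lit 214)) (l (nat_lit 1) (nat_lit 212) (nat_lit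 216)))))))) (n (nat_lit 239) (b (b (n (nat_lit 240) (b (n (nat_lit 211) (b (l (nat_lit 3) (nat_lit 211) (nat_lit 212)) (l (nat_lit 3) (nat_lit 210) (nat_lit 210)))) (n (nat_lit 215) (b (l (nat_lit 1) (nat_lit 211) (nat_lit 214)) (l (nat_lit 1) (nat_lit 212) (nat_lit 216)))))) (n (nat_lit 240) (b (n (nat_lit 215) (b (l (nat_lit 1) (nat_lit 211) (nat_lit 214)) (l (nat_lit 1) (nat_lit 212) (nat_lit 216)))) (n (nat_lit 265) (b (l (nat_lit 0) (nat_lit 237) (nat_lit 266)) (l (nat_lit 0) (nat_lit 236) (nat_lit 264))))))) (b (n (nat_lit 240) (b (n (nat_lit 211) (b (l (nat_lit 3) (nat_lit 211) (nat_lit 212)) (l (nat_lit 3) (nat_lit 210) (nat_lit 210)))) (n (nat_lit 265) (b (l (nat_lit 0) (nat_lit 237) (nat_lit 266)) (l (nat_lit 0) (nat_lit 236) (nat_lit 264)))))) (n (nat_lit 214) (b (n (nat_lit 264) (b (n (nat_lit 213) (b (n (nat_lit 289) (b (l (nat_lit 7) (nat_lit 213) (nat_lit 314)) (l (nat_lit 7) (nat_lit 188) (nat_lit 188)))) (n (nat_lit 211)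 (b (n (nat_lit 189) (b (n (nat_lit 164) (b (l (nat_lit 6) (nat_lit 138) (nat_lit 139)) (l (nat_lit 6) (nat_lit 163) (nat_lit 263)))) (n (nat_lit 190) (b (l (nat_lit 1) (nat_lit 186) (nat_lit 212)) (l (nat_lit 5) (nat_lit 164) (nat_lit 165)))))) (l (nat_lit 3) (nat_lit 210) (nat_lit 210)))))) (l (nat_lit 0) (nat_lit 236) (nat_lit 265)))) (l (nat_lit 1) (nat_lit 211) (nat_lit 215)))))))))))) (b (b (n (nat_lit 261) (b (n (nat_lit 311) (b (n (nat_lit 284) (b (b (b (n (nat_lit 259) (b (b (n (nat_lit 335) (b (n (nat_lit 334) (b (b (n (nat_lit 336) (b (l (nat_lit 1) (nat_lit 308) (nat_lit 333)) (l (nat_lit 6) (nat_lit 260) (nat_lit 360)))) (n (nat_lit 258) (b (n (nat_lit 309) (b (l (nat_lit 7) (nat_lit 233) (nat_lit 233)) (l (nat_lit 4) (nat_lit 259) (nat_lit 360)))) (l (nat_lit 1) (nat_lit 233) (nat_lit 260))))) (n (nat_lit 309) (b (n (nat_lit 333) (b (l (nat_lit 6) (nat_lit 258) (nat_lit 358)) (l (nat_lit 1) (nat_lit 308) (nat_lit 336)))) (n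 (nat_lit 258) (b (l (nat_lit 0) (nat_lit 258) (nat_lit 260)) (l (nat_lit 7) (nat_lit 233) (nat_lit 233)))))))) (l (nat_lit 6) (nat_lit 235) (nat_lit 310)))) (n (nat_lit 258) (b (l (nat_lit 3) (nat_lit 258) (nat_lit 285)) (l (nat_lit 1) (nat_lit 233) (nat_lit 260))))) (n (nat_lit 309) (b (b (n (nat_lit 308) (b (l (nat_lit 1) (nat_lit 283) (nat_lit 310)) (l (nat_lit 2) (nat_lit 283) (nat_lit 285)))) (n (nat_lit 308) (b (n (nat_lit 333) (b (n (nat_lit 358) (b (l (nat_lit 5) (nat_lit 283) (nat_lit 383)) (l (nat_lit 6) (nat_lit 258) (nat_lit 334)))) (l (nat_lit 6) (nat_lit 233) (nat_lit 234)))) (l (nat_lit 2) (nat_lit 283) (nat_lit 285))))) (n (nat_lit 335) (b (n (nat_lit 360) (b (l (nat_lit 4) (nat_lit 259) (nat_lit 334)) (l (nat_lit 6) (nat_lit 260) (nat_lit 336)))) (l (nat_lit 6) (nat_lit 235) (nat_lit 310)))))))) (n (nat_lit 285) (b (n (nat_lit 336) (b (n (nat_lit 361) (b (l (nat_lit 5) (nat_lit 286) (nat_lit 386)) (l (nat_lit 7) (nat_lit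 260) (nat_lit 260)))) (n (nat_lit 335) (b (l (nat_lit 6) (nat_lit 260) (nat_lit 360)) (l (nat_lit 6) (nat_lit 235) (nat_lit 310)))))) (l (nat_lit 0) (nat_lit 283) (nat_lit 283))))) (b (n (nat_lit 309) (b (b (n (nat_lit 308) (b (l (nat_lit 1) (nat_lit 283) (nat_lit 310)) (l (nat_lit 2) (nat_lit 283) (nat_lit 285)))) (n (nat_lit 310) (b (l (nat_lit 1) (nat_lit 283) (nat_lit 308)) (l (nat_lit 3) (nat_lit 283) (nat_lit 283))))) (b (n (nat_lit 285) (b (l (nat_lit 2) (nat_lit 283) (nat_lit 308)) (l (nat_lit 0) (nat_lit 283) (nat_lit 283)))) (n (nat_lit 283) (b (l (nat_lit 3) (nat_lit 283) (nat_lit 310)) (l (nat_lit 0) (nat_lit 283) (nat_lit 285))))))) (n (nat_lit 310) (b (n (nat_lit 309) (b (l (nat_lit 1) (nat_lit 283) (nat_lit 308)) (l (nat_lit 3) (nat_lit 283) (nat_lit 283)))) (l (nat_lit 6) (nat_lit 235) (nat_lit 335)))))) (n (nat_lit 336) (b (b (n (nat_lit 361) (b (n (nat_lit 285) (b (l (nat_lit 7) (nat_lit 260) (nat_lit 260)) (l (nat_lit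 0) (nat_lit 283) (nat_lit 283)))) (l (nat_lit 5) (nat_lit 286) (nat_lit 386)))) (n (nat_lit 361) (b (n (nat_lit 360) (b (l (nat_lit 6) (nat_lit 285) (nat_lit 385)) (l (nat_lit 6) (nat_lit 260) (nat_lit 335)))) (l (nat_lit 5) (nat_lit 286) (nat_lit 386))))) (n (nat_lit 335) (b (n (nat_lit 283) (b (n (nat_lit 333) (b (n (nat_lit 308) (b (b (n (nat_lit 258) (b (n (nat_lit 233) (b (n (nat_lit 232) (b (l (nat_lit 7) (nat_lit 207) (nat_lit 207)) (l (nat_lit 7) (nat_lit 232) (nat_lit 257)))) (n (nat_lit 332) (b (l (nat_lit 6) (nat_lit 257) (nat_lit 357)) (l (nat_lit 6) (nat_lit 232) (nat_lit 307)))))) (n (nat_lit 259) (b (l (nat_lit 1) (nat_lit 233) (nat_lit 260)) (l (nat_lit 5) (nat_lit 233) (nat_lit 234)))))) (n (nat_lit 358) (b (b (n (nat_lit 258) (b (n (nat_lit 357) (b (l (nat_lit 6) (nat_lit 282) (nat_lit 382)) (l (nat_lit 6) (nat_lit 257) (nat_lit 332)))) (n (nat_lit 257) (b (l (nat_lit 7) (nat_lit 257) (nat_lit 282)) (l (nat_lit 7) (nat_lit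 232) (nat_lit 232)))))) (n (nat_lit 383) (b (n (nat_lit 382) (b (l (nat_lit 6) (nat_lit 307) (nat_lit 407)) (l (nat_lit 6) (nat_lit 282) (nat_lit 357)))) (l (nat_lit 5) (nat_lit 283) (nat_lit 309))))) (n (nat_lit 383) (b (n (nat_lit 282) (b (l (nat_lit 7) (nat_lit 257) (nat_lit 257)) (l (nat_lit 7) (nat_lit 282) (nat_lit 307)))) (l (nat_lit 5) (nat_lit 283) (nat_lit 309))))))) (n (nat_lit 259) (b (n (nat_lit 234) (b (l (nat_lit 6) (nat_lit 208) (nat_lit 209)) (l (nat_lit 6) (nat_lit 233) (nat_lit 309)))) (l (nat_lit 5) (nat_lit 258) (nat_lit 358)))))) (l (nat_lit 1) (nat_lit 308) (nat_lit 334)))) (l (nat_lit 0) (nat_lit 283) (nat_lit 285)))) (l (nat_lit 6) (nat_lit 260) (nat_lit 360)))))))) (l (nat_lit 5) (nat_lit 211) (nat_lit 212)))) (l (nat_lit 4) (nat_lit 211) (nat_lit 211)))) (n (nat_lit 261) (b (n (nat_lit 311) (b (n (nat_lit 336) (b (n (nat_lit 335) (b (l (nat_lit 6) (nat_lit 260) (nat_lit 360)) (l (nat_lit 6) (nat_lit 235) (nat_lit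 310)))) (n (nat_lit 235) (b (l (nat_lit 7) (nat_lit 235) (nat_lit 260)) (l (nat_lit 7) (nat_lit 210) (nat_lit 210)))))) (l (nat_lit 5) (nat_lit 211) (nat_lit 212)))) (l (nat_lit 4) (nat_lit 211) (nat_lit 211))))) (n (nat_lit 235) (b (b (b (n (nat_lit 211) (b (n (nat_lit 238) (b (n (nat_lit 260) (b (n (nat_lit 210) (b (n (nat_lit 186) (b (l (nat_lit 5) (nat_lit 185) (nat_lit 285)) (l (nat_lit 6) (nat_lit 160) (nat_lit 161)))) (l (nat_lit 3) (nat_lit 209) (nat_lit 209)))) (l (nat_lit 2) (nat_lit 234) (nat_lit 259)))) (n (nat_lit 239) (b (n (nat_lit 214) (b (l (nat_lit 1) (nat_lit 211) (nat_lit 215)) (l (nat_lit 1) (nat_lit 210) (nat_lit 213)))) (n (nat_lit 264) (b (l (nat_lit 0) (nat_lit 236) (nat_lit 265)) (l (nat_lit 0) (nat_lit 235) (nat_lit 263)))))))) (l (nat_lit 4) (nat_lit 211) (nat_lit 261)))) (n (nat_lit 238) (b (b (n (nat_lit 239) (b (n (nat_lit 260) (b (l (nat_lit 2) (nat_lit 234) (nat_lit 259)) (l (nat_lit 2) (nat_lit 235) (nat_lit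 261)))) (n (nat_lit 264) (b (l (nat_lit 0) (nat_lit 236) (nat_lit 265)) (l (nat_lit 0) (nat_lit 235) (nat_lit 263)))))) (n (nat_lit 234) (b (n (nat_lit 209) (b (l (nat_lit 3) (nat_lit 209) (nat_lit 210)) (l (nat_lit 3) (nat_lit 208) (nat_lit 208)))) (n (nat_lit 259) (b (l (nat_lit 2) (nat_lit 233) (nat_lit 258)) (l (nat_lit 2) (nat_lit 234) (nat_lit 260))))))) (n (nat_lit 211) (b (n (nat_lit 210) (b (l (nat_lit 3) (nat_lit 209) (nat_lit 209)) (l (nat_lit 3) (nat_lit 210) (nat_lit 239)))) (l (nat_lit 4) (nat_lit 211) (nat_lit 261))))))) (b (n (nat_lit 238) (b (b (n (nat_lit 234) (b (n (nat_lit 259) (b (l (nat_lit 2) (nat_lit 233) (nat_lit 258)) (l (nat_lit 2) (nat_lit 234) (nat_lit 260)))) (n (nat_lit 213) (b (l (nat_lit 1) (nat_lit 210) (nat_lit 214)) (l (nat_lit 1) (nat_lit 209) (nat_lit 212)))))) (n (nat_lit 239) (b (n (nat_lit 260) (b (l (nat_lit 2) (nat_lit 234) (nat_lit 259)) (l (nat_lit 2) (nat_lit 235) (nat_lit 261)))) (n (nat_lit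 264) (b (l (nat_lit 0) (nat_lit 236) (nat_lit 265)) (l (nat_lit 0) (nat_lit 235) (nat_lit 263))))))) (n (nat_lit 239) (b (n (nat_lit 214) (b (l (nat_lit 1) (nat_lit 211) (nat_lit 215)) (l (nat_lit 1) (nat_lit 210) (nat_lit 213)))) (n (nat_lit 264) (b (l (nat_lit 0) (nat_lit 236) (nat_lit 265)) (l (nat_lit 0) (nat_lit 235) (nat_lit 263)))))))) (n (nat_lit 238) (b (b (n (nat_lit 239) (b (n (nat_lit 214) (b (l (nat_lit 1) (nat_lit 211) (nat_lit 215)) (l (nat_lit 1) (nat_lit 210) (nat_lit 213)))) (n (nat_lit 264) (b (l (nat_lit 0) (nat_lit 236) (nat_lit 265)) (l (nat_lit 0) (nat_lit 235) (nat_lit 263)))))) (n (nat_lit 239) (b (n (nat_lit 210) (b (l (nat_lit 3) (nat_lit 210) (nat_lit 211)) (l (nat_lit 3) (nat_lit 209) (nat_lit 209)))) (n (nat_lit 264) (b (l (nat_lit 0) (nat_lit 236) (nat_lit 265)) (l (nat_lit 0) (nat_lit 235) (nat_lit 263))))))) (n (nat_lit 234) (b (n (nat_lit 213) (b (l (nat_lit 1) (nat_lit 210) (nat_lit 214)) (l (nat_lit 1)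 (nat_lit 209) (nat_lit 212)))) (n (nat_lit 209) (b (l (nat_lit 3) (nat_lit 209) (nat_lit 210)) (l (nat_lit 3) (nat_lit 208) (nat_lit 208)))))))))) (n (nat_lit 211) (b (n (nat_lit 234) (b (b (n (nat_lit 233) (b (n (nat_lit 258) (b (l (nat_lit 2) (nat_lit 233) (nat_lit 259)) (l (nat_lit 2) (nat_lit 232) (nat_lit 257)))) (n (nat_lit 208) (b (l (nat_lit 3) (nat_lit 207) (nat_lit 207)) (l (nat_lit 3) (nat_lit 208) (nat_lit 209)))))) (n (nat_lit 212) (b (l (nat_lit 1) (nat_lit 209) (nat_lit 213)) (l (nat_lit 1) (nat_lit 208) (nat_lit 233))))) (n (nat_lit 212) (b (n (nat_lit 209) (b (n (nat_lit 184) (b (b (n (nat_lit 259) (b (n (nat_lit 183) (b (l (nat_lit 7) (nat_lit 158) (nat_lit 158)) (l (nat_lit 3) (nat_lit 183) (nat_lit 210)))) (l (nat_lit 2) (nat_lit 233) (nat_lit 258)))) (n (nat_lit 260) (b (n (nat_lit 210) (b (l (nat_lit 7) (nat_lit 184) (nat_lit 285)) (l (nat_lit 3) (nat_lit 183) (nat_lit 183)))) (l (nat_lit 4) (nat_lit 159) (nat_lit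 159))))) (n (nat_lit 259) (b (n (nat_lit 260) (b (l (nat_lit 4) (nat_lit 184) (nat_lit 285)) (l (nat_lit 4) (nat_lit 159) (nat_lit 159)))) (l (nat_lit 2) (nat_lit 233) (nat_lit 258)))))) (l (nat_lit 3) (nat_lit 208) (nat_lit 208)))) (l (nat_lit 1) (nat_lit 209) (nat_lit 213)))))) (l (nat_lit 4) (nat_lit 211) (nat_lit 261)))))))))
    (envOK_cons p14446 (envOK_cons p14493 envOK_nil)) (by decide +kernel)

theorem p14668 : Fam (nat_lit 16) (nat_lit 8343699732058482316695535156261499057782444615797787980616419360903528473700249907927227301888) (nat_lit 330528565574752979408298788874394293053113023144783525715414924011849651327640362962820233014193803161930189062624155533312) (nat_lit 330528565574752979408298788874394293053113023144783525715414924011849651327640362962820233014193803161930189062624155533312) :=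
  chk_sound (Env.cons (nat_lit 13) (nat_lit 8343699732058482316695756012144596355823642527985380845430897796390637926070015108702388879360) (nat_lit 330528250358675225741471804643338818133155765267395681020305973425350965761372468507961899598560738042458288272135562461184) (Env.cons (nat_lit 6) (nat_lit 7410694484183827347651687233248682677636129693125200981608579554709153362477056) (nat_lit 470115889343285214322216657605911180534586615141251783400196793157611470517698560) (Env.cons (nat_lit 8) (nat_lit 8343699732058482316695866440086145004844241484079177277838137014134192652254897709089969668096) (nat_lit 12515549411591739437089796316726477328061707530172177267261788381778116986765498581287446773760) (Env.cons (nat_lit 6) (nat_lit 12515549411591509821373698423919325803187948232353912935344572263283742917262652583547357888512) (nat_lit 5871356631914657218282645414143615523956236481061259275505680979586050210787705428300047294466544864491208704)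 Env.nil))))
    (n (nat_lit 237) (b (b (b (n (nat_lit 262) (b (b (b (n (nat_lit 238) (b (n (nat_lit 236) (b (n (nat_lit 239) (b (b (n (nat_lit 240) (b (n (nat_lit 215) (b (l (nat_lit 1) (nat_lit 211) (nat_lit 214)) (l (nat_lit 1) (nat_lit 212) (nat_lit 216)))) (n (nat_lit 265) (b (l (nat_lit 0) (nat_lit 237) (nat_lit 266)) (l (nat_lit 0) (nat_lit 236) (nat_lit 264)))))) (n (nat_lit 261) (b (l (nat_lit 2) (nat_lit 235) (nat_lit 260)) (l (nat_lit 2) (nat_lit 236) (nat_lit 240))))) (n (nat_lit 235) (b (n (nat_lit 260) (b (l (nat_lit 2) (nat_lit 234) (nat_lit 259)) (l (nat_lit 2) (nat_lit 235) (nat_lit 261)))) (n (nat_lit 263) (b (l (nat_lit 0) (nat_lit 234) (nat_lit 234)) (l (nat_lit 0) (nat_lit 235) (nat_lit 264)))))))) (l (nat_lit 7) (nat_lit 211) (nat_lit 211)))) (l (nat_lit 5) (nat_lit 212) (nat_lit 213)))) (n (nat_lit 212) (b (b (n (nat_lit 187) (b (n (nat_lit 162) (b (n (nat_lit 238) (b (l (nat_lit 5) (nat_lit 212) (nat_lit 213)) (l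 (nat_lit 4) (nat_lit 162) (nat_lit 263)))) (n (nat_lit 161) (b (l (nat_lit 7) (nat_lit 136) (nat_lit 136)) (l (nat_lit 7) (nat_lit 161) (nat_lit 186)))))) (l (nat_lit 6) (nat_lit 186) (nat_lit 261)))) (n (nat_lit 213) (b (l (nat_lit 5) (nat_lit 187) (nat_lit 188)) (l (nat_lit 5) (nat_lit 212) (nat_lit 238))))) (n (nat_lit 187) (b (n (nat_lit 162) (b (n (nat_lit 163) (b (l (nat_lit 5) (nat_lit 162) (nat_lit 188)) (l (nat_lit 5) (nat_lit 137) (nat_lit 138)))) (n (nat_lit 161) (b (l (nat_lit 7) (nat_lit 136) (nat_lit 136)) (l (nat_lit 7) (nat_lit 161) (nat_lit 186)))))) (l (nat_lit 6) (nat_lit 186) (nat_lit 261))))))) (b (n (nat_lit 212) (b (n (nat_lit 213) (b (l (nat_lit 5) (nat_lit 187) (nat_lit 188)) (l (nat_lit 5) (nat_lit 212) (nat_lit 238)))) (n (nat_lit 211) (b (l (nat_lit 7) (nat_lit 211) (nat_lit 236)) (l (nat_lit 7) (nat_lit 186) (nat_lit 186)))))) (n (nat_lit 212) (b (n (nat_lit 187) (b (n (nat_lit 188) (b (l (nat_lit 5) (nat_lit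 187) (nat_lit 213)) (l (nat_lit 5) (nat_lit 162) (nat_lit 163)))) (l (nat_lit 6) (nat_lit 186) (nat_lit 261)))) (n (nat_lit 211) (b (l (nat_lit 7) (nat_lit 211) (nat_lit 236)) (l (nat_lit 7) (nat_lit 186) (nat_lit 186)))))))) (n (nat_lit 212) (b (b (n (nat_lit 187) (b (n (nat_lit 162) (b (n (nat_lit 163) (b (l (nat_lit 5) (nat_lit 162) (nat_lit 188)) (l (nat_lit 5) (nat_lit 137) (nat_lit 138)))) (n (nat_lit 161) (b (l (nat_lit 7) (nat_lit 136) (nat_lit 136)) (l (nat_lit 7) (nat_lit 161) (nat_lit 186)))))) (l (nat_lit 6) (nat_lit 186) (nat_lit 261)))) (n (nat_lit 211) (b (l (nat_lit 7) (nat_lit 211) (nat_lit 236)) (l (nat_lit 7) (nat_lit 186) (nat_lit 186))))) (n (nat_lit 261) (b (n (nat_lit 236) (b (n (nat_lit 260) (b (b (n (nat_lit 259) (b (l (nat_lit 1) (nat_lit 233) (nat_lit 258)) (l (nat_lit 1) (nat_lit 234) (nat_lit 238)))) (n (nat_lit 235) (b (n (nat_lit 238) (b (n (nat_lit 210) (b (l (nat_lit 4) (nat_lit 185) (nat_lit 185)) (l (nat_lit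 3) (nat_lit 209) (nat_lit 209)))) (l (nat_lit 2) (nat_lit 235) (nat_lit 239)))) (n (nat_lit 234) (b (l (nat_lit 0) (nat_lit 233) (nat_lit 233)) (l (nat_lit 0) (nat_lit 234) (nat_lit 263))))))) (n (nat_lit 263) (b (n (nat_lit 234) (b (n (nat_lit 259) (b (l (nat_lit 3) (nat_lit 233) (nat_lit 233)) (l (nat_lit 1) (nat_lit 233) (nat_lit 258)))) (l (nat_lit 3) (nat_lit 234) (nat_lit 235)))) (n (nat_lit 264) (b (l (nat_lit 2) (nat_lit 260) (nat_lit 285)) (l (nat_lit 2) (nat_lit 261) (nat_lit 265)))))))) (l (nat_lit 7) (nat_lit 211) (nat_lit 211)))) (l (nat_lit 6) (nat_lit 186) (nat_lit 187)))))))) (r (nat_lit 0))) (b (n (nat_lit 262) (b (b (n (nat_lit 212) (b (n (nat_lit 213) (b (l (nat_lit 5) (nat_lit 187) (nat_lit 188)) (l (nat_lit 5) (nat_lit 212) (nat_lit 238)))) (n (nat_lit 211) (b (l (nat_lit 7) (nat_lit 211) (nat_lit 236)) (l (nat_lit 7) (nat_lit 186) (nat_lit 186)))))) (n (nat_lit 311) (b (l (nat_lit 6) (nat_lit 236) (nat_lit 336)) (l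 (nat_lit 6) (nat_lit 211) (nat_lit 212))))) (n (nat_lit 311) (b (n (nat_lit 236) (b (n (nat_lit 238) (b (n (nat_lit 284) (b (b (n (nat_lit 239) (b (n (nat_lit 240) (b (n (nat_lit 215) (b (l (nat_lit 1) (nat_lit 211) (nat_lit 214)) (l (nat_lit 1) (nat_lit 212) (nat_lit 216)))) (n (nat_lit 265) (b (l (nat_lit 0) (nat_lit 237) (nat_lit 266)) (l (nat_lit 0) (nat_lit 236) (nat_lit 264)))))) (n (nat_lit 310) (b (n (nat_lit 309) (b (l (nat_lit 1) (nat_lit 283) (nat_lit 308)) (l (nat_lit 3) (nat_lit 283) (nat_lit 283)))) (n (nat_lit 261) (b (l (nat_lit 6) (nat_lit 235) (nat_lit 335)) (l (nat_lit 2) (nat_lit 235) (nat_lit 260)))))))) (n (nat_lit 285) (b (l (nat_lit 0) (nat_lit 283) (nat_lit 283)) (l (nat_lit 1) (nat_lit 259) (nat_lit 263))))) (n (nat_lit 285) (b (n (nat_lit 259) (b (n (nat_lit 309) (b (n (nat_lit 334) (b (n (nat_lit 333) (b (l (nat_lit 2) (nat_lit 308) (nat_lit 310)) (l (nat_lit 6) (nat_lit 258) (nat_lit 358)))) (n (nat_lit 260)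 (b (l (nat_lit 5) (nat_lit 259) (nat_lit 359)) (l (nat_lit 1) (nat_lit 234) (nat_lit 261)))))) (l (nat_lit 2) (nat_lit 283) (nat_lit 308)))) (l (nat_lit 3) (nat_lit 258) (nat_lit 258)))) (l (nat_lit 1) (nat_lit 259) (nat_lit 263)))))) (l (nat_lit 5) (nat_lit 212) (nat_lit 213)))) (l (nat_lit 7) (nat_lit 211) (nat_lit 211)))) (l (nat_lit 6) (nat_lit 236) (nat_lit 336)))))) (n (nat_lit 262) (b (b (n (nat_lit 212) (b (b (n (nat_lit 187) (b (n (nat_lit 162) (b (n (nat_lit 238) (b (l (nat_lit 5) (nat_lit 212) (nat_lit 213)) (l (nat_lit 4) (nat_lit 162) (nat_lit 263)))) (n (nat_lit 161) (b (l (nat_lit 7) (nat_lit 136) (nat_lit 136)) (l (nat_lit 7) (nat_lit 161) (nat_lit 186)))))) (l (nat_lit 6) (nat_lit 186) (nat_lit 261)))) (n (nat_lit 213) (b (l (nat_lit 5) (nat_lit 187) (nat_lit 188)) (l (nat_lit 5) (nat_lit 212) (nat_lit 238))))) (n (nat_lit 187) (b (n (nat_lit 162) (b (n (nat_lit 163) (b (l (nat_lit 5) (nat_lit 162) (nat_lit 188)) (l (nat_lit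 5) (nat_lit 137) (nat_lit 138)))) (n (nat_lit 161) (b (l (nat_lit 7) (nat_lit 136) (nat_lit 136)) (l (nat_lit 7) (nat_lit 161) (nat_lit 186)))))) (l (nat_lit 6) (nat_lit 186) (nat_lit 261)))))) (n (nat_lit 311) (b (l (nat_lit 6) (nat_lit 236) (nat_lit 336)) (l (nat_lit 6) (nat_lit 211) (nat_lit 212))))) (n (nat_lit 311) (b (n (nat_lit 284) (b (b (n (nat_lit 309) (b (b (n (nat_lit 310) (b (n (nat_lit 334) (b (n (nat_lit 259) (b (n (nat_lit 258) (b (n (nat_lit 260) (b (l (nat_lit 5) (nat_lit 234) (nat_lit 235)) (l (nat_lit 0) (nat_lit 258) (nat_lit 261)))) (l (nat_lit 7) (nat_lit 233) (nat_lit 233)))) (n (nat_lit 335) (b (l (nat_lit 4) (nat_lit 234) (nat_lit 234)) (l (nat_lit 4) (nat_lit 259) (nat_lit 360)))))) (l (nat_lit 2) (nat_lit 308) (nat_lit 333)))) (l (nat_lit 1) (nat_lit 283) (nat_lit 308)))) (n (nat_lit 310) (b (l (nat_lit 1) (nat_lit 283) (nat_lit 308)) (l (nat_lit 3) (nat_lit 283) (nat_lit 283))))) (b (n (nat_lit 238) (b (n (nat_lit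 259) (b (b (n (nat_lit 334) (b (b (n (nat_lit 359) (b (n (nat_lit 358) (b (l (nat_lit 6) (nat_lit 258) (nat_lit 333)) (l (nat_lit 6) (nat_lit 283) (nat_lit 383)))) (n (nat_lit 360) (b (l (nat_lit 4) (nat_lit 284) (nat_lit 385)) (l (nat_lit 4) (nat_lit 259) (nat_lit 335)))))) (n (nat_lit 234) (b (n (nat_lit 333) (b (l (nat_lit 6) (nat_lit 233) (nat_lit 308)) (l (nat_lit 6) (nat_lit 258) (nat_lit 358)))) (n (nat_lit 233) (b (l (nat_lit 7) (nat_lit 233) (nat_lit 258)) (l (nat_lit 7) (nat_lit 208) (nat_lit 208))))))) (n (nat_lit 359) (b (n (nat_lit 258) (b (l (nat_lit 7) (nat_lit 233) (nat_lit 233)) (l (nat_lit 7) (nat_lit 258) (nat_lit 283)))) (n (nat_lit 360) (b (l (nat_lit 4) (nat_lit 284) (nat_lit 385)) (l (nat_lit 4) (nat_lit 259) (nat_lit 335)))))))) (n (nat_lit 334) (b (n (nat_lit 359) (b (n (nat_lit 358) (b (l (nat_lit 6) (nat_lit 258) (nat_lit 333)) (l (nat_lit 6) (nat_lit 283) (nat_lit 383)))) (n (nat_lit 360) (b (l (nat_lit 4) (nat_lit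 284) (nat_lit 385)) (l (nat_lit 4) (nat_lit 259) (nat_lit 335)))))) (n (nat_lit 260) (b (l (nat_lit 1) (nat_lit 234) (nat_lit 261)) (l (nat_lit 5) (nat_lit 234) (nat_lit 235))))))) (b (n (nat_lit 260) (b (n (nat_lit 235) (b (n (nat_lit 210) (b (l (nat_lit 6) (nat_lit 184) (nat_lit 185)) (l (nat_lit 5) (nat_lit 209) (nat_lit 234)))) (l (nat_lit 5) (nat_lit 234) (nat_lit 334)))) (l (nat_lit 1) (nat_lit 234) (nat_lit 261)))) (n (nat_lit 260) (b (n (nat_lit 234) (b (b (n (nat_lit 209) (b (n (nat_lit 208) (b (l (nat_lit 7) (nat_lit 183) (nat_lit 183)) (l (nat_lit 7) (nat_lit 208) (nat_lit 233)))) (n (nat_lit 210) (b (l (nat_lit 5) (nat_lit 184) (nat_lit 185)) (l (nat_lit 5) (nat_lit 209) (nat_lit 235)))))) (n (nat_lit 209) (b (n (nat_lit 308) (b (l (nat_lit 6) (nat_lit 233) (nat_lit 333)) (l (nat_lit 6) (nat_lit 208) (nat_lit 283)))) (n (nat_lit 208) (b (l (nat_lit 7) (nat_lit 183) (nat_lit 183)) (l (nat_lit 7) (nat_lit 208) (nat_lit 233)))))))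 (b (n (nat_lit 209) (b (n (nat_lit 308) (b (l (nat_lit 6) (nat_lit 233) (nat_lit 333)) (l (nat_lit 6) (nat_lit 208) (nat_lit 283)))) (n (nat_lit 210) (b (l (nat_lit 5) (nat_lit 184) (nat_lit 185)) (l (nat_lit 5) (nat_lit 209) (nat_lit 235)))))) (n (nat_lit 233) (b (n (nat_lit 232) (b (n (nat_lit 308) (b (n (nat_lit 207) (b (n (nat_lit 235) (b (l (nat_lit 3) (nat_lit 206) (nat_lit 206)) (l (nat_lit 5) (nat_lit 209) (nat_lit 210)))) (n (nat_lit 283) (b (n (nat_lit 282) (b (l (nat_lit 4) (nat_lit 207) (nat_lit 257)) (l (nat_lit 1) (nat_lit 256) (nat_lit 281)))) (l (nat_lit 7) (nat_lit 207) (nat_lit 258)))))) (l (nat_lit 6) (nat_lit 233) (nat_lit 333)))) (l (nat_lit 0) (nat_lit 231) (nat_lit 231)))) (l (nat_lit 7) (nat_lit 208) (nat_lit 208))))))) (l (nat_lit 1) (nat_lit 234) (nat_lit 261))))))) (l (nat_lit 5) (nat_lit 212) (nat_lit 213)))) (n (nat_lit 310) (b (n (nat_lit 334) (b (n (nat_lit 259) (b (n (nat_lit 258) (b (n (nat_lit 260) (b (l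 (nat_lit 5) (nat_lit 234) (nat_lit 235)) (l (nat_lit 0) (nat_lit 258) (nat_lit 261)))) (l (nat_lit 7) (nat_lit 233) (nat_lit 233)))) (n (nat_lit 335) (b (l (nat_lit 4) (nat_lit 234) (nat_lit 234)) (l (nat_lit 4) (nat_lit 259) (nat_lit 360)))))) (l (nat_lit 2) (nat_lit 308) (nat_lit 333)))) (l (nat_lit 3) (nat_lit 283) (nat_lit 283))))))) (n (nat_lit 285) (b (l (nat_lit 0) (nat_lit 283) (nat_lit 283)) (l (nat_lit 1) (nat_lit 259) (nat_lit 263))))) (n (nat_lit 285) (b (n (nat_lit 309) (b (n (nat_lit 259) (b (n (nat_lit 260) (b (n (nat_lit 238) (b (l (nat_lit 1) (nat_lit 234) (nat_lit 261)) (l (nat_lit 5) (nat_lit 212) (nat_lit 213)))) (n (nat_lit 235) (b (l (nat_lit 4) (nat_lit 210) (nat_lit 210)) (l (nat_lit 5) (nat_lit 234) (nat_lit 334)))))) (l (nat_lit 3) (nat_lit 258) (nat_lit 258)))) (l (nat_lit 2) (nat_lit 283) (nat_lit 308)))) (l (nat_lit 1) (nat_lit 259) (nat_lit 263)))))) (l (nat_lit 6) (nat_lit 236) (nat_lit 336)))))))) (b (b (n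 (nat_lit 236) (b (b (n (nat_lit 261) (b (n (nat_lit 311) (b (n (nat_lit 336) (b (n (nat_lit 335) (b (l (nat_lit 6) (nat_lit 260) (nat_lit 360)) (l (nat_lit 6) (nat_lit 235) (nat_lit 310)))) (n (nat_lit 235) (b (l (nat_lit 7) (nat_lit 235) (nat_lit 260)) (l (nat_lit 7) (nat_lit 210) (nat_lit 210)))))) (l (nat_lit 5) (nat_lit 211) (nat_lit 212)))) (l (nat_lit 4) (nat_lit 211) (nat_lit 211)))) (n (nat_lit 211) (b (l (nat_lit 7) (nat_lit 211) (nat_lit 262)) (l (nat_lit 4) (nat_lit 211) (nat_lit 261))))) (b (n (nat_lit 262) (b (n (nat_lit 311) (b (l (nat_lit 6) (nat_lit 236) (nat_lit 336)) (l (nat_lit 6) (nat_lit 211) (nat_lit 212)))) (l (nat_lit 7) (nat_lit 211) (nat_lit 211)))) (n (nat_lit 311) (b (b (n (nat_lit 336) (b (n (nat_lit 361) (b (n (nat_lit 360) (b (n (nat_lit 362) (b (n (nat_lit 335) (b (n (nat_lit 334) (b (l (nat_lit 3) (nat_lit 334) (nat_lit 363)) (l (nat_lit 0) (nat_lit 333) (nat_lit 333)))) (l (nat_lit 6) (nat_lit 260) (nat_lit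 261)))) (l (nat_lit 4) (nat_lit 286) (nat_lit 387)))) (l (nat_lit 6) (nat_lit 285) (nat_lit 385)))) (l (nat_lit 5) (nat_lit 286) (nat_lit 386)))) (l (nat_lit 6) (nat_lit 236) (nat_lit 262)))) (n (nat_lit 261) (b (n (nat_lit 336) (b (n (nat_lit 335) (b (l (nat_lit 6) (nat_lit 260) (nat_lit 360)) (l (nat_lit 6) (nat_lit 235) (nat_lit 310)))) (n (nat_lit 235) (b (l (nat_lit 7) (nat_lit 235) (nat_lit 260)) (l (nat_lit 7) (nat_lit 210) (nat_lit 210)))))) (l (nat_lit 5) (nat_lit 211) (nat_lit 212))))) (b (n (nat_lit 262) (b (l (nat_lit 6) (nat_lit 236) (nat_lit 336)) (l (nat_lit 6) (nat_lit 211) (nat_lit 212)))) (n (nat_lit 212) (b (l (nat_lit 5) (nat_lit 211) (nat_lit 261)) (l (nat_lit 6) (nat_lit 211) (nat_lit 262)))))))))) (n (nat_lit 262) (b (n (nat_lit 238) (b (n (nat_lit 236) (b (r (nat_lit 1)) (l (nat_lit 7) (nat_lit 211) (nat_lit 211)))) (l (nat_lit 5) (nat_lit 212) (nat_lit 213)))) (n (nat_lit 311) (b (l (nat_lit 6) (nat_lit 236) (nat_lit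 336)) (l (nat_lit 6) (nat_lit 211) (nat_lit 212))))))) (b (n (nat_lit 262) (b (b (n (nat_lit 236) (b (n (nat_lit 235) (b (b (n (nat_lit 210) (b (n (nat_lit 311) (b (l (nat_lit 6) (nat_lit 236) (nat_lit 336)) (l (nat_lit 7) (nat_lit 210) (nat_lit 261)))) (n (nat_lit 238) (b (l (nat_lit 3) (nat_lit 209) (nat_lit 209)) (l (nat_lit 5) (nat_lit 212) (nat_lit 213)))))) (n (nat_lit 263) (b (n (nat_lit 264) (b (l (nat_lit 3) (nat_lit 235) (nat_lit 261)) (l (nat_lit 2) (nat_lit 261) (nat_lit 265)))) (l (nat_lit 0) (nat_lit 234) (nat_lit 234))))) (n (nat_lit 263) (b (n (nat_lit 238) (b (l (nat_lit 0) (nat_lit 235) (nat_lit 264)) (l (nat_lit 5) (nat_lit 212) (nat_lit 213)))) (l (nat_lit 0) (nat_lit 234) (nat_lit 234)))))) (l (nat_lit 7) (nat_lit 211) (nat_lit 211)))) (n (nat_lit 212) (b (n (nat_lit 213) (b (l (nat_lit 5) (nat_lit 187) (nat_lit 188)) (l (nat_lit 5) (nat_lit 212) (nat_lit 238)))) (n (nat_lit 211) (b (l (nat_lit 7) (nat_lit 211) (nat_lit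 236)) (l (nat_lit 7) (nat_lit 186) (nat_lit 186))))))) (n (nat_lit 311) (b (l (nat_lit 6) (nat_lit 236) (nat_lit 336)) (l (nat_lit 6) (nat_lit 211) (nat_lit 212)))))) (n (nat_lit 236) (b (b (r (nat_lit 2)) (n (nat_lit 262) (b (n (nat_lit 238) (b (r (nat_lit 1)) (l (nat_lit 5) (nat_lit 212) (nat_lit 213)))) (l (nat_lit 7) (nat_lit 211) (nat_lit 211))))) (b (n (nat_lit 211) (b (l (nat_lit 7) (nat_lit 211) (nat_lit 262)) (l (nat_lit 4) (nat_lit 211) (nat_lit 261)))) (n (nat_lit 235) (b (b (b (n (nat_lit 262) (b (b (n (nat_lit 210) (b (n (nat_lit 311) (b (l (nat_lit 6) (nat_lit 236) (nat_lit 336)) (l (nat_lit 7) (nat_lit 210) (nat_lit 261)))) (n (nat_lit 238) (b (l (nat_lit 3) (nat_lit 209) (nat_lit 209)) (l (nat_lit 5) (nat_lit 212) (nat_lit 213)))))) (n (nat_lit 263) (b (n (nat_lit 264) (b (l (nat_lit 3) (nat_lit 235) (nat_lit 261)) (l (nat_lit 2) (nat_lit 261) (nat_lit 265)))) (l (nat_lit 0) (nat_lit 234) (nat_lit 234))))) (n (nat_lit 263)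 (b (n (nat_lit 238) (b (l (nat_lit 0) (nat_lit 235) (nat_lit 264)) (l (nat_lit 5) (nat_lit 212) (nat_lit 213)))) (l (nat_lit 0) (nat_lit 234) (nat_lit 234)))))) (n (nat_lit 238) (b (n (nat_lit 239) (b (n (nat_lit 260) (b (l (nat_lit 2) (nat_lit 234) (nat_lit 259)) (l (nat_lit 2) (nat_lit 235) (nat_lit 261)))) (n (nat_lit 264) (b (l (nat_lit 0) (nat_lit 236) (nat_lit 265)) (l (nat_lit 0) (nat_lit 235) (nat_lit 263)))))) (n (nat_lit 213) (b (l (nat_lit 1) (nat_lit 210) (nat_lit 214)) (l (nat_lit 5) (nat_lit 212) (nat_lit 262))))))) (b (n (nat_lit 210) (b (n (nat_lit 261) (b (n (nat_lit 185) (b (l (nat_lit 4) (nat_lit 185) (nat_lit 260)) (l (nat_lit 4) (nat_lit 160) (nat_lit 160)))) (l (nat_lit 7) (nat_lit 210) (nat_lit 311)))) (n (nat_lit 209) (b (n (nat_lit 208) (b (l (nat_lit 0) (nat_lit 207) (nat_lit 207)) (l (nat_lit 3) (nat_lit 208) (nat_lit 234)))) (l (nat_lit 3) (nat_lit 209) (nat_lit 238)))))) (n (nat_lit 238) (b (n (nat_lit 239)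 (b (n (nat_lit 214) (b (l (nat_lit 1) (nat_lit 211) (nat_lit 215)) (l (nat_lit 1) (nat_lit 210) (nat_lit 213)))) (n (nat_lit 264) (b (l (nat_lit 0) (nat_lit 236) (nat_lit 265)) (l (nat_lit 0) (nat_lit 235) (nat_lit 263)))))) (n (nat_lit 234) (b (n (nat_lit 209) (b (l (nat_lit 3) (nat_lit 209) (nat_lit 210)) (l (nat_lit 3) (nat_lit 208) (nat_lit 208)))) (n (nat_lit 259) (b (l (nat_lit 2) (nat_lit 233) (nat_lit 258)) (l (nat_lit 2) (nat_lit 234) (nat_lit 260)))))))))) (n (nat_lit 311) (b (b (n (nat_lit 262) (b (n (nat_lit 263) (b (n (nat_lit 261) (b (l (nat_lit 7) (nat_lit 210) (nat_lit 210)) (l (nat_lit 3) (nat_lit 235) (nat_lit 264)))) (l (nat_lit 0) (nat_lit 234) (nat_lit 234)))) (l (nat_lit 6) (nat_lit 236) (nat_lit 336)))) (n (nat_lit 336) (b (n (nat_lit 361) (b (n (nat_lit 260) (b (l (nat_lit 7) (nat_lit 260) (nat_lit 285)) (l (nat_lit 7) (nat_lit 235) (nat_lit 261)))) (l (nat_lit 5) (nat_lit 286) (nat_lit 386)))) (l (nat_lit 6) (nat_lit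 236) (nat_lit 262))))) (b (r (nat_lit 3)) (n (nat_lit 261) (b (n (nat_lit 310) (b (n (nat_lit 309) (b (n (nat_lit 284) (b (n (nat_lit 334) (b (n (nat_lit 260) (b (l (nat_lit 5) (nat_lit 234) (nat_lit 259)) (l (nat_lit 6) (nat_lit 234) (nat_lit 285)))) (l (nat_lit 2) (nat_lit 308) (nat_lit 333)))) (l (nat_lit 3) (nat_lit 283) (nat_lit 283)))) (l (nat_lit 1) (nat_lit 283) (nat_lit 308)))) (l (nat_lit 6) (nat_lit 235) (nat_lit 335)))) (l (nat_lit 7) (nat_lit 210) (nat_lit 210))))))))))))))))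
    (envOK_cons p14587 (envOK_cons p14031 (envOK_cons p14493 (envOK_cons p14444 envOK_nil)))) (by decide +kernel)

end Crest.Agent.R35
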