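import Crest.Agent.R35.C7

/-! Generated strategy certificate for Snaky (part 8). -/

set_option autoImplicit false
set_option maxRecDepth 100000

namespace Crest.Agent.R35

local notation "l" => T.leaf
local notation "n" => T.node
local notation "b" => T.both
local notation "r" => T.ref

theorem p14719 : Fam (nat_lit 10) (nat_lit 8343699732058482316695535156261499057782444615797787980616419360903528473700249907927227301888) (nat_lit 174980305686219639268322230135922778359234274903379018112968058105463169727332502909187431162424852480) (nat_lit 174980305686219639268322230135922778359234274903379018112968058105463169727332502909187431162424852480) :=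
  chk_sound (Env.cons (nat_lit 6) (nat_lit 7410694484183827347651687233248682677636129693125200981608579554709153362477056) (nat_lit 470115889343285214322216657605911180534586615141251783400196793157611470517698560) Env.nil)
    (n (nat_lit 262) (b (b (b (n (nat_lit 237) (b (b (n (nat_lit 212) (b (n (nat_lit 213) (b (l (nat_lit 5) (nat_lit 187) (nat_lit 188)) (l (nat_lit 5) (nat_lit 212) (nat_lit 238)))) (n (nat_lit 211) (b (l (nat_lit 7) (nat_lit 211) (nat_lit 236)) (l (nat_lit 7) (nat_lit 186) (nat_lit 186)))))) (n (nat_lit 311) (b (l (nat_lit 6) (nat_lit 236) (nat_lit 336)) (l (nat_lit 6) (nat_lit 211) (nat_lit 212))))) (n (nat_lit 236) (b (n (nat_lit 311) (b (n (nat_lit 238) (b (n (nat_lit 235) (b (b (n (nat_lit 234) (b (n (nat_lit 209) (b (l (nat_lit 3) (nat_lit 209) (nat_lit 210)) (l (nat_lit 3) (nat_lit 208) (nat_lit 208)))) (n (nat_lit 259) (b (l (nat_lit 2) (nat_lit 233) (nat_lit 258)) (l (nat_lit 2) (nat_lit 234) (nat_lit 260)))))) (n (nat_lit 210) (b (l (nat_lit 7) (nat_lit 210)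 (nat_lit 261)) (l (nat_lit 3) (nat_lit 209) (nat_lit 209))))) (n (nat_lit 239) (b (n (nat_lit 240) (b (n (nat_lit 215) (b (l (nat_lit 1) (nat_lit 211) (nat_lit 214)) (l (nat_lit 1) (nat_lit 212) (nat_lit 216)))) (n (nat_lit 265) (b (l (nat_lit 0) (nat_lit 237) (nat_lit 266)) (l (nat_lit 0) (nat_lit 236) (nat_lit 264)))))) (n (nat_lit 260) (b (l (nat_lit 2) (nat_lit 234) (nat_lit 259)) (l (nat_lit 2) (nat_lit 235) (nat_lit 261)))))))) (l (nat_lit 5) (nat_lit 212) (nat_lit 213)))) (l (nat_lit 6) (nat_lit 236) (nat_lit 336)))) (l (nat_lit 7) (nat_lit 211) (nat_lit 211)))))) (n (nat_lit 237) (b (b (n (nat_lit 263) (b (b (n (nat_lit 212) (b (n (nat_lit 187) (b (l (nat_lit 4) (nat_lit 187) (nat_lit 288)) (l (nat_lit 6) (nat_lit 186) (nat_lit 261)))) (n (nat_lit 211) (b (l (nat_lit 7) (nat_lit 211) (nat_lit 236)) (l (nat_lit 7) (nat_lit 186) (nat_lit 186)))))) (n (nat_lit 264) (b (n (nat_lit 285) (b (l (nat_lit 2) (nat_lit 260) (nat_lit 261)) (l (nat_lit 1) (nat_lit 259) (nat_lit 284)))) (l (nat_lit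 2) (nat_lit 261) (nat_lit 265))))) (n (nat_lit 285) (b (n (nat_lit 264) (b (l (nat_lit 1) (nat_lit 260) (nat_lit 288)) (l (nat_lit 2) (nat_lit 261) (nat_lit 265)))) (l (nat_lit 1) (nat_lit 259) (nat_lit 284)))))) (n (nat_lit 263) (b (b (n (nat_lit 264) (b (n (nat_lit 285) (b (l (nat_lit 2) (nat_lit 260) (nat_lit 261)) (l (nat_lit 1) (nat_lit 259) (nat_lit 284)))) (l (nat_lit 2) (nat_lit 261) (nat_lit 265)))) (n (nat_lit 212) (b (n (nat_lit 187) (b (l (nat_lit 4) (nat_lit 187) (nat_lit 288)) (l (nat_lit 6) (nat_lit 186) (nat_lit 261)))) (n (nat_lit 213) (b (l (nat_lit 5) (nat_lit 187) (nat_lit 188)) (l (nat_lit 5) (nat_lit 212) (nat_lit 238))))))) (n (nat_lit 285) (b (n (nat_lit 264) (b (l (nat_lit 1) (nat_lit 260) (nat_lit 288)) (l (nat_lit 2) (nat_lit 261) (nat_lit 265)))) (l (nat_lit 1) (nat_lit 259) (nat_lit 284))))))) (b (n (nat_lit 212) (b (n (nat_lit 213) (b (l (nat_lit 5) (nat_lit 187) (nat_lit 188)) (l (nat_lit 5) (nat_lit 212) (nat_lit 238)))) (n (nat_lit 211) (b (l (nat_lit 7)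 (nat_lit 211) (nat_lit 236)) (l (nat_lit 7) (nat_lit 186) (nat_lit 186)))))) (n (nat_lit 236) (b (n (nat_lit 238) (b (n (nat_lit 264) (b (n (nat_lit 239) (b (n (nat_lit 261) (b (l (nat_lit 2) (nat_lit 235) (nat_lit 260)) (l (nat_lit 2) (nat_lit 236) (nat_lit 240)))) (l (nat_lit 0) (nat_lit 236) (nat_lit 265)))) (n (nat_lit 263) (b (n (nat_lit 285) (b (l (nat_lit 1) (nat_lit 260) (nat_lit 288)) (l (nat_lit 1) (nat_lit 259) (nat_lit 284)))) (l (nat_lit 0) (nat_lit 235) (nat_lit 235)))))) (l (nat_lit 5) (nat_lit 212) (nat_lit 213)))) (l (nat_lit 7) (nat_lit 211) (nat_lit 211)))))))) (b (n (nat_lit 285) (b (b (n (nat_lit 284) (b (n (nat_lit 283) (b (l (nat_lit 0) (nat_lit 283) (nat_lit 311)) (l (nat_lit 1) (nat_lit 258) (nat_lit 261)))) (n (nat_lit 259) (b (n (nat_lit 260) (b (n (nat_lit 309) (b (n (nat_lit 235) (b (l (nat_lit 5) (nat_lit 234) (nat_lit 334)) (l (nat_lit 6) (nat_lit 209) (nat_lit 210)))) (l (nat_lit 2) (nat_lit 283) (nat_lit 308)))) (l (nat_lit 3) (nat_lit 259) (nat_lit 288))))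 (l (nat_lit 3) (nat_lit 258) (nat_lit 258)))))) (n (nat_lit 263) (b (n (nat_lit 264) (b (l (nat_lit 1) (nat_lit 260) (nat_lit 288)) (l (nat_lit 2) (nat_lit 261) (nat_lit 265)))) (l (nat_lit 1) (nat_lit 259) (nat_lit 284))))) (b (n (nat_lit 263) (b (n (nat_lit 264) (b (l (nat_lit 2) (nat_lit 261) (nat_lit 265)) (l (nat_lit 2) (nat_lit 260) (nat_lit 261)))) (l (nat_lit 1) (nat_lit 259) (nat_lit 284)))) (n (nat_lit 288) (b (b (n (nat_lit 289) (b (n (nat_lit 290) (b (n (nat_lit 315) (b (l (nat_lit 0) (nat_lit 287) (nat_lit 316)) (l (nat_lit 0) (nat_lit 286) (nat_lit 314)))) (l (nat_lit 2) (nat_lit 286) (nat_lit 311)))) (n (nat_lit 260) (b (l (nat_lit 3) (nat_lit 260) (nat_lit 261)) (l (nat_lit 3) (nat_lit 259) (nat_lit 259)))))) (n (nat_lit 289) (b (n (nat_lit 290) (b (n (nat_lit 315) (b (l (nat_lit 0) (nat_lit 287) (nat_lit 316)) (l (nat_lit 0) (nat_lit 286) (nat_lit 314)))) (l (nat_lit 2) (nat_lit 286) (nat_lit 311)))) (n (nat_lit 264) (b (l (nat_lit 1) (nat_lit 261) (nat_lit 265)) (l (nat_lit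 1) (nat_lit 260) (nat_lit 263))))))) (b (n (nat_lit 289) (b (n (nat_lit 264) (b (l (nat_lit 1) (nat_lit 261) (nat_lit 265)) (l (nat_lit 1) (nat_lit 260) (nat_lit 263)))) (n (nat_lit 260) (b (l (nat_lit 3) (nat_lit 260) (nat_lit 261)) (l (nat_lit 3) (nat_lit 259) (nat_lit 259)))))) (n (nat_lit 263) (b (n (nat_lit 260) (b (n (nat_lit 237) (b (b (n (nat_lit 212) (b (n (nat_lit 211) (b (l (nat_lit 7) (nat_lit 211) (nat_lit 236)) (l (nat_lit 7) (nat_lit 186) (nat_lit 186)))) (l (nat_lit 4) (nat_lit 187) (nat_lit 187)))) (n (nat_lit 235) (b (n (nat_lit 311) (b (l (nat_lit 6) (nat_lit 236) (nat_lit 336)) (l (nat_lit 4) (nat_lit 210) (nat_lit 210)))) (n (nat_lit 236) (b (l (nat_lit 7) (nat_lit 211) (nat_lit 211)) (l (nat_lit 0) (nat_lit 234) (nat_lit 234))))))) (n (nat_lit 212) (b (l (nat_lit 4) (nat_lit 187) (nat_lit 187)) (l (nat_lit 6) (nat_lit 211) (nat_lit 311)))))) (l (nat_lit 3) (nat_lit 259) (nat_lit 259)))) (l (nat_lit 1) (nat_lit 260) (nat_lit 264)))))))))) (n (nat_lit 237) (b (b (n (nat_lit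 236) (b (n (nat_lit 235) (b (b (n (nat_lit 210) (b (n (nat_lit 311) (b (l (nat_lit 6) (nat_lit 236) (nat_lit 336)) (l (nat_lit 7) (nat_lit 210) (nat_lit 261)))) (n (nat_lit 238) (b (l (nat_lit 3) (nat_lit 209) (nat_lit 209)) (l (nat_lit 5) (nat_lit 212) (nat_lit 213)))))) (n (nat_lit 263) (b (n (nat_lit 264) (b (l (nat_lit 3) (nat_lit 235) (nat_lit 261)) (l (nat_lit 2) (nat_lit 261) (nat_lit 265)))) (l (nat_lit 0) (nat_lit 234) (nat_lit 234))))) (n (nat_lit 263) (b (n (nat_lit 238) (b (l (nat_lit 0) (nat_lit 235) (nat_lit 264)) (l (nat_lit 5) (nat_lit 212) (nat_lit 213)))) (l (nat_lit 0) (nat_lit 234) (nat_lit 234)))))) (l (nat_lit 7) (nat_lit 211) (nat_lit 211)))) (n (nat_lit 212) (b (n (nat_lit 213) (b (l (nat_lit 5) (nat_lit 187) (nat_lit 188)) (l (nat_lit 5) (nat_lit 212) (nat_lit 238)))) (n (nat_lit 211) (b (l (nat_lit 7) (nat_lit 211) (nat_lit 236)) (l (nat_lit 7) (nat_lit 186) (nat_lit 186))))))) (n (nat_lit 311) (b (l (nat_lit 6) (nat_lit 236) (nat_lit 336)) (l (nat_lit 6) (nat_lit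 211) (nat_lit 212)))))))) (b (b (n (nat_lit 285) (b (b (n (nat_lit 288) (b (b (n (nat_lit 289) (b (n (nat_lit 290) (b (n (nat_lit 315) (b (l (nat_lit 0) (nat_lit 287) (nat_lit 316)) (l (nat_lit 0) (nat_lit 286) (nat_lit 314)))) (l (nat_lit 2) (nat_lit 286) (nat_lit 311)))) (n (nat_lit 260) (b (l (nat_lit 3) (nat_lit 260) (nat_lit 261)) (l (nat_lit 3) (nat_lit 259) (nat_lit 259)))))) (n (nat_lit 289) (b (n (nat_lit 290) (b (n (nat_lit 315) (b (l (nat_lit 0) (nat_lit 287) (nat_lit 316)) (l (nat_lit 0) (nat_lit 286) (nat_lit 314)))) (l (nat_lit 2) (nat_lit 286) (nat_lit 311)))) (n (nat_lit 264) (b (l (nat_lit 1) (nat_lit 261) (nat_lit 265)) (l (nat_lit 1) (nat_lit 260) (nat_lit 263))))))) (b (n (nat_lit 289) (b (n (nat_lit 264) (b (l (nat_lit 1) (nat_lit 261) (nat_lit 265)) (l (nat_lit 1) (nat_lit 260) (nat_lit 263)))) (n (nat_lit 260) (b (l (nat_lit 3) (nat_lit 260) (nat_lit 261)) (l (nat_lit 3) (nat_lit 259) (nat_lit 259)))))) (n (nat_lit 260) (b (n (nat_lit 263) (b (n (nat_lit 261) (b (n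 (nat_lit 238) (b (l (nat_lit 6) (nat_lit 212) (nat_lit 213)) (l (nat_lit 1) (nat_lit 235) (nat_lit 239)))) (n (nat_lit 235) (b (n (nat_lit 210) (b (l (nat_lit 4) (nat_lit 210) (nat_lit 311)) (l (nat_lit 4) (nat_lit 185) (nat_lit 185)))) (l (nat_lit 3) (nat_lit 234) (nat_lit 234)))))) (l (nat_lit 1) (nat_lit 260) (nat_lit 264)))) (l (nat_lit 3) (nat_lit 259) (nat_lit 259))))))) (n (nat_lit 263) (b (n (nat_lit 264) (b (l (nat_lit 1) (nat_lit 260) (nat_lit 288)) (l (nat_lit 2) (nat_lit 261) (nat_lit 265)))) (l (nat_lit 1) (nat_lit 259) (nat_lit 284))))) (b (n (nat_lit 263) (b (n (nat_lit 264) (b (l (nat_lit 2) (nat_lit 261) (nat_lit 265)) (l (nat_lit 2) (nat_lit 260) (nat_lit 261)))) (l (nat_lit 1) (nat_lit 259) (nat_lit 284)))) (n (nat_lit 284) (b (n (nat_lit 283) (b (l (nat_lit 0) (nat_lit 283) (nat_lit 311)) (l (nat_lit 1) (nat_lit 258) (nat_lit 261)))) (n (nat_lit 259) (b (n (nat_lit 260) (b (n (nat_lit 309) (b (n (nat_lit 235) (b (l (nat_lit 5) (nat_lit 234) (nat_lit 334)) (l (nat_lit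 6) (nat_lit 209) (nat_lit 210)))) (l (nat_lit 2) (nat_lit 283) (nat_lit 308)))) (l (nat_lit 3) (nat_lit 259) (nat_lit 288)))) (l (nat_lit 3) (nat_lit 258) (nat_lit 258))))))))) (n (nat_lit 237) (b (b (n (nat_lit 212) (b (n (nat_lit 213) (b (l (nat_lit 5) (nat_lit 187) (nat_lit 188)) (l (nat_lit 5) (nat_lit 212) (nat_lit 238)))) (n (nat_lit 211) (b (l (nat_lit 7) (nat_lit 211) (nat_lit 236)) (l (nat_lit 7) (nat_lit 186) (nat_lit 186)))))) (n (nat_lit 311) (b (l (nat_lit 6) (nat_lit 236) (nat_lit 336)) (l (nat_lit 6) (nat_lit 211) (nat_lit 212))))) (n (nat_lit 236) (b (n (nat_lit 261) (b (n (nat_lit 260) (b (n (nat_lit 238) (b (l (nat_lit 2) (nat_lit 235) (nat_lit 239)) (l (nat_lit 5) (nat_lit 212) (nat_lit 213)))) (n (nat_lit 259) (b (l (nat_lit 0) (nat_lit 258) (nat_lit 258)) (l (nat_lit 0) (nat_lit 259) (nat_lit 288)))))) (n (nat_lit 235) (b (n (nat_lit 234) (b (l (nat_lit 0) (nat_lit 233) (nat_lit 233)) (l (nat_lit 0) (nat_lit 234) (nat_lit 263)))) (n (nat_lit 311) (b (l (nat_lit 7) (nat_lit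 210) (nat_lit 210)) (l (nat_lit 6) (nat_lit 236) (nat_lit 336)))))))) (l (nat_lit 7) (nat_lit 211) (nat_lit 211))))))) (b (n (nat_lit 237) (b (n (nat_lit 311) (b (l (nat_lit 6) (nat_lit 236) (nat_lit 336)) (l (nat_lit 6) (nat_lit 211) (nat_lit 212)))) (n (nat_lit 238) (b (n (nat_lit 236) (b (r (nat_lit 0)) (l (nat_lit 7) (nat_lit 211) (nat_lit 211)))) (l (nat_lit 5) (nat_lit 212) (nat_lit 213)))))) (n (nat_lit 237) (b (b (n (nat_lit 263) (b (b (n (nat_lit 212) (b (n (nat_lit 187) (b (l (nat_lit 4) (nat_lit 187) (nat_lit 288)) (l (nat_lit 6) (nat_lit 186) (nat_lit 261)))) (n (nat_lit 211) (b (l (nat_lit 7) (nat_lit 211) (nat_lit 236)) (l (nat_lit 7) (nat_lit 186) (nat_lit 186)))))) (n (nat_lit 264) (b (n (nat_lit 285) (b (l (nat_lit 2) (nat_lit 260) (nat_lit 261)) (l (nat_lit 1) (nat_lit 259) (nat_lit 284)))) (l (nat_lit 2) (nat_lit 261) (nat_lit 265))))) (n (nat_lit 285) (b (n (nat_lit 264) (b (l (nat_lit 1) (nat_lit 260) (nat_lit 288)) (l (nat_lit 2) (nat_lit 261) (nat_lit 265)))) (l (nat_lit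 1) (nat_lit 259) (nat_lit 284)))))) (n (nat_lit 263) (b (b (n (nat_lit 264) (b (n (nat_lit 285) (b (l (nat_lit 2) (nat_lit 260) (nat_lit 261)) (l (nat_lit 1) (nat_lit 259) (nat_lit 284)))) (l (nat_lit 2) (nat_lit 261) (nat_lit 265)))) (n (nat_lit 212) (b (n (nat_lit 187) (b (l (nat_lit 4) (nat_lit 187) (nat_lit 288)) (l (nat_lit 6) (nat_lit 186) (nat_lit 261)))) (n (nat_lit 213) (b (l (nat_lit 5) (nat_lit 187) (nat_lit 188)) (l (nat_lit 5) (nat_lit 212) (nat_lit 238))))))) (n (nat_lit 285) (b (n (nat_lit 264) (b (l (nat_lit 1) (nat_lit 260) (nat_lit 288)) (l (nat_lit 2) (nat_lit 261) (nat_lit 265)))) (l (nat_lit 1) (nat_lit 259) (nat_lit 284))))))) (b (n (nat_lit 212) (b (n (nat_lit 213) (b (l (nat_lit 5) (nat_lit 187) (nat_lit 188)) (l (nat_lit 5) (nat_lit 212) (nat_lit 238)))) (n (nat_lit 211) (b (l (nat_lit 7) (nat_lit 211) (nat_lit 236)) (l (nat_lit 7) (nat_lit 186) (nat_lit 186)))))) (n (nat_lit 311) (b (n (nat_lit 238) (b (n (nat_lit 236) (b (n (nat_lit 285) (b (b (n (nat_lit 284)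 (b (l (nat_lit 1) (nat_lit 259) (nat_lit 263)) (l (nat_lit 0) (nat_lit 283) (nat_lit 283)))) (n (nat_lit 264) (b (b (n (nat_lit 239) (b (n (nat_lit 261) (b (l (nat_lit 2) (nat_lit 235) (nat_lit 260)) (l (nat_lit 2) (nat_lit 236) (nat_lit 240)))) (l (nat_lit 0) (nat_lit 236) (nat_lit 265)))) (n (nat_lit 263) (b (l (nat_lit 2) (nat_lit 260) (nat_lit 261)) (l (nat_lit 1) (nat_lit 260) (nat_lit 288))))) (n (nat_lit 265) (b (l (nat_lit 3) (nat_lit 236) (nat_lit 263)) (l (nat_lit 0) (nat_lit 236) (nat_lit 239))))))) (n (nat_lit 259) (b (n (nat_lit 260) (b (l (nat_lit 1) (nat_lit 234) (nat_lit 261)) (l (nat_lit 3) (nat_lit 259) (nat_lit 288)))) (n (nat_lit 284) (b (l (nat_lit 3) (nat_lit 258) (nat_lit 258)) (l (nat_lit 0) (nat_lit 283) (nat_lit 283)))))))) (l (nat_lit 7) (nat_lit 211) (nat_lit 211)))) (l (nat_lit 5) (nat_lit 212) (nat_lit 213)))) (l (nat_lit 6) (nat_lit 236) (nat_lit 336)))))))))))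
    (envOK_cons p14031 envOK_nil) (by decide +kernel)

theorem p14720 : Fam (nat_lit 17) (nat_lit 8343699607727673214248874617415937021077234590683750281279490000787534250410375654793883418624) (nat_lit 10246371288991096748471653099328363325050681736235490792655700385877492320313101919985783013498916031923410868859948803031040) (nat_lit 10246371288991096748471653099328363325050681736235490792655700385877492320313101919985783013498916031923410868859948803031040) :=
  chk_sound (Env.cons (nat_lit 13) (nat_lit 8343699732058482316695535156261499057782444615797787980616419360903528473700249907927227301888) (nat_lit 295515055279993541964300257696489374912523487169209879520915746298935783513220560591597688509526384068188892049702912) (Env.cons (nat_lit 13) (nat_lit 8343699732058482316695535156261499057782444615797787980616419360903528473700249907927227301888) (nat_lit 5288448026136040973411624822427077810745752250505604284881083105250657460393404798201000387057855246569016140566445210730496) (Env.cons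 (nat_lit 7) (nat_lit 435157831858563311885959467128468235087899131947679252760405979781514559885966703591424) (nat_lit 98505019600935840370950248015174187882132671644813581863210720399665962121457586797913375159618694111636498040225792) (Env.cons (nat_lit 6) (nat_lit 435157831858563311885959467128468235087899131947679252760405979781514559885966703591424) (nat_lit 233623589995480445733549278603559101728828723055212806045421259865433591059247206474006564700160) (Env.cons (nat_lit 9) (nat_lit 8343699794223886867918865425684280076135049628354806830284884040961525585345187034493899243520) (nat_lit 245878394450522465415863147530403903615215521822780014141018621243540401375354641435060948959232) (Env.cons (nat_lit 7) (nat_lit 8343699794223886867918865425684280076135049628354806830284884040961525585345187034493899243520) (nat_lit 250050244130055481572912755777068113394964775715787104780138181525759605082315296376997703319552) (Env.cons (nat_lit 5) (nat_lit 932481068268349954041341715275289075188355282745026970200869956674674056898500079124480)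 (nat_lit 233623589948856388846369103782006153257934719035157806310070371386173172041785983391687671545856) (Env.cons (nat_lit 12) (nat_lit 8343699732058482316695535156261499057782444615797787980616419360903528473700249907927227301888) (nat_lit 6610563115877164814126701615317224272092254884792607471371227035462647531346653023598293408196663962523772255821929667100672) (Env.cons (nat_lit 9) (nat_lit 870315663717126623771918934256936470175798263895358505520811959563029119771933407182848) (nat_lit 3152160627229946891870516404569750939224365653313844358235594036596509569484458297861658283208449613037093205592506368) (Env.cons (nat_lit 7) (nat_lit 8343700229381718726482177311643747204603284716253938777964136801367505366859746920460602834944) (nat_lit 236412044223994833571491728502213269511474737948026450049130106657228976752421036871248463631705891387567106563244032) (Env.cons (nat_lit 8) (nat_lit 1864962136536699908082683430550578150376710565490053940401739913349348113797000158248960) (nat_lit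 3152160627229946891870382905373944755033642351052122332977269108067614677269334621034114432880201315495807725248446464) (Env.cons (nat_lit 8) (nat_lit 8343700291547123277705507581066528222955889728810957627632601481425502478504684047027274776576) (nat_lit 139984058901662765322750633408478201960754684052719950274046188845542482114735636129256219720789524480) (Env.cons (nat_lit 9) (nat_lit 8343700291547123277705507581066528222955889728810957627632601481425502478504684047027274776576) (nat_lit 7045627958297583864312397376851118822306282048157181173227531800438275693452350228188246953827411729619877888) (Env.cons (nat_lit 13) (nat_lit 8343699732058482316695535156261499057782444615797787980616419360903528473700249907927227301888) (nat_lit 3772742243317933050026954385894611551400751297904840367029897008581841790082769642420686735360304743039575636020559872) (Env.cons (nat_lit 11) (nat_lit 8343699732058482316695535156261499057782444615797787980616419360903528473700249907927227301888) (nat_lit 551628121977663952794350421823532265951409558697443637142187765975639838681680471170175527229165359430856135749402624)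 (Env.cons (nat_lit 9) (nat_lit 870315663717126623771918934256936470175798263895358505520811959563029119771933407182848) (nat_lit 3152160627229946891870516404569750939226218326741641417362371172356648576010110617616308532233080934381219815666745344) (Env.cons (nat_lit 7) (nat_lit 932481068268349954041341715275289075188355282745026970200869956674674056898500079124480) (nat_lit 39402014416293763892783814148532896160894665402446557193121461330896496531130384786970479663311627825370320653516800) (Env.cons (nat_lit 13) (nat_lit 8343699732058482316695535156261499057782444615797787980616419360903528473700249907927227301888) (nat_lit 3427974678824607531036982803013562434368541481744513748243794674598603154946302274310903013816520285056402772054769664) (Env.cons (nat_lit 6) (nat_lit 435157831858563311885959467128468235087899131947679252760405979781514559885966703591424) (nat_lit 157608031831205875146689334348199111339552549095778896739047770565140865759860647874923381268547178552665913415434240) (Env.cons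 (nat_lit 7) (nat_lit 8343699794223886867918865425684280076135049628354806830284884040961525585345187034493899243520) (nat_lit 39402007957801538778710975524516769441752640649369649977680941545186911032008791471041502527360611313728045637959680) (Env.cons (nat_lit 7) (nat_lit 435157831858563311885959467128468235087899131947679252760405979781514559885966703591424) (nat_lit 4697085375523976959271015386377993850562258593511086240116715424408261068411998258300604524632523261633101824) (Env.cons (nat_lit 5) (nat_lit 435157833711236739683018593905603995226905657599999007410655004412835904012576777830400) (nat_lit 5871356701906672328380226274772725239307715470118569340742079339343398118312116703447396206448187846227394560) (Env.cons (nat_lit 8) (nat_lit 8343699794223886867918865425684280076135049628354806830284884040961525585345187034493899243520) (nat_lit 78804014741331751174476531697184564634912709618682541858508725270806397586171858504070199151949444342042157104758784) (Env.cons (nat_lit 9) (nat_lit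 8343699732058482316695535156261499057782444615797787980616419360903528473700249907927227301888) (nat_lit 5288448026136040973411624822427208181056008247961050678867986490501205541039101939069837706035949373632120752381365346893824) (Env.cons (nat_lit 10) (nat_lit 8343699732058482316695535156261499057782444615797787980616419360903528473700249907927227301888) (nat_lit 3427974678824607531036983585239402556993264098837800305722079250707763781751542445131511566934913689095204123816493056) (Env.cons (nat_lit 10) (nat_lit 8343699732058482316695535156261499057782444615797787980616419360903528473700249907927227301888) (nat_lit 3152160629578489684620435768652836648378701445720923482040629560160832931532345480250118103184501983206156647794737152) (Env.cons (nat_lit 11) (nat_lit 8343699732058482316695535156261499057782444615797787980616419360903528473700249907927227301888) (nat_lit 275814052622148049751763118789777929109938892767957108046035374638504361860135393085618962255315888389132449772208128) (Env.cons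 (nat_lit 16) (nat_lit 8343699732058482316695535156261499057782444615797787980616419360903528473700249907927227301888) (nat_lit 330528565574752979408298788874394293053113023144783525715414924011849651327640362962820233014193803161930189062624155533312) (Env.cons (nat_lit 10) (nat_lit 8343699732058482316695535156261499057782444615797787980616419360903528473700249907927227301888) (nat_lit 174980305686219639268322230135922778359234274903379018112968058105463169727332502909187431162424852480) Env.nil)))))))))))))))))))))))))))))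
    (n (nat_lit 286) (b (b (b (b (b (r (nat_lit 0)) (r (nat_lit 1))) (b (n (nat_lit 285) (b (b (b (n (nat_lit 284) (b (b (n (nat_lit 283) (b (n (nat_lit 258) (b (l (nat_lit 3) (nat_lit 257) (nat_lit 257)) (l (nat_lit 3) (nat_lit 258) (nat_lit 259)))) (l (nat_lit 0) (nat_lit 283) (nat_lit 311)))) (n (nat_lit 283) (b (n (nat_lit 308) (b (l (nat_lit 2) (nat_lit 283) (nat_lit 309)) (l (nat_lit 2) (nat_lit 282) (nat_lit 307)))) (l (nat_lit 0) (nat_lit 283) (nat_lit 311))))) (n (nat_lit 259) (b (n (nat_lit 260) (b (n (nat_lit 309) (b (n (nat_lit 235) (b (l (nat_lit 5) (nat_lit 234) (nat_lit 334)) (l (nat_lit 6) (nat_lit 209) (nat_lit 210)))) (l (nat_lit 2) (nat_lit 283) (nat_lit 308)))) (l (nat_lit 3) (nat_lit 259) (nat_lit 288)))) (l (nat_lit 3) (nat_lit 258) (nat_lit 258)))))) (r (nat_lit 2))) (b (r (nat_lit 3)) (r (nat_lit 4)))) (b (r (nat_lit 5)) (n (nat_lit 288) (b (b (n (nat_lit 260) (b (n (nat_lit 261) (b (n (nat_lit 310) (b (n (nat_lit 236) (b (l (nat_lit 5) (nat_lit 235) (nat_lit 335))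 (l (nat_lit 6) (nat_lit 210) (nat_lit 211)))) (l (nat_lit 2) (nat_lit 284) (nat_lit 309)))) (l (nat_lit 3) (nat_lit 260) (nat_lit 289)))) (l (nat_lit 3) (nat_lit 259) (nat_lit 259)))) (r (nat_lit 6))) (b (n (nat_lit 289) (b (n (nat_lit 290) (b (n (nat_lit 265) (b (l (nat_lit 1) (nat_lit 261) (nat_lit 264)) (l (nat_lit 1) (nat_lit 262) (nat_lit 266)))) (n (nat_lit 315) (b (l (nat_lit 0) (nat_lit 287) (nat_lit 316)) (l (nat_lit 0) (nat_lit 286) (nat_lit 314)))))) (n (nat_lit 310) (b (l (nat_lit 2) (nat_lit 284) (nat_lit 309)) (l (nat_lit 2) (nat_lit 285) (nat_lit 311)))))) (n (nat_lit 310) (b (n (nat_lit 260) (b (n (nat_lit 263) (b (n (nat_lit 261) (b (n (nat_lit 235) (b (n (nat_lit 210) (b (l (nat_lit 4) (nat_lit 210) (nat_lit 311)) (l (nat_lit 4) (nat_lit 185) (nat_lit 185)))) (n (nat_lit 234) (b (l (nat_lit 7) (nat_lit 209) (nat_lit 209)) (l (nat_lit 3) (nat_lit 234) (nat_lit 262)))))) (n (nat_lit 335) (b (l (nat_lit 5) (nat_lit 235) (nat_lit 236)) (l (nat_lit 5) (nat_lit 260) (nat_lit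 360)))))) (l (nat_lit 1) (nat_lit 260) (nat_lit 264)))) (l (nat_lit 3) (nat_lit 259) (nat_lit 259)))) (l (nat_lit 2) (nat_lit 284) (nat_lit 309)))))))))) (r (nat_lit 7)))) (b (b (n (nat_lit 288) (b (b (b (r (nat_lit 8)) (r (nat_lit 9))) (b (n (nat_lit 289) (b (n (nat_lit 290) (b (n (nat_lit 265) (b (l (nat_lit 1) (nat_lit 261) (nat_lit 264)) (l (nat_lit 1) (nat_lit 262) (nat_lit 266)))) (n (nat_lit 315) (b (l (nat_lit 0) (nat_lit 287) (nat_lit 316)) (l (nat_lit 0) (nat_lit 286) (nat_lit 314)))))) (n (nat_lit 261) (b (n (nat_lit 311) (b (n (nat_lit 336) (b (n (nat_lit 361) (b (n (nat_lit 360) (b (l (nat_lit 6) (nat_lit 285) (nat_lit 385)) (l (nat_lit 6) (nat_lit 260) (nat_lit 335)))) (l (nat_lit 5) (nat_lit 286) (nat_lit 386)))) (n (nat_lit 237) (b (n (nat_lit 236) (b (l (nat_lit 4) (nat_lit 211) (nat_lit 211)) (l (nat_lit 5) (nat_lit 211) (nat_lit 212)))) (l (nat_lit 6) (nat_lit 236) (nat_lit 262)))))) (l (nat_lit 2) (nat_lit 285) (nat_lit 310)))) (l (nat_lit 3) (nat_lit 260) (nat_lit 260))))))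 (n (nat_lit 289) (b (r (nat_lit 10)) (n (nat_lit 311) (b (l (nat_lit 2) (nat_lit 285) (nat_lit 310)) (l (nat_lit 2) (nat_lit 286) (nat_lit 290)))))))) (n (nat_lit 285) (b (b (b (r (nat_lit 11)) (r (nat_lit 12))) (b (n (nat_lit 284) (b (n (nat_lit 283) (b (n (nat_lit 258) (b (l (nat_lit 3) (nat_lit 257) (nat_lit 257)) (l (nat_lit 3) (nat_lit 258) (nat_lit 259)))) (l (nat_lit 0) (nat_lit 283) (nat_lit 311)))) (n (nat_lit 263) (b (l (nat_lit 1) (nat_lit 259) (nat_lit 262)) (l (nat_lit 1) (nat_lit 260) (nat_lit 264)))))) (n (nat_lit 284) (b (n (nat_lit 263) (b (l (nat_lit 1) (nat_lit 259) (nat_lit 262)) (l (nat_lit 1) (nat_lit 260) (nat_lit 264)))) (n (nat_lit 259) (b (l (nat_lit 3) (nat_lit 258) (nat_lit 258)) (l (nat_lit 3) (nat_lit 259) (nat_lit 260)))))))) (n (nat_lit 284) (b (b (n (nat_lit 259) (b (l (nat_lit 3) (nat_lit 258) (nat_lit 258)) (l (nat_lit 3) (nat_lit 259) (nat_lit 260)))) (n (nat_lit 283) (b (n (nat_lit 282) (b (n (nat_lit 307) (b (l (nat_lit 2) (nat_lit 281) (nat_lit 306))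 (l (nat_lit 2) (nat_lit 282) (nat_lit 308)))) (n (nat_lit 257) (b (l (nat_lit 3) (nat_lit 256) (nat_lit 256)) (l (nat_lit 3) (nat_lit 257) (nat_lit 258)))))) (l (nat_lit 0) (nat_lit 283) (nat_lit 311))))) (n (nat_lit 283) (b (n (nat_lit 282) (b (n (nat_lit 260) (b (l (nat_lit 3) (nat_lit 259) (nat_lit 259)) (l (nat_lit 1) (nat_lit 257) (nat_lit 261)))) (n (nat_lit 307) (b (l (nat_lit 2) (nat_lit 281) (nat_lit 306)) (l (nat_lit 2) (nat_lit 282) (nat_lit 308)))))) (l (nat_lit 0) (nat_lit 283) (nat_lit 311)))))))))) (r (nat_lit 13))) (b (r (nat_lit 14)) (n (nat_lit 288) (b (b (b (r (nat_lit 15)) (r (nat_lit 9))) (b (n (nat_lit 289) (b (n (nat_lit 290) (b (n (nat_lit 265) (b (l (nat_lit 1) (nat_lit 261) (nat_lit 264)) (l (nat_lit 1) (nat_lit 262) (nat_lit 266)))) (n (nat_lit 315) (b (l (nat_lit 0) (nat_lit 287) (nat_lit 316)) (l (nat_lit 0) (nat_lit 286) (nat_lit 314)))))) (n (nat_lit 261) (b (n (nat_lit 311) (b (n (nat_lit 336) (b (n (nat_lit 361) (b (n (nat_lit 360) (b (l (nat_lit 6) (nat_lit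 285) (nat_lit 385)) (l (nat_lit 6) (nat_lit 260) (nat_lit 335)))) (l (nat_lit 5) (nat_lit 286) (nat_lit 386)))) (n (nat_lit 237) (b (n (nat_lit 236) (b (l (nat_lit 4) (nat_lit 211) (nat_lit 211)) (l (nat_lit 5) (nat_lit 211) (nat_lit 212)))) (l (nat_lit 6) (nat_lit 236) (nat_lit 262)))))) (l (nat_lit 2) (nat_lit 285) (nat_lit 310)))) (l (nat_lit 3) (nat_lit 260) (nat_lit 260)))))) (n (nat_lit 289) (b (r (nat_lit 10)) (n (nat_lit 311) (b (l (nat_lit 2) (nat_lit 285) (nat_lit 310)) (l (nat_lit 2) (nat_lit 286) (nat_lit 290)))))))) (n (nat_lit 285) (b (b (r (nat_lit 12)) (r (nat_lit 16))) (b (n (nat_lit 284) (b (n (nat_lit 283) (b (n (nat_lit 308) (b (l (nat_lit 2) (nat_lit 283) (nat_lit 309)) (l (nat_lit 2) (nat_lit 282) (nat_lit 307)))) (l (nat_lit 0) (nat_lit 283) (nat_lit 311)))) (n (nat_lit 263) (b (l (nat_lit 1) (nat_lit 259) (nat_lit 262)) (l (nat_lit 1) (nat_lit 260) (nat_lit 264)))))) (n (nat_lit 284) (b (n (nat_lit 263) (b (l (nat_lit 1) (nat_lit 259) (nat_lit 262)) (l (nat_lit 1)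 (nat_lit 260) (nat_lit 264)))) (n (nat_lit 309) (b (l (nat_lit 2) (nat_lit 283) (nat_lit 308)) (l (nat_lit 2) (nat_lit 284) (nat_lit 310)))))))))))))) (b (b (b (r (nat_lit 17)) (n (nat_lit 285) (b (b (b (r (nat_lit 18)) (r (nat_lit 19))) (b (r (nat_lit 5)) (r (nat_lit 20)))) (b (n (nat_lit 288) (b (b (n (nat_lit 289) (b (n (nat_lit 290) (b (n (nat_lit 265) (b (l (nat_lit 1) (nat_lit 261) (nat_lit 264)) (l (nat_lit 1) (nat_lit 262) (nat_lit 266)))) (n (nat_lit 315) (b (l (nat_lit 0) (nat_lit 287) (nat_lit 316)) (l (nat_lit 0) (nat_lit 286) (nat_lit 314)))))) (n (nat_lit 260) (b (l (nat_lit 3) (nat_lit 260) (nat_lit 261)) (l (nat_lit 3) (nat_lit 259) (nat_lit 259)))))) (n (nat_lit 284) (b (b (n (nat_lit 259) (b (l (nat_lit 3) (nat_lit 258) (nat_lit 258)) (l (nat_lit 3) (nat_lit 259) (nat_lit 260)))) (n (nat_lit 283) (b (n (nat_lit 282) (b (n (nat_lit 307) (b (l (nat_lit 2) (nat_lit 281) (nat_lit 306)) (l (nat_lit 2) (nat_lit 282) (nat_lit 308)))) (n (nat_lit 257) (b (l (nat_lit 3) (nat_lit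 256) (nat_lit 256)) (l (nat_lit 3) (nat_lit 257) (nat_lit 258)))))) (l (nat_lit 0) (nat_lit 283) (nat_lit 311))))) (n (nat_lit 283) (b (n (nat_lit 282) (b (n (nat_lit 260) (b (l (nat_lit 3) (nat_lit 259) (nat_lit 259)) (l (nat_lit 1) (nat_lit 257) (nat_lit 261)))) (n (nat_lit 307) (b (l (nat_lit 2) (nat_lit 281) (nat_lit 306)) (l (nat_lit 2) (nat_lit 282) (nat_lit 308)))))) (l (nat_lit 0) (nat_lit 283) (nat_lit 311))))))) (n (nat_lit 289) (b (n (nat_lit 290) (b (n (nat_lit 315) (b (l (nat_lit 0) (nat_lit 287) (nat_lit 316)) (l (nat_lit 0) (nat_lit 286) (nat_lit 314)))) (l (nat_lit 2) (nat_lit 286) (nat_lit 311)))) (n (nat_lit 264) (b (l (nat_lit 1) (nat_lit 261) (nat_lit 265)) (l (nat_lit 1) (nat_lit 260) (nat_lit 263)))))))) (n (nat_lit 309) (b (b (n (nat_lit 288) (b (n (nat_lit 289) (b (n (nat_lit 290) (b (n (nat_lit 315) (b (l (nat_lit 0) (nat_lit 287) (nat_lit 316)) (l (nat_lit 0) (nat_lit 286) (nat_lit 314)))) (l (nat_lit 2) (nat_lit 286) (nat_lit 311)))) (n (nat_lit 264) (b (l (nat_lit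 1) (nat_lit 261) (nat_lit 265)) (l (nat_lit 1) (nat_lit 260) (nat_lit 263)))))) (l (nat_lit 2) (nat_lit 284) (nat_lit 310)))) (n (nat_lit 308) (b (n (nat_lit 310) (b (l (nat_lit 1) (nat_lit 282) (nat_lit 307)) (l (nat_lit 2) (nat_lit 284) (nat_lit 288)))) (l (nat_lit 2) (nat_lit 283) (nat_lit 284))))) (n (nat_lit 284) (b (n (nat_lit 311) (b (n (nat_lit 336) (b (b (n (nat_lit 361) (b (l (nat_lit 5) (nat_lit 286) (nat_lit 386)) (l (nat_lit 7) (nat_lit 260) (nat_lit 260)))) (n (nat_lit 334) (b (b (n (nat_lit 260) (b (n (nat_lit 235) (b (l (nat_lit 7) (nat_lit 235) (nat_lit 261)) (l (nat_lit 6) (nat_lit 209) (nat_lit 210)))) (l (nat_lit 5) (nat_lit 259) (nat_lit 359)))) (n (nat_lit 335) (b (n (nat_lit 360) (b (n (nat_lit 385) (b (l (nat_lit 4) (nat_lit 284) (nat_lit 359)) (l (nat_lit 7) (nat_lit 309) (nat_lit 410)))) (l (nat_lit 6) (nat_lit 260) (nat_lit 261)))) (l (nat_lit 1) (nat_lit 308) (nat_lit 333))))) (b (n (nat_lit 261) (b (n (nat_lit 236) (b (n (nat_lit 235) (b (l (nat_lit 7) (nat_lit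 235) (nat_lit 260)) (l (nat_lit 7) (nat_lit 210) (nat_lit 210)))) (l (nat_lit 4) (nat_lit 211) (nat_lit 211)))) (n (nat_lit 335) (b (l (nat_lit 6) (nat_lit 260) (nat_lit 360)) (l (nat_lit 1) (nat_lit 308) (nat_lit 333)))))) (n (nat_lit 359) (b (n (nat_lit 384) (b (n (nat_lit 383) (b (l (nat_lit 6) (nat_lit 283) (nat_lit 358)) (l (nat_lit 6) (nat_lit 308) (nat_lit 408)))) (n (nat_lit 385) (b (l (nat_lit 4) (nat_lit 309) (nat_lit 410)) (l (nat_lit 4) (nat_lit 284) (nat_lit 360)))))) (l (nat_lit 5) (nat_lit 259) (nat_lit 260)))))))) (n (nat_lit 361) (b (n (nat_lit 360) (b (n (nat_lit 362) (b (n (nat_lit 335) (b (n (nat_lit 334) (b (l (nat_lit 3) (nat_lit 334) (nat_lit 363)) (l (nat_lit 0) (nat_lit 333) (nat_lit 333)))) (l (nat_lit 6) (nat_lit 260) (nat_lit 261)))) (l (nat_lit 4) (nat_lit 286) (nat_lit 387)))) (l (nat_lit 6) (nat_lit 285) (nat_lit 385)))) (l (nat_lit 5) (nat_lit 286) (nat_lit 386)))))) (l (nat_lit 0) (nat_lit 283) (nat_lit 283)))) (l (nat_lit 2) (nat_lit 283) (nat_lit 308))))))))))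 (b (n (nat_lit 285) (b (b (b (r (nat_lit 18)) (r (nat_lit 19))) (b (n (nat_lit 284) (b (b (n (nat_lit 288) (b (n (nat_lit 309) (b (l (nat_lit 2) (nat_lit 283) (nat_lit 308)) (l (nat_lit 2) (nat_lit 284) (nat_lit 310)))) (n (nat_lit 263) (b (l (nat_lit 1) (nat_lit 259) (nat_lit 262)) (l (nat_lit 1) (nat_lit 260) (nat_lit 264)))))) (n (nat_lit 283) (b (n (nat_lit 308) (b (l (nat_lit 2) (nat_lit 283) (nat_lit 309)) (l (nat_lit 2) (nat_lit 282) (nat_lit 307)))) (l (nat_lit 0) (nat_lit 283) (nat_lit 311))))) (n (nat_lit 283) (b (n (nat_lit 262) (b (l (nat_lit 1) (nat_lit 259) (nat_lit 263)) (l (nat_lit 1) (nat_lit 258) (nat_lit 261)))) (l (nat_lit 0) (nat_lit 283) (nat_lit 311)))))) (n (nat_lit 284) (b (b (n (nat_lit 288) (b (n (nat_lit 259) (b (l (nat_lit 3) (nat_lit 258) (nat_lit 258)) (l (nat_lit 3) (nat_lit 259) (nat_lit 260)))) (n (nat_lit 263) (b (l (nat_lit 1) (nat_lit 259) (nat_lit 262)) (l (nat_lit 1) (nat_lit 260) (nat_lit 264)))))) (n (nat_lit 283) (b (n (nat_lit 262) (b (l (nat_lit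 1) (nat_lit 259) (nat_lit 263)) (l (nat_lit 1) (nat_lit 258) (nat_lit 261)))) (l (nat_lit 0) (nat_lit 283) (nat_lit 311))))) (n (nat_lit 283) (b (n (nat_lit 258) (b (l (nat_lit 3) (nat_lit 257) (nat_lit 257)) (l (nat_lit 3) (nat_lit 258) (nat_lit 259)))) (l (nat_lit 0) (nat_lit 283) (nat_lit 311)))))))) (n (nat_lit 260) (b (b (n (nat_lit 235) (b (b (n (nat_lit 210) (b (n (nat_lit 185) (b (n (nat_lit 186) (b (l (nat_lit 5) (nat_lit 185) (nat_lit 211)) (l (nat_lit 5) (nat_lit 160) (nat_lit 161)))) (n (nat_lit 184) (b (l (nat_lit 7) (nat_lit 159) (nat_lit 159)) (l (nat_lit 7) (nat_lit 184) (nat_lit 209)))))) (l (nat_lit 4) (nat_lit 210) (nat_lit 311)))) (n (nat_lit 310) (b (n (nat_lit 210) (b (n (nat_lit 211) (b (l (nat_lit 5) (nat_lit 210) (nat_lit 236)) (l (nat_lit 5) (nat_lit 185) (nat_lit 186)))) (n (nat_lit 209) (b (l (nat_lit 7) (nat_lit 184) (nat_lit 184)) (l (nat_lit 7) (nat_lit 209) (nat_lit 234)))))) (n (nat_lit 309) (b (l (nat_lit 2) (nat_lit 284) (nat_lit 288)) (l (nat_lit 6) (nat_lit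 234) (nat_lit 334))))))) (n (nat_lit 310) (b (n (nat_lit 309) (b (l (nat_lit 2) (nat_lit 284) (nat_lit 288)) (l (nat_lit 6) (nat_lit 234) (nat_lit 334)))) (n (nat_lit 335) (b (n (nat_lit 261) (b (l (nat_lit 5) (nat_lit 260) (nat_lit 360)) (l (nat_lit 5) (nat_lit 235) (nat_lit 236)))) (n (nat_lit 336) (b (l (nat_lit 4) (nat_lit 235) (nat_lit 311)) (l (nat_lit 4) (nat_lit 260) (nat_lit 361)))))))))) (r (nat_lit 21))) (b (n (nat_lit 259) (b (n (nat_lit 258) (b (l (nat_lit 0) (nat_lit 258) (nat_lit 261)) (l (nat_lit 0) (nat_lit 257) (nat_lit 257)))) (l (nat_lit 3) (nat_lit 259) (nat_lit 288)))) (n (nat_lit 235) (b (b (n (nat_lit 259) (b (n (nat_lit 236) (b (n (nat_lit 258) (b (n (nat_lit 237) (b (l (nat_lit 2) (nat_lit 234) (nat_lit 238)) (l (nat_lit 2) (nat_lit 233) (nat_lit 234)))) (l (nat_lit 1) (nat_lit 232) (nat_lit 257)))) (n (nat_lit 211) (b (n (nat_lit 186) (b (l (nat_lit 6) (nat_lit 160) (nat_lit 161)) (l (nat_lit 5) (nat_lit 185) (nat_lit 210)))) (l (nat_lit 5) (nat_lit 210) (nat_lit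 310)))))) (l (nat_lit 3) (nat_lit 259) (nat_lit 288)))) (n (nat_lit 210) (b (n (nat_lit 185) (b (n (nat_lit 186) (b (l (nat_lit 5) (nat_lit 185) (nat_lit 211)) (l (nat_lit 5) (nat_lit 160) (nat_lit 161)))) (n (nat_lit 184) (b (l (nat_lit 7) (nat_lit 159) (nat_lit 159)) (l (nat_lit 7) (nat_lit 184) (nat_lit 209)))))) (l (nat_lit 4) (nat_lit 210) (nat_lit 311))))) (n (nat_lit 310) (b (b (n (nat_lit 335) (b (n (nat_lit 334) (b (l (nat_lit 6) (nat_lit 259) (nat_lit 359)) (l (nat_lit 6) (nat_lit 234) (nat_lit 309)))) (n (nat_lit 234) (b (l (nat_lit 7) (nat_lit 234) (nat_lit 259)) (l (nat_lit 7) (nat_lit 209) (nat_lit 209)))))) (n (nat_lit 259) (b (n (nat_lit 234) (b (l (nat_lit 7) (nat_lit 234) (nat_lit 335)) (l (nat_lit 7) (nat_lit 209) (nat_lit 209)))) (l (nat_lit 3) (nat_lit 259) (nat_lit 288))))) (n (nat_lit 309) (b (l (nat_lit 2) (nat_lit 284) (nat_lit 288)) (l (nat_lit 6) (nat_lit 234) (nat_lit 334))))))))))))) (n (nat_lit 285) (b (b (r (nat_lit 3)) (r (nat_lit 19))) (b (n (nat_lit 288)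 (b (b (n (nat_lit 284) (b (n (nat_lit 263) (b (l (nat_lit 1) (nat_lit 259) (nat_lit 262)) (l (nat_lit 1) (nat_lit 260) (nat_lit 264)))) (n (nat_lit 309) (b (l (nat_lit 2) (nat_lit 283) (nat_lit 308)) (l (nat_lit 2) (nat_lit 284) (nat_lit 310)))))) (n (nat_lit 289) (b (n (nat_lit 290) (b (n (nat_lit 265) (b (l (nat_lit 1) (nat_lit 261) (nat_lit 264)) (l (nat_lit 1) (nat_lit 262) (nat_lit 266)))) (n (nat_lit 315) (b (l (nat_lit 0) (nat_lit 287) (nat_lit 316)) (l (nat_lit 0) (nat_lit 286) (nat_lit 314)))))) (n (nat_lit 310) (b (l (nat_lit 2) (nat_lit 284) (nat_lit 309)) (l (nat_lit 2) (nat_lit 285) (nat_lit 311))))))) (b (n (nat_lit 289) (b (n (nat_lit 290) (b (n (nat_lit 315) (b (l (nat_lit 0) (nat_lit 287) (nat_lit 316)) (l (nat_lit 0) (nat_lit 286) (nat_lit 314)))) (l (nat_lit 2) (nat_lit 286) (nat_lit 311)))) (n (nat_lit 264) (b (l (nat_lit 1) (nat_lit 261) (nat_lit 265)) (l (nat_lit 1) (nat_lit 260) (nat_lit 263)))))) (n (nat_lit 289) (b (n (nat_lit 310) (b (l (nat_lit 2) (nat_lit 284)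 (nat_lit 309)) (l (nat_lit 2) (nat_lit 285) (nat_lit 311)))) (n (nat_lit 290) (b (n (nat_lit 315) (b (l (nat_lit 0) (nat_lit 287) (nat_lit 316)) (l (nat_lit 0) (nat_lit 286) (nat_lit 314)))) (n (nat_lit 262) (b (n (nat_lit 263) (b (l (nat_lit 1) (nat_lit 259) (nat_lit 284)) (l (nat_lit 3) (nat_lit 262) (nat_lit 291)))) (l (nat_lit 3) (nat_lit 261) (nat_lit 261))))))))))) (n (nat_lit 288) (b (b (r (nat_lit 6)) (n (nat_lit 310) (b (n (nat_lit 260) (b (n (nat_lit 311) (b (n (nat_lit 235) (b (l (nat_lit 4) (nat_lit 235) (nat_lit 336)) (l (nat_lit 4) (nat_lit 210) (nat_lit 210)))) (l (nat_lit 2) (nat_lit 285) (nat_lit 289)))) (l (nat_lit 3) (nat_lit 259) (nat_lit 259)))) (l (nat_lit 2) (nat_lit 284) (nat_lit 309))))) (r (nat_lit 16))))))))) (b (b (n (nat_lit 285) (b (b (b (r (nat_lit 3)) (r (nat_lit 19))) (b (r (nat_lit 4)) (r (nat_lit 22)))) (n (nat_lit 288) (b (b (n (nat_lit 260) (b (n (nat_lit 261) (b (n (nat_lit 310) (b (n (nat_lit 236) (b (l (nat_lit 5) (nat_lit 235) (nat_lit 335)) (l (nat_lit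 6) (nat_lit 210) (nat_lit 211)))) (l (nat_lit 2) (nat_lit 284) (nat_lit 309)))) (l (nat_lit 3) (nat_lit 260) (nat_lit 289)))) (l (nat_lit 3) (nat_lit 259) (nat_lit 259)))) (r (nat_lit 6))) (b (n (nat_lit 289) (b (n (nat_lit 290) (b (n (nat_lit 265) (b (l (nat_lit 1) (nat_lit 261) (nat_lit 264)) (l (nat_lit 1) (nat_lit 262) (nat_lit 266)))) (n (nat_lit 315) (b (l (nat_lit 0) (nat_lit 287) (nat_lit 316)) (l (nat_lit 0) (nat_lit 286) (nat_lit 314)))))) (n (nat_lit 310) (b (l (nat_lit 2) (nat_lit 284) (nat_lit 309)) (l (nat_lit 2) (nat_lit 285) (nat_lit 311)))))) (n (nat_lit 310) (b (n (nat_lit 260) (b (n (nat_lit 261) (b (b (n (nat_lit 263) (b (n (nat_lit 236) (b (n (nat_lit 238) (b (n (nat_lit 239) (b (l (nat_lit 2) (nat_lit 235) (nat_lit 237)) (l (nat_lit 1) (nat_lit 235) (nat_lit 262)))) (l (nat_lit 6) (nat_lit 212) (nat_lit 213)))) (l (nat_lit 6) (nat_lit 210) (nat_lit 211)))) (l (nat_lit 1) (nat_lit 260) (nat_lit 264)))) (n (nat_lit 335) (b (l (nat_lit 5) (nat_lit 235) (nat_lit 236)) (l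 (nat_lit 5) (nat_lit 260) (nat_lit 360))))) (n (nat_lit 335) (b (n (nat_lit 263) (b (n (nat_lit 336) (b (n (nat_lit 238) (b (n (nat_lit 311) (b (n (nat_lit 334) (b (l (nat_lit 6) (nat_lit 259) (nat_lit 359)) (l (nat_lit 1) (nat_lit 308) (nat_lit 333)))) (n (nat_lit 262) (b (l (nat_lit 1) (nat_lit 235) (nat_lit 239)) (l (nat_lit 6) (nat_lit 236) (nat_lit 237)))))) (l (nat_lit 6) (nat_lit 212) (nat_lit 213)))) (l (nat_lit 4) (nat_lit 260) (nat_lit 361)))) (l (nat_lit 1) (nat_lit 260) (nat_lit 264)))) (l (nat_lit 5) (nat_lit 260) (nat_lit 360)))))) (l (nat_lit 3) (nat_lit 259) (nat_lit 259)))) (l (nat_lit 2) (nat_lit 284) (nat_lit 309))))))))) (r (nat_lit 23))) (b (r (nat_lit 24)) (r (nat_lit 25)))))) (b (b (r (nat_lit 26)) (r (nat_lit 27))) (r (nat_lit 28)))))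
    (envOK_cons p13653 (envOK_cons p13682 (envOK_cons p13477 (envOK_cons p13488 (envOK_cons p13514 (envOK_cons p13684 (envOK_cons p13482 (envOK_cons p13760 (envOK_cons p13708 (envOK_cons p13712 (envOK_cons p13706 (envOK_cons p13727 (envOK_cons p13777 (envOK_cons p14021 (envOK_cons p14158 (envOK_cons p14160 (envOK_cons p14164 (envOK_cons p14240 (envOK_cons p13501 (envOK_cons p13658 (envOK_cons p14241 (envOK_cons p14258 (envOK_cons p14279 (envOK_cons p14316 (envOK_cons p14326 (envOK_cons p14334 (envOK_cons p14367 (envOK_cons p14668 (envOK_cons p14719 envOK_nil))))))))))))))))))))))))))))) (by decide +kernel)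

theorem p14721 : Fam (nat_lit 18) (nat_lit 8343699359066055009355553539724812947666814540455674882605631280555545803830627148527195652096) (nat_lit 70390994803895352058103564175385359353349720953409107372162078972284193222284285987162852792348497263692547770442625784084409234345372607394542758085525504) (nat_lit 70390994803895352058103564175385359353349720953409107372162078972284193222284285987162852792348497263692547770442625784084409234345372607394542758085525504) :=
  chk_sound (Env.cons (nat_lit 5) (nat_lit 279968101115925134047353499319930152181142708231565782546248918899963984685054368582985341452834308096) (nat_lit 630432127324823640570800594614818692770076707604089977364934744377718704621732080028618902870347514032913142117302272) (Env.cons (nat_lit 5) (nat_lit 279968101115925134047353499319930152181142708231565782546248918899963984685054368582985341452834308096) (nat_lit 177450897442867506523146427734411336485097348162650388652590139203872493525610474240721391647487596266893799909252431492147589414912)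 (Env.cons (nat_lit 5) (nat_lit 14091255776611100483262017628089521484184247474592627455809528375442173050651635345836562573293953671025917952) (nat_lit 778189696945022438252205827644826465779541947062301697346472512651152089160107238398180989565057761858925853077929984) (Env.cons (nat_lit 6) (nat_lit 279968101115925134047360910013641340417649816774606338572351528178982585681152893868361847893131264000) (nat_lit 279968101115928856201009826198818256400376459713981624661858321369479703916519659499012254303434833920) (Env.cons (nat_lit 10) (nat_lit 8343699607727680624942585805652444129620275146709852890558508601783632775695752161234180374528) (nat_lit 69992033622688529813713928583646559922028663025459960989756888442279437884347143401321075261669638144) (Env.cons (nat_lit 7) (nat_lit 8343699607727680624942585805652444129620275146709852890558508601783632775695752161234180374528) (nat_lit 279968101115925631370826124972122519946976102749426172532447790892912305553527025949174321503648350208) (Env.cons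 (nat_lit 6) (nat_lit 8343699607727680624942585805652444129620275146709852890558508601783632775695752161234180374528) (nat_lit 9394170611063438199332860298361349606235088174462126569252533089252909441328450759599624992557231722672947200) (Env.cons (nat_lit 5) (nat_lit 8343699607727680624942806661535541427661473058897445755372987037270742228065517362009341952000) (nat_lit 630432127324823500586754208502646104358393771475367774010964068805705098339062673890608228020047550053907643337015296) (Env.cons (nat_lit 5) (nat_lit 279968101115925134047360910013641340417649816774606338572351528178982585681152893868361847893131264000) (nat_lit 419952151673888198394288890848333516035812493409959080429714748387526084211127522542295587743462326272) (Env.cons (nat_lit 9) (nat_lit 8343699607727680624942585805652444129620275146709852890558508601783632775695752161234180374528) (nat_lit 489944177995834932352951889840948684056500083886325914316288084066654255602782872215802806228815446016) (Env.cons (nat_lit 7)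 (nat_lit 279968101115925134047353499319930152181142708231565782546248918899963984685054368582985341452834308096) (nat_lit 26442239539650217605560292892248846548383685772123245804320920171885490245615528655242358014583884891255885470027001695830016) (Env.cons (nat_lit 9) (nat_lit 279968101115925134047360910013641340417649816774606338572351528178982585681152893868361847893131264000) (nat_lit 290632149080253590558908089575859485462592271208853670362818752791752986358304551980058126957759484999684325376) (Env.cons (nat_lit 10) (nat_lit 279968101115925134047360910013641340417649816774606338572351528178982585681152893868361847893131264000) (nat_lit 290632149062755583978423609072759089053170136488689502053941623881240270304060685108267170588703599788558385152) (Env.cons (nat_lit 7) (nat_lit 8343699607727680624942585805652444129620275146709852890558508601783632775695752161234180374528) (nat_lit 14091255916595154170113429519404830704044656570763523352008228628033287602287169935308865257725210091677810688)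 (Env.cons (nat_lit 6) (nat_lit 279968101115925134047353499319930152181142708231565782546248918899963984685054368582985341452834308096) (nat_lit 5954264071585671632640473235457219250118317965616578314692359007695991237948341855571305727012202772721511797286135142050027846770414845952) (Env.cons (nat_lit 13) (nat_lit 8343699607727673214248874617415937021077234590683750281279490000787534250410375654793883418624) (nat_lit 5954264182492464024864996908143664565743727431863813044334889399410748015594346514061679696223900010067775899685646117919732512176516104192) (Env.cons (nat_lit 7) (nat_lit 8343699607727680624942585805652444129620275146709852890558508601783632775695752161234180374528) (nat_lit 139984058901662174751468071841600996131148336940367470341204085827797945107945647491182754963424018432) (Env.cons (nat_lit 13) (nat_lit 8343699607727673214248874617415937021077234590683750281279490000787534250410375654793883418624) (nat_lit 290045013417062126192934616883881879393470025105968689387509195757739780990486168336000933157545605327052865536)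 (Env.cons (nat_lit 13) (nat_lit 8343699607727673214248874617415937021077234590683750281279490000787534250410375654793883418624) (nat_lit 5954264182492464024864996908143664565743727698862198510098607637298048106619993474317565957979229668184354297241747186413635154417094230016) (Env.cons (nat_lit 17) (nat_lit 8343699607727673214248874617415937021077234590683750281279490000787534250410375654793883418624) (nat_lit 40327953942649550696609785284357725420588518424485765898927145582580682979597365035795179918374641127134624562884378624) (Env.cons (nat_lit 16) (nat_lit 8343699607727673214248874617415937021077234590683750281279490000787534250410375654793883418624) (nat_lit 29771315389304245144910653852570670197884290805903523930143120008909227127671419152592364936859471240869958889769295550371467880175587295232) (Env.cons (nat_lit 15) (nat_lit 8343699607727673214248874617415937021077234590683750281279490000787534250410375654793883418624) (nat_lit 31259881251931155554928203199134997192792374109927936029373373614751787063471486513946781613760489102468109121358738165447126635519055757312)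 (Env.cons (nat_lit 17) (nat_lit 8343699607727673214248874617415937021077234590683750281279490000787534250410375654793883418624) (nat_lit 40332879795091460591738425459046847265612129276608437931910774933033070505196194993865704283045075871392962867997179904) (Env.cons (nat_lit 17) (nat_lit 8343699607727673214248874617415937021077234590683750281279490000787534250410375654793883418624) (nat_lit 130249510739542557838334278155268550183042936742324851861247099192762157069504590872754066497407427446596043082072916962079624058219540774912) (Env.cons (nat_lit 17) (nat_lit 8343699607727673214248874617415937021077234590683750281279490000787534250410375654793883418624) (nat_lit 70390994803895352058103564170646910108539735674779029378113089588721222037817200059082439114859425775222067844709467974684157857573616501691932298610475008) (Env.cons (nat_lit 17) (nat_lit 8343699607727673214248874617415937021077234590683750281279490000787534250410375654793883418624) (nat_lit 10246371288991096748471653099328363325050681736235490792655700385877492320313101919985783013498916031923410868859948803031040)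 Env.nil))))))))))))))))))))))))))
    (n (nat_lit 287) (b (b (b (b (n (nat_lit 337) (b (b (b (r (nat_lit 0)) (r (nat_lit 1))) (b (n (nat_lit 262) (b (n (nat_lit 237) (b (n (nat_lit 336) (b (l (nat_lit 6) (nat_lit 261) (nat_lit 361)) (l (nat_lit 6) (nat_lit 236) (nat_lit 311)))) (n (nat_lit 236) (b (l (nat_lit 7) (nat_lit 211) (nat_lit 211)) (l (nat_lit 7) (nat_lit 236) (nat_lit 261)))))) (n (nat_lit 362) (b (n (nat_lit 363) (b (l (nat_lit 4) (nat_lit 262) (nat_lit 338)) (l (nat_lit 4) (nat_lit 287) (nat_lit 388)))) (n (nat_lit 263) (b (l (nat_lit 5) (nat_lit 237) (nat_lit 238)) (l (nat_lit 5) (nat_lit 262) (nat_lit 288)))))))) (n (nat_lit 362) (b (n (nat_lit 387) (b (n (nat_lit 388) (b (l (nat_lit 4) (nat_lit 312) (nat_lit 413)) (l (nat_lit 4) (nat_lit 287) (nat_lit 363)))) (n (nat_lit 386) (b (l (nat_lit 6) (nat_lit 311) (nat_lit 411)) (l (nat_lit 6) (nat_lit 286) (nat_lit 361)))))) (n (nat_lit 262) (b (n (nat_lit 261) (b (l (nat_lit 7) (nat_lit 261) (nat_lit 286)) (l (nat_lit 7) (nat_lit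 236) (nat_lit 236)))) (n (nat_lit 263) (b (l (nat_lit 5) (nat_lit 237) (nat_lit 238)) (l (nat_lit 5) (nat_lit 262) (nat_lit 288)))))))))) (b (n (nat_lit 362) (b (b (n (nat_lit 387) (b (n (nat_lit 286) (b (l (nat_lit 7) (nat_lit 261) (nat_lit 261)) (l (nat_lit 7) (nat_lit 286) (nat_lit 311)))) (n (nat_lit 386) (b (l (nat_lit 6) (nat_lit 311) (nat_lit 411)) (l (nat_lit 6) (nat_lit 286) (nat_lit 361)))))) (n (nat_lit 387) (b (n (nat_lit 286) (b (l (nat_lit 7) (nat_lit 261) (nat_lit 261)) (l (nat_lit 7) (nat_lit 286) (nat_lit 311)))) (n (nat_lit 388) (b (l (nat_lit 4) (nat_lit 312) (nat_lit 413)) (l (nat_lit 4) (nat_lit 287) (nat_lit 363))))))) (n (nat_lit 361) (b (r (nat_lit 2)) (l (nat_lit 6) (nat_lit 286) (nat_lit 386)))))) (n (nat_lit 262) (b (b (n (nat_lit 237) (b (n (nat_lit 238) (b (l (nat_lit 5) (nat_lit 237) (nat_lit 263)) (l (nat_lit 5) (nat_lit 212) (nat_lit 213)))) (n (nat_lit 336) (b (l (nat_lit 6) (nat_lit 261) (nat_lit 361)) (l (nat_lit 6) (nat_lit 236) (nat_lit 311)))))) (n (nat_lit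 237) (b (n (nat_lit 336) (b (l (nat_lit 6) (nat_lit 261) (nat_lit 361)) (l (nat_lit 6) (nat_lit 236) (nat_lit 311)))) (n (nat_lit 236) (b (l (nat_lit 7) (nat_lit 211) (nat_lit 211)) (l (nat_lit 7) (nat_lit 236) (nat_lit 261))))))) (r (nat_lit 3))))))) (n (nat_lit 262) (b (b (b (r (nat_lit 4)) (r (nat_lit 5))) (b (r (nat_lit 6)) (n (nat_lit 237) (b (b (r (nat_lit 7)) (n (nat_lit 238) (b (n (nat_lit 263) (b (n (nat_lit 236) (b (n (nat_lit 264) (b (l (nat_lit 3) (nat_lit 236) (nat_lit 265)) (l (nat_lit 0) (nat_lit 235) (nat_lit 235)))) (l (nat_lit 7) (nat_lit 211) (nat_lit 211)))) (l (nat_lit 5) (nat_lit 237) (nat_lit 337)))) (l (nat_lit 5) (nat_lit 212) (nat_lit 213))))) (b (n (nat_lit 212) (b (n (nat_lit 187) (b (n (nat_lit 186) (b (l (nat_lit 7) (nat_lit 186) (nat_lit 211)) (l (nat_lit 7) (nat_lit 161) (nat_lit 161)))) (n (nat_lit 188) (b (l (nat_lit 5) (nat_lit 187) (nat_lit 213)) (l (nat_lit 5) (nat_lit 162) (nat_lit 163)))))) (n (nat_lit 311) (b (l (nat_lit 6) (nat_lit 236) (nat_lit 336))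 (l (nat_lit 6) (nat_lit 211) (nat_lit 286)))))) (n (nat_lit 212) (b (n (nat_lit 311) (b (l (nat_lit 6) (nat_lit 236) (nat_lit 336)) (l (nat_lit 6) (nat_lit 211) (nat_lit 286)))) (n (nat_lit 213) (b (l (nat_lit 5) (nat_lit 187) (nat_lit 188)) (l (nat_lit 5) (nat_lit 212) (nat_lit 238))))))))))) (b (b (n (nat_lit 337) (b (b (n (nat_lit 362) (b (n (nat_lit 363) (b (l (nat_lit 4) (nat_lit 262) (nat_lit 338)) (l (nat_lit 4) (nat_lit 287) (nat_lit 388)))) (n (nat_lit 286) (b (n (nat_lit 311) (b (n (nat_lit 237) (b (l (nat_lit 6) (nat_lit 236) (nat_lit 336)) (l (nat_lit 6) (nat_lit 211) (nat_lit 212)))) (l (nat_lit 7) (nat_lit 286) (nat_lit 387)))) (l (nat_lit 7) (nat_lit 261) (nat_lit 261)))))) (r (nat_lit 8))) (n (nat_lit 362) (b (n (nat_lit 363) (b (l (nat_lit 4) (nat_lit 262) (nat_lit 338)) (l (nat_lit 4) (nat_lit 287) (nat_lit 388)))) (n (nat_lit 263) (b (l (nat_lit 5) (nat_lit 237) (nat_lit 238)) (l (nat_lit 5) (nat_lit 262) (nat_lit 288)))))))) (n (nat_lit 337) (b (b (r (nat_lit 3)) (n (nat_lit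 362) (b (n (nat_lit 261) (b (l (nat_lit 7) (nat_lit 261) (nat_lit 286)) (l (nat_lit 7) (nat_lit 236) (nat_lit 236)))) (n (nat_lit 363) (b (l (nat_lit 4) (nat_lit 262) (nat_lit 338)) (l (nat_lit 4) (nat_lit 287) (nat_lit 388))))))) (n (nat_lit 362) (b (n (nat_lit 363) (b (l (nat_lit 4) (nat_lit 262) (nat_lit 338)) (l (nat_lit 4) (nat_lit 287) (nat_lit 388)))) (n (nat_lit 263) (b (l (nat_lit 5) (nat_lit 237) (nat_lit 238)) (l (nat_lit 5) (nat_lit 262) (nat_lit 288))))))))) (r (nat_lit 9)))))) (b (n (nat_lit 337) (b (b (b (r (nat_lit 10)) (n (nat_lit 362) (b (b (n (nat_lit 286) (b (n (nat_lit 288) (b (n (nat_lit 311) (b (n (nat_lit 310) (b (l (nat_lit 1) (nat_lit 284) (nat_lit 309)) (l (nat_lit 2) (nat_lit 285) (nat_lit 289)))) (l (nat_lit 7) (nat_lit 286) (nat_lit 387)))) (l (nat_lit 5) (nat_lit 262) (nat_lit 263)))) (l (nat_lit 7) (nat_lit 261) (nat_lit 261)))) (n (nat_lit 387) (b (n (nat_lit 388) (b (l (nat_lit 4) (nat_lit 312) (nat_lit 413)) (l (nat_lit 4) (nat_lit 287) (nat_lit 363))))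 (n (nat_lit 386) (b (l (nat_lit 6) (nat_lit 311) (nat_lit 411)) (l (nat_lit 6) (nat_lit 286) (nat_lit 361))))))) (n (nat_lit 361) (b (n (nat_lit 286) (b (n (nat_lit 363) (b (n (nat_lit 311) (b (n (nat_lit 288) (b (n (nat_lit 310) (b (l (nat_lit 1) (nat_lit 284) (nat_lit 309)) (l (nat_lit 2) (nat_lit 285) (nat_lit 289)))) (l (nat_lit 5) (nat_lit 262) (nat_lit 263)))) (n (nat_lit 360) (b (n (nat_lit 338) (b (l (nat_lit 1) (nat_lit 334) (nat_lit 359)) (l (nat_lit 1) (nat_lit 335) (nat_lit 339)))) (n (nat_lit 385) (b (l (nat_lit 6) (nat_lit 285) (nat_lit 336)) (l (nat_lit 2) (nat_lit 359) (nat_lit 384)))))))) (l (nat_lit 4) (nat_lit 287) (nat_lit 388)))) (l (nat_lit 7) (nat_lit 261) (nat_lit 261)))) (l (nat_lit 6) (nat_lit 286) (nat_lit 386))))))) (b (n (nat_lit 362) (b (b (n (nat_lit 361) (b (r (nat_lit 2)) (l (nat_lit 6) (nat_lit 286) (nat_lit 386)))) (n (nat_lit 262) (b (n (nat_lit 261) (b (l (nat_lit 7) (nat_lit 261) (nat_lit 286)) (l (nat_lit 7) (nat_lit 236) (nat_lit 236)))) (n (nat_lit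 361) (b (l (nat_lit 6) (nat_lit 286) (nat_lit 386)) (l (nat_lit 6) (nat_lit 261) (nat_lit 336))))))) (n (nat_lit 262) (b (n (nat_lit 261) (b (l (nat_lit 7) (nat_lit 261) (nat_lit 286)) (l (nat_lit 7) (nat_lit 236) (nat_lit 236)))) (n (nat_lit 363) (b (l (nat_lit 4) (nat_lit 262) (nat_lit 338)) (l (nat_lit 4) (nat_lit 287) (nat_lit 388)))))))) (n (nat_lit 362) (b (b (n (nat_lit 387) (b (n (nat_lit 286) (b (l (nat_lit 7) (nat_lit 261) (nat_lit 261)) (l (nat_lit 7) (nat_lit 286) (nat_lit 311)))) (n (nat_lit 388) (b (l (nat_lit 4) (nat_lit 312) (nat_lit 413)) (l (nat_lit 4) (nat_lit 287) (nat_lit 363)))))) (n (nat_lit 262) (b (n (nat_lit 263) (b (l (nat_lit 5) (nat_lit 237) (nat_lit 238)) (l (nat_lit 5) (nat_lit 262) (nat_lit 288)))) (n (nat_lit 363) (b (l (nat_lit 4) (nat_lit 262) (nat_lit 338)) (l (nat_lit 4) (nat_lit 287) (nat_lit 388))))))) (n (nat_lit 262) (b (n (nat_lit 261) (b (l (nat_lit 7) (nat_lit 261) (nat_lit 286)) (l (nat_lit 7) (nat_lit 236) (nat_lit 236)))) (n (nat_lit 263) (b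 (l (nat_lit 5) (nat_lit 237) (nat_lit 238)) (l (nat_lit 5) (nat_lit 262) (nat_lit 288)))))))))) (b (n (nat_lit 362) (b (b (n (nat_lit 387) (b (n (nat_lit 286) (b (l (nat_lit 7) (nat_lit 261) (nat_lit 261)) (l (nat_lit 7) (nat_lit 286) (nat_lit 311)))) (n (nat_lit 386) (b (l (nat_lit 6) (nat_lit 311) (nat_lit 411)) (l (nat_lit 6) (nat_lit 286) (nat_lit 361)))))) (n (nat_lit 262) (b (n (nat_lit 263) (b (l (nat_lit 5) (nat_lit 237) (nat_lit 238)) (l (nat_lit 5) (nat_lit 262) (nat_lit 288)))) (n (nat_lit 361) (b (l (nat_lit 6) (nat_lit 286) (nat_lit 386)) (l (nat_lit 6) (nat_lit 261) (nat_lit 336))))))) (n (nat_lit 262) (b (n (nat_lit 261) (b (l (nat_lit 7) (nat_lit 261) (nat_lit 286)) (l (nat_lit 7) (nat_lit 236) (nat_lit 236)))) (n (nat_lit 263) (b (l (nat_lit 5) (nat_lit 237) (nat_lit 238)) (l (nat_lit 5) (nat_lit 262) (nat_lit 288)))))))) (n (nat_lit 262) (b (b (n (nat_lit 261) (b (n (nat_lit 263) (b (n (nat_lit 264) (b (b (n (nat_lit 265) (b (n (nat_lit 240) (b (l (nat_lit 1) (nat_lit 236)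 (nat_lit 239)) (l (nat_lit 1) (nat_lit 237) (nat_lit 241)))) (n (nat_lit 290) (b (l (nat_lit 0) (nat_lit 262) (nat_lit 291)) (l (nat_lit 0) (nat_lit 261) (nat_lit 289)))))) (n (nat_lit 286) (b (l (nat_lit 2) (nat_lit 260) (nat_lit 285)) (l (nat_lit 2) (nat_lit 261) (nat_lit 265))))) (n (nat_lit 260) (b (n (nat_lit 285) (b (l (nat_lit 2) (nat_lit 259) (nat_lit 284)) (l (nat_lit 2) (nat_lit 260) (nat_lit 286)))) (n (nat_lit 288) (b (l (nat_lit 0) (nat_lit 260) (nat_lit 289)) (l (nat_lit 0) (nat_lit 259) (nat_lit 259)))))))) (l (nat_lit 5) (nat_lit 237) (nat_lit 238)))) (l (nat_lit 7) (nat_lit 236) (nat_lit 236)))) (r (nat_lit 11))) (b (n (nat_lit 336) (b (n (nat_lit 263) (b (n (nat_lit 338) (b (n (nat_lit 339) (b (n (nat_lit 311) (b (l (nat_lit 3) (nat_lit 311) (nat_lit 340)) (l (nat_lit 3) (nat_lit 310) (nat_lit 310)))) (n (nat_lit 314) (b (n (nat_lit 364) (b (n (nat_lit 289) (b (n (nat_lit 265) (b (n (nat_lit 264) (b (l (nat_lit 2) (nat_lit 261) (nat_lit 286)) (l (nat_lit 5) (nat_lit 239)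 (nat_lit 240)))) (l (nat_lit 5) (nat_lit 264) (nat_lit 290)))) (l (nat_lit 7) (nat_lit 263) (nat_lit 288)))) (l (nat_lit 0) (nat_lit 336) (nat_lit 365)))) (l (nat_lit 1) (nat_lit 311) (nat_lit 315)))))) (l (nat_lit 4) (nat_lit 262) (nat_lit 363)))) (l (nat_lit 5) (nat_lit 237) (nat_lit 238)))) (l (nat_lit 6) (nat_lit 261) (nat_lit 361)))) (r (nat_lit 12)))))))) (n (nat_lit 262) (b (b (b (r (nat_lit 9)) (r (nat_lit 4))) (b (r (nat_lit 5)) (r (nat_lit 6)))) (b (n (nat_lit 337) (b (b (r (nat_lit 3)) (n (nat_lit 362) (b (n (nat_lit 261) (b (l (nat_lit 7) (nat_lit 261) (nat_lit 286)) (l (nat_lit 7) (nat_lit 236) (nat_lit 236)))) (n (nat_lit 361) (b (l (nat_lit 6) (nat_lit 286) (nat_lit 386)) (l (nat_lit 6) (nat_lit 261) (nat_lit 336))))))) (n (nat_lit 362) (b (n (nat_lit 263) (b (l (nat_lit 5) (nat_lit 237) (nat_lit 238)) (l (nat_lit 5) (nat_lit 262) (nat_lit 288)))) (n (nat_lit 361) (b (l (nat_lit 6) (nat_lit 286) (nat_lit 386)) (l (nat_lit 6) (nat_lit 261) (nat_lit 336)))))))) (r (nat_lit 13)))))))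 (b (b (n (nat_lit 337) (b (b (b (r (nat_lit 14)) (r (nat_lit 10))) (b (n (nat_lit 362) (b (b (n (nat_lit 361) (b (r (nat_lit 2)) (l (nat_lit 6) (nat_lit 286) (nat_lit 386)))) (n (nat_lit 262) (b (n (nat_lit 261) (b (l (nat_lit 7) (nat_lit 261) (nat_lit 286)) (l (nat_lit 7) (nat_lit 236) (nat_lit 236)))) (n (nat_lit 361) (b (l (nat_lit 6) (nat_lit 286) (nat_lit 386)) (l (nat_lit 6) (nat_lit 261) (nat_lit 336))))))) (n (nat_lit 262) (b (n (nat_lit 261) (b (l (nat_lit 7) (nat_lit 261) (nat_lit 286)) (l (nat_lit 7) (nat_lit 236) (nat_lit 236)))) (n (nat_lit 363) (b (l (nat_lit 4) (nat_lit 262) (nat_lit 338)) (l (nat_lit 4) (nat_lit 287) (nat_lit 388)))))))) (n (nat_lit 362) (b (b (n (nat_lit 387) (b (n (nat_lit 286) (b (l (nat_lit 7) (nat_lit 261) (nat_lit 261)) (l (nat_lit 7) (nat_lit 286) (nat_lit 311)))) (n (nat_lit 386) (b (l (nat_lit 6) (nat_lit 311) (nat_lit 411)) (l (nat_lit 6) (nat_lit 286) (nat_lit 361)))))) (n (nat_lit 387) (b (n (nat_lit 286) (b (l (nat_lit 7) (nat_lit 261) (nat_lit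 261)) (l (nat_lit 7) (nat_lit 286) (nat_lit 311)))) (n (nat_lit 388) (b (l (nat_lit 4) (nat_lit 312) (nat_lit 413)) (l (nat_lit 4) (nat_lit 287) (nat_lit 363))))))) (n (nat_lit 361) (b (r (nat_lit 2)) (l (nat_lit 6) (nat_lit 286) (nat_lit 386)))))))) (b (b (r (nat_lit 0)) (n (nat_lit 362) (b (b (n (nat_lit 387) (b (n (nat_lit 388) (b (l (nat_lit 4) (nat_lit 312) (nat_lit 413)) (l (nat_lit 4) (nat_lit 287) (nat_lit 363)))) (n (nat_lit 386) (b (l (nat_lit 6) (nat_lit 311) (nat_lit 411)) (l (nat_lit 6) (nat_lit 286) (nat_lit 361)))))) (n (nat_lit 262) (b (n (nat_lit 261) (b (l (nat_lit 7) (nat_lit 261) (nat_lit 286)) (l (nat_lit 7) (nat_lit 236) (nat_lit 236)))) (n (nat_lit 363) (b (l (nat_lit 4) (nat_lit 262) (nat_lit 338)) (l (nat_lit 4) (nat_lit 287) (nat_lit 388))))))) (n (nat_lit 387) (b (n (nat_lit 286) (b (l (nat_lit 7) (nat_lit 261) (nat_lit 261)) (l (nat_lit 7) (nat_lit 286) (nat_lit 311)))) (n (nat_lit 386) (b (l (nat_lit 6) (nat_lit 311) (nat_lit 411)) (l (nat_lit 6) (nat_lit 286)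 (nat_lit 361))))))))) (n (nat_lit 262) (b (b (r (nat_lit 11)) (n (nat_lit 336) (b (n (nat_lit 338) (b (n (nat_lit 311) (b (n (nat_lit 310) (b (l (nat_lit 0) (nat_lit 309) (nat_lit 309)) (l (nat_lit 3) (nat_lit 310) (nat_lit 339)))) (l (nat_lit 6) (nat_lit 236) (nat_lit 237)))) (l (nat_lit 4) (nat_lit 262) (nat_lit 363)))) (l (nat_lit 6) (nat_lit 261) (nat_lit 361))))) (n (nat_lit 237) (b (n (nat_lit 238) (b (l (nat_lit 5) (nat_lit 237) (nat_lit 263)) (l (nat_lit 5) (nat_lit 212) (nat_lit 213)))) (n (nat_lit 236) (b (l (nat_lit 7) (nat_lit 211) (nat_lit 211)) (l (nat_lit 7) (nat_lit 236) (nat_lit 261))))))))))) (r (nat_lit 15))) (b (n (nat_lit 262) (b (b (b (r (nat_lit 5)) (r (nat_lit 6))) (b (n (nat_lit 337) (b (b (n (nat_lit 261) (b (n (nat_lit 288) (b (b (n (nat_lit 362) (b (l (nat_lit 5) (nat_lit 262) (nat_lit 263)) (l (nat_lit 7) (nat_lit 261) (nat_lit 286)))) (n (nat_lit 289) (b (n (nat_lit 260) (b (l (nat_lit 3) (nat_lit 260) (nat_lit 286)) (l (nat_lit 0) (nat_lit 259) (nat_lit 259))))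 (l (nat_lit 3) (nat_lit 261) (nat_lit 290))))) (n (nat_lit 260) (b (n (nat_lit 263) (b (l (nat_lit 0) (nat_lit 260) (nat_lit 289)) (l (nat_lit 5) (nat_lit 262) (nat_lit 362)))) (l (nat_lit 0) (nat_lit 259) (nat_lit 259)))))) (l (nat_lit 7) (nat_lit 236) (nat_lit 236)))) (n (nat_lit 261) (b (n (nat_lit 336) (b (n (nat_lit 263) (b (n (nat_lit 311) (b (n (nat_lit 338) (b (n (nat_lit 310) (b (l (nat_lit 0) (nat_lit 309) (nat_lit 309)) (l (nat_lit 3) (nat_lit 310) (nat_lit 339)))) (l (nat_lit 4) (nat_lit 262) (nat_lit 363)))) (n (nat_lit 260) (b (n (nat_lit 288) (b (l (nat_lit 0) (nat_lit 260) (nat_lit 289)) (l (nat_lit 0) (nat_lit 259) (nat_lit 259)))) (n (nat_lit 235) (b (l (nat_lit 7) (nat_lit 235) (nat_lit 286)) (l (nat_lit 3) (nat_lit 234) (nat_lit 234)))))))) (l (nat_lit 5) (nat_lit 237) (nat_lit 238)))) (l (nat_lit 6) (nat_lit 261) (nat_lit 361)))) (l (nat_lit 7) (nat_lit 236) (nat_lit 236))))) (b (n (nat_lit 362) (b (n (nat_lit 387) (b (n (nat_lit 286) (b (l (nat_lit 7) (nat_lit 261)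 (nat_lit 261)) (l (nat_lit 7) (nat_lit 286) (nat_lit 311)))) (n (nat_lit 388) (b (l (nat_lit 4) (nat_lit 312) (nat_lit 413)) (l (nat_lit 4) (nat_lit 287) (nat_lit 363)))))) (n (nat_lit 361) (b (l (nat_lit 6) (nat_lit 286) (nat_lit 386)) (l (nat_lit 6) (nat_lit 261) (nat_lit 336)))))) (n (nat_lit 362) (b (n (nat_lit 263) (b (l (nat_lit 5) (nat_lit 237) (nat_lit 238)) (l (nat_lit 5) (nat_lit 262) (nat_lit 288)))) (n (nat_lit 361) (b (l (nat_lit 6) (nat_lit 286) (nat_lit 386)) (l (nat_lit 6) (nat_lit 261) (nat_lit 336))))))))) (n (nat_lit 337) (b (n (nat_lit 336) (b (n (nat_lit 338) (b (n (nat_lit 311) (b (n (nat_lit 310) (b (l (nat_lit 0) (nat_lit 309) (nat_lit 309)) (l (nat_lit 3) (nat_lit 310) (nat_lit 339)))) (l (nat_lit 6) (nat_lit 236) (nat_lit 237)))) (l (nat_lit 4) (nat_lit 262) (nat_lit 363)))) (l (nat_lit 6) (nat_lit 261) (nat_lit 361)))) (n (nat_lit 261) (b (n (nat_lit 288) (b (b (n (nat_lit 362) (b (l (nat_lit 5) (nat_lit 262) (nat_lit 263)) (l (nat_lit 7) (nat_lit 261) (nat_lit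 286)))) (n (nat_lit 289) (b (n (nat_lit 260) (b (l (nat_lit 3) (nat_lit 260) (nat_lit 286)) (l (nat_lit 0) (nat_lit 259) (nat_lit 259)))) (l (nat_lit 3) (nat_lit 261) (nat_lit 290))))) (n (nat_lit 260) (b (n (nat_lit 263) (b (l (nat_lit 0) (nat_lit 260) (nat_lit 289)) (l (nat_lit 5) (nat_lit 262) (nat_lit 362)))) (l (nat_lit 0) (nat_lit 259) (nat_lit 259)))))) (l (nat_lit 7) (nat_lit 236) (nat_lit 236)))))))) (b (r (nat_lit 13)) (r (nat_lit 16))))) (r (nat_lit 17))))) (b (b (b (r (nat_lit 18)) (r (nat_lit 19))) (b (r (nat_lit 20)) (r (nat_lit 21)))) (b (b (r (nat_lit 22)) (r (nat_lit 23))) (b (r (nat_lit 24)) (r (nat_lit 25)))))))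
    (envOK_cons p7409 (envOK_cons p7413 (envOK_cons p7417 (envOK_cons p7422 (envOK_cons p7513 (envOK_cons p7522 (envOK_cons p7532 (envOK_cons p7539 (envOK_cons p7548 (envOK_cons p7580 (envOK_cons p7597 (envOK_cons p7621 (envOK_cons p7640 (envOK_cons p7657 (envOK_cons p7672 (envOK_cons p7828 (envOK_cons p7848 (envOK_cons p7874 (envOK_cons p7920 (envOK_cons p8258 (envOK_cons p8414 (envOK_cons p8695 (envOK_cons p9558 (envOK_cons p10174 (envOK_cons p13476 (envOK_cons p14720 envOK_nil)))))))))))))))))))))))))) (by decide +kernel)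

end Crest.Agent.R35
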